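import Crest.Agent.R185.TreeSub
/-! Row 185: the double of a group `A` along two embeddings of `F`. -/
set_option autoImplicit false
open Set

noncomputable section
namespace Crest.Agent.R185

theorem coarse_freeGroup {J : Type} [Finite J] : Coarse (FreeGroup J) := by
  refine coarse_free.of_retract (FreeGroup.lift (MH.t (HData.free PUnit J)))
    (MH.liftF 1 FreeGroup.of) fun x => ?_
  have : (MH.liftF (B := PUnit) 1 FreeGroup.of).comp
      (FreeGroup.lift (MH.t (HData.free PUnit J))) = MonoidHom.id _ := by
    ext a
    simp
  exact DFunLike.congr_fun this x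

variable {F A : Type} [Group F] [Group A] (i : Bool → F →* A)

/-- The amalgam `A *_F A`. -/
def Amal : Type := Monoid.Coprod A A ⧸ Subgroup.normalClosure
  (range fun w : F => Monoid.Coprod.inl (i false w) * (Monoid.Coprod.inr (i true w))⁻¹)

namespace Amal

instance : Group (Amal i) := QuotientGroup.Quotient.group _

def j (b : Bool) : A →* Amal i :=
  (QuotientGroup.mk' _).comp (cond b Monoid.Coprod.inr Monoid.Coprod.inl)

theorem rel (w : F) : j i false (i false w) = j i true (i true w) := by
  rw [← mul_inv_eq_one]
  exact (QuotientGroup.eq_one_iff _).2 (Subgroup.subset_normalClosure ⟨w, rfl⟩)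

theorem closure_eq_top : Subgroup.closure (range (j i false) ∪ range (j i true)) = ⊤ := by
  set K := Subgroup.closure (range (j i false) ∪ range (j i true))
  rw [eq_top_iff]
  rintro x -
  obtain ⟨y, rfl⟩ := QuotientGroup.mk'_surjective _ x
  induction y using Monoid.Coprod.induction_on with
  | inl b => exact Subgroup.subset_closure (Or.inl ⟨b, rfl⟩)
  | inr b => exact Subgroup.subset_closure (Or.inr ⟨b, rfl⟩)
  | mul a b ha hb => rw [map_mul]; exact mul_mem ha hb

theorem isFinitelyPresented [Group.IsFinitelyPresented A] [Group.FG F] :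
    Group.IsFinitelyPresented (Amal i) := by
  obtain ⟨s, hs, hfin⟩ := (Group.fg_iff (G := F)).1 inferInstance
  let r : F → Monoid.Coprod A A := fun w =>
    Monoid.Coprod.inl (i false w) * (Monoid.Coprod.inr (i true w))⁻¹
  refine Group.IsFinitelyPresented.quotient (Subgroup.normalClosure (range r))
    ⟨r '' s, hfin.image _, le_antisymm (Subgroup.normalClosure_mono (image_subset_range _ _)) ?_⟩
  refine Subgroup.normalClosure_le_normal ?_
  rintro _ ⟨d, rfl⟩
  set N := Subgroup.normalClosure (r '' s)
  change r d ∈ N
  have hd : d ∈ Subgroup.closure s := by rw [hs]; trivial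
  induction hd using Subgroup.closure_induction with
  | mem x hx => exact Subgroup.subset_normalClosure ⟨x, hx, rfl⟩
  | one => simp only [r, map_one, mul_inv_cancel]; exact one_mem _
  | mul x y _ _ hx hy =>
    have : r (x * y) = Monoid.Coprod.inl (i false x) * r y *
        (Monoid.Coprod.inl (i false x))⁻¹ * r x := by
      simp only [r, map_mul]; group
    rw [this]
    exact mul_mem (Subgroup.Normal.conj_mem inferInstance _ hy _) hx
  | inv x _ hx =>
    have : r x⁻¹ = (Monoid.Coprod.inl (i false x))⁻¹ * (r x)⁻¹ *
        ((Monoid.Coprod.inl (i false x))⁻¹)⁻¹ := by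
      simp only [r, map_inv]; group
    rw [this]
    exact Subgroup.Normal.conj_mem inferInstance _ (inv_mem hx) _

variable {i} in
/-- Universal property. -/
def lift {T : Type*} [Group T] (f : Bool → A →* T)
    (h : ∀ w, f false (i false w) = f true (i true w)) : Amal i →* T :=
  QuotientGroup.lift _ (Monoid.Coprod.lift (f false) (f true))
    (Subgroup.normalClosure_le_normal (N := MonoidHom.ker _) (by
      rintro _ ⟨w, rfl⟩
      simp [h w]))

@[simp] theorem lift_j {T : Type*} [Group T] (f : Bool → A →* T) (h) (b : Bool) (a : A) :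
    lift (i := i) f h (j i b a) = f b a := by
  cases b <;> rfl

variable {i} in
theorem hom_ext {T : Type*} [Group T] {f g : Amal i →* T} (h : ∀ b a, f (j i b a) = g (j i b a)) :
    f = g := by
  refine QuotientGroup.monoidHom_ext _ (Monoid.Coprod.hom_ext ?_ ?_)
  · ext a; exact h false a
  · ext a; exact h true a

/-- The HNN extension containing the amalgam. -/
def hd (hi : ∀ b, Function.Injective (i b)) : HData A Unit where
  D _ := F
  i _ b := i b
  ker_eq _ := by
    rw [(MonoidHom.ker_eq_bot_iff _).2 (hi false), (MonoidHom.ker_eq_bot_iff _).2 (hi true)]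

/-- The two-state sub-graph of groups. -/
def sub (hi : ∀ b, Function.Injective (i b)) : Sub (MH.split (hd i hi)).toPreSplit Bool Bool where
  H _ := ⊤
  src e := e
  bar e := !e
  bar_bar := Bool.not_not
  e b := ((), b)
  e_bar _ := rfl
  l _ := 1
  good _ _ _ _ := trivial
  sep _ _ h _ _ _ _ := h

/-- The path of an element of one of the factors. -/
def pth (b : Bool) (a : A) : A × List (Bool × A) := cond b (1, [(false, a), (true, 1)]) (a, [])

theorem pth_pth (hi : ∀ b, Function.Injective (i b)) (b : Bool) (a : A) :
    (sub i hi).Pth false (pth b a).1 (pth b a).2 false := by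
  cases b
  · exact ⟨trivial, rfl⟩
  · exact ⟨trivial, rfl, trivial, rfl, trivial, rfl⟩

theorem pth_ev (hi : ∀ b, Function.Injective (i b)) (b : Bool) (a : A) :
    (sub i hi).ev (pth b a).1 (pth b a).2 =
      MulAut.conj (cond b (MH.t (hd i hi) ()) 1) (MH.of (hd i hi) a) := by
  cases b <;> simp [pth, Sub.ev, Sub.t, sub, mul_assoc]

/-- The factors inside the group of closed paths. -/
def fac (hi : ∀ b, Function.Injective (i b)) (b : Bool) : A →* (sub i hi).K false :=
  ((MulAut.conj (cond b (MH.t (hd i hi) ()) 1)).toMonoidHom.comp (MH.of (hd i hi))).codRestrict _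
    fun a => ⟨_, _, pth_pth i hi b a, pth_ev i hi b a⟩

theorem fac_rel (hi : ∀ b, Function.Injective (i b)) (w : F) :
    fac i hi false (i false w) = fac i hi true (i true w) := by
  refine Subtype.ext ?_
  have : MH.of _ (i false w) * _ = _ * MH.of _ (i true w) := MH.rel (hd i hi) () w
  rw [← eq_mul_inv_iff_mul_eq] at this
  simpa [fac] using this

theorem j_injective (hi : ∀ b, Function.Injective (i b)) (b : Bool) :
    Function.Injective (j i b) := by
  intro x y h
  have h1 := congrArg (fun z => (lift (fac i hi) (fac_rel i hi) z : MH (hd i hi))) h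
  simp only [lift_j] at h1
  exact MH.of_injective _ ((MulAut.conj _).injective h1)

theorem coarse (hi : ∀ b, Function.Injective (i b)) (hA : Coarse A) (hF : Coarse F) :
    Coarse (Amal i) := by
  obtain ⟨ψ, hψ⟩ := (sub i hi).exists_lift (fun b a => j i b a) (fun _ => 1)
    (fun _ _ _ _ _ => map_mul _ _ _) (fun _ => inv_one.symm) (by
      rintro b _ ⟨w, rfl⟩ -
      have := MH.split_φ (hd i hi) () b w
      simp only [sub, one_mul, inv_one, mul_one] at this ⊢
      rw [this]
      cases b
      exacts [rel i w, (rel i w).symm]) false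
  have h1 : Coarse ((sub i hi).K false) := by
    refine (sub i hi).coarse false (fun b => cond b (MH.t (hd i hi) ()) 1) (fun b => ?_)
      (fun b => hA.of_equiv Subgroup.topEquiv.symm) fun b => ?_
    · cases b
      · exact one_mem ((sub i hi).K false)
      · simpa [Sub.t, sub] using (sub i hi).t_mem_Mor false
    · refine hF.of_equiv ((MonoidHom.ofInjective (hi b)).trans (MulEquiv.subgroupCongr ?_))
      ext a
      rw [Sub.mem_EH]
      simp [sub, hd]
  refine h1.of_retract (lift (fac i hi) (fac_rel i hi)) ψ fun x => ?_
  have : ψ.comp (lift (fac i hi) (fac_rel i hi)) = MonoidHom.id _ := by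
    refine hom_ext fun b a => ?_
    have h2 : fac i hi b a = ⟨_, _, _, pth_pth i hi b a, rfl⟩ := Subtype.ext (pth_ev i hi b a).symm
    rw [MonoidHom.comp_apply, lift_j, h2, hψ _ _ (pth_pth i hi b a)]
    cases b <;> simp [pth, Sub.gev, sub]
  exact DFunLike.congr_fun this x

end Amal
end Crest.Agent.R185
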