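import Crest.Agent.R185.Rule
/-! Row 185: long code words in the free group of rank two. -/
set_option autoImplicit false
open Set

namespace Crest.Agent.R185

/-- Word length in `Fr`. -/
def FFr : Filt Fr := Filt.wl (FreeGroup.of : Bool → Fr)

/-- Decoding shrinks lengths by the factor `M`. -/
def Shrink {C : Type} (β : C → Fr) (M : ℕ) : Prop :=
  ∀ f n, FFr.le (FreeGroup.lift β f) n → (Filt.wl (FreeGroup.of : C → FreeGroup C)).le f (n / M)

theorem beta_wl {X : Type} [DecidableEq X] {x : FreeGroup X} {n : ℕ} :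
    (Filt.wl (FreeGroup.of : X → FreeGroup X)).le x n ↔ x.norm ≤ n := by
  constructor
  · rintro ⟨w, hw, rfl⟩
    rw [FreeGroup.lift_of_apply]
    exact FreeGroup.norm_mk_le.trans hw
  · exact fun h => ⟨x.toWord, h, by rw [FreeGroup.lift_of_apply, FreeGroup.mk_toWord]⟩

theorem beta_norm_map {X Y : Type} [DecidableEq X] [DecidableEq Y] (f : X → Y) (x : FreeGroup X) :
    (FreeGroup.map f x).norm ≤ x.norm := by
  conv_lhs => rw [← FreeGroup.mk_toWord (x := x), FreeGroup.map.mk]
  exact FreeGroup.norm_mk_le.trans (List.length_map _).le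

theorem beta_red {X Y : Type} {j : X → Y} (hj : Function.Injective j) (M : ℕ)
    {L : List (X × Bool)} (hL : FreeGroup.IsReduced L) :
    FreeGroup.IsReduced (L.flatMap fun p => List.replicate (M + 1) (j p.1, p.2)) := by
  induction L with
  | nil => exact FreeGroup.IsReduced.nil
  | cons p L ih =>
    rw [List.flatMap_cons]
    refine List.isChain_append.2 ⟨List.isChain_replicate_of_rel _ fun _ => rfl,
      ih (List.IsChain.tail hL), fun x hx y hy => ?_⟩
    obtain rfl := List.eq_of_mem_replicate (List.mem_of_mem_getLast? hx)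
    rcases L with _ | ⟨q, L⟩
    · simp at hy
    · obtain rfl : (j q.1, q.2) = y := by simpa [List.replicate_succ] using hy
      exact fun h => (FreeGroup.isReduced_cons_cons.1 hL).1 (hj h)

theorem beta_lift {X Y : Type} (j : X → Y) (M : ℕ) (L : List (X × Bool)) :
    FreeGroup.lift (fun i => FreeGroup.of (j i) ^ M) (FreeGroup.mk L) =
      FreeGroup.mk (L.flatMap fun p => List.replicate M (j p.1, p.2)) := by
  induction L with
  | nil => exact map_one _
  | cons p L ih =>
    have e : FreeGroup.mk (List.replicate M (j p.1, p.2)) = FreeGroup.mk [(j p.1, p.2)] ^ M := by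
      rw [FreeGroup.pow_mk, List.flatten_replicate_singleton]
    rw [List.flatMap_cons, ← FreeGroup.mul_mk, ← ih, e, FreeGroup.lift_mk, FreeGroup.lift_mk,
      List.map_cons, List.prod_cons]
    congr 1
    obtain ⟨i, _ | _⟩ := p
    · exact (inv_pow _ _).symm
    · rfl

theorem beta_norm {X Y : Type} [DecidableEq X] [DecidableEq Y] {j : X → Y}
    (hj : Function.Injective j) (M : ℕ) (f : FreeGroup X) :
    (FreeGroup.lift (fun i => FreeGroup.of (j i) ^ (M + 1)) f).norm = f.norm * (M + 1) := by
  conv_lhs => rw [← FreeGroup.mk_toWord (x := f), beta_lift, FreeGroup.norm, FreeGroup.toWord_mk,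
    (beta_red hj M FreeGroup.isReduced_toWord).reduce_eq]
  simp [List.length_flatMap, FreeGroup.norm]

/-- The shift action. -/
def betaAct (G : Type) [Group G] : G →* MulAut (FreeGroup G) where
  toFun μ := FreeGroup.freeGroupCongr (Equiv.mulLeft μ)
  map_one' := by rw [Equiv.mulLeft_one]; exact FreeGroup.freeGroupCongr_refl
  map_mul' μ ν := by
    ext x
    simp [FreeGroup.map.comp, Function.comp_def, mul_assoc]

/-- `Fr` as a split extension. -/
def betaPi : Fr →* FreeGroup (Multiplicative ℤ) ⋊[betaAct _] Multiplicative ℤ :=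
  FreeGroup.lift fun b => cond b (SemidirectProduct.inr (Multiplicative.ofAdd 1))
    (SemidirectProduct.inl (FreeGroup.of 1))

theorem beta_pi_norm (w : List (Bool × Bool)) :
    (betaPi (FreeGroup.mk w)).left.norm ≤ w.length := by
  induction w with
  | nil => rw [← FreeGroup.one_eq_mk, map_one]; exact FreeGroup.norm_one.le
  | cons p w ih =>
    rw [← List.singleton_append, ← FreeGroup.mul_mk, map_mul, SemidirectProduct.mul_left,
      List.length_append]
    refine (FreeGroup.norm_mul_le _ _).trans (add_le_add ?_ ((beta_norm_map _ _).trans ih))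
    rw [betaPi, FreeGroup.lift_mk]
    rcases p with ⟨_ | _, _ | _⟩ <;> simp [← map_inv]

theorem exists_beta (C : Type) [Finite C] {M : ℕ} (hM : 0 < M) :
    ∃ β : C → Fr, Function.Injective (FreeGroup.lift β) ∧ Shrink β M := by
  classical
  obtain ⟨idx, hidx⟩ := Countable.exists_injective_nat C
  obtain ⟨M, rfl⟩ := Nat.exists_eq_succ_of_ne_zero hM.ne'
  let β : C → Fr := fun i =>
    FreeGroup.of true ^ idx i * FreeGroup.of false ^ (M + 1) * (FreeGroup.of true ^ idx i)⁻¹
  let j : C → Multiplicative ℤ := fun i => Multiplicative.ofAdd 1 ^ idx i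
  have hj : Function.Injective j := fun a b h => hidx (by
    simpa [j] using congrArg Multiplicative.toAdd h)
  have e : betaPi.comp (FreeGroup.lift β) = SemidirectProduct.inl.comp
      (FreeGroup.lift fun i => FreeGroup.of (j i) ^ (M + 1)) := by
    refine FreeGroup.ext_hom _ _ fun i => ?_
    have e1 : FreeGroup.of (j i) = betaAct _ (j i) (FreeGroup.of 1) := by simp [betaAct]
    rw [MonoidHom.comp_apply, MonoidHom.comp_apply, FreeGroup.lift_apply_of,
      FreeGroup.lift_apply_of, e1, ← map_pow, SemidirectProduct.inl_aut]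
    simp only [β, j, betaPi, map_mul, map_inv, map_pow, FreeGroup.lift_apply_of, cond_true,
      cond_false]
  have hS : Shrink β (M + 1) := by
    rintro f n ⟨w, hw, e1⟩
    rw [FreeGroup.lift_of_apply] at e1
    have h1 := (beta_pi_norm w).trans hw
    have e2 : betaPi (FreeGroup.lift β f) = _ := DFunLike.congr_fun e f
    rw [e1, e2, MonoidHom.comp_apply, SemidirectProduct.left_inl, beta_norm hj] at h1
    exact beta_wl.2 ((Nat.le_div_iff_mul_le M.succ_pos).2 h1)
  refine ⟨β, (injective_iff_map_eq_one _).2 fun f hf => ?_, hS⟩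
  have := beta_wl.1 (hS f 0 (hf ▸ FFr.one))
  rwa [Nat.zero_div, Nat.le_zero, FreeGroup.norm_eq_zero] at this

theorem trk_beta {K : Ctx} {C : Type} [Finite C] [Primcodable C] (β : C → Fr) :
    Trk (K := K) fun _ (a : C) => β a := by
  refine Trk.fin_cases (g := fun a _ (_ : C) => β a) (fun a => ?_) Trk.id
  obtain ⟨w, hw⟩ := regrp_mk_surj _ (β a)
  rw [← hw]
  exact Trk.mk (L := fun _ => Bool) (Trk.const w)

/-- Non-membership in the code subgroup is r.e. -/
theorem Shrink.ure_notMem {K : Ctx} {C : Type} [Finite C] [Primcodable C] {β : C → Fr} {M : ℕ}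
    (h : Shrink β M) : URE (K := K) fun _ (w : Fr) => w ∉ (FreeGroup.lift β).range := by
  have h1 : URE (K := K) fun _ (p : Fr × List (Bool × Bool)) =>
      ∀ f : List (C × Bool), f.length ≤ p.2.length → FreeGroup.lift β (FreeGroup.mk f) ≠ p.1 :=
    Cert.forall_words (P := fun _ (p : Fr × List (Bool × Bool)) (f : List (C × Bool)) _ =>
      FreeGroup.lift β (FreeGroup.mk f) ≠ p.1) (fun a => TrkC.const a)
      (Trk.length (Trk.snd Trk.id))
      (Cert.ne (Trk.lift (trk_beta β) (Trk.mk (L := fun _ => C) (Trk.snd Trk.id)))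
        (Trk.fst (Trk.fst Trk.id)))
  refine URE.of_iff (Cert.exists (P := fun _ (w : Fr) (u : List (Bool × Bool)) _ =>
    FreeGroup.mk u = w ∧
      ∀ f : List (C × Bool), f.length ≤ u.length → FreeGroup.lift β (FreeGroup.mk f) ≠ w)
    (Cert.and (Cert.eq (Trk.mk (L := fun _ => Bool) (Trk.snd Trk.id)) (Trk.fst Trk.id)) h1))
    fun _ w => ⟨?_, fun hw => ?_⟩
  · rintro ⟨u, hu, h2⟩ ⟨g, rfl⟩
    obtain ⟨f, hf, rfl⟩ := h g u.length ⟨u, le_rfl, by rw [FreeGroup.lift_of_apply, hu]⟩
    exact h2 f (hf.trans (Nat.div_le_self _ _)) (by rw [FreeGroup.lift_of_apply])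
  · obtain ⟨u, hu⟩ := regrp_mk_surj _ w
    exact ⟨u, hu, fun f _ e => hw ⟨_, e⟩⟩

end Crest.Agent.R185
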