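import Crest.Agent.R185.BrLocal
/-! Row 185 bridge: cellular approximation (pushing a low dimensional map off the top cells). -/
set_option autoImplicit false
open Set Filter Topology Metric
open scoped Pointwise

namespace Crest.Agent.R185.Br
variable {G : Type} [Group G] {D : Data G}

/-- A continuous map from a compact subset of `ℝ^k` to `ℝ^n`, `k < n`, can be perturbed, only where
it is small, so that it misses `0`. -/
theorem exists_miss {k n : ℕ} (hkn : k < n) {C : Set (Fin k → ℝ)} (hC : IsCompact C)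
    {ψ : (Fin k → ℝ) → (Fin n → ℝ)} (hψ : ContinuousOn ψ C) {ε : ℝ} (hε : 0 < ε) :
    ∃ ψ' : (Fin k → ℝ) → (Fin n → ℝ), ContinuousOn ψ' C ∧ (∀ x ∈ C, ψ' x ≠ 0) ∧
      (∀ x ∈ C, ε ≤ ‖ψ x‖ → ψ' x = ψ x) ∧ ∀ x ∈ C, ‖ψ' x - ψ x‖ ≤ ε := by
  obtain ⟨Ψ, hΨ⟩ := ContinuousMap.exists_restrict_eq hC.isClosed
    (⟨C.domRestrict ψ, continuousOn_iff_continuous_domRestrict.1 hψ⟩ : C(C, Fin n → ℝ))
  have hΨ' : ∀ x ∈ C, Ψ x = ψ x := fun x hx => DFunLike.congr_fun hΨ ⟨x, hx⟩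
  obtain ⟨p, hp, hpΨ, -⟩ := Ψ.continuous.exists_contDiff_approx 1 (ε := fun _ => ε / 10)
    continuous_const (fun _ => by positivity)
  have hd := ContDiff.dense_compl_range_of_finrank_lt_finrank (by exact_mod_cast hp)
    (by simpa using hkn)
  obtain ⟨v, hv, hv'⟩ := hd.exists_mem_open (isOpen_ball (x := 0) (ε := ε / 10))
    ⟨0, mem_ball_self (by positivity)⟩
  rw [mem_ball_zero_iff] at hv'
  have hq : ∀ x ∈ C, ‖p x - v - ψ x‖ ≤ ε / 5 := by
    intro x hx
    have h1 := hpΨ x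
    rw [dist_eq_norm, hΨ' x hx] at h1
    calc ‖p x - v - ψ x‖ = ‖(p x - ψ x) - v‖ := by congr 1; abel
      _ ≤ ‖p x - ψ x‖ + ‖v‖ := norm_sub_le _ _
      _ ≤ ε / 5 := by linarith
  set l : ℝ → ℝ := fun t => max 0 (min 1 (2 - 2 * t / ε)) with hl
  have hlc : Continuous l := by rw [hl]; fun_prop
  have hl0 : ∀ t, 0 ≤ l t := fun t => le_max_left _ _
  have hl1 : ∀ t, l t ≤ 1 := fun t => max_le zero_le_one (min_le_left _ _)
  have hb : ∀ x ∈ C, ‖l ‖ψ x‖ • (p x - v - ψ x)‖ ≤ ε / 5 := by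
    intro x hx
    rw [norm_smul, Real.norm_of_nonneg (hl0 _)]
    exact (mul_le_of_le_one_left (norm_nonneg _) (hl1 _)).trans (hq x hx)
  refine ⟨fun x => ψ x + l ‖ψ x‖ • (p x - v - ψ x), ?_, fun x hx h0 => ?_, fun x hx h => ?_,
    fun x hx => ?_⟩
  · exact hψ.add ((hlc.comp_continuousOn hψ.norm).smul
      ((hp.continuous.continuousOn.sub continuousOn_const).sub hψ))
  · beta_reduce at h0
    rcases le_or_gt ‖ψ x‖ (ε / 2) with h | h
    · have h1 : l ‖ψ x‖ = 1 := by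
        have : 2 * ‖ψ x‖ / ε ≤ 1 := by rw [div_le_one hε]; linarith
        simp only [hl]
        rw [min_eq_left (by linarith), max_eq_right zero_le_one]
      rw [h1, one_smul, add_sub_cancel, sub_eq_zero] at h0
      exact hv ⟨x, h0⟩
    · have h1 := hb x hx
      rw [← neg_eq_iff_add_eq_zero.2 h0, norm_neg] at h1
      linarith
  · have h1 : l ‖ψ x‖ = 0 := by
      have : 2 ≤ 2 * ‖ψ x‖ / ε := by rw [le_div_iff₀ hε]; linarith
      simp only [hl]
      exact max_eq_left ((min_le_right _ _).trans (by linarith))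
    simp only [h1, zero_smul, add_zero]
  · simp only [add_sub_cancel_left]
    linarith [hb x hx]

namespace CA

/-- The coordinate of a point, read in dimension `n`. -/
def Y (n : ℕ) (p : Pt G) : Fin n → ℝ := fun i => if h : (i : ℕ) < p.n then p.y ⟨i, h⟩ else 0

omit [Group G] in
@[simp] theorem Y_mk (n : ℕ) (g : G) (j : ℕ) (y : Fin n → ℝ) : Y n (⟨n, g, j, y⟩ : Pt G) = y := by
  funext i; simp [Y]

open Classical in
/-- The radial retraction. -/
noncomputable def ret (D : Data G) (n : ℕ) (p : Pt G) : Pt G :=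
  if p.n = n then p.g • D.att n p.j (‖Y n p‖⁻¹ • Y n p) else p

theorem chi_low {n : ℕ} (hD : Valid D ((n + 1 : ℕ) : ℕ∞)) {m : ℕ} (hm : m < n) (g : G) {j : ℕ}
    (hj : j < D.N m) {y : Fin m → ℝ} (hy : y ∈ closedBall (0 : Fin m → ℝ) 1) :
    (chi D m g j y).n ≠ n := by
  have := ((cont_chi (n := (n : ℕ∞)) (hD.mono (by exact_mod_cast Nat.le_succ n))
    (by exact_mod_cast hm) g hj).2 hy).1
  have : (chi D m g j y).n < n := by exact_mod_cast this
  exact this.ne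

theorem chi_bd {n : ℕ} (hD : Valid D ((n + 1 : ℕ) : ℕ∞)) (g : G) {j : ℕ}
    (hj : j < D.N n) {y : Fin n → ℝ} (hy : y ∈ closedBall (0 : Fin n → ℝ) 1) (h : ¬ ‖y‖ < 1) :
    (chi D n g j y).n ≠ n := by
  rw [chi_of_not_lt _ _ h, smul_n]
  have h1 : y ∈ sphere (0 : Fin n → ℝ) 1 := by
    rw [mem_sphere_zero_iff_norm]
    exact le_antisymm (mem_closedBall_zero_iff.1 hy) (not_lt.1 h)
  have := ((hD n (by exact_mod_cast Nat.lt_succ_self n) j hj).2 h1).1
  have : (D.att n j y).n < n := by exact_mod_cast this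
  exact this.ne

/-- points of top cells whose coordinate lies in `A` -/
def top' (D : Data G) (n : ℕ) (A : Set (Fin n → ℝ)) : Set (Sp D ((n + 1 : ℕ) : ℕ∞)) :=
  {p : Pt G | p.n = n ∧ p.j < D.N n ∧ Y n p ∈ A}

theorem chi_mem_top {n : ℕ} (hD : Valid D ((n + 1 : ℕ) : ℕ∞)) {A : Set (Fin n → ℝ)}
    (hA : A ⊆ ball 0 1) (g : G) {j : ℕ} (hj : j < D.N n) {y : Fin n → ℝ}
    (hy : y ∈ closedBall (0 : Fin n → ℝ) 1) : chi D n g j y ∈ top' D n A ↔ y ∈ A := by
  by_cases h : ‖y‖ < 1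
  · rw [chi_of_lt _ _ h]
    exact ⟨fun h => by simpa using h.2.2, fun h => ⟨rfl, hj, by simpa using h⟩⟩
  · exact ⟨fun h' => absurd h'.1 (chi_bd hD g hj hy h),
      fun h' => absurd (mem_ball_zero_iff.1 (hA h')) h⟩

theorem isClosed_top {n : ℕ} (hD : Valid D ((n + 1 : ℕ) : ℕ∞)) {A : Set (Fin n → ℝ)}
    (hA : A ⊆ ball 0 1) (hc : IsClosed A) : IsClosed (top' D n A) := by
  rw [isClosed_iff]
  intro m hm g j hj
  have hm' : m < n + 1 := by exact_mod_cast hm
  rcases (Nat.lt_succ_iff.1 hm').eq_or_lt with rfl | hm'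
  · convert hc.preimage (continuous_subtype_val (p := fun y => y ∈ closedBall (0 : Fin m → ℝ) 1))
      using 1
    ext y
    exact chi_mem_top hD hA g hj y.2
  · convert isClosed_empty using 1
    exact eq_empty_of_forall_notMem fun y hy => chi_low hD hm' g hj y.2 hy.1

theorem isOpen_top {n : ℕ} (hD : Valid D ((n + 1 : ℕ) : ℕ∞)) {A : Set (Fin n → ℝ)}
    (hA : A ⊆ ball 0 1) (hc : IsOpen A) : IsOpen (top' D n A) := by
  rw [isOpen_iff]
  intro m hm g j hj
  have hm' : m < n + 1 := by exact_mod_cast hm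
  rcases (Nat.lt_succ_iff.1 hm').eq_or_lt with rfl | hm'
  · convert hc.preimage (continuous_subtype_val (p := fun y => y ∈ closedBall (0 : Fin m → ℝ) 1))
      using 1
    ext y
    exact chi_mem_top hD hA g hj y.2
  · convert isOpen_empty using 1
    exact eq_empty_of_forall_notMem fun y hy => chi_low hD hm' g hj y.2 hy.1

theorem continuousOn_top {n : ℕ} (hD : Valid D ((n + 1 : ℕ) : ℕ∞)) {A : Set (Fin n → ℝ)}
    (hA : A ⊆ ball 0 1) (hc : IsClosed A) {Z : Type*} [TopologicalSpace Z] {f : Pt G → Z}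
    (hf : ∀ g j, ContinuousOn (fun y => f ⟨n, g, j, y⟩) A) :
    ContinuousOn (X := Sp D ((n + 1 : ℕ) : ℕ∞)) f (top' D n A) := by
  refine continuousOn_of_isClosed (isClosed_top hD hA hc) fun m hm g j hj => ?_
  have hm' : m < n + 1 := by exact_mod_cast hm
  rcases (Nat.lt_succ_iff.1 hm').eq_or_lt with rfl | hm'
  · have hs : closedBall 0 1 ∩ {y | chi D m g j y ∈ top' D m A} ⊆ A :=
      fun y hy => (chi_mem_top hD hA g hj hy.1).1 hy.2
    refine ((hf g j).mono hs).congr fun y hy => ?_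
    simp only [chi_of_lt _ _ (mem_ball_zero_iff.1 (hA (hs hy)))]
  · intro y hy
    exact absurd hy.2.1 (chi_low hD hm' g hj hy.1)

theorem cont_att {n : ℕ} (hD : Valid D ((n + 1 : ℕ) : ℕ∞)) (g : G) {j : ℕ} (hj : j < D.N n)
    {X : Type*} [TopologicalSpace X] {u : X → Fin n → ℝ} {K : Set X} (hu : ContinuousOn u K)
    (h0 : ∀ x ∈ K, u x ≠ 0) : Cont D n (fun x => g • D.att n j (‖u x‖⁻¹ • u x)) K := by
  refine ((hD n (by exact_mod_cast Nat.lt_succ_self n) j hj).comp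
    (u := fun x => ‖u x‖⁻¹ • u x) ((hu.norm.inv₀ fun x hx => norm_ne_zero_iff.2 (h0 x hx)).smul hu)
    fun x hx => ?_).smul g
  rw [mem_sphere_zero_iff_norm, norm_smul, norm_inv, norm_norm,
    inv_mul_cancel₀ (norm_ne_zero_iff.2 (h0 x hx))]

theorem continuousOn_ret {n : ℕ} (hD : Valid D ((n + 1 : ℕ) : ℕ∞)) :
    @ContinuousOn (Sp D ((n + 1 : ℕ) : ℕ∞)) (Sp D n) _ _ (ret D n)
      (top' D n (ball 0 (1 / 2)))ᶜ := by
  have hA : ball (0 : Fin n → ℝ) (1 / 2) ⊆ ball 0 1 := ball_subset_ball (by norm_num)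
  refine continuousOn_of_isClosed (Z := Sp D n) (isOpen_top hD hA isOpen_ball).isClosed_compl
    fun m hm g j hj => ?_
  have hm' : m < n + 1 := by exact_mod_cast hm
  rcases (Nat.lt_succ_iff.1 hm').eq_or_lt with rfl | hm'
  · have h0 : ∀ y ∈ closedBall 0 1 ∩ {y | chi D m g j y ∈ (top' D m (ball 0 (1 / 2)))ᶜ},
        id y ≠ 0 := by
      rintro y hy rfl
      exact hy.2 ((chi_mem_top hD hA g hj hy.1).2 (mem_ball_self (by norm_num)))
    refine (cont_att hD g hj continuousOn_id h0).1.congr fun y hy => ?_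
    by_cases h : ‖y‖ < 1
    · simp only [chi_of_lt _ _ h, ret, if_true, Y_mk, id]
    · have h1 : ‖y‖ = 1 := le_antisymm (mem_closedBall_zero_iff.1 hy.1) (not_lt.1 h)
      simp only [ret, if_neg (chi_bd hD g hj hy.1 h), id, h1, inv_one, one_smul]
      exact chi_of_not_lt _ _ h
  · refine ((continuousOn_chi (n := (n : ℕ∞)) (by exact_mod_cast hm') g hj).mono
      inter_subset_left).congr fun y hy => ?_
    simp only [ret, if_neg (chi_low hD hm' g hj hy.1)]

end CA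

open CA in
theorem push_down {n : ℕ} (hD : Valid D ((n + 1 : ℕ) : ℕ∞)) :
    ∃ F : Set G, F.Finite ∧ ∀ k < n, ∀ C : Set (Fin k → ℝ), IsCompact C →
      ∀ φ : (Fin k → ℝ) → Pt G, Cont D ((n + 1 : ℕ) : ℕ∞) φ C →
        ∃ φ₁ : (Fin k → ℝ) → Pt G, Cont D n φ₁ C ∧ (∀ x ∈ C, φ x ∈ sk D n → φ₁ x = φ x) ∧
          ∀ x ∈ C, (φ x).g⁻¹ * (φ₁ x).g ∈ F := by
  classical
  obtain ⟨F, hF, hF'⟩ := exists_face hD
  have hFa : ∀ (g : G), ∀ j < D.N n, ∀ u : Fin n → ℝ, u ≠ 0 →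
      g⁻¹ * (g • D.att n j (‖u‖⁻¹ • u)).g ∈ insert 1 F := by
    intro g j hj u hu
    have h1 : ‖‖u‖⁻¹ • u‖ = 1 := by
      rw [norm_smul, norm_inv, norm_norm, inv_mul_cancel₀ (norm_ne_zero_iff.2 hu)]
    have := hF' n (Nat.lt_succ_self n) g j hj _ (mem_closedBall_zero_iff.2 h1.le)
    rw [chi_of_not_lt _ _ (by rw [h1]; exact lt_irrefl _)] at this
    exact mem_insert_of_mem _ this
  refine ⟨insert 1 F, hF.insert _, fun k hk C hC φ hφ => ?_⟩
  have hA : closedBall (0 : Fin n → ℝ) (1 / 2) ⊆ ball 0 1 := closedBall_subset_ball (by norm_num)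
  have hA' : ball (0 : Fin n → ℝ) (1 / 2) ⊆ ball 0 1 := ball_subset_ball (by norm_num)
  set L := top' D n (closedBall 0 (1 / 2)) with hL
  set O := top' D n (ball 0 (1 / 2)) with hO
  have hOL : O ⊆ L := fun p hp => ⟨hp.1, hp.2.1, ball_subset_closedBall hp.2.2⟩
  have c1 : IsClosed (C ∩ φ ⁻¹' L) := ContinuousOn.preimage_isClosed_of_isClosed
    (β := Sp D ((n + 1 : ℕ) : ℕ∞)) hφ.1 hC.isClosed (isClosed_top hD hA isClosed_closedBall)
  have c2 : IsClosed (C ∩ φ ⁻¹' Oᶜ) := ContinuousOn.preimage_isClosed_of_isClosed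
    (β := Sp D ((n + 1 : ℕ) : ℕ∞)) hφ.1 hC.isClosed (isOpen_top hD hA' isOpen_ball).isClosed_compl
  have hψ : ContinuousOn (fun x => Y n (φ x)) (C ∩ φ ⁻¹' L) :=
    ContinuousOn.comp (β := Sp D ((n + 1 : ℕ) : ℕ∞))
      (continuousOn_top hD hA isClosed_closedBall (f := Y n) fun g j => by
        simpa using continuousOn_id' _) (hφ.1.mono inter_subset_left) fun x hx => hx.2
  obtain ⟨ψ', h1, h2, h3, -⟩ := exists_miss hk (hC.of_isClosed_subset c1 inter_subset_left) hψ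
    (ε := 1 / 2) (by norm_num)
  set φ₁ : (Fin k → ℝ) → Pt G := fun x =>
    if φ x ∈ L then (φ x).g • D.att n (φ x).j (‖ψ' x‖⁻¹ • ψ' x) else ret D n (φ x) with hφ₁
  have hne : ∀ x ∈ C, φ x ∉ O → (φ x).n = n → (φ x).j < D.N n ∧ Y n (φ x) ≠ 0 := by
    intro x hx hxO hn
    have hj : (φ x).j < D.N n := hn ▸ (hφ.2 hx).2.1
    refine ⟨hj, fun h0 => hxO ⟨hn, hj, ?_⟩⟩
    rw [h0]
    exact mem_ball_self (by norm_num)
  have k1 : Cont D n φ₁ (C ∩ φ ⁻¹' L) := by
    let : TopologicalSpace G := ⊥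
    have : DiscreteTopology G := ⟨rfl⟩
    have hgj : ContinuousOn (fun x => ((φ x).g, (φ x).j)) (C ∩ φ ⁻¹' L) :=
      ContinuousOn.comp (β := Sp D ((n + 1 : ℕ) : ℕ∞))
        (continuousOn_top hD hA isClosed_closedBall (f := fun p => (p.g, p.j)) fun g j =>
          continuousOn_const (c := (g, j))) (hφ.1.mono inter_subset_left) fun x hx => hx.2
    refine ⟨fun x hx => ?_, fun x hx => ?_⟩
    · have e1 : ∀ᶠ z in 𝓝[C ∩ φ ⁻¹' L] x, ((φ z).g, (φ z).j) = ((φ x).g, (φ x).j) :=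
        (hgj x hx).eventually (p := fun w => w = ((φ x).g, (φ x).j))
          ((isOpen_discrete {((φ x).g, (φ x).j)}).mem_nhds rfl)
      refine ((cont_att hD (φ x).g hx.2.2.1 h1 h2).1 x hx).congr_of_eventuallyEq ?_ ?_
      · filter_upwards [e1, self_mem_nhdsWithin] with z hz hz'
        obtain ⟨e2, e3⟩ := Prod.mk.inj hz
        simp only [hφ₁, if_pos (show φ z ∈ L from hz'.2), e2, e3]
      · simp only [hφ₁, if_pos (show φ x ∈ L from hx.2)]
    · simp only [hφ₁, if_pos (show φ x ∈ L from hx.2)]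
      exact (cont_att hD (φ x).g hx.2.2.1 h1 h2).2 hx
  have k2 : Cont D n φ₁ (C ∩ φ ⁻¹' Oᶜ) := by
    refine Cont.congr (f := fun x => ret D n (φ x)) ⟨?_, fun x hx => ?_⟩ fun x hx => ?_
    · exact ContinuousOn.comp (β := Sp D ((n + 1 : ℕ) : ℕ∞)) (γ := Sp D n) (continuousOn_ret hD)
        (hφ.1.mono inter_subset_left) fun x hx => hx.2
    · by_cases hn : (φ x).n = n
      · obtain ⟨hj, h0⟩ := hne x hx.1 hx.2 hn
        simp only [ret, if_pos hn]
        exact (cont_att hD (φ x).g hj (u := id) (K := {Y n (φ x)})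
          continuousOn_id (by rintro _ rfl; exact h0)).2 (mem_singleton _)
      · simp only [ret, if_neg hn]
        have h4 := hφ.2 hx.1
        have h5 : (φ x).n < n + 1 := by exact_mod_cast h4.1
        exact ⟨by exact_mod_cast (by omega : (φ x).n < n), h4.2⟩
    · by_cases hxL : φ x ∈ L
      · have h4 : ψ' x = Y n (φ x) := by
          refine h3 x ⟨hx.1, hxL⟩ (not_lt.1 fun h => hx.2 ⟨hxL.1, hxL.2.1, ?_⟩)
          exact mem_ball_zero_iff.2 h
        simp only [hφ₁, if_pos hxL, h4, ret, if_pos hxL.1]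
      · simp only [hφ₁, if_neg hxL]
  refine ⟨φ₁, (k1.union k2 c1 c2).mono fun x hx => ?_, fun x hx hs => ?_, fun x hx => ?_⟩
  · by_cases h : φ x ∈ O
    · exact Or.inl ⟨hx, hOL h⟩
    · exact Or.inr ⟨hx, h⟩
  · have hn : (φ x).n ≠ n := by
      have : (φ x).n < n := by exact_mod_cast hs.1
      exact this.ne
    simp only [hφ₁, if_neg (show φ x ∉ L from fun h => hn h.1), ret, if_neg hn]
  · by_cases hxL : φ x ∈ L
    · simp only [hφ₁, if_pos hxL]
      exact hFa _ _ hxL.2.1 _ (h2 x ⟨hx, hxL⟩)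
    · simp only [hφ₁, if_neg hxL]
      by_cases hn : (φ x).n = n
      · obtain ⟨hj, h0⟩ := hne x hx (fun h => hxL (hOL h)) hn
        simp only [ret, if_pos hn]
        exact hFa _ _ hj _ h0
      · simp only [ret, if_neg hn, inv_mul_cancel]
        exact mem_insert _ _

end Crest.Agent.R185.Br
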