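import Crest.Agent.R185.BrCover
import Crest.Agent.R184.TopBAux2
import Crest.Prelude.Def_FiniteTypeClassifying
/-! Row 185 bridge: the orbit space is a CW complex of finite type. -/
set_option autoImplicit false
open Set Filter Topology Metric
open scoped Pointwise

namespace Crest.Agent.R185.Br
variable {G : Type} [Group G] {D : Data G}

namespace CW

open Classical in
/-- the identity on the closed ball, `0` outside -/
noncomputable def rad {n : ℕ} (y : Fin n → ℝ) : Fin n → ℝ :=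
  if y ∈ closedBall (0 : Fin n → ℝ) 1 then y else 0

theorem rad_mem {n : ℕ} (y : Fin n → ℝ) : rad y ∈ closedBall (0 : Fin n → ℝ) 1 := by
  unfold rad
  split_ifs with h
  · exact h
  · exact mem_closedBall_self zero_le_one

theorem rad_of_mem {n : ℕ} {y : Fin n → ℝ} (h : y ∈ closedBall (0 : Fin n → ℝ) 1) : rad y = y :=
  if_pos h

/-- characteristic maps with values in the total space -/
noncomputable def chiT (hD : Valid D ⊤) (n : ℕ) (g : G) (j : Fin (D.N n)) (y : Fin n → ℝ) :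
    Tot D :=
  ⟨chi D n g j (rad y), (cont_chi hD (ENat.natCast_lt_top n) g j.2).2 (rad_mem y)⟩

theorem chiT_val (hD : Valid D ⊤) {n : ℕ} (g : G) (j : Fin (D.N n)) {y : Fin n → ℝ}
    (hy : y ∈ closedBall (0 : Fin n → ℝ) 1) : (chiT hD n g j y).1 = chi D n g j y := by
  change chi D n g j (rad y) = _
  rw [rad_of_mem hy]

theorem smul_chiT (hD : Valid D ⊤) (a : G) {n : ℕ} (g : G) (j : Fin (D.N n)) (y : Fin n → ℝ) :
    a • chiT hD n g j y = chiT hD n (a * g) j y :=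
  Subtype.ext (smul_chi a g j (rad y))

theorem continuousOn_chiT (hD : Valid D ⊤) (n : ℕ) (g : G) (j : Fin (D.N n)) :
    ContinuousOn (chiT hD n g j) (closedBall 0 1) := by
  refine (Topology.IsInducing.subtypeVal (Y := Sp D ⊤) (t := sk D ⊤)).continuousOn_iff.2 ?_
  exact (continuousOn_chi (D := D) (n := ⊤) (ENat.natCast_lt_top n) g j.2).congr
    fun y hy => chiT_val hD g j hy

/-- characteristic maps of the base -/
noncomputable def chiB (hD : Valid D ⊤) (n : ℕ) (j : Fin (D.N n)) (y : Fin n → ℝ) : Base D :=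
  Quotient.mk'' (chiT hD n 1 j y)

theorem mk_smul (a : G) (p : Tot D) :
    (Quotient.mk'' (a • p) : Base D) = Quotient.mk'' p :=
  Quotient.sound' (MulAction.mem_orbit p a)

theorem mk_chiT (hD : Valid D ⊤) {n : ℕ} (g : G) (j : Fin (D.N n)) (y : Fin n → ℝ) :
    (Quotient.mk'' (chiT hD n g j y) : Base D) = chiB hD n j y := by
  rw [chiB, ← mk_smul g (chiT hD n 1 j y), smul_chiT, mul_one]

theorem continuousOn_chiB (hD : Valid D ⊤) (n : ℕ) (j : Fin (D.N n)) :
    ContinuousOn (chiB hD n j) (closedBall 0 1) :=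
  continuous_quotient_mk'.comp_continuousOn (continuousOn_chiT hD n 1 j)

theorem exists_smul_of_chiB_eq (hD : Valid D ⊤) {n m : ℕ} {i : Fin (D.N n)} {j : Fin (D.N m)}
    {x : Fin n → ℝ} {y : Fin m → ℝ} (hx : x ∈ closedBall (0 : Fin n → ℝ) 1)
    (hy : y ∈ closedBall (0 : Fin m → ℝ) 1) (h : chiB hD n i x = chiB hD m j y) :
    ∃ a : G, chi D m a j y = chi D n 1 i x := by
  obtain ⟨a, ha⟩ := Quotient.exact' h
  have h1 : a • chiT hD m 1 j y = chiT hD n 1 i x := ha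
  rw [smul_chiT, mul_one] at h1
  exact ⟨a, (chiT_val hD a j hy).symm.trans ((congrArg Subtype.val h1).trans (chiT_val hD 1 i hx))⟩

theorem mk_eq_chiB (hD : Valid D ⊤) (p : Tot D) :
    (Quotient.mk'' p : Base D) = chiB hD (Pt.n p.1) ⟨Pt.j p.1, p.2.2.1⟩ (Pt.y p.1) := by
  rw [← mk_chiT hD (Pt.g p.1)]
  congr 1
  refine Subtype.ext ?_
  rw [chiT_val hD _ _ (mem_closedBall_zero_iff.2 p.2.2.2.le)]
  exact eq_chi p.2

theorem chi_n_lt (hD : Valid D ⊤) {n : ℕ} (g : G) {j : ℕ} (hj : j < D.N n) {y : Fin n → ℝ}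
    (hy : y ∈ sphere (0 : Fin n → ℝ) 1) : (chi D n g j y).n < n := by
  rw [chi_of_not_lt _ _ (by rw [mem_sphere_zero_iff_norm.1 hy]; exact lt_irrefl _), smul_n]
  exact_mod_cast ((hD n (ENat.natCast_lt_top n) j hj).2 hy).1

theorem chiB_inj (hD : Valid D ⊤) (n : ℕ) (j : Fin (D.N n)) :
    ∀ x ∈ ball (0 : Fin n → ℝ) 1, ∀ y ∈ closedBall (0 : Fin n → ℝ) 1,
      chiB hD n j x = chiB hD n j y → x = y := by
  intro x hx y hy h
  obtain ⟨a, ha⟩ := exists_smul_of_chiB_eq hD (ball_subset_closedBall hx) hy h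
  rw [chi_of_lt _ _ (mem_ball_zero_iff.1 hx)] at ha
  by_cases h1 : ‖y‖ < 1
  · rw [chi_of_lt _ _ h1] at ha
    simp only [Pt.mk.injEq, heq_eq_eq, true_and] at ha
    exact ha.2.symm
  · have h2 := chi_n_lt hD a j.2 (y := y) (mem_sphere_zero_iff_norm.2
      (le_antisymm (mem_closedBall_zero_iff.1 hy) (not_lt.1 h1)))
    exact absurd h2 (by rw [ha]; exact lt_irrefl _)

theorem chiB_disj (hD : Valid D ⊤) {n m : ℕ} {i : Fin (D.N n)} {j : Fin (D.N m)}
    {x : Fin n → ℝ} {y : Fin m → ℝ} (hx : x ∈ ball (0 : Fin n → ℝ) 1)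
    (hy : y ∈ ball (0 : Fin m → ℝ) 1) (h : chiB hD n i x = chiB hD m j y) :
    (⟨n, i⟩ : Σ n, Fin (D.N n)) = ⟨m, j⟩ := by
  obtain ⟨a, ha⟩ := exists_smul_of_chiB_eq hD (ball_subset_closedBall hx)
    (ball_subset_closedBall hy) h
  rw [chi_of_lt _ _ (mem_ball_zero_iff.1 hx), chi_of_lt _ _ (mem_ball_zero_iff.1 hy)] at ha
  have h1 : m = n := congrArg Pt.n ha
  subst h1
  have h2 : (j : ℕ) = i := congrArg Pt.j ha
  rw [Fin.ext h2]

theorem isClosed_of_cells (hD : Valid D ⊤) {A : Set (Base D)}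
    (h : ∀ n j, IsClosed (A ∩ chiB hD n j '' closedBall 0 1)) : IsClosed A := by
  rw [← (isQuotientCoveringMap hD).toIsQuotientMap.isClosed_preimage,
    (isClosed_sk hD le_rfl).isClosedEmbedding_subtypeVal.isClosed_iff_image_isClosed,
    isClosed_iff]
  intro m _ g j hj
  have hc : Continuous fun y : closedBall (0 : Fin m → ℝ) 1 => chiB hD m ⟨j, hj⟩ y :=
    continuousOn_iff_continuous_domRestrict.1 (continuousOn_chiB hD m ⟨j, hj⟩)
  convert (h m ⟨j, hj⟩).preimage hc using 1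
  ext y
  simp only [mem_preimage, mem_image, mem_inter_iff]
  constructor
  · rintro ⟨p, hp, hpy⟩
    refine ⟨?_, y, y.2, rfl⟩
    have : p = chiT hD m g ⟨j, hj⟩ y := Subtype.ext (hpy.trans (chiT_val hD g ⟨j, hj⟩ y.2).symm)
    rw [this] at hp
    rw [← mk_chiT hD g]
    exact hp
  · rintro ⟨hA, -⟩
    rw [← mk_chiT hD g] at hA
    exact ⟨chiT hD m g ⟨j, hj⟩ y, hA, chiT_val hD g ⟨j, hj⟩ y.2⟩

end CW

theorem exists_cw (hD : Valid D ⊤) :
    ∃ _ : _root_.Topology.CWComplex (univ : Set (Base D)),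
      _root_.Topology.RelCWComplex.FiniteType (univ : Set (Base D)) := by
  have := t2_base hD
  choose e he1 he2 he3 using fun n (j : Fin (D.N n)) =>
    Crest.Agent.R184.TopB.exists_partialEquiv (CW.chiB hD n j) (CW.continuousOn_chiB hD n j)
      (CW.chiB_inj hD n j)
  have hF : ∀ n, Finite (Fin (D.N n)) := fun n => inferInstance
  have h2 : ∀ n i, ContinuousOn (e n i) (closedBall 0 1) := fun n i =>
    he1 n i ▸ CW.continuousOn_chiB hD n i
  have h3 : (univ : Set (Σ n, Fin (D.N n))).PairwiseDisjoint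
      (fun ni => e ni.1 ni.2 '' ball 0 1) := by
    rintro ⟨n, i⟩ - ⟨m, j⟩ - hne
    refine disjoint_left.2 ?_
    rintro _ ⟨x, hx, rfl⟩ ⟨y, hy, h⟩
    simp only [he1] at h
    exact hne (CW.chiB_disj hD hx hy h.symm)
  have h4 : ∀ n i, MapsTo (e n i) (sphere 0 1)
      (⋃ (m < n) (j : Fin (D.N m)), e m j '' closedBall 0 1) := by
    intro n i x hx
    simp only [mem_iUnion, he1]
    set p := CW.chiT hD n 1 i x with hp
    refine ⟨Pt.n p.1, ?_, ⟨Pt.j p.1, p.2.2.1⟩, Pt.y p.1, mem_closedBall_zero_iff.2 p.2.2.2.le,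
      (CW.mk_eq_chiB hD p).symm⟩
    rw [hp, CW.chiT_val hD _ _ (sphere_subset_closedBall hx)]
    exact CW.chi_n_lt hD 1 i.2 hx
  have h5 : ∀ (A : Set (Base D)) (_ : A ⊆ univ),
      (∀ n j, IsClosed (A ∩ e n j '' closedBall 0 1)) → IsClosed A := by
    intro A _ h
    simp only [he1] at h
    exact CW.isClosed_of_cells hD h
  have h6 : ⋃ (n : ℕ) (j : Fin (D.N n)), e n j '' closedBall 0 1 = univ := by
    refine eq_univ_of_forall fun x => ?_
    simp only [mem_iUnion, he1]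
    obtain ⟨p⟩ := x
    exact ⟨Pt.n p.1, ⟨Pt.j p.1, p.2.2.1⟩, Pt.y p.1, mem_closedBall_zero_iff.2 p.2.2.2.le,
      (CW.mk_eq_chiB hD p).symm⟩
  exact ⟨CWComplex.mkFiniteType univ _ e hF he2 h2 he3 h3 h4 h5 h6,
    CWComplex.finiteType_mkFiniteType univ _ e hF he2 h2 he3 h3 h4 h5 h6⟩

theorem hasFiniteType_of_contractible (hD : Valid D ⊤) (hc : ContractibleSpace (Tot D)) :
    Crest.Topology.HasFiniteTypeClassifyingComplex G := by
  obtain ⟨cw, hcw⟩ := exists_cw hD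
  have hq := isQuotientCoveringMap hD
  obtain ⟨p⟩ : Nonempty (Tot D) := inferInstance
  exact ⟨Base D, inferInstance, cw, t2_base hD, hcw,
    ⟨Tot D, inferInstance, Quotient.mk'', hc, hq.isCoveringMap, hq.surjective⟩,
    Quotient.mk'' p, ⟨(hq.fundamentalGroupEquiv ⟨p, rfl⟩).trans (MulEquiv.inv' G).symm⟩⟩

end Crest.Agent.R185.Br
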