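import Crest.Agent.R185.BrLocal
/-! Row 185 bridge: contractions built cell by cell. -/
set_option autoImplicit false
open Set Filter Topology Metric
open scoped Pointwise

namespace Crest.Agent.R185.Br
variable {G : Type} [Group G] {D : Data G}

open Classical in
/-- The sphere `∂(cell × I)` that has to be filled to extend the contraction `H` over the cell
`(m, g, j)`; the coordinate `0` is the (rescaled) time. -/
noncomputable def coneS (D : Data G) (H : Pt G × ℝ → Pt G) (m : ℕ) (g : G) (j : ℕ)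
    (z : Fin (m + 1) → ℝ) : Pt G :=
  if z 0 = -1 then chi D m g j (Fin.tail z) else if z 0 = 1 then x0
  else H (chi D m g j (Fin.tail z), (z 0 + 1) / 2)

namespace ContrAux

theorem norm_tail_le {m : ℕ} (z : Fin (m + 1) → ℝ) : ‖Fin.tail z‖ ≤ ‖z‖ :=
  (pi_norm_le_iff_of_nonneg (norm_nonneg _)).2 fun i => norm_le_pi_norm z i.succ

theorem abs_head_le {m : ℕ} (z : Fin (m + 1) → ℝ) : |z 0| ≤ ‖z‖ := norm_le_pi_norm z 0

theorem norm_lt_of {m : ℕ} {z : Fin (m + 1) → ℝ} (h0 : |z 0| < 1) (ht : ‖Fin.tail z‖ < 1) :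
    ‖z‖ < 1 := by
  refine (pi_norm_lt_iff one_pos).2 fun i => ?_
  refine Fin.cases ?_ (fun i => ?_) i
  · exact h0
  · exact (norm_le_pi_norm (Fin.tail z) i).trans_lt ht

theorem norm_le_of {m : ℕ} {z : Fin (m + 1) → ℝ} (h0 : |z 0| ≤ 1) (ht : ‖Fin.tail z‖ ≤ 1) :
    ‖z‖ ≤ 1 := by
  refine (pi_norm_le_iff_of_nonneg zero_le_one).2 fun i => ?_
  refine Fin.cases ?_ (fun i => ?_) i
  · exact h0
  · exact (norm_le_pi_norm (Fin.tail z) i).trans ht

theorem continuous_tail {m : ℕ} : Continuous (fun z : Fin (m + 1) → ℝ => Fin.tail z) :=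
  continuous_pi fun i => continuous_apply i.succ

/-- The point of the cylinder. -/
noncomputable def cyl {m : ℕ} (y : Fin m → ℝ) (t : ℝ) : Fin (m + 1) → ℝ :=
  Fin.cons (α := fun _ => ℝ) (2 * t - 1) y

@[simp] theorem cyl_zero {m : ℕ} (y : Fin m → ℝ) (t : ℝ) : cyl y t 0 = 2 * t - 1 := rfl
@[simp] theorem cyl_tail {m : ℕ} (y : Fin m → ℝ) (t : ℝ) : Fin.tail (cyl y t) = y := rfl

theorem continuous_cyl {m : ℕ} : Continuous (fun q : (Fin m → ℝ) × ℝ => cyl q.1 q.2) := by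
  refine continuous_pi fun i => ?_
  refine Fin.cases ?_ (fun i => ?_) i
  · simp only [cyl_zero]; fun_prop
  · change Continuous (fun q : (Fin m → ℝ) × ℝ => q.1 i); fun_prop

theorem abs_cyl_le {t : ℝ} (ht : t ∈ Icc (0 : ℝ) 1) : |2 * t - 1| ≤ 1 :=
  abs_le.2 ⟨by linarith [ht.1], by linarith [ht.2]⟩

theorem cyl_mem_closedBall {m : ℕ} {y : Fin m → ℝ} (hy : ‖y‖ ≤ 1) {t : ℝ}
    (ht : t ∈ Icc (0 : ℝ) 1) : cyl y t ∈ closedBall (0 : Fin (m + 1) → ℝ) 1 :=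
  mem_closedBall_zero_iff.2 (norm_le_of (abs_cyl_le ht) hy)

theorem cyl_mem_sphere {m : ℕ} {y : Fin m → ℝ} (hy : ‖y‖ = 1) {t : ℝ}
    (ht : t ∈ Icc (0 : ℝ) 1) : cyl y t ∈ sphere (0 : Fin (m + 1) → ℝ) 1 := by
  rw [mem_sphere_zero_iff_norm]
  refine le_antisymm (norm_le_of (abs_cyl_le ht) hy.le) ?_
  have := norm_tail_le (cyl y t)
  rwa [cyl_tail, hy] at this

theorem cyl_mem_sphere' {m : ℕ} {y : Fin m → ℝ} (hy : ‖y‖ ≤ 1) {t : ℝ}
    (ht : t = 0 ∨ t = 1) : cyl y t ∈ sphere (0 : Fin (m + 1) → ℝ) 1 := by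
  rw [mem_sphere_zero_iff_norm]
  have h1 : |2 * t - 1| = 1 := by rcases ht with rfl | rfl <;> norm_num
  refine le_antisymm (norm_le_of h1.le hy) ?_
  have := abs_head_le (cyl y t)
  rwa [cyl_zero, h1] at this

theorem lt_succ_cast (m : ℕ) : (m : ℕ∞) < ((m + 1 : ℕ) : ℕ∞) := by
  exact_mod_cast Nat.lt_succ_self m

theorem le_succ_cast (m : ℕ) : (m : ℕ∞) ≤ ((m + 1 : ℕ) : ℕ∞) := (lt_succ_cast m).le

theorem cont_chi_sphere {n : ℕ∞} (hD : Valid D n) {m : ℕ} (hm : (m : ℕ∞) < n) (g : G) {j : ℕ}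
    (hj : j < D.N m) : Cont D m (chi D m g j) (sphere 0 1) := by
  refine ((hD m hm j hj).smul g).congr fun y hy => ?_
  refine chi_of_not_lt _ _ ?_
  rw [mem_sphere_zero_iff_norm.1 hy]
  exact lt_irrefl _

theorem x0_mem {n : ℕ∞} (hn : 0 < n) (h0 : 0 < D.N 0) : (x0 : Pt G) ∈ sk D n := by
  refine ⟨by simpa [x0] using hn, h0, ?_⟩
  change ‖(0 : Fin 0 → ℝ)‖ < 1
  rw [norm_zero]; exact one_pos

theorem cont_const {n : ℕ∞} {X : Type*} [TopologicalSpace X] {p : Pt G} (hp : p ∈ sk D n)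
    (K : Set X) : Cont D n (fun _ => p) K :=
  ⟨continuousOn_const (β := Sp D n), fun _ _ => hp⟩

/-- Composition of a contraction with a map to the lower skeleton and a time function. -/
theorem cont_H {m : ℕ} {H : Pt G × ℝ → Pt G} (hH : Contr D m H) {X : Type*} [TopologicalSpace X]
    {f : X → Pt G} {τ : X → ℝ} {K : Set X} (hf : Cont D m f K) (hτ : ContinuousOn τ K)
    (hτ' : ∀ x ∈ K, τ x ∈ Icc (0 : ℝ) 1) :
    Cont D ((m + 1 : ℕ) : ℕ∞) (fun x => H (f x, τ x)) K := by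
  have h1 : @ContinuousOn X (Sp D m × ℝ) _ _ (fun x => ((f x : Sp D m), τ x)) K :=
    ContinuousOn.prodMk (β := Sp D m) hf.1 hτ
  exact @Cont.comp G _ D (Sp D m × ℝ) X _ _ _ H _ hH.1 (fun x => ((f x : Sp D m), τ x)) K h1
    (fun x hx => ⟨hf.2 hx, hτ' x hx⟩)

theorem coneS_eq {m : ℕ} {H : Pt G × ℝ → Pt G} (hH : Contr D m H) (g : G) (j : ℕ)
    {z : Fin (m + 1) → ℝ} (hz : chi D m g j (Fin.tail z) ∈ sk D m) :
    coneS D H m g j z = H (chi D m g j (Fin.tail z), (z 0 + 1) / 2) := by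
  unfold coneS
  split_ifs with h1 h2
  · rw [h1]; norm_num; exact (hH.2 _ hz).1.symm
  · rw [h2]; norm_num; exact (hH.2 _ hz).2.symm
  · rfl

open Classical in
/-- The extended homotopy. -/
noncomputable def ext (m : ℕ) (H : Pt G × ℝ → Pt G) (C : Set (G × ℕ))
    (φ : G → ℕ → (Fin (m + 1) → ℝ) → Pt G) (q : Pt G × ℝ) : Pt G :=
  if h : q.1.n = m ∧ (q.1.g, q.1.j) ∈ C then
    φ q.1.g q.1.j (cyl (fun i : Fin m => q.1.y (Fin.cast h.1.symm i)) q.2)
  else H q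

omit [Group G] in
theorem ext_top {m : ℕ} {H : Pt G × ℝ → Pt G} {C : Set (G × ℕ)}
    {φ : G → ℕ → (Fin (m + 1) → ℝ) → Pt G} {g : G} {j : ℕ} (h : (g, j) ∈ C) (y : Fin m → ℝ)
    (t : ℝ) : ext m H C φ (⟨m, g, j, y⟩, t) = φ g j (cyl y t) := by
  unfold ext
  rw [dif_pos ⟨rfl, h⟩]
  rfl

omit [Group G] in
theorem ext_low {m : ℕ} {H : Pt G × ℝ → Pt G} {C : Set (G × ℕ)}
    {φ : G → ℕ → (Fin (m + 1) → ℝ) → Pt G} {p : Pt G} (h : p.n < m) (t : ℝ) :
    ext m H C φ (p, t) = H (p, t) := by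
  unfold ext
  rw [dif_neg fun h' => absurd h'.1 h.ne]

omit [Group G] in
theorem n_lt_of_mem {m : ℕ} {p : Pt G} (h : p ∈ sk D m) : p.n < m := by
  exact_mod_cast h.1

end ContrAux
open ContrAux

theorem cont_coneS {m : ℕ} (hD : Valid D ((m + 1 : ℕ) : ℕ∞)) (h0 : 0 < D.N 0)
    {H : Pt G × ℝ → Pt G} (hH : Contr D m H) (g : G) {j : ℕ} (hj : j < D.N m) :
    Cont D ((m + 1 : ℕ) : ℕ∞) (coneS D H m g j) (sphere 0 1) := by
  have e : sphere (0 : Fin (m + 1) → ℝ) 1 =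
      ((sphere 0 1 ∩ {z | z 0 = -1}) ∪ (sphere 0 1 ∩ {z | z 0 = 1})) ∪
        (sphere 0 1 ∩ {z | ‖Fin.tail z‖ = 1}) := by
    refine Subset.antisymm (fun z hz => ?_) (union_subset (union_subset inter_subset_left
      inter_subset_left) inter_subset_left)
    have hz' := mem_sphere_zero_iff_norm.1 hz
    by_cases h1 : z 0 = -1
    · exact Or.inl (Or.inl ⟨hz, h1⟩)
    by_cases h2 : z 0 = 1
    · exact Or.inl (Or.inr ⟨hz, h2⟩)
    refine Or.inr ⟨hz, le_antisymm (hz' ▸ norm_tail_le z) (not_lt.1 fun h => ?_)⟩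
    have h3 := abs_le.1 (hz' ▸ abs_head_le z)
    have h4 : |z 0| < 1 := abs_lt.2 ⟨lt_of_le_of_ne h3.1 (Ne.symm h1), lt_of_le_of_ne h3.2 h2⟩
    exact absurd (norm_lt_of h4 h) (by rw [hz']; exact lt_irrefl _)
  have c1 : IsClosed (sphere (0 : Fin (m + 1) → ℝ) 1 ∩ {z | z 0 = -1}) :=
    isClosed_sphere.inter (isClosed_eq (continuous_apply 0) continuous_const)
  have c2 : IsClosed (sphere (0 : Fin (m + 1) → ℝ) 1 ∩ {z | z 0 = 1}) :=
    isClosed_sphere.inter (isClosed_eq (continuous_apply 0) continuous_const)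
  have c3 : IsClosed (sphere (0 : Fin (m + 1) → ℝ) 1 ∩ {z | ‖Fin.tail z‖ = 1}) :=
    isClosed_sphere.inter (isClosed_eq continuous_tail.norm continuous_const)
  rw [e]
  refine Cont.union (Cont.union ?_ ?_ c1 c2) ?_ (c1.union c2) c3
  · refine ((cont_chi hD (lt_succ_cast m) g hj).comp continuous_tail.continuousOn
      fun z hz => ?_).congr fun z hz => ?_
    · exact mem_closedBall_zero_iff.2 ((norm_tail_le z).trans (mem_sphere_zero_iff_norm.1 hz.1).le)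
    · exact if_pos hz.2
  · refine (cont_const (x0_mem (by simp) h0) _).congr fun z hz => ?_
    have h2 : z 0 = 1 := hz.2
    unfold coneS
    rw [if_neg (by rw [h2]; norm_num), if_pos h2]
  · have hc : Cont D m (fun z : Fin (m + 1) → ℝ => chi D m g j (Fin.tail z))
        (sphere 0 1 ∩ {z | ‖Fin.tail z‖ = 1}) :=
      (cont_chi_sphere hD (lt_succ_cast m) g hj).comp continuous_tail.continuousOn
        fun z hz => mem_sphere_zero_iff_norm.2 hz.2
    refine (cont_H hH hc (τ := fun z => (z 0 + 1) / 2) (by fun_prop) fun z hz => ?_).congr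
      fun z hz => coneS_eq hH g j (hc.2 hz)
    have h3 := abs_le.1 ((mem_sphere_zero_iff_norm.1 hz.1) ▸ abs_head_le z)
    exact ⟨by linarith [h3.1], by linarith [h3.2]⟩

/-- Extension of a contraction over a set `C` of `m`-cells whose cone spheres are filled. -/
theorem contr_ext {m : ℕ} (hD : Valid D ((m + 1 : ℕ) : ℕ∞))
    {H : Pt G × ℝ → Pt G} (hH : Contr D m H) (C : Set (G × ℕ))
    (φ : G → ℕ → (Fin (m + 1) → ℝ) → Pt G)
    (hφ : ∀ g j, (g, j) ∈ C → j < D.N m → Cont D ((m + 2 : ℕ) : ℕ∞) (φ g j) (closedBall 0 1) ∧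
      EqOn (φ g j) (coneS D H m g j) (sphere 0 1)) :
    ∃ H' : Pt G × ℝ → Pt G,
      @Cont G _ D ((m + 2 : ℕ) : ℕ∞) (Sp D ((m + 1 : ℕ) : ℕ∞) × ℝ) _ H'
        ({p | p ∈ sk D ((m + 1 : ℕ) : ℕ∞) ∧ (p.n < m ∨ (p.g, p.j) ∈ C)} ×ˢ Icc 0 1) ∧
      (∀ p ∈ sk D ((m + 1 : ℕ) : ℕ∞), (p.n < m ∨ (p.g, p.j) ∈ C) →
        H' (p, 0) = p ∧ H' (p, 1) = x0) ∧
      ∀ p ∈ sk D m, ∀ t ∈ Icc (0 : ℝ) 1, H' (p, t) = H (p, t) := by
  classical
  have hle : ((m + 1 : ℕ) : ℕ∞) ≤ ((m + 2 : ℕ) : ℕ∞) := le_succ_cast (m + 1)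
  -- case distinction for the points of the subcomplex
  have hcase : ∀ p ∈ sk D ((m + 1 : ℕ) : ℕ∞), (p.n < m ∨ (p.g, p.j) ∈ C) →
      p ∈ sk D m ∨ ∃ g j y, (g, j) ∈ C ∧ j < D.N m ∧ ‖y‖ < 1 ∧ p = ⟨m, g, j, y⟩ := by
    intro p hp hp'
    have h1 : p.n < m + 1 := n_lt_of_mem hp
    rcases lt_or_eq_of_le (Nat.lt_succ_iff.1 h1) with h2 | h2
    · exact Or.inl ⟨by exact_mod_cast h2, hp.2⟩
    · obtain ⟨n, g, j, y⟩ := p
      simp only at h2
      subst h2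
      rcases hp' with h | h
      · exact absurd h (lt_irrefl _)
      · exact Or.inr ⟨g, j, y, h, hp.2.1, hp.2.2, rfl⟩
  refine ⟨ext m H C φ, ⟨?_, ?_⟩, ?_, fun p hp t _ => ext_low (n_lt_of_mem hp) t⟩
  · refine continuousOn_prod_of_isClosed (Z := Sp D ((m + 2 : ℕ) : ℕ∞)) (isClosed_sub hD C)
      (fun p hp => hp.1) fun k hk g j hj => ?_
    have hk' : k < m + 1 := by exact_mod_cast hk
    rcases lt_or_eq_of_le (Nat.lt_succ_iff.1 hk') with h2 | h2
    · have hkm : (k : ℕ∞) < m := by exact_mod_cast h2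
      have hc : Cont D m (fun q : (Fin k → ℝ) × ℝ => chi D k g j q.1)
          (closedBall 0 1 ×ˢ Icc 0 1) :=
        (cont_chi (hD.mono (le_succ_cast m)) hkm g hj).comp continuous_fst.continuousOn
          fun q hq => hq.1
      have h3 := (cont_H hH hc continuous_snd.continuousOn fun q hq => hq.2).incl hle
      have h4 : Cont D ((m + 2 : ℕ) : ℕ∞)
          (fun q : (Fin k → ℝ) × ℝ => ext m H C φ (chi D k g j q.1, q.2))
          (closedBall 0 1 ×ˢ Icc 0 1) :=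
        h3.congr fun q hq => ext_low (n_lt_of_mem (hc.2 hq)) _
      exact (h4.mono (prod_mono inter_subset_left subset_rfl)).1
    · subst h2
      have hs := cont_chi_sphere hD hk g hj
      by_cases hC : (g, j) ∈ C
      · have h3 := (hφ g j hC hj).1.comp (u := fun q : (Fin k → ℝ) × ℝ => cyl q.1 q.2)
          (L := closedBall 0 1 ×ˢ Icc 0 1) continuous_cyl.continuousOn
          fun q hq => cyl_mem_closedBall (mem_closedBall_zero_iff.1 hq.1) hq.2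
        have h4 : Cont D ((k + 2 : ℕ) : ℕ∞)
            (fun q : (Fin k → ℝ) × ℝ => ext k H C φ (chi D k g j q.1, q.2))
            (closedBall 0 1 ×ˢ Icc 0 1) := by
          refine h3.congr fun q hq => ?_
          by_cases hq1 : ‖q.1‖ < 1
          · simp only [Function.comp]
            rw [chi_of_lt _ _ hq1, ext_top hC]
          · have hq2 : ‖q.1‖ = 1 :=
              le_antisymm (mem_closedBall_zero_iff.1 hq.1) (not_lt.1 hq1)
            have hm : chi D k g j q.1 ∈ sk D k := hs.2 (mem_sphere_zero_iff_norm.2 hq2)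
            simp only [Function.comp]
            rw [ext_low (n_lt_of_mem hm), (hφ g j hC hj).2 (cyl_mem_sphere hq2 hq.2),
              coneS_eq hH g j (by rw [cyl_tail]; exact hm), cyl_tail, cyl_zero]
            congr 2
            ring
        exact (h4.mono (prod_mono inter_subset_left subset_rfl)).1
      · have hc : Cont D k (fun q : (Fin k → ℝ) × ℝ => chi D k g j q.1)
            (sphere 0 1 ×ˢ Icc 0 1) :=
          hs.comp continuous_fst.continuousOn fun q hq => hq.1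
        have h3 := (cont_H hH hc continuous_snd.continuousOn fun q hq => hq.2).incl hle
        have h4 : Cont D ((k + 2 : ℕ) : ℕ∞)
            (fun q : (Fin k → ℝ) × ℝ => ext k H C φ (chi D k g j q.1, q.2))
            (sphere 0 1 ×ˢ Icc 0 1) :=
          h3.congr fun q hq => ext_low (n_lt_of_mem (hc.2 hq)) _
        refine (h4.mono (prod_mono (fun y hy => ?_) subset_rfl)).1
        rw [mem_sphere_zero_iff_norm]
        refine le_antisymm (mem_closedBall_zero_iff.1 hy.1) (not_lt.1 fun h => ?_)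
        have h5 : (chi D k g j y).n < k ∨ ((chi D k g j y).g, (chi D k g j y).j) ∈ C := hy.2.2
        rw [chi_of_lt _ _ h] at h5
        rcases h5 with h6 | h6
        · exact absurd h6 (lt_irrefl _)
        · exact hC h6
  · rintro ⟨p, t⟩ ⟨hp, ht⟩
    rcases hcase p hp.1 hp.2 with h | ⟨g, j, y, hC, hj, hy, rfl⟩
    · have h1 : ext m H C φ (p, t) = H (p, t) := ext_low (n_lt_of_mem h) t
      have h2 : H (p, t) ∈ sk D ((m + 1 : ℕ) : ℕ∞) := hH.1.2 (x := (p, t)) ⟨h, ht⟩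
      exact h1 ▸ sk_mono hle h2
    · have h1 : ext m H C φ (⟨m, g, j, y⟩, t) = φ g j (cyl y t) := ext_top hC y t
      exact h1 ▸ (hφ g j hC hj).1.2 (cyl_mem_closedBall hy.le ht)
  · intro p hp hp'
    rcases hcase p hp hp' with h | ⟨g, j, y, hC, hj, hy, rfl⟩
    · rw [ext_low (n_lt_of_mem h), ext_low (n_lt_of_mem h)]
      exact hH.2 p h
    · rw [ext_top hC, ext_top hC, (hφ g j hC hj).2 (cyl_mem_sphere' hy.le (Or.inl rfl)),
        (hφ g j hC hj).2 (cyl_mem_sphere' hy.le (Or.inr rfl))]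
      constructor
      · unfold coneS
        rw [if_pos (by rw [cyl_zero]; norm_num), cyl_tail, chi_of_lt _ _ hy]
      · unfold coneS
        rw [if_neg (by rw [cyl_zero]; norm_num), if_pos (by rw [cyl_zero]; norm_num)]

theorem ContrAux.contr_zero : Contr D 0 (fun _ => x0) := by
  have e : sk D ((0 : ℕ) : ℕ∞) = ∅ := by
    ext p; simp [sk]
  refine ⟨⟨?_, ?_⟩, ?_⟩
  · exact continuousOn_const (β := Sp D ((0 + 1 : ℕ) : ℕ∞))
  · intro q hq
    have := hq.1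
    rw [e] at this
    exact absurd this (notMem_empty _)
  · rw [e]; simp

theorem ContrAux.contr_step {m : ℕ} (hD : Valid D ((m + 1 : ℕ) : ℕ∞)) (h0 : 0 < D.N 0)
    (hF : Fill D m) {H : Pt G × ℝ → Pt G} (hH : Contr D m H) :
    ∃ H', Contr D (m + 1) H' ∧ ∀ p ∈ sk D m, ∀ t ∈ Icc (0 : ℝ) 1, H' (p, t) = H (p, t) := by
  have key : ∀ (g : G) (j : ℕ), ∃ φ : (Fin (m + 1) → ℝ) → Pt G, j < D.N m →
      Cont D ((m + 2 : ℕ) : ℕ∞) φ (closedBall 0 1) ∧ EqOn φ (coneS D H m g j) (sphere 0 1) := by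
    intro g j
    by_cases hj : j < D.N m
    · obtain ⟨φ, hφ⟩ := hF _ (cont_coneS hD h0 hH g hj)
      exact ⟨φ, fun _ => hφ⟩
    · exact ⟨fun _ => x0, fun h => absurd h hj⟩
  choose φ hφ using key
  obtain ⟨H', h1, h2, h3⟩ := contr_ext hD hH univ φ fun g j _ hj => hφ g j hj
  refine ⟨H', ⟨?_, fun p hp => h2 p hp (Or.inr (mem_univ _))⟩, h3⟩
  refine @Cont.mono G _ D (Sp D ((m + 1 : ℕ) : ℕ∞) × ℝ) _ _ _ _ _ h1 ?_
  exact prod_mono (fun p hp => ⟨hp, Or.inr (mem_univ _)⟩) subset_rfl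

theorem exists_contr (m : ℕ) (hD : Valid D m) (h0 : 0 < D.N 0) (hF : ∀ i < m, Fill D i) :
    ∃ H, Contr D m H := by
  induction m with
  | zero => exact ⟨_, contr_zero⟩
  | succ m ih =>
    obtain ⟨H, hH⟩ := ih (hD.mono (le_succ_cast m)) fun i hi => hF i (Nat.lt_succ_of_lt hi)
    obtain ⟨H', hH', -⟩ := contr_step hD h0 (hF m (Nat.lt_succ_self m)) hH
    exact ⟨H', hH'⟩

theorem contractible (hD : Valid D ⊤) (h0 : 0 < D.N 0) (hF : ∀ i, Fill D i) :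
    ContractibleSpace (Tot D) := by
  have step : ∀ (m : ℕ) (H : {H // Contr D m H}), ∃ H' : {H // Contr D (m + 1) H},
      ∀ p ∈ sk D m, ∀ t ∈ Icc (0 : ℝ) 1, H'.1 (p, t) = H.1 (p, t) := by
    intro m H
    obtain ⟨H', h1, h2⟩ := contr_step (hD.mono le_top) h0 (hF m) H.2
    exact ⟨⟨H', h1⟩, h2⟩
  choose nxt hnxt using step
  let S : ∀ m : ℕ, {H // Contr D m H} := fun m =>
    Nat.rec (motive := fun m => {H // Contr D m H}) ⟨_, contr_zero⟩ (fun m H => nxt m H) m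
  have hS : ∀ m : ℕ, ∀ p ∈ sk D m, ∀ t ∈ Icc (0 : ℝ) 1, (S (m + 1)).1 (p, t) = (S m).1 (p, t) :=
    fun m => hnxt m (S m)
  have hS' : ∀ m m' : ℕ, m ≤ m' → ∀ p ∈ sk D m, ∀ t ∈ Icc (0 : ℝ) 1,
      (S m').1 (p, t) = (S m).1 (p, t) := by
    intro m m' h p hp t ht
    induction m', h using Nat.le_induction with
    | base => rfl
    | succ k hk ih => rw [hS k p (sk_mono (by exact_mod_cast hk) hp) t ht, ih]
  let Hi : Pt G × ℝ → Pt G := fun q => (S (q.1.n + 1)).1 q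
  have hmem : ∀ {n : ℕ∞} {p : Pt G}, p ∈ sk D n → p ∈ sk D ((p.n + 1 : ℕ) : ℕ∞) :=
    fun hp => ⟨lt_succ_cast _, hp.2⟩
  have hHi : ∀ m : ℕ, ∀ p ∈ sk D m, ∀ t ∈ Icc (0 : ℝ) 1, Hi (p, t) = (S m).1 (p, t) :=
    fun m p hp t ht => (hS' (p.n + 1) m (n_lt_of_mem hp) p (hmem hp) t ht).symm
  have hcont : @ContinuousOn (Sp D ⊤ × ℝ) (Sp D ⊤) _ _ Hi (sk D ⊤ ×ˢ Icc 0 1) := by
    refine continuousOn_prod_of_isClosed (Z := Sp D ⊤) (isClosed_sk hD le_rfl)
      (fun p hp => hp) fun k _ g j hj => ?_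
    have hc : Cont D ((k + 1 : ℕ) : ℕ∞) (fun q : (Fin k → ℝ) × ℝ => chi D k g j q.1)
        (closedBall 0 1 ×ˢ Icc 0 1) :=
      (cont_chi (hD.mono le_top) (lt_succ_cast k) g hj).comp continuous_fst.continuousOn
        fun q hq => hq.1
    have h3 := (cont_H (S (k + 1)).2 hc continuous_snd.continuousOn fun q hq => hq.2).incl
      (n' := ⊤) le_top
    have h4 : Cont D ⊤ (fun q : (Fin k → ℝ) × ℝ => Hi (chi D k g j q.1, q.2))
        (closedBall 0 1 ×ˢ Icc 0 1) :=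
      h3.congr fun q hq => hHi (k + 1) _ (hc.2 hq) _ hq.2
    exact (h4.mono (prod_mono inter_subset_left subset_rfl)).1
  have hmaps : ∀ p ∈ sk D ⊤, ∀ t ∈ Icc (0 : ℝ) 1, Hi (p, t) ∈ sk D ⊤ := fun p hp t ht =>
    sk_mono le_top ((S (p.n + 1)).2.1.2 (x := (p, t)) ⟨hmem hp, ht⟩)
  have hx0 : (x0 : Pt G) ∈ sk D ⊤ := x0_mem (by simp) h0
  rw [contractible_iff_id_nullhomotopic]
  refine ⟨⟨x0, hx0⟩, ⟨⟨⟨fun q => ⟨Hi (q.2.1, q.1.1), hmaps _ q.2.2 _ q.1.2⟩, ?_⟩, ?_, ?_⟩⟩⟩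
  · refine Continuous.subtype_mk ?_ _
    have hu : Continuous (fun q : unitInterval × Tot D => ((q.2.1, q.1.1) : Sp D ⊤ × ℝ)) := by
      fun_prop
    exact ContinuousOn.comp_continuous (β := Sp D ⊤ × ℝ) (γ := Sp D ⊤) hcont hu
      fun q => ⟨q.2.2, q.1.2⟩
  · intro p
    exact Subtype.ext ((S (p.1.n + 1)).2.2 p.1 (hmem p.2)).1
  · intro p
    exact Subtype.ext ((S (p.1.n + 1)).2.2 p.1 (hmem p.2)).2

end Crest.Agent.R185.Br
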