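import Crest.Agent.R185.BrLocal
/-! Row 185 bridge: the orbit map is a covering, the orbit space is Hausdorff. -/
set_option autoImplicit false
open Set Filter Topology Metric
open scoped Pointwise

namespace Crest.Agent.R185.Br
variable {G : Type} [Group G] {D : Data G}

namespace Cover

/-- radial extension of a function given on the cells of dimension `≤ n` -/
noncomputable def rext (D : Data G) (n : ℕ) (u : Pt G → ℝ) (p : Pt G) : ℝ :=
  if p.n ≤ n then u p else
    if _h : (D.att p.n p.j (‖p.y‖⁻¹ • p.y)).n < p.n then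
      max 0 (2 * ‖p.y‖ - 1) * rext D n u (p.g • D.att p.n p.j (‖p.y‖⁻¹ • p.y))
    else 0
termination_by p.n
decreasing_by exact _h

theorem rext_low {n : ℕ} {u : Pt G → ℝ} {p : Pt G} (h : p.n ≤ n) : rext D n u p = u p := by
  rw [rext, if_pos h]

theorem norm_mem_sphere {k : ℕ} {y : Fin k → ℝ} (hy : y ≠ 0) :
    ‖y‖⁻¹ • y ∈ sphere (0 : Fin k → ℝ) 1 := by
  rw [mem_sphere_zero_iff_norm, norm_smul, norm_inv, norm_norm,
    inv_mul_cancel₀ (norm_ne_zero_iff.2 hy)]

theorem att_lt (hD : Valid D ⊤) {k j : ℕ} (hj : j < D.N k) {y : Fin k → ℝ}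
    (hy : y ∈ sphere (0 : Fin k → ℝ) 1) : (D.att k j y).n < k := by
  have := ((hD k (ENat.natCast_lt_top k) j hj).2 hy).1
  exact_mod_cast this

theorem rext_chi (hD : Valid D ⊤) {n : ℕ} {u : Pt G → ℝ} {k : ℕ} (hk : n < k) (g : G) {j : ℕ}
    (hj : j < D.N k) {y : Fin k → ℝ} (hy : y ∈ closedBall (0 : Fin k → ℝ) 1) :
    rext D n u (chi D k g j y) =
      max 0 (2 * ‖y‖ - 1) * rext D n u (g • D.att k j (‖y‖⁻¹ • y)) := by
  by_cases h : ‖y‖ < 1
  · rw [chi_of_lt _ _ h, rext, if_neg (not_le.2 hk)]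
    split_ifs with h1
    · rfl
    · by_cases h0 : y = 0
      · simp [h0]
      · exact absurd (att_lt hD hj (norm_mem_sphere h0)) h1
  · have h1 : ‖y‖ = 1 := le_antisymm (mem_closedBall_zero_iff.1 hy) (not_lt.1 h)
    rw [chi_of_not_lt _ _ h, h1]
    norm_num

theorem rext_cont_cell (hD : Valid D ⊤) {n : ℕ} {u : Pt G → ℝ}
    (hu : ∀ k ≤ n, ∀ g : G, ∀ j < D.N k,
      ContinuousOn (fun y => u (chi D k g j y)) (closedBall 0 1)) (k : ℕ) :
    ∀ g : G, ∀ j < D.N k, ContinuousOn (fun y => rext D n u (chi D k g j y)) (closedBall 0 1) := by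
  induction k using Nat.strong_induction_on with
  | _ k ih =>
    intro g j hj
    by_cases hk : k ≤ n
    · refine (hu k hk g j hj).congr fun y hy => rext_low ?_
      have h1 : (k : ℕ∞) < ((k + 1 : ℕ) : ℕ∞) := by exact_mod_cast Nat.lt_succ_self k
      have h2 := ((cont_chi (hD.mono le_top) h1 g hj).2 hy).1
      have h3 : (chi D k g j y).n < k + 1 := by exact_mod_cast h2
      omega
    · have hc : @Continuous (Sp D k) ℝ _ _ (rext D n u) :=
        continuous_iff.2 fun m hm g' j' hj' => ih m (by exact_mod_cast hm) g' j' hj'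
      refine ContinuousOn.congr (f := fun y : Fin k → ℝ =>
        max 0 (2 * ‖y‖ - 1) * rext D n u (g • D.att k j (‖y‖⁻¹ • y))) ?_
        fun y hy => rext_chi hD (not_le.1 hk) g hj hy
      have hA : ContinuousOn (fun y : Fin k → ℝ =>
          max 0 (2 * ‖y‖ - 1) * rext D n u (g • D.att k j (‖y‖⁻¹ • y))) {y | ‖y‖ ≤ 1 / 2} := by
        refine (continuousOn_const (c := (0 : ℝ))).congr fun y hy => ?_
        have hy' : ‖y‖ ≤ 1 / 2 := hy
        simp only
        rw [max_eq_left (by linarith), zero_mul]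
      have hB : ContinuousOn (fun y : Fin k → ℝ =>
          max 0 (2 * ‖y‖ - 1) * rext D n u (g • D.att k j (‖y‖⁻¹ • y))) {y | 1 / 2 ≤ ‖y‖} := by
        have hne : ∀ y : Fin k → ℝ, y ∈ {y : Fin k → ℝ | 1 / 2 ≤ ‖y‖} → ‖y‖ ≠ 0 := fun y hy => by
          have hy' : 1 / 2 ≤ ‖y‖ := hy
          exact (by linarith : 0 < ‖y‖).ne'
        refine ContinuousOn.mul (by fun_prop) ?_
        have h1 : ContinuousOn (fun y : Fin k → ℝ => ‖y‖⁻¹ • y) {y | 1 / 2 ≤ ‖y‖} :=
          (continuousOn_id.norm.inv₀ hne).smul continuousOn_id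
        have h2 := ((hD k (ENat.natCast_lt_top k) j hj).smul g).comp h1
          fun y hy => norm_mem_sphere (norm_ne_zero_iff.1 (hne y hy))
        exact hc.comp_continuousOn h2.1
      refine (hA.union_of_isClosed hB (isClosed_le (by fun_prop) (by fun_prop))
        (isClosed_le (by fun_prop) (by fun_prop))).mono fun y _ => ?_
      exact le_total ‖y‖ (1 / 2)

theorem rext_cont (hD : Valid D ⊤) {n : ℕ} {u : Pt G → ℝ}
    (hu : ∀ k ≤ n, ∀ g : G, ∀ j < D.N k,
      ContinuousOn (fun y => u (chi D k g j y)) (closedBall 0 1)) :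
    Continuous fun p : Tot D => rext D n u p.1 := by
  have hc : @Continuous (Sp D ⊤) ℝ _ _ (rext D n u) :=
    continuous_iff.2 fun m _ g j hj => rext_cont_cell hD hu m g j hj
  exact hc.comp continuous_subtype_val

theorem rext_smul {n : ℕ} {u : Pt G → ℝ} {a : G} (hu : ∀ p, u (a • p) = u p) (p : Pt G) :
    rext D n u (a • p) = rext D n u p := by
  induction hk : p.n using Nat.strong_induction_on generalizing p with
  | _ k ih =>
    by_cases h : p.n ≤ n
    · rw [rext_low h, rext_low (p := a • p) h, hu]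
    · rw [rext, rext.eq_1 D n u p, if_neg h, if_neg (show ¬ (a • p).n ≤ n from h)]
      simp only [smul_n, smul_j, smul_y, smul_g]
      split_ifs with h1
      · rw [mul_smul, ih _ (hk ▸ h1) _ rfl]
      · rfl

theorem rext_disj {n : ℕ} {u : Pt G → ℝ} {a : G} (hu : ∀ p, u (a • p) ≠ 0 → u p ≠ 0 → a = 1)
    (p : Pt G) (h1 : rext D n u (a • p) ≠ 0) (h2 : rext D n u p ≠ 0) : a = 1 := by
  induction hk : p.n using Nat.strong_induction_on generalizing p with
  | _ k ih =>
    by_cases h : p.n ≤ n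
    · rw [rext_low h] at h2
      rw [rext_low (p := a • p) h] at h1
      exact hu p h1 h2
    · rw [rext, if_neg h] at h2
      rw [rext, if_neg (show ¬ (a • p).n ≤ n from h)] at h1
      simp only [smul_n, smul_j, smul_y, smul_g] at h1
      split_ifs at h1 h2 with h3
      · rw [mul_smul] at h1
        exact ih _ (hk ▸ h3) _ (right_ne_zero_of_mul h1) (right_ne_zero_of_mul h2) rfl
      · exact absurd rfl h1

/-- the `i`-th coordinate, or `1` if there is none -/
noncomputable def crd (i : ℕ) {m : ℕ} (y : Fin m → ℝ) : ℝ := if h : i < m then y ⟨i, h⟩ else 1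

theorem continuous_crd (i m : ℕ) : Continuous (crd i : (Fin m → ℝ) → ℝ) := by
  unfold crd
  split_ifs
  · fun_prop
  · fun_prop

open Classical in
/-- a bump on the cells `(n, g, j)`, `g ∈ P` -/
noncomputable def bump (n j i : ℕ) (P : Set G) (q : Pt G) : ℝ :=
  if q.n = n ∧ q.j = j ∧ q.g ∈ P then (1 - ‖q.y‖) * crd i q.y else 0

theorem bump_cont (hD : Valid D ⊤) (n j i : ℕ) (P : Set G) : ∀ k ≤ n, ∀ g : G, ∀ j' < D.N k,
    ContinuousOn (fun y => bump n j i P (chi D k g j' y)) (closedBall 0 1) := by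
  intro k hk g j' hj'
  classical
  refine ContinuousOn.congr (f := fun y : Fin k → ℝ =>
    if k = n ∧ j' = j ∧ g ∈ P then (1 - ‖y‖) * crd i y else 0) ?_ fun y hy => ?_
  · split_ifs
    · have := continuous_crd i k
      fun_prop
    · fun_prop
  · by_cases h : ‖y‖ < 1
    · simp only [chi_of_lt _ _ h]
      rfl
    · have h1 : ‖y‖ = 1 := le_antisymm (mem_closedBall_zero_iff.1 hy) (not_lt.1 h)
      have h2 := att_lt hD hj' (mem_sphere_zero_iff_norm.2 h1)
      simp only [chi_of_not_lt _ _ h, bump, h1, sub_self, zero_mul, ite_self]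
      rw [if_neg]
      rintro ⟨h3, -⟩
      rw [smul_n] at h3
      omega

theorem sep (p q : Pt G) (hp : ‖p.y‖ < 1) (hle : q.n ≤ p.n)
    (h : ∀ i, rext D p.n (bump p.n p.j i univ) q = rext D p.n (bump p.n p.j i univ) p) :
    ∃ a : G, a • q = p := by
  simp only [rext_low hle, rext_low le_rfl] at h
  obtain ⟨n, g, j, y⟩ := p
  obtain ⟨n', g', j', y'⟩ := q
  simp only [bump, mem_univ, and_true, and_self, if_true] at h hp
  have h0 := h n
  rw [crd.eq_1 n y, dif_neg (lt_irrefl n), mul_one] at h0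
  split_ifs at h0 with h1
  · obtain ⟨rfl, rfl⟩ := h1
    rw [crd, dif_neg (lt_irrefl _), mul_one] at h0
    obtain rfl : y' = y := by
      funext i
      have h2 := h i
      simp only [and_self, if_true, crd, i.2, dif_pos, h0] at h2
      exact mul_left_cancel₀ (by linarith) h2
    exact ⟨g * g'⁻¹, by simp⟩
  · linarith

theorem rext_self (p : Pt G) (hp : ‖p.y‖ < 1) : rext D p.n (bump p.n p.j p.n {p.g}) p ≠ 0 := by
  rw [rext_low le_rfl, bump, if_pos ⟨rfl, rfl, rfl⟩, crd, dif_neg (lt_irrefl _), mul_one]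
  linarith

end Cover

open Cover

theorem isQuotientCoveringMap (hD : Valid D ⊤) :
    IsQuotientCoveringMap (Quotient.mk'' : Tot D → Base D) G := by
  refine { toIsQuotientMap := isQuotientMap_quotient_mk'
           toContinuousConstSMul := inferInstance
           apply_eq_iff_mem_orbit := Quotient.eq''
           disjoint := fun e => ?_ }
  have hc := rext_cont hD (bump_cont hD e.1.n e.1.j e.1.n {e.1.g})
  refine ⟨{q | rext D e.1.n (bump e.1.n e.1.j e.1.n {e.1.g}) q.1 ≠ 0},
    (isOpen_ne_fun hc continuous_const).mem_nhds ?_, ?_⟩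
  · exact rext_self e.1 e.2.2.2
  · rintro a ⟨_, ⟨q, hq, rfl⟩, hq'⟩
    refine rext_disj (fun p h1 h2 => ?_) q.1 hq' hq
    unfold bump at h1 h2
    have h3 := (of_not_not fun h => h1 (if_neg h)).2.2
    have h4 := (of_not_not fun h => h2 (if_neg h)).2.2
    rw [mem_singleton_iff] at h3 h4
    rw [smul_g, ← h4] at h3
    exact mul_eq_right.1 h3

theorem t2_base (hD : Valid D ⊤) : T2Space (Base D) := by
  let F : Tot D → (ℕ × ℕ × ℕ → ℝ) := fun p t => rext D t.1 (bump t.1 t.2.1 t.2.2 univ) p.1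
  have hF : ∀ p q : Tot D, (MulAction.orbitRel G (Tot D)) p q → F p = F q := by
    rintro _ q ⟨a, rfl⟩
    funext t
    exact rext_smul (fun p => rfl) q.1
  have hc : Continuous F := continuous_pi fun t => rext_cont hD (bump_cont hD _ _ _ _)
  refine T2Space.of_injective_continuous (f := (Quotient.lift F hF : Base D → _)) ?_
    (hc.quotient_lift hF)
  rintro ⟨p⟩ ⟨q⟩ h
  have h' : F p = F q := h
  rcases le_total (Pt.n q.1) (Pt.n p.1) with hle | hle
  · obtain ⟨a, ha⟩ := sep (D := D) p.1 q.1 p.2.2.2 hle fun i => (congrFun h' (_, _, i)).symm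
    exact Quotient.sound' ⟨a, Subtype.ext ha⟩
  · obtain ⟨a, ha⟩ := sep (D := D) q.1 p.1 q.2.2.2 hle fun i => congrFun h' (_, _, i)
    exact (Quotient.sound' ⟨a, Subtype.ext ha⟩ : (Quotient.mk'' q : Base D) = Quotient.mk'' p).symm

end Crest.Agent.R185.Br
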