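import Crest.Agent.R185.SC
/-!
Row 185, bridge from coarse connectivity to type `F∞`: free `G`-cell complexes on a fixed carrier.

A point is `⟨n, g, j, y⟩` (dimension, group element, cell index, coordinate in the open sup-norm
ball).  `D : Data G` gives the number `N n` of orbits of `n`-cells and the attaching maps.
`Sp D n` is the carrier with the topology coinduced by the characteristic maps of the cells of
dimension `< n`; `sk D n` is the set of points of cells of dimension `< n` (all other points of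
`Sp D n` are isolated).  We never compare `Sp D n` with the subspace topology from `Sp D n'`.
-/
set_option autoImplicit false
open Set Filter Topology Metric
open scoped Pointwise

namespace Crest.Agent.R185.Br

/-- Points of the complexes. -/
@[ext] structure Pt (G : Type) where
  n : ℕ
  g : G
  j : ℕ
  y : Fin n → ℝ

variable {G : Type} [Group G]

instance : MulAction G (Pt G) where
  smul a p := ⟨p.n, a * p.g, p.j, p.y⟩
  one_smul p := by cases p; change Pt.mk _ _ _ _ = _; simp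
  mul_smul a b p := by
    cases p; exact congrArg (fun g => Pt.mk _ g _ _) (mul_assoc _ _ _)

@[simp] theorem smul_mk (a : G) (n : ℕ) (g : G) (j : ℕ) (y : Fin n → ℝ) :
    a • (⟨n, g, j, y⟩ : Pt G) = ⟨n, a * g, j, y⟩ := rfl
@[simp] theorem smul_n (a : G) (p : Pt G) : (a • p).n = p.n := rfl
@[simp] theorem smul_g (a : G) (p : Pt G) : (a • p).g = a * p.g := rfl
@[simp] theorem smul_j (a : G) (p : Pt G) : (a • p).j = p.j := rfl
@[simp] theorem smul_y (a : G) (p : Pt G) : (a • p).y = p.y := rfl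

/-- The base vertex. -/
def x0 : Pt G := ⟨0, 1, 0, 0⟩

/-- Cell data. -/
structure Data (G : Type) where
  N : ℕ → ℕ
  att : ∀ n : ℕ, ℕ → (Fin n → ℝ) → Pt G

variable (D : Data G)

open Classical in
/-- Characteristic map of the cell `(n, g, j)`. -/
noncomputable def chi (n : ℕ) (g : G) (j : ℕ) (y : Fin n → ℝ) : Pt G :=
  if ‖y‖ < 1 then ⟨n, g, j, y⟩ else g • D.att n j y

/-- Points of the cells of dimension `< n`. -/
def sk (n : ℕ∞) : Set (Pt G) := {p | (p.n : ℕ∞) < n ∧ p.j < D.N p.n ∧ ‖p.y‖ < 1}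

/-- The topology coinduced by the characteristic maps of the cells of dimension `< n`. -/
@[reducible] noncomputable def top (n : ℕ∞) : TopologicalSpace (Pt G) :=
  ⨆ (m : ℕ) (_ : (m : ℕ∞) < n) (g : G) (j : ℕ) (_ : j < D.N m),
    TopologicalSpace.coinduced (fun y : closedBall (0 : Fin m → ℝ) 1 => chi D m g j y) inferInstance

/-- The carrier with the topology `top D n`. -/
def Sp (_D : Data G) (_n : ℕ∞) : Type := Pt G

noncomputable instance (n : ℕ∞) : TopologicalSpace (Sp D n) := top D n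
instance (n : ℕ∞) : MulAction G (Sp D n) := inferInstanceAs (MulAction G (Pt G))

/-- `f` is continuous on `K` as a map to `Sp D n`, with values in `sk D n`. -/
def Cont (n : ℕ∞) {X : Type*} [TopologicalSpace X] (f : X → Pt G) (K : Set X) : Prop :=
  @ContinuousOn X (Sp D n) _ _ f K ∧ MapsTo f K (sk D n)

/-- The attaching maps of the cells of dimension `< n` are continuous into the lower skeleton. -/
def Valid (n : ℕ∞) : Prop :=
  ∀ m : ℕ, (m : ℕ∞) < n → ∀ j < D.N m, Cont D m (D.att m j) (sphere 0 1)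

/-- Agreement of two data below dimension `n`. -/
def Agree (D D' : Data G) (n : ℕ∞) : Prop :=
  ∀ m : ℕ, (m : ℕ∞) < n → D.N m = D'.N m ∧ D.att m = D'.att m

/-- Every `n`-sphere in the `n`-skeleton bounds in the `(n+1)`-skeleton. -/
def Fill (n : ℕ) : Prop :=
  ∀ σ : (Fin (n + 1) → ℝ) → Pt G, Cont D ((n + 1 : ℕ) : ℕ∞) σ (sphere 0 1) →
    ∃ φ : (Fin (n + 1) → ℝ) → Pt G, Cont D ((n + 2 : ℕ) : ℕ∞) φ (closedBall 0 1) ∧
      EqOn φ σ (sphere 0 1)

/-- `H` is a contraction of the cells of dimension `< m` to `x0` inside the cells of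
dimension `< m + 1`. -/
def Contr (m : ℕ) (H : Pt G × ℝ → Pt G) : Prop :=
  @Cont G _ D ((m + 1 : ℕ) : ℕ∞) (Sp D m × ℝ) _ H (sk D m ×ˢ Icc 0 1) ∧
    ∀ p ∈ sk D m, H (p, 0) = p ∧ H (p, 1) = x0

variable {D}

theorem chi_of_lt {n : ℕ} (g : G) (j : ℕ) {y : Fin n → ℝ} (h : ‖y‖ < 1) :
    chi D n g j y = ⟨n, g, j, y⟩ := if_pos h

theorem chi_of_not_lt {n : ℕ} (g : G) (j : ℕ) {y : Fin n → ℝ} (h : ¬ ‖y‖ < 1) :
    chi D n g j y = g • D.att n j y := if_neg h

theorem smul_chi (a : G) {n : ℕ} (g : G) (j : ℕ) (y : Fin n → ℝ) :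
    a • chi D n g j y = chi D n (a * g) j y := by
  unfold chi; split_ifs <;> simp [mul_smul]

theorem smul_mem_sk {n : ℕ∞} (a : G) {p : Pt G} : a • p ∈ sk D n ↔ p ∈ sk D n := Iff.rfl

theorem sk_mono {n n' : ℕ∞} (h : n ≤ n') : sk D n ⊆ sk D n' :=
  fun _ hp => ⟨hp.1.trans_le h, hp.2⟩

theorem eq_chi {n : ℕ∞} {p : Pt G} (hp : p ∈ sk D n) : p = chi D p.n p.g p.j p.y :=
  (chi_of_lt _ _ hp.2.2).symm

theorem isOpen_iff {n : ℕ∞} {U : Set (Sp D n)} : IsOpen U ↔ ∀ m : ℕ, (m : ℕ∞) < n → ∀ g : G,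
    ∀ j < D.N m, IsOpen ((fun y : closedBall (0 : Fin m → ℝ) 1 => (chi D m g j y : Sp D n)) ⁻¹' U) := by
  change @IsOpen (Pt G) (top D n) U ↔ _
  simp only [top, isOpen_iSup_iff, isOpen_coinduced]

theorem isClosed_iff {n : ℕ∞} {U : Set (Sp D n)} : IsClosed U ↔ ∀ m : ℕ, (m : ℕ∞) < n → ∀ g : G,
    ∀ j < D.N m,
      IsClosed ((fun y : closedBall (0 : Fin m → ℝ) 1 => (chi D m g j y : Sp D n)) ⁻¹' U) := by
  rw [← isOpen_compl_iff, isOpen_iff]
  exact forall₂_congr fun m hm => forall₃_congr fun g j hj => isOpen_compl_iff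

theorem continuous_iff {n : ℕ∞} {Z : Type*} [TopologicalSpace Z] {f : Sp D n → Z} :
    Continuous f ↔ ∀ m : ℕ, (m : ℕ∞) < n → ∀ g : G, ∀ j < D.N m,
      ContinuousOn (fun y => f (chi D m g j y)) (closedBall 0 1) := by
  change @Continuous (Pt G) Z (top D n) _ f ↔ _
  simp only [top, continuous_iSup_dom, continuous_coinduced_dom, continuousOn_iff_continuous_restrict]
  rfl

theorem continuousOn_chi {n : ℕ∞} {m : ℕ} (hm : (m : ℕ∞) < n) (g : G) {j : ℕ} (hj : j < D.N m) :
    @ContinuousOn _ (Sp D n) _ _ (chi D m g j) (closedBall 0 1) :=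
  (continuous_iff (f := id)).1 continuous_id m hm g j hj

theorem continuous_incl {n n' : ℕ∞} (h : n ≤ n') : @Continuous (Sp D n) (Sp D n') _ _ id :=
  continuous_iff.2 fun _ hm g _ hj => continuousOn_chi (hm.trans_le h) g hj

instance (n : ℕ∞) : ContinuousConstSMul G (Sp D n) where
  continuous_const_smul a := continuous_iff.2 fun m hm g j hj => by
    have := continuousOn_chi (D := D) hm (a * g) hj
    refine this.congr fun y _ => ?_
    exact smul_chi a g j y

section Cont
variable {X Y : Type*} [TopologicalSpace X] [TopologicalSpace Y]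

theorem Cont.incl {n n' : ℕ∞} (h : n ≤ n') {f : X → Pt G} {K : Set X} (hf : Cont D n f K) :
    Cont D n' f K :=
  ⟨(continuous_incl h).comp_continuousOn hf.1, hf.2.mono_right (sk_mono h)⟩

theorem Cont.mono {n : ℕ∞} {f : X → Pt G} {K L : Set X} (hf : Cont D n f K) (h : L ⊆ K) :
    Cont D n f L := ⟨hf.1.mono h, hf.2.mono_left h⟩

theorem Cont.congr {n : ℕ∞} {f f' : X → Pt G} {K : Set X} (hf : Cont D n f K) (h : EqOn f' f K) :
    Cont D n f' K := ⟨hf.1.congr h, fun x hx => h hx ▸ hf.2 hx⟩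

theorem Cont.comp {n : ℕ∞} {f : X → Pt G} {K : Set X} (hf : Cont D n f K) {u : Y → X} {L : Set Y}
    (hu : ContinuousOn u L) (hm : MapsTo u L K) : Cont D n (f ∘ u) L :=
  ⟨ContinuousOn.comp (β := X) (γ := Sp D n) hf.1 hu hm, hf.2.comp hm⟩

theorem Cont.smul {n : ℕ∞} {f : X → Pt G} {K : Set X} (hf : Cont D n f K) (a : G) :
    Cont D n (fun x => a • f x) K :=
  ⟨(continuous_const_smul (T := Sp D n) a).comp_continuousOn hf.1, fun _ hx => hf.2 hx⟩

theorem Cont.union {n : ℕ∞} {f : X → Pt G} {K L : Set X} (hK : Cont D n f K) (hL : Cont D n f L)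
    (cK : IsClosed K) (cL : IsClosed L) : Cont D n f (K ∪ L) :=
  ⟨ContinuousOn.union_of_isClosed (β := Sp D n) hK.1 hL.1 cK cL, hK.2.union hL.2⟩

end Cont

theorem cont_chi {n : ℕ∞} (hD : Valid D n) {m : ℕ} (hm : (m : ℕ∞) < n) (g : G) {j : ℕ}
    (hj : j < D.N m) : Cont D n (chi D m g j) (closedBall 0 1) := by
  refine ⟨continuousOn_chi hm g hj, fun y hy => ?_⟩
  by_cases h : ‖y‖ < 1
  · rw [chi_of_lt _ _ h]; exact ⟨hm, hj, h⟩
  · rw [chi_of_not_lt _ _ h, smul_mem_sk]
    refine sk_mono hm.le ((hD m hm j hj).2 ?_)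
    rw [mem_sphere_zero_iff_norm]
    exact le_antisymm (mem_closedBall_zero_iff.1 hy) (not_lt.1 h)

theorem Valid.mono {n n' : ℕ∞} (hD : Valid D n') (h : n ≤ n') : Valid D n :=
  fun m hm => hD m (hm.trans_le h)

theorem Agree.mono {D' : Data G} {n n' : ℕ∞} (hD : Agree D D' n') (h : n ≤ n') : Agree D D' n :=
  fun m hm => hD m (hm.trans_le h)

theorem Agree.symm {D' : Data G} {n : ℕ∞} (hD : Agree D D' n) : Agree D' D n :=
  fun m hm => ⟨(hD m hm).1.symm, (hD m hm).2.symm⟩

theorem Agree.chi_eq {D' : Data G} {n : ℕ∞} (hD : Agree D D' n) {m : ℕ} (hm : (m : ℕ∞) < n) :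
    chi D m = chi D' m := by
  funext g j y; unfold chi; rw [(hD m hm).2]

theorem Agree.sk_eq {D' : Data G} {n : ℕ∞} (hD : Agree D D' n) : sk D n = sk D' n := by
  ext p
  refine and_congr_right fun hp => ?_
  rw [(hD _ hp).1]

theorem Agree.top_eq {D' : Data G} {n : ℕ∞} (hD : Agree D D' n) : top D n = top D' n := by
  unfold top
  refine iSup_congr fun m => iSup_congr fun hm => ?_
  rw [hD.chi_eq hm, (hD m hm).1]

theorem Agree.cont {D' : Data G} {n : ℕ∞} (hD : Agree D D' n) {X : Type*} [TopologicalSpace X]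
    {f : X → Pt G} {K : Set X} (hf : Cont D n f K) : Cont D' n f K := by
  refine ⟨?_, hD.sk_eq ▸ hf.2⟩
  have := hf.1
  change @ContinuousOn X (Pt G) _ (top D n) f K at this
  change @ContinuousOn X (Pt G) _ (top D' n) f K
  rwa [← hD.top_eq]

theorem Agree.valid {D' : Data G} {n : ℕ∞} (hD : Agree D D' n) (h : Valid D n) : Valid D' n := by
  intro m hm j hj
  rw [← (hD m hm).1] at hj
  rw [← (hD m hm).2]
  exact (hD.mono hm.le).cont (h m hm j hj)

theorem Agree.fill {D' : Data G} {n : ℕ} (hD : Agree D D' ((n + 2 : ℕ) : ℕ∞)) (h : Fill D n) :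
    Fill D' n := by
  intro σ hσ
  have h1 : Agree D D' ((n + 1 : ℕ) : ℕ∞) := hD.mono (by exact_mod_cast Nat.le_succ _)
  obtain ⟨φ, hφ, e⟩ := h σ (h1.symm.cont hσ)
  exact ⟨φ, hD.cont hφ, e⟩

/-- The total space. -/
abbrev Tot (D : Data G) : Type := {p : Sp D ⊤ // p ∈ sk D ⊤}

instance : MulAction G (Tot D) where
  smul a p := ⟨a • p.1, (smul_mem_sk a).2 p.2⟩
  one_smul p := Subtype.ext (one_smul G p.1)
  mul_smul a b p := Subtype.ext (mul_smul a b p.1)

@[simp] theorem Tot.coe_smul (a : G) (p : Tot D) : (a • p).1 = a • p.1 := rfl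

instance : ContinuousConstSMul G (Tot D) where
  continuous_const_smul a :=
    ((continuous_const_smul a).comp continuous_subtype_val).subtype_mk _

/-- The base space (orbit space). -/
abbrev Base (D : Data G) : Type := MulAction.orbitRel.Quotient G (Tot D)

end Crest.Agent.R185.Br
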