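import Crest.Agent.R185.BrDef
/-! Row 185 bridge: local criteria for continuity, skeleta are closed, local finiteness. -/
set_option autoImplicit false
open Set Filter Topology Metric
open scoped Pointwise

namespace Crest.Agent.R185.Br
variable {G : Type} [Group G] {D : Data G}

namespace Local

theorem chi_mem_sk {k j : ℕ} (hv : Cont D k (D.att k j) (sphere 0 1)) (g : G) {y : Fin k → ℝ}
    (hy : y ∈ closedBall (0 : Fin k → ℝ) 1) (h : ¬ ‖y‖ < 1) : chi D k g j y ∈ sk D k := by
  rw [chi_of_not_lt _ _ h, smul_mem_sk]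
  refine hv.2 ?_
  rw [mem_sphere_zero_iff_norm]
  exact le_antisymm (mem_closedBall_zero_iff.1 hy) (not_lt.1 h)

/-- Closedness of the preimage in one cell of a set missing the open cell. -/
theorem isClosed_cell {k j : ℕ} (hv : Cont D k (D.att k j) (sphere 0 1)) (g : G)
    {A : Set (Pt G)} {B : Set (Sp D k)} (hB : IsClosed B) (hAB : ∀ p ∈ sk D k, p ∈ A ↔ p ∈ B)
    (hA : ∀ y : Fin k → ℝ, ‖y‖ < 1 → (⟨k, g, j, y⟩ : Pt G) ∉ A) :
    IsClosed ((fun y : closedBall (0 : Fin k → ℝ) 1 => chi D k g j y) ⁻¹' A) := by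
  have h1 := (ContinuousOn.preimage_isClosed_of_isClosed (β := Sp D k) (hv.smul g).1
    isClosed_sphere hB).preimage (continuous_subtype_val (p := (· ∈ closedBall (0 : Fin k → ℝ) 1)))
  convert h1 using 1
  ext y
  by_cases hy : ‖(y : Fin k → ℝ)‖ < 1
  · constructor
    · intro h
      change chi D k g j y ∈ A at h
      rw [chi_of_lt _ _ hy] at h
      exact absurd h (hA _ hy)
    · intro h
      exact absurd (mem_sphere_zero_iff_norm.1 h.1) hy.ne
  · have h2 := hAB _ (chi_mem_sk hv g y.2 hy)
    change chi D k g j y ∈ A ↔ (y : Fin k → ℝ) ∈ sphere 0 1 ∧ g • D.att k j y ∈ B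
    rw [h2, chi_of_not_lt _ _ hy, mem_sphere_zero_iff_norm]
    exact ⟨fun h => ⟨le_antisymm (mem_closedBall_zero_iff.1 y.2) (not_lt.1 hy), h⟩, fun h => h.2⟩

end Local

theorem continuousOn_of_isClosed {n : ℕ∞} {Z : Type*} [TopologicalSpace Z] {L : Set (Sp D n)}
    (hL : IsClosed L) {f : Sp D n → Z}
    (h : ∀ m : ℕ, (m : ℕ∞) < n → ∀ g : G, ∀ j < D.N m,
      ContinuousOn (fun y => f (chi D m g j y)) (closedBall 0 1 ∩ {y | chi D m g j y ∈ L})) :
    ContinuousOn f L := by
  rw [continuousOn_iff_isClosed]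
  intro t ht
  refine ⟨L ∩ f ⁻¹' t, isClosed_iff.2 fun m hm g j hj => ?_, by ext p; simp; tauto⟩
  have h1 : ContinuousOn (fun y : closedBall (0 : Fin m → ℝ) 1 => f (chi D m g j y))
      ((fun y : closedBall (0 : Fin m → ℝ) 1 => (chi D m g j y : Sp D n)) ⁻¹' L) :=
    (h m hm g j hj).comp continuous_subtype_val.continuousOn fun y hy => ⟨y.2, hy⟩
  exact h1.preimage_isClosed_of_isClosed (isClosed_iff.1 hL m hm g j hj) ht

theorem continuousOn_of_isOpen {n : ℕ∞} {Z : Type*} [TopologicalSpace Z] {L : Set (Sp D n)}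
    (hL : IsOpen L) {f : Sp D n → Z}
    (h : ∀ m : ℕ, (m : ℕ∞) < n → ∀ g : G, ∀ j < D.N m,
      ContinuousOn (fun y => f (chi D m g j y)) (closedBall 0 1 ∩ {y | chi D m g j y ∈ L})) :
    ContinuousOn f L := by
  rw [continuousOn_open_iff hL]
  intro t ht
  refine isOpen_iff.2 fun m hm g j hj => ?_
  have h1 : ContinuousOn (fun y : closedBall (0 : Fin m → ℝ) 1 => f (chi D m g j y))
      ((fun y : closedBall (0 : Fin m → ℝ) 1 => (chi D m g j y : Sp D n)) ⁻¹' L) :=
    (h m hm g j hj).comp continuous_subtype_val.continuousOn fun y hy => ⟨y.2, hy⟩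
  exact h1.isOpen_inter_preimage (isOpen_iff.1 hL m hm g j hj) ht

/-- Homotopy version (curry into `C(Icc 0 1, Z)`, or use that `· × Icc 0 1` preserves quotient
maps). -/
theorem continuousOn_prod_of_isClosed {n : ℕ∞} {Z : Type*} [TopologicalSpace Z] {L : Set (Sp D n)}
    (hL : IsClosed L) (hLs : ∀ p ∈ L, p ∈ sk D n) {f : Sp D n × ℝ → Z}
    (h : ∀ m : ℕ, (m : ℕ∞) < n → ∀ g : G, ∀ j < D.N m,
      ContinuousOn (fun q : (Fin m → ℝ) × ℝ => f (chi D m g j q.1, q.2))
        ((closedBall 0 1 ∩ {y | chi D m g j y ∈ L}) ×ˢ Icc 0 1)) :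
    ContinuousOn f (L ×ˢ Icc 0 1) := by
  classical
  have hc : ∀ p ∈ L, Continuous fun t : Icc (0 : ℝ) 1 => f (p, t) := by
    intro p hp
    have hs := hLs p hp
    have e := eq_chi hs
    have h1 := (h _ hs.1 (Pt.g p) _ hs.2.1).comp_continuous
      (f := fun t : Icc (0 : ℝ) 1 => ((Pt.y p, (t : ℝ)) : (Fin (Pt.n p) → ℝ) × ℝ))
      (by fun_prop) (fun t => ⟨⟨mem_closedBall_zero_iff.2 hs.2.2.le, by
        change chi D _ _ _ _ ∈ L
        rw [← e]; exact hp⟩, t.2⟩)
    refine h1.congr fun t => ?_
    change f (chi D _ _ _ _, _) = _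
    rw [← e]
  let F : Sp D n → C(Icc (0 : ℝ) 1, Z) := fun p =>
    if hp : Continuous fun t : Icc (0 : ℝ) 1 => f (p, t) then ⟨_, hp⟩
    else ContinuousMap.const _ (f (p, 0))
  have hF : ∀ p ∈ L, ∀ t : Icc (0 : ℝ) 1, F p t = f (p, t) := by
    intro p hp t
    simp only [F, dif_pos (hc p hp)]
    rfl
  have hFc : ContinuousOn F L := by
    refine continuousOn_of_isClosed hL fun m hm g j hj => ?_
    rw [continuousOn_iff_continuous_restrict]
    refine ContinuousMap.continuous_of_continuous_uncurry _ ?_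
    have h1 := (h m hm g j hj).comp_continuous
      (f := fun q : (closedBall (0 : Fin m → ℝ) 1 ∩ {y | chi D m g j y ∈ L} : Set (Fin m → ℝ)) ×
        Icc (0 : ℝ) 1 => ((q.1 : Fin m → ℝ), (q.2 : ℝ)))
      (by fun_prop) (fun q => ⟨q.1.2, q.2.2⟩)
    refine h1.congr fun q => ?_
    exact (hF _ q.1.2.2 q.2).symm
  rw [continuousOn_iff_continuous_restrict]
  have h2 : Continuous fun q : (L ×ˢ Icc (0 : ℝ) 1 : Set (Sp D n × ℝ)) => F q.1.1 :=
    hFc.comp_continuous (by fun_prop) fun q => q.2.1
  have h3 : Continuous fun q : (L ×ˢ Icc (0 : ℝ) 1 : Set (Sp D n × ℝ)) =>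
      (⟨q.1.2, q.2.2⟩ : Icc (0 : ℝ) 1) := Continuous.subtype_mk (by fun_prop) _
  refine (h2.eval h3).congr fun q => ?_
  exact hF _ q.2.1 _

theorem isClosed_sk {n m : ℕ∞} (hD : Valid D n) (h : m ≤ n) :
    @IsClosed (Sp D n) _ (sk D m) := by
  have step : ∀ n : ℕ∞, Valid D n → m ≤ n →
      (∀ k : ℕ, (k : ℕ∞) < n → m ≤ k → @IsClosed (Sp D k) _ (sk D m)) →
      @IsClosed (Sp D n) _ (sk D m) := by
    intro n hD h ih
    refine isClosed_iff.2 fun k hk g j hj => ?_
    rcases lt_or_ge (k : ℕ∞) m with hkm | hkm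
    · convert isClosed_univ
      exact eq_univ_of_forall fun y => (cont_chi (hD.mono h) hkm g hj).2 y.2
    · exact Local.isClosed_cell (hD k hk j hj) g (ih k hk hkm) (fun _ _ => Iff.rfl)
        fun y _ hy => absurd hy.1 (not_lt.2 hkm)
  have nat : ∀ k : ℕ, Valid D k → m ≤ k → @IsClosed (Sp D k) _ (sk D m) := by
    intro k
    induction k using Nat.strong_induction_on with
    | _ k ih =>
      intro hD hm
      exact step k hD hm fun l hl hml => ih l (by exact_mod_cast hl) (hD.mono hl.le) hml
  exact step n hD h fun k hk hmk => nat k (hD.mono hk.le) hmk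

theorem isOpen_sk {n : ℕ∞} (hD : Valid D n) : @IsOpen (Sp D n) _ (sk D n) := by
  refine isOpen_iff.2 fun k hk g j hj => ?_
  convert isOpen_univ
  exact eq_univ_of_forall fun y => (cont_chi hD hk g hj).2 y.2

/-- The lower skeleton together with any set of top cells is closed. -/
theorem isClosed_sub {m : ℕ} (hD : Valid D ((m + 1 : ℕ) : ℕ∞)) (C : Set (G × ℕ)) :
    @IsClosed (Sp D ((m + 1 : ℕ) : ℕ∞)) _
      {p : Pt G | p ∈ sk D ((m + 1 : ℕ) : ℕ∞) ∧ (p.n < m ∨ (p.g, p.j) ∈ C)} := by
  refine isClosed_iff.2 fun k hk g j hj => ?_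
  have hk' : k < m + 1 := by exact_mod_cast hk
  have hle : ((m : ℕ) : ℕ∞) ≤ ((m + 1 : ℕ) : ℕ∞) := by exact_mod_cast Nat.le_succ m
  rcases (Nat.lt_succ_iff.1 hk').lt_or_eq with hkm | rfl
  · convert isClosed_univ
    refine eq_univ_of_forall fun y => ⟨(cont_chi hD hk g hj).2 y.2, Or.inl ?_⟩
    have := ((cont_chi (hD.mono hle) (by exact_mod_cast hkm) g hj).2 y.2).1
    exact_mod_cast this
  · by_cases hC : (g, j) ∈ C
    · convert isClosed_univ
      refine eq_univ_of_forall fun y => ⟨(cont_chi hD hk g hj).2 y.2, ?_⟩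
      by_cases hy : ‖(y : Fin k → ℝ)‖ < 1
      · right
        beta_reduce
        rw [chi_of_lt _ _ hy]; exact hC
      · left
        have := (Local.chi_mem_sk (hD k hk j hj) g y.2 hy).1
        exact_mod_cast this
    · refine Local.isClosed_cell (hD k hk j hj) g (B := univ) isClosed_univ
        (fun p hp => ⟨fun _ => mem_univ _, fun _ => ⟨sk_mono hle hp, Or.inl ?_⟩⟩) ?_
      · exact_mod_cast hp.1
      · rintro y - ⟨-, h | h⟩
        · exact lt_irrefl _ h
        · exact hC h

/-- Local finiteness: the group coordinate is semicontinuous on a finite dimensional complex. -/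
theorem exists_sc {n : ℕ} (hD : Valid D n) :
    ∃ S : Set G, S.Finite ∧ SCOn S (fun p : Sp D n => Pt.g p) univ := by
  induction n with
  | zero =>
    refine ⟨{1}, finite_singleton _, fun x _ => ?_⟩
    rw [nhdsWithin_univ]
    have : IsOpen ({x} : Set (Sp D ((0 : ℕ) : ℕ∞))) :=
      isOpen_iff.2 fun m hm => absurd hm (by simp)
    filter_upwards [this.mem_nhds (mem_singleton x)] with y hy
    rw [mem_singleton_iff.1 hy]; simp
  | succ n ih =>
    have hle : ((n : ℕ) : ℕ∞) ≤ ((n + 1 : ℕ) : ℕ∞) := by exact_mod_cast Nat.le_succ n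
    have hlt : ((n : ℕ) : ℕ∞) < ((n + 1 : ℕ) : ℕ∞) := by exact_mod_cast Nat.lt_succ_self n
    obtain ⟨S, hS, h⟩ := ih (hD.mono hle)
    -- finitely many group coordinates on the attaching spheres of the `n`-cells
    let F : Set G := ⋃ j ∈ Iio (D.N n), (fun y => (D.att n j y).g) '' sphere 0 1
    have hF : F.Finite := (finite_Iio _).biUnion fun j hj =>
      SCOn.finite_image hS (SCOn.comp (X := Sp D n) h (hD n hlt j hj).1 (mapsTo_univ _ _))
        (isCompact_sphere _ _)
    have low : ∀ k < n, ∀ g : G, ∀ j < D.N k, ∀ y : closedBall (0 : Fin k → ℝ) 1,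
        (chi D k g j y).n ≠ n := by
      intro k hk g j hj y
      have := ((cont_chi (hD.mono hle) (by exact_mod_cast hk) g hj).2 y.2).1
      exact ne_of_lt (by exact_mod_cast this)
    refine ⟨S ∪ S * F⁻¹ ∪ {1}, (hS.union (hS.mul hF.inv)).union (finite_singleton _),
      fun x _ => ?_⟩
    rw [nhdsWithin_univ]
    by_cases hx : Pt.n x = n
    · have hV : IsOpen ({p | Pt.n p = n ∧ Pt.g p = Pt.g x} : Set (Sp D ((n + 1 : ℕ) : ℕ∞))) := by
        rw [← isClosed_compl_iff]
        refine isClosed_iff.2 fun k hk g j hj => ?_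
        have hk' : k < n + 1 := by exact_mod_cast hk
        rcases (Nat.lt_succ_iff.1 hk').lt_or_eq with hkm | rfl
        · convert isClosed_univ
          exact eq_univ_of_forall fun y hy => low k hkm g j hj y hy.1
        · by_cases hg : g = Pt.g x
          · refine Local.isClosed_cell (hD k hk j hj) g (B := univ) isClosed_univ
              (fun p hp => ⟨fun _ => mem_univ _, fun _ hp' => ?_⟩) ?_
            · have : p.n < k := by exact_mod_cast hp.1
              exact this.ne hp'.1
            · intro y _ hy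
              exact hy ⟨rfl, hg⟩
          · convert isClosed_univ
            refine eq_univ_of_forall fun y hy => ?_
            by_cases hy' : ‖(y : Fin k → ℝ)‖ < 1
            · have := hy.2
              beta_reduce at this
              rw [chi_of_lt _ _ hy'] at this
              exact hg this
            · have h1 : (chi D k g j y).n < k := by
                exact_mod_cast (Local.chi_mem_sk (hD k hk j hj) g y.2 hy').1
              exact h1.ne hy.1
      filter_upwards [hV.mem_nhds ⟨hx, rfl⟩] with p hp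
      right
      rw [hp.2]; simp
    · have h1 := h x (mem_univ _)
      rw [nhdsWithin_univ] at h1
      obtain ⟨U, hU, hUo, hxU⟩ := eventually_nhds_iff.1 h1
      have hV : IsOpen ({p | (Pt.n p ≠ n ∧ p ∈ U) ∨ (Pt.n p = n ∧ Pt.j p < D.N n ∧
          ∃ y ∈ sphere (0 : Fin n → ℝ) 1, Pt.g p • D.att n (Pt.j p) y ∈ U)} :
          Set (Sp D ((n + 1 : ℕ) : ℕ∞))) := by
        rw [← isClosed_compl_iff]
        refine isClosed_iff.2 fun k hk g j hj => ?_
        have hk' : k < n + 1 := by exact_mod_cast hk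
        rcases (Nat.lt_succ_iff.1 hk').lt_or_eq with hkm | rfl
        · have h2 := isClosed_iff.1 hUo.isClosed_compl k (by exact_mod_cast hkm) g j hj
          convert h2 using 1
          ext y
          have := low k hkm g j hj y
          constructor
          · intro hy hy'
            exact hy (Or.inl ⟨this, hy'⟩)
          · rintro hy (hy' | hy')
            · exact hy hy'.2
            · exact this hy'.1
        · by_cases hg : ∃ y ∈ sphere (0 : Fin k → ℝ) 1, g • D.att k j y ∈ U
          · refine Local.isClosed_cell (hD k hk j hj) g (B := Uᶜ) hUo.isClosed_compl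
              (fun p hp => ?_) ?_
            · have : p.n < k := by exact_mod_cast hp.1
              constructor
              · intro hy hy'
                exact hy (Or.inl ⟨this.ne, hy'⟩)
              · rintro hy (hy' | hy')
                · exact hy hy'.2
                · exact this.ne hy'.1
            · intro y _ hy
              exact hy (Or.inr ⟨rfl, hj, hg⟩)
          · convert isClosed_univ
            refine eq_univ_of_forall fun y hy => ?_
            by_cases hy' : ‖(y : Fin k → ℝ)‖ < 1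
            · beta_reduce at hy
              rw [chi_of_lt _ _ hy'] at hy
              rcases hy with hy | hy
              · exact hy.1 rfl
              · exact hg hy.2.2
            · have h1 : (chi D k g j y).n < k := by
                exact_mod_cast (Local.chi_mem_sk (hD k hk j hj) g y.2 hy').1
              rcases hy with hy | hy
              · refine hg ⟨y, ?_, ?_⟩
                · rw [mem_sphere_zero_iff_norm]
                  exact le_antisymm (mem_closedBall_zero_iff.1 y.2) (not_lt.1 hy')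
                · have := hy.2
                  beta_reduce at this
                  rwa [chi_of_not_lt _ _ hy'] at this
              · exact h1.ne hy.1
      filter_upwards [hV.mem_nhds (Or.inl ⟨hx, hxU⟩)] with p hp
      left
      rcases hp with hp | ⟨-, hj, y, hy, hp⟩
      · exact Or.inl (hU p hp.2)
      · right
        refine ⟨_, hU _ hp, ((D.att n (Pt.j p) y).g)⁻¹, ?_, ?_⟩
        · rw [Set.inv_mem_inv]
          exact mem_biUnion hj ⟨y, hy, rfl⟩
        · change (Pt.g x)⁻¹ * (Pt.g p * _) * _ = _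
          simp [mul_assoc]

theorem Cont.finite_g {n : ℕ} (hD : Valid D n) {X : Type*} [TopologicalSpace X] {f : X → Pt G}
    {K : Set X} (hf : Cont D n f K) (hK : IsCompact K) : ((fun x => (f x).g) '' K).Finite := by
  obtain ⟨S, hS, h⟩ := exists_sc hD
  exact SCOn.finite_image hS (SCOn.comp (X := Sp D n) h hf.1 (mapsTo_univ _ _)) hK

/-- Closure finiteness. -/
theorem exists_face {n : ℕ} (hD : Valid D n) : ∃ F : Set G, F.Finite ∧ ∀ m < n, ∀ g : G,
    ∀ j < D.N m, ∀ y ∈ closedBall (0 : Fin m → ℝ) 1, g⁻¹ * (chi D m g j y).g ∈ F := by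
  refine ⟨⋃ m ∈ Iio n, ⋃ j ∈ Iio (D.N m), (fun y => (chi D m 1 j y).g) '' closedBall 0 1,
    (finite_Iio _).biUnion fun m hm => (finite_Iio _).biUnion fun j hj =>
      Cont.finite_g hD (cont_chi hD (by exact_mod_cast hm) 1 hj) (isCompact_closedBall _ _),
    fun m hm g j hj y hy => mem_biUnion hm (mem_biUnion hj ⟨y, hy, ?_⟩)⟩
  have := smul_chi (D := D) g⁻¹ g j y
  rw [inv_mul_cancel] at this
  change (chi D m 1 j y).g = _
  rw [← this, smul_g]

end Crest.Agent.R185.Br
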