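import Crest.Agent.R185.BrStep
import Crest.Agent.R185.BrCW
/-! Row 185 bridge: coarse connectivity implies type `F∞`. -/
set_option autoImplicit false
open Set Filter Topology Metric
open scoped Pointwise

namespace Crest.Agent.R185
open Br

theorem exists_data {G : Type} [Group G] (hG : Coarse G) :
    ∃ D : Data G, Valid D ⊤ ∧ 0 < D.N 0 ∧ ∀ i, Fill D i := by
  let P : ℕ → Type := fun n =>
    {D : Data G // Valid D ((n + 1 : ℕ) : ℕ∞) ∧ 0 < D.N 0 ∧ ∀ i < n, Fill D i}
  have step : ∀ n, ∀ D : P n, ∃ D' : P (n + 1), Agree D.1 D'.1 ((n + 1 : ℕ) : ℕ∞) := by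
    rintro n ⟨D, hD, h0, hF⟩
    obtain ⟨D', hA, hD', hF'⟩ := exists_step hG hD h0 hF
    refine ⟨⟨D', hD', (hA 0 (by exact_mod_cast Nat.succ_pos _)).1 ▸ h0, fun i hi => ?_⟩, hA⟩
    rcases Nat.lt_succ_iff_lt_or_eq.1 hi with h | rfl
    · exact (hA.mono (by exact_mod_cast (by omega : i + 2 ≤ n + 1))).fill (hF i h)
    · exact hF'
  choose nx hnx using step
  let D₀ : P 0 := ⟨⟨fun m => if m = 0 then 1 else 0, fun _ _ _ => x0⟩, fun m hm j _ => by
    have hm0 : m = 0 := by
      have : m < 0 + 1 := by exact_mod_cast hm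
      omega
    subst hm0
    have : sphere (0 : Fin 0 → ℝ) 1 = ∅ := by
      ext y
      rw [mem_sphere_zero_iff_norm, Subsingleton.elim y 0, norm_zero]
      simp
    rw [this]
    exact ⟨continuousOn_empty (β := Sp _ _) _, mapsTo_empty _ _⟩, one_pos, fun i hi => absurd hi (by omega)⟩
  let Ds : ∀ n, P n := fun n => Nat.rec D₀ nx n
  have hDs : ∀ n, Agree (Ds n).1 (Ds (n + 1)).1 ((n + 1 : ℕ) : ℕ∞) := fun n => hnx n (Ds n)
  have hle : ∀ m n, m ≤ n → Agree (Ds m).1 (Ds n).1 ((m + 1 : ℕ) : ℕ∞) := by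
    intro m n hmn
    induction n, hmn using Nat.le_induction with
    | base => exact fun _ _ => ⟨rfl, rfl⟩
    | succ n hmn ih =>
      intro i hi
      have h2 := hDs n i (hi.trans_le (by exact_mod_cast Nat.succ_le_succ hmn))
      exact ⟨(ih i hi).1.trans h2.1, (ih i hi).2.trans h2.2⟩
  let D : Data G := ⟨fun m => (Ds m).1.N m, fun m => (Ds m).1.att m⟩
  have hA : ∀ n, Agree (Ds n).1 D ((n + 1 : ℕ) : ℕ∞) := fun n m hm => by
    have hm' : m < n + 1 := by exact_mod_cast hm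
    have := hle m n (by omega) m (by exact_mod_cast Nat.lt_succ_self _)
    exact ⟨this.1.symm, this.2.symm⟩
  refine ⟨D, fun m _ => (hA m).valid (Ds m).2.1 m (by exact_mod_cast Nat.lt_succ_self _),
    (Ds 0).2.2.1, fun i => (hA (i + 1)).fill ((Ds (i + 1)).2.2.2 i (Nat.lt_succ_self _))⟩

theorem hasFiniteType_of_coarse {G : Type} [Group G] (hG : Coarse G) :
    Crest.Topology.HasFiniteTypeClassifyingComplex G := by
  obtain ⟨D, hD, h0, hF⟩ := exists_data hG
  exact hasFiniteType_of_contractible hD (contractible hD h0 hF)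

end Crest.Agent.R185
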