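import Crest.Agent.R185.Grid
/-! Row 185: from sphere extension to extension from compact sets; transfer to subgroups. -/
set_option autoImplicit false
open Set Filter Topology Metric
open scoped Pointwise

namespace Crest.Agent.R185
variable {G G' : Type*} [Group G] [Group G']

namespace ExtOfAux

theorem uniform {S : Set G} {X : Type*} [MetricSpace X] {K : Set X} (hK : IsCompact K)
    {f : X → G} (hf : SCOn S f K) :
    ∃ δ > 0, ∀ x ∈ K, ∀ y ∈ K, dist x y ≤ δ → (f x)⁻¹ * f y ∈ S⁻¹ * S := by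
  have h1 : ∀ z : K, ∃ V : Set X, IsOpen V ∧ (z : X) ∈ V ∧ ∀ y ∈ V, y ∈ K → (f z)⁻¹ * f y ∈ S := by
    intro z
    obtain ⟨V, hV, hz, hsub⟩ := mem_nhdsWithin.1 (hf z z.2)
    exact ⟨V, hV, hz, fun y hy hyK => hsub ⟨hy, hyK⟩⟩
  choose V hVo hVz hV using h1
  obtain ⟨δ, hδ, H⟩ := lebesgue_number_lemma_of_metric hK hVo
    (fun x hx => mem_iUnion.2 ⟨⟨x, hx⟩, hVz ⟨x, hx⟩⟩)
  refine ⟨δ / 2, by positivity, fun x hx y hy hxy => ?_⟩
  obtain ⟨z, hz⟩ := H x hx
  have hx' := hV z x (hz (mem_ball_self hδ)) hx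
  have hy' := hV z y (hz (by rw [mem_ball, dist_comm]; linarith)) hy
  refine ⟨((f z)⁻¹ * f x)⁻¹, by simpa using hx', (f z)⁻¹ * f y, hy', by group⟩

end ExtOfAux

/-- A semicontinuous function on a compact set extends to an open neighbourhood. -/
theorem SCOn.exists_nhd {S : Set G} {X : Type*} [MetricSpace X] {K : Set X} (hK : IsCompact K)
    {f : X → G} (hf : SCOn S f K) :
    ∃ (U : Set X) (F : X → G), IsOpen U ∧ K ⊆ U ∧ SCOn (S ∪ S⁻¹ * S) F U ∧ EqOn F f K := by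
  rcases K.eq_empty_or_nonempty with rfl | hne
  · exact ⟨∅, f, isOpen_empty, subset_rfl, fun x hx => hx.elim, fun x hx => rfl⟩
  obtain ⟨δ, hδ, H⟩ := ExtOfAux.uniform hK hf
  choose p hpK hp using fun x => hK.exists_infDist_eq_dist hne x
  refine ⟨{x | infDist x K < δ / 4}, fun x => f (p x),
    isOpen_lt (continuous_infDist_pt K) continuous_const, fun x hx => ?_, fun x hx => ?_,
    fun x hx => ?_⟩
  · change infDist x K < δ / 4
    rw [infDist_zero_of_mem hx]; positivity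
  · filter_upwards [self_mem_nhdsWithin,
      mem_nhdsWithin_of_mem_nhds (ball_mem_nhds x (show 0 < δ / 4 by positivity))] with y hy hxy
    refine Or.inr (H _ (hpK x) _ (hpK y) ?_)
    have h1 : dist x (p x) < δ / 4 := by rw [← hp x]; exact hx
    have h2 : dist y (p y) < δ / 4 := by rw [← hp y]; exact hy
    have h3 : dist y x < δ / 4 := hxy
    have h4 := dist_triangle4 (p x) x y (p y)
    rw [dist_comm (p x) x, dist_comm x y] at h4
    linarith
  · have h1 : dist x (p x) = 0 := by rw [← hp x, infDist_zero_of_mem hx]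
    change f (p x) = f x
    rw [← dist_eq_zero.1 h1]

/-- Uniform version of semicontinuity on a compact set. -/
theorem SCOn.exists_uniform {S : Set G} {X : Type*} [MetricSpace X] {K : Set X} (hK : IsCompact K)
    {f : X → G} (hf : SCOn S f K) :
    ∃ δ > 0, ∀ x ∈ K, ∀ y ∈ K, dist x y ≤ δ → (f x)⁻¹ * f y ∈ S⁻¹ * S := by
  exact ExtOfAux.uniform hK hf

theorem ext_iter (ρ : G →* G) (j : ℕ) (h : ∀ n < j, SExt n ρ) (σ : G →* G)
    (hσ : ∀ g, σ g = ρ^[j] g) : Ext j σ := by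
  intro S hS
  have h1 : ∀ (k : ℕ) (T : {T : Set G // T.Finite}), ∃ T' : {T : Set G // T.Finite},
      ρ '' T.1 ⊆ T'.1 ∧ (k < j → ∀ f : (Fin (k + 1) → ℝ) → G, SCOn T.1 f (sphere 0 1) →
        ∃ F : (Fin (k + 1) → ℝ) → G, SCOn T'.1 F (closedBall 0 1) ∧
          ∀ x ∈ sphere (0 : Fin (k + 1) → ℝ) 1, F x = ρ (f x)) := by
    intro k T
    by_cases hk : k < j
    · obtain ⟨T', hT', H⟩ := h k hk T.1 T.2
      refine ⟨⟨ρ '' T.1 ∪ T', (T.2.image _).union hT'⟩, subset_union_left, fun _ f hf => ?_⟩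
      obtain ⟨F, hF, e⟩ := H f hf
      exact ⟨F, hF.mono subset_union_right, e⟩
    · exact ⟨⟨ρ '' T.1, T.2.image _⟩, subset_rfl, fun hk' => absurd hk' hk⟩
  choose nxt hn1 hn2 using h1
  let T0 : {T : Set G // T.Finite} :=
    ⟨(S ∪ S⁻¹ * S) ∪ {1}, (hS.union (hS.inv.mul hS)).union (finite_singleton _)⟩
  let Tk : ℕ → {T : Set G // T.Finite} := fun k => Nat.rec T0 nxt k
  have hTk : ∀ k, Tk (k + 1) = nxt k (Tk k) := fun k => rfl
  refine ⟨(Tk j).1, (Tk j).2, fun K₀ K hK₀ hK hsub f hf => ?_⟩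
  obtain ⟨U, F₀, hU, hKU, hF₀, e⟩ := hf.exists_nhd hK₀
  obtain ⟨r, hr⟩ := (hK₀.union hK).isBounded.subset_ball 0
  obtain ⟨F, hF, eF⟩ := grid_ext (fun k C F => SCOn (Tk k).1 F C) ρ hK₀ hK hU hKU one_pos hr
    (fun k C C' F hF hC => hF.mono_set hC)
    (fun k C F F' hF hC => hF.congr hC)
    (fun k C C' F c c' hF hF' => hF.union hF' c c')
    (fun k _ C F hF => by
      rw [hTk]
      exact (hF.map ρ).mono (hn1 k (Tk k)))
    (fun x _ => ⟨1, scOn_const (S := T0.1) (mem_union_right _ (mem_singleton _)) _ _⟩)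
    (fun k hk u v hu hv hvu _ _ F hF => by
      obtain ⟨F', hF', e'⟩ := hn2 k (Tk k) hk (F ∘ u)
        (hF.comp hu.continuousOn (mapsTo_image u _))
      refine ⟨F' ∘ v, ?_, ?_⟩
      · rw [hTk]
        refine hF'.comp hv.continuousOn ?_
        rintro _ ⟨y, hy, rfl⟩
        rw [hvu]; exact hy
      · rintro _ ⟨y, hy, rfl⟩
        simp only [Function.comp_apply, hvu]
        exact e' y hy)
    (F₀ := F₀) (hF₀.mono subset_union_left)
  refine ⟨F, hF, fun x hx => ?_⟩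
  rw [eF hx, hσ, Function.comp_apply, e hx]

/-- If `ι ∘ σ` is conjugation of `ι` by `c` and `σ` has the extension property then data close to a
coset `a • range ι` extend with values close to `a c⁻¹ • range ι`. -/
theorem FExt.of_conj {j : ℕ} (ι : G' →* G) (hι : Function.Injective ι) (σ : G' →* G') (c : G)
    (hc : ∀ x, ι (σ x) = c * ι x * c⁻¹) (h : Ext j σ) :
    FExt j (fun a : G => a • (ι.range : Set G)) (fun a => {(a * c⁻¹) • (ι.range : Set G)}) := by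
  classical
  intro S hS
  have hS1 : (ι ⁻¹' (S * S * S⁻¹)).Finite :=
    ((hS.mul hS).mul hS.inv).preimage hι.injOn
  obtain ⟨T₁, hT₁, H⟩ := h _ hS1
  have hS' : (S ∪ {1} : Set G).Finite := hS.union (finite_singleton _)
  refine ⟨(S ∪ {1})⁻¹ * {c⁻¹} * (ι '' T₁) * {c} * (S ∪ {1}) ∪ {c} * (S ∪ {1}),
    (((((hS'.inv.mul (finite_singleton _)).mul (hT₁.image _)).mul (finite_singleton _)).mul
      hS')).union ((finite_singleton _).mul hS'), fun a K₀ K hK₀ hK hsub f hf hO => ?_⟩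
  have h1 : ∀ x, ∃ (k : G') (s : G), s ∈ S ∪ {1} ∧ (x ∈ K₀ → s ∈ S ∧ f x = a * ι k * s) := by
    intro x
    by_cases hx : x ∈ K₀
    · obtain ⟨_, ⟨_, ⟨k, rfl⟩, rfl⟩, s, hs, e⟩ := hO x hx
      exact ⟨k, s, Or.inl hs, fun _ => ⟨hs, e.symm⟩⟩
    · exact ⟨1, 1, Or.inr rfl, fun hx' => absurd hx' hx⟩
  choose k s hs hks using h1
  have hk : SCOn (ι ⁻¹' (S * S * S⁻¹)) k K₀ := by
    intro x hx
    filter_upwards [hf x hx, self_mem_nhdsWithin] with y hy hyK
    obtain ⟨hsx, ex⟩ := hks x hx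
    obtain ⟨hsy, ey⟩ := hks y hyK
    refine ⟨s x * ((f x)⁻¹ * f y), mul_mem_mul hsx hy, (s y)⁻¹, by simpa using hsy, ?_⟩
    rw [ex, ey, map_mul, map_inv]
    group
  obtain ⟨K', hK', e⟩ := H K₀ K hK₀ hK hsub k hk
  refine ⟨fun x => a * c⁻¹ * ι (K' x) * c * s x, fun x hx => ?_, fun x hx => ?_,
    fun x hx U hU => ?_⟩
  · filter_upwards [hK' x hx] with y hy
    refine Or.inl ⟨(s x)⁻¹ * c⁻¹ * ι ((K' x)⁻¹ * K' y) * c,
      mul_mem_mul (mul_mem_mul (mul_mem_mul (by simpa using hs x) rfl) ⟨_, hy, rfl⟩) rfl,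
      s y, hs y, ?_⟩
    rw [map_mul, map_inv]
    group
  · beta_reduce
    rw [(hks x hx).2, e x hx, hc]
    group
  · rw [mem_singleton_iff.1 hU]
    refine ⟨a * c⁻¹ * ι (K' x), ⟨ι (K' x), ⟨K' x, rfl⟩, rfl⟩, c * s x,
      Or.inr (mul_mem_mul rfl (hs x)), ?_⟩
    group

/-- Monotonicity of `FExt` up to bounded error. -/
theorem FExt.mono {j : ℕ} {A A' : Type*} {O : A → Set G} {W : A → Set (Set G)} {O' : A' → Set G}
    {W' : A' → Set (Set G)} (h : FExt j O W) {T : Set G} (hT : T.Finite) (u : A' → A)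
    (hO : ∀ a, O' a ⊆ O (u a) * T) (hW : ∀ a, ∀ U' ∈ W' a, ∃ U ∈ W (u a), U ⊆ U' * T) :
    FExt j O' W' := by
  intro S hS
  obtain ⟨T', hT', H⟩ := h (S ∪ T * S) (hS.union (hT.mul hS))
  refine ⟨T' ∪ T * T', hT'.union (hT.mul hT'), fun a K₀ K hK₀ hK hsub f hf hO' => ?_⟩
  obtain ⟨F, hF, e, hFW⟩ := H (u a) K₀ K hK₀ hK hsub f (hf.mono subset_union_left) (fun x hx => by
    obtain ⟨o, ho, s, hs, e⟩ := hO' x hx
    obtain ⟨o', ho', t, ht, e'⟩ := hO a ho
    refine ⟨o', ho', t * s, Or.inr (mul_mem_mul ht hs), ?_⟩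
    rw [← e, ← e']
    simp only [mul_assoc])
  refine ⟨F, hF.mono subset_union_left, e, fun x hx U' hU' => ?_⟩
  obtain ⟨U, hU, hUU⟩ := hW a U' hU'
  obtain ⟨w, hw, t', ht', e⟩ := hFW x hx U hU
  obtain ⟨w', hw', t, ht, e'⟩ := hUU hw
  refine ⟨w', hw', t * t', Or.inr (mul_mem_mul ht ht'), ?_⟩
  rw [← e, ← e']
  simp only [mul_assoc]

/-- A finite union of uniform families is uniform. -/
theorem FExt.sigma {j : ℕ} {I : Type*} [Finite I] {A : I → Type*} {O : (Σ i, A i) → Set G}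
    {W : (Σ i, A i) → Set (Set G)}
    (h : ∀ i, FExt j (fun a : A i => O ⟨i, a⟩) (fun a => W ⟨i, a⟩)) : FExt j O W := by
  intro S hS
  choose T hT H using fun i => h i S hS
  refine ⟨⋃ i, T i, finite_iUnion hT, fun a K₀ K hK₀ hK hsub f hf hO => ?_⟩
  obtain ⟨i, a⟩ := a
  obtain ⟨F, hF, e, hFW⟩ := H i a K₀ K hK₀ hK hsub f hf hO
  exact ⟨F, hF.mono (subset_iUnion T i), e, fun x hx U hU =>
    mul_subset_mul_left (subset_iUnion T i) (hFW x hx U hU)⟩

end Crest.Agent.R185
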