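import Crest.Agent.R185.Grid
import Crest.Agent.R185.BrContr
import Crest.Agent.R185.BrCA
import Crest.Agent.R185.ExtOf
/-! Row 185 bridge: the inductive step. -/
set_option autoImplicit false
open Set Filter Topology Metric
open scoped Pointwise

namespace Crest.Agent.R185.Br
variable {G : Type} [Group G] {D : Data G}

namespace Step

theorem agree_contr {D' : Data G} {m : ℕ} (h : Agree D D' ((m + 1 : ℕ) : ℕ∞))
    {H : Pt G × ℝ → Pt G} (hH : Contr D m H) : Contr D' m H := by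
  have h' : Agree D D' (m : ℕ∞) := h.mono (by exact_mod_cast Nat.le_succ _)
  refine ⟨?_, h'.sk_eq ▸ hH.2⟩
  have h1 := hH.1
  change @Cont G _ D _ (Pt G × ℝ) (@instTopologicalSpaceProd _ _ (top D m) _) H _ at h1
  change @Cont G _ D' _ (Pt G × ℝ) (@instTopologicalSpaceProd _ _ (top D' m) _) H _
  rw [← h'.top_eq, ← h'.sk_eq]
  exact @Agree.cont G _ D D' _ h (Pt G × ℝ) (@instTopologicalSpaceProd _ _ (top D m) _) _ _ h1

theorem agree_coneS {D' : Data G} {m : ℕ} (h : Agree D D' ((m + 1 : ℕ) : ℕ∞))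
    (H : Pt G × ℝ → Pt G) : coneS D H m = coneS D' H m := by
  funext g j z
  unfold coneS
  rw [h.chi_eq (m := m) (by exact_mod_cast Nat.lt_succ_self _)]

theorem x0_mem {n : ℕ} (h0 : 0 < D.N 0) : (x0 : Pt G) ∈ sk D ((n + 1 : ℕ) : ℕ∞) :=
  ⟨by change ((0 : ℕ) : ℕ∞) < _; exact_mod_cast Nat.succ_pos _, h0,
    by change ‖(0 : Fin 0 → ℝ)‖ < 1; rw [norm_zero]; exact one_pos⟩

theorem cont_const {n : ℕ∞} {X : Type*} [TopologicalSpace X] {p : Pt G} (hp : p ∈ sk D n)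
    (K : Set X) : Cont D n (fun _ => p) K :=
  ⟨continuousOn_const (β := Sp D n), fun _ _ => hp⟩

theorem cont_normalize {n : ℕ∞} {k : ℕ} {σ : (Fin k → ℝ) → Pt G} (hσ : Cont D n σ (sphere 0 1))
    {U : Set (Fin k → ℝ)} (hU : ∀ x ∈ U, x ≠ 0) : Cont D n (fun x => σ (‖x‖⁻¹ • x)) U := by
  refine hσ.comp (u := fun x => ‖x‖⁻¹ • x) ?_ fun x hx => ?_
  · exact (continuous_norm.continuousOn.inv₀ fun x hx => norm_ne_zero_iff.2 (hU x hx)).smul
      continuousOn_id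
  · rw [mem_sphere_zero_iff_norm, norm_smul, norm_inv, norm_norm,
      inv_mul_cancel₀ (norm_ne_zero_iff.2 (hU x hx))]

/-- points of a closed cell `(m, g, j)`, `m ≤ n`, are lower dimensional or have coordinate `g` -/
theorem chi_cases {n m : ℕ} (hD : Valid D ((n + 1 : ℕ) : ℕ∞)) (hm : m < n + 1) (g : G) {j : ℕ}
    (hj : j < D.N m) {y : Fin m → ℝ} (hy : y ∈ closedBall (0 : Fin m → ℝ) 1) :
    (chi D m g j y).n < n ∨ (chi D m g j y).g = g := by
  by_cases h : ‖y‖ < 1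
  · right; rw [chi_of_lt _ _ h]
  · left
    rw [chi_of_not_lt _ _ h, smul_n]
    have h1 := ((hD m (by exact_mod_cast hm) j hj).2 (x := y) (by
      rw [mem_sphere_zero_iff_norm]
      exact le_antisymm (mem_closedBall_zero_iff.1 hy) (not_lt.1 h))).1
    have h2 : (D.att m j y).n < m := by exact_mod_cast h1
    omega

end Step
open Step

/-- Attach finitely many orbits of `(n+1)`-cells so that the `R`-bounded pieces of the
`n`-skeleton become boundedly null-homotopic. -/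
theorem exists_cone {n : ℕ} (hD : Valid D ((n + 1 : ℕ) : ℕ∞)) (h0 : 0 < D.N 0)
    (hF : ∀ i < n, Fill D i) {R : Set G} (hR : R.Finite) :
    ∃ D' : Data G, Agree D D' ((n + 1 : ℕ) : ℕ∞) ∧ Valid D' ((n + 2 : ℕ) : ℕ∞) ∧
      ∃ R' : Set G, R'.Finite ∧ ∀ (a : G) (k : ℕ) (σ : (Fin (k + 1) → ℝ) → Pt G),
        Cont D ((n + 1 : ℕ) : ℕ∞) σ (sphere 0 1) →
        (∀ x ∈ sphere (0 : Fin (k + 1) → ℝ) 1, a⁻¹ * (σ x).g ∈ R) →
        ∃ φ : (Fin (k + 1) → ℝ) → Pt G, Cont D' ((n + 2 : ℕ) : ℕ∞) φ (closedBall 0 1) ∧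
          EqOn φ σ (sphere 0 1) ∧ ∀ x ∈ closedBall (0 : Fin (k + 1) → ℝ) 1, a⁻¹ * (φ x).g ∈ R' := by
  classical
  obtain ⟨H, hH⟩ := exists_contr n (hD.mono (by exact_mod_cast Nat.le_succ _)) h0 hF
  obtain ⟨M, f, -, hf⟩ := (hR.prod (finite_Iio (D.N n))).fin_param
  let dec : ℕ → G × ℕ := fun i => if h : i < M then f ⟨i, h⟩ else (1, 0)
  let D' : Data G := ⟨Function.update D.N (n + 1) M,
    Function.update D.att (n + 1) fun i => coneS D H n (dec i).1 (dec i).2⟩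
  have hA : Agree D D' ((n + 1 : ℕ) : ℕ∞) := fun m hm => by
    have : m ≠ n + 1 := by
      have : m < n + 1 := by exact_mod_cast hm
      omega
    exact ⟨(Function.update_of_ne this _ _).symm, (Function.update_of_ne this _ _).symm⟩
  have hN : D'.N (n + 1) = M := Function.update_self _ _ _
  have hatt : D'.att (n + 1) = fun i => coneS D H n (dec i).1 (dec i).2 := Function.update_self _ _ _
  have hD1 : Valid D' ((n + 1 : ℕ) : ℕ∞) := hA.valid hD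
  have hD' : Valid D' ((n + 2 : ℕ) : ℕ∞) := fun m hm j hj => by
    have hm' : m < n + 2 := by exact_mod_cast hm
    rcases Nat.lt_succ_iff_lt_or_eq.1 hm' with h | rfl
    · exact hD1 m (by exact_mod_cast h) j hj
    · rw [hN] at hj
      rw [hatt]
      have : dec j ∈ R ×ˢ Iio (D.N n) := by
        simp only [dec, dif_pos hj]; rw [← hf]; exact mem_range_self _
      exact hA.cont (cont_coneS hD h0 hH _ this.2)
  have hNn : D.N n = D'.N n := (hA n (by exact_mod_cast Nat.lt_succ_self _)).1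
  have h0' : 0 < D'.N 0 := (hA 0 (by exact_mod_cast Nat.succ_pos _)).1 ▸ h0
  have hidx : ∀ g j, ∃ i, g ∈ R → j < D'.N n → i < M ∧ dec i = (g, j) := fun g j => by
    by_cases h : g ∈ R ∧ j < D'.N n
    · have : (g, j) ∈ range f := by rw [hf]; exact ⟨h.1, hNn ▸ h.2⟩
      obtain ⟨i, hi⟩ := this
      exact ⟨i, fun _ _ => ⟨i.2, by simp only [dec, dif_pos i.2]; exact hi⟩⟩
    · exact ⟨0, fun h1 h2 => absurd ⟨h1, h2⟩ h⟩
  choose idx hidx using hidx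
  obtain ⟨H', hH', hH01, -⟩ := contr_ext hD1 (agree_contr hA hH) (R ×ˢ univ)
    (fun g j => chi D' (n + 1) 1 (idx g j)) (fun g j hg hj => by
      obtain ⟨h1, h2⟩ := hidx g j hg.1 hj
      refine ⟨cont_chi hD' (by exact_mod_cast Nat.lt_succ_self _) 1 (hN ▸ h1), fun y hy => ?_⟩
      rw [chi_of_not_lt _ _ (by rw [mem_sphere_zero_iff_norm.1 hy]; exact lt_irrefl _), one_smul,
        hatt, ← agree_coneS hA]
      simp only [h2])
  refine ⟨D', hA, hD', {1} ∪ (fun q => (H' q).g) ''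
    ({p | p ∈ sk D' ((n + 1 : ℕ) : ℕ∞) ∧ p.g ∈ R} ×ˢ Icc 0 1), (finite_singleton _).union ?_,
    fun a k σ hσ hσR => ?_⟩
  · refine ((finite_Iio (n + 1)).biUnion fun m hm => hR.biUnion fun g hg =>
      (finite_Iio (D'.N m)).biUnion (t := fun j => (fun q : (Fin m → ℝ) × ℝ =>
        (H' (chi D' m g j q.1, q.2)).g) '' (closedBall 0 1 ×ˢ Icc 0 1)) fun j hj => ?_).subset ?_
    · have hc := cont_chi hD1 (m := m) (by exact_mod_cast hm) g hj
      refine Cont.finite_g hD' (f := fun q : (Fin m → ℝ) × ℝ => H' (chi D' m g j q.1, q.2)) ?_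
        ((isCompact_closedBall _ _).prod isCompact_Icc)
      refine Cont.comp (X := Sp D' ((n + 1 : ℕ) : ℕ∞) × ℝ) hH'
        (u := fun q : (Fin m → ℝ) × ℝ => (chi D' m g j q.1, q.2)) ?_ fun q hq => ?_
      · exact ContinuousOn.prodMk (β := Sp D' ((n + 1 : ℕ) : ℕ∞))
          (ContinuousOn.comp (γ := Sp D' ((n + 1 : ℕ) : ℕ∞)) hc.1 continuousOn_fst
            fun q hq => hq.1) continuousOn_snd
      · refine ⟨⟨hc.2 hq.1, ?_⟩, hq.2⟩
        rcases chi_cases hD1 hm g hj hq.1 with h | h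
        · exact Or.inl h
        · exact Or.inr ⟨by change (chi D' m g j q.1).g ∈ R; rwa [h], mem_univ _⟩
    · rintro _ ⟨⟨p, t⟩, ⟨⟨hp, hpR⟩, ht⟩, rfl⟩
      simp only [mem_iUnion]
      refine ⟨p.n, by exact_mod_cast hp.1, p.g, hpR, p.j, hp.2.1, (p.y, t),
        ⟨mem_closedBall_zero_iff.2 hp.2.2.le, ht⟩, ?_⟩
      simp only [← eq_chi hp]
  · let A : Set (Fin (k + 1) → ℝ) := {x | 1 / 2 ≤ ‖x‖ ∧ ‖x‖ ≤ 1}
    have hA0 : ∀ x ∈ A, x ≠ 0 := fun x hx h => by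
      have := hx.1; rw [h, norm_zero] at this; norm_num at this
    have hτ := (cont_normalize (hA.cont hσ) hA0).smul a⁻¹
    have hτR : ∀ x ∈ A, (a⁻¹ • σ (‖x‖⁻¹ • x)).g ∈ R := fun x hx => hσR _ (by
      rw [mem_sphere_zero_iff_norm, norm_smul, norm_inv, norm_norm,
        inv_mul_cancel₀ (norm_ne_zero_iff.2 (hA0 x hx))])
    have ht : ∀ x ∈ A, 2 - 2 * ‖x‖ ∈ Icc (0 : ℝ) 1 := fun x hx =>
      ⟨by linarith [hx.2], by linarith [hx.1]⟩
    let ψ : (Fin (k + 1) → ℝ) → Pt G := fun x => a • H' (a⁻¹ • σ (‖x‖⁻¹ • x), 2 - 2 * ‖x‖)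
    have hψ : Cont D' ((n + 2 : ℕ) : ℕ∞) ψ A := by
      refine Cont.smul (Cont.comp (X := Sp D' ((n + 1 : ℕ) : ℕ∞) × ℝ) hH'
        (u := fun x : Fin (k + 1) → ℝ => (a⁻¹ • σ (‖x‖⁻¹ • x), 2 - 2 * ‖x‖)) ?_ fun x hx => ?_) a
      · exact ContinuousOn.prodMk (β := Sp D' ((n + 1 : ℕ) : ℕ∞)) hτ.1 (by fun_prop)
      · exact ⟨⟨hτ.2 hx, Or.inr ⟨hτR x hx, mem_univ _⟩⟩, ht x hx⟩
    have hend := fun x hx => hH01 _ (hτ.2 hx) (Or.inr ⟨hτR x hx, mem_univ _⟩)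
    refine ⟨fun x => if ‖x‖ ≤ 1 / 2 then a • x0 else ψ x, ?_, fun x hx => ?_, fun x hx => ?_⟩
    · have e : closedBall (0 : Fin (k + 1) → ℝ) 1 = closedBall 0 (1 / 2) ∪ A := by
        ext x
        simp only [mem_closedBall_zero_iff, mem_union, A, mem_ofPred_eq]
        constructor
        · intro h
          rcases le_total ‖x‖ (1 / 2) with h' | h'
          · exact Or.inl h'
          · exact Or.inr ⟨h', h⟩
        · rintro (h | h)
          · linarith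
          · exact h.2
      rw [e]
      refine Cont.union ?_ ?_ isClosed_closedBall
        ((isClosed_le continuous_const continuous_norm).inter
          (isClosed_le continuous_norm continuous_const))
      · exact (cont_const (p := a • x0) (x0_mem (n := n + 1) h0') _).congr fun x hx =>
          if_pos (mem_closedBall_zero_iff.1 hx)
      · refine hψ.congr fun x hx => ?_
        split_ifs with h
        · have e1 : 2 - 2 * ‖x‖ = 1 := by linarith [hx.1]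
          simp only [ψ, e1]
          rw [(hend x hx).2]
        · rfl
    · have h1 : ‖x‖ = 1 := mem_sphere_zero_iff_norm.1 hx
      have hxA : x ∈ A := ⟨by rw [h1]; norm_num, h1.le⟩
      beta_reduce
      rw [if_neg (by rw [h1]; norm_num)]
      have e1 : 2 - 2 * ‖x‖ = 0 := by linarith
      simp only [ψ, e1]
      rw [(hend x hxA).1]
      simp [h1]
    · beta_reduce
      split_ifs with h
      · left; simp [x0]
      · right
        have hxA : x ∈ A := ⟨(not_le.1 h).le, mem_closedBall_zero_iff.1 hx⟩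
        refine ⟨(a⁻¹ • σ (‖x‖⁻¹ • x), 2 - 2 * ‖x‖), ⟨⟨hτ.2 hxA, hτR x hxA⟩, ht x hxA⟩, ?_⟩
        simp [ψ]

/-- Bounded low dimensional spheres bound boundedly inside the `n`-skeleton
(`exists_cone` followed by `push_down`). -/
theorem bdd_fill {n : ℕ} (hD : Valid D ((n + 1 : ℕ) : ℕ∞)) (h0 : 0 < D.N 0)
    (hF : ∀ i < n, Fill D i) {R : Set G} (hR : R.Finite) :
    ∃ R' : Set G, R'.Finite ∧ ∀ (a : G), ∀ k < n, ∀ (σ : (Fin (k + 1) → ℝ) → Pt G),
        Cont D ((n + 1 : ℕ) : ℕ∞) σ (sphere 0 1) →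
        (∀ x ∈ sphere (0 : Fin (k + 1) → ℝ) 1, a⁻¹ * (σ x).g ∈ R) →
        ∃ φ : (Fin (k + 1) → ℝ) → Pt G, Cont D ((n + 1 : ℕ) : ℕ∞) φ (closedBall 0 1) ∧
          EqOn φ σ (sphere 0 1) ∧ ∀ x ∈ closedBall (0 : Fin (k + 1) → ℝ) 1, a⁻¹ * (φ x).g ∈ R' := by
  obtain ⟨D', hA, hD', R', hR', h⟩ := exists_cone hD h0 hF hR
  obtain ⟨F, hFf, hp⟩ := push_down (n := n + 1) hD'
  refine ⟨R' * F, hR'.mul hFf, fun a k hk σ hσ hσR => ?_⟩
  obtain ⟨φ, hφ, hφσ, hφR⟩ := h a k σ hσ hσR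
  obtain ⟨φ₁, h1, h2, h3⟩ := hp (k + 1) (by omega) _ (isCompact_closedBall _ _) φ hφ
  refine ⟨φ₁, hA.symm.cont h1, fun x hx => ?_, fun x hx => ?_⟩
  · rw [h2 x (sphere_subset_closedBall hx) (by rw [hφσ hx]; exact (hA.cont hσ).2 hx), hφσ hx]
  · exact ⟨_, hφR x hx, _, h3 x hx, by simp [mul_assoc]⟩

theorem exists_step (hG : Coarse G) {n : ℕ} (hD : Valid D ((n + 1 : ℕ) : ℕ∞)) (h0 : 0 < D.N 0)
    (hF : ∀ i < n, Fill D i) :
    ∃ D' : Data G, Agree D D' ((n + 1 : ℕ) : ℕ∞) ∧ Valid D' ((n + 2 : ℕ) : ℕ∞) ∧ Fill D' n := by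
  obtain ⟨S, hS, hsc⟩ := exists_sc hD
  obtain ⟨T, hT, hext⟩ := hG (n + 1) S hS
  have hW : (T⁻¹ * T).Finite := hT.inv.mul hT
  choose nx hnf hnx using fun R : {R : Set G // R.Finite} => bdd_fill hD h0 hF (hW.mul R.2)
  let Rs : ℕ → {R : Set G // R.Finite} := fun k => Nat.rec ⟨{1}, finite_singleton _⟩
    (fun _ R => ⟨R.1 ∪ T⁻¹ * T * nx R, R.2.union (hW.mul (hnf R))⟩) k
  have hRs : ∀ k, (Rs (k + 1)).1 = (Rs k).1 ∪ T⁻¹ * T * nx (Rs k) := fun _ => rfl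
  have hRs0 : (1 : G) ∈ (Rs 0).1 := rfl
  obtain ⟨D', hA, hD', R', -, hcone⟩ := exists_cone hD h0 hF (hW.mul (Rs n).2)
  refine ⟨D', hA, hD', fun σ hσ' => ?_⟩
  have hσ := hA.symm.cont hσ'
  have up : ∀ {F : (Fin (n + 1) → ℝ) → Pt G} {C}, Cont D ((n + 1 : ℕ) : ℕ∞) F C →
      Cont D' ((n + 2 : ℕ) : ℕ∞) F C := fun h =>
    (hA.cont h).incl (by exact_mod_cast Nat.le_succ _)
  obtain ⟨F₁, hF₁, hF₁σ⟩ := hext _ _ (isCompact_sphere 0 1) (isCompact_closedBall 0 1)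
    sphere_subset_closedBall (fun x => (σ x).g)
    (SCOn.comp (X := Sp D ((n + 1 : ℕ) : ℕ∞)) hsc hσ.1 (mapsTo_univ _ _))
  let ret : (Fin (n + 1) → ℝ) → (Fin (n + 1) → ℝ) := fun x => (max 1 ‖x‖)⁻¹ • x
  have hpos : ∀ x : Fin (n + 1) → ℝ, 0 < max 1 ‖x‖ := fun x => lt_max_of_lt_left one_pos
  have hret : Continuous ret :=
    ((continuous_const.max continuous_norm).inv₀ fun x => (hpos x).ne').smul continuous_id
  have hretm : ∀ x, ret x ∈ closedBall (0 : Fin (n + 1) → ℝ) 1 := fun x => by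
    rw [mem_closedBall_zero_iff, norm_smul, norm_inv, Real.norm_of_nonneg (hpos x).le,
      inv_mul_le_iff₀ (hpos x), mul_one]
    exact le_max_right _ _
  let 𝔉 : (Fin (n + 1) → ℝ) → G := F₁ ∘ ret
  have h𝔉 : SCOn T 𝔉 (closedBall 0 3) := hF₁.comp hret.continuousOn fun x _ => hretm x
  obtain ⟨δ, hδ, hu⟩ := SCOn.exists_uniform (isCompact_closedBall 0 3) h𝔉
  let Good : ℕ → Set (Fin (n + 1) → ℝ) → ((Fin (n + 1) → ℝ) → Pt G) → Prop := fun k C F =>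
    Cont D' ((n + 2 : ℕ) : ℕ∞) F C ∧
      (k ≤ n → Cont D ((n + 1 : ℕ) : ℕ∞) F C ∧ ∀ x ∈ C, (𝔉 x)⁻¹ * (F x).g ∈ (Rs k).1)
  have hU0 : ∀ x ∈ {x : Fin (n + 1) → ℝ | 1 < ‖x‖}, x ≠ 0 := fun x hx h => by
    have : (1 : ℝ) < ‖x‖ := hx
    rw [h, norm_zero] at this; norm_num at this
  have hmono : ∀ k C C' F, Good k C F → C' ⊆ C → Good k C' F :=
    fun k C C' F h hC => ⟨h.1.mono hC, fun hk => ⟨(h.2 hk).1.mono hC,
      fun x hx => (h.2 hk).2 x (hC hx)⟩⟩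
  have hcongr : ∀ k C F F', Good k C F → EqOn F' F C → Good k C F' :=
    fun k C F F' h he => ⟨h.1.congr he, fun hk => ⟨(h.2 hk).1.congr he,
      fun x hx => by rw [he hx]; exact (h.2 hk).2 x hx⟩⟩
  have hunion : ∀ k C C' F, IsClosed C → IsClosed C' → Good k C F → Good k C' F →
      Good k (C ∪ C') F :=
    fun k C C' F c c' h h' => ⟨h.1.union h'.1 c c', fun hk => ⟨(h.2 hk).1.union (h'.2 hk).1 c c',
      fun x hx => hx.elim ((h.2 hk).2 x) ((h'.2 hk).2 x)⟩⟩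
  have hstep : ∀ k < n + 1, ∀ C F, Good k C F → Good (k + 1) C (id ∘ F) :=
    fun k _ C F h => ⟨h.1, fun hk => ⟨(h.2 (by omega)).1,
      fun x hx => Or.inl ((h.2 (by omega)).2 x hx)⟩⟩
  have hvert : ∀ x ∈ closedBall (0 : Fin (n + 1) → ℝ) 3, ∃ z, Good 0 {x} (fun _ => z) :=
    fun x _ => by
      have hc : Cont D ((n + 1 : ℕ) : ℕ∞) (fun _ : Fin (n + 1) → ℝ => 𝔉 x • (x0 : Pt G)) {x} :=
        cont_const ((smul_mem_sk _).2 (x0_mem h0)) _
      refine ⟨𝔉 x • x0, up hc, fun _ => ⟨hc, fun y hy => ?_⟩⟩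
      rw [mem_singleton_iff.1 hy, smul_g]
      change (𝔉 x)⁻¹ * (𝔉 x * 1) ∈ _
      rw [mul_one, inv_mul_cancel]
      exact hRs0
  have hcell : ∀ k < n + 1, ∀ (u : (Fin (k + 1) → ℝ) → (Fin (n + 1) → ℝ))
      (v : (Fin (n + 1) → ℝ) → (Fin (k + 1) → ℝ)),
      Continuous u → Continuous v → (∀ y, v (u y) = y) → u '' closedBall 0 1 ⊆ closedBall 0 3 →
      (∀ y ∈ closedBall (0 : Fin (k + 1) → ℝ) 1, ∀ y' ∈ closedBall (0 : Fin (k + 1) → ℝ) 1,
        dist (u y) (u y') ≤ δ) →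
      ∀ F, Good k (u '' sphere 0 1) F →
        ∃ F', Good (k + 1) (u '' closedBall 0 1) F' ∧ EqOn F' (id ∘ F) (u '' sphere 0 1) := by
    intro k hk u v hu' hv hvu hub hud F h
    obtain ⟨h1, h2⟩ := h.2 (by omega)
    have hs : Cont D ((n + 1 : ℕ) : ℕ∞) (F ∘ u) (sphere 0 1) :=
      h1.comp hu'.continuousOn (mapsTo_image _ _)
    have h00 : (0 : Fin (k + 1) → ℝ) ∈ closedBall (0 : Fin (k + 1) → ℝ) 1 := by simp
    have hnear : ∀ y ∈ closedBall (0 : Fin (k + 1) → ℝ) 1,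
        ∀ y' ∈ closedBall (0 : Fin (k + 1) → ℝ) 1, (𝔉 (u y))⁻¹ * 𝔉 (u y') ∈ T⁻¹ * T :=
      fun y hy y' hy' => hu _ (hub (mem_image_of_mem _ hy)) _ (hub (mem_image_of_mem _ hy'))
        (hud y hy y' hy')
    have hb : ∀ y ∈ sphere (0 : Fin (k + 1) → ℝ) 1,
        (𝔉 (u 0))⁻¹ * ((F ∘ u) y).g ∈ T⁻¹ * T * (Rs k).1 := fun y hy =>
      ⟨_, hnear 0 h00 y (sphere_subset_closedBall hy), _, h2 _ (mem_image_of_mem _ hy),
        by simp [mul_assoc]⟩
    have hvm : MapsTo v (u '' closedBall 0 1) (closedBall 0 1) := by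
      rintro _ ⟨y, hy, rfl⟩; rwa [hvu]
    have heq : ∀ φ : (Fin (k + 1) → ℝ) → Pt G, EqOn φ (F ∘ u) (sphere 0 1) →
        EqOn (φ ∘ v) (id ∘ F) (u '' sphere 0 1) := by
      rintro φ hφ _ ⟨y, hy, rfl⟩
      simpa [hvu] using hφ hy
    rcases Nat.lt_succ_iff_lt_or_eq.1 hk with hk' | hk'
    · obtain ⟨φ, p1, p2, p3⟩ := hnx (Rs k) (𝔉 (u 0)) k hk' _ hs hb
      have p4 := p1.comp hv.continuousOn hvm
      refine ⟨φ ∘ v, ⟨up p4, fun _ => ⟨p4, ?_⟩⟩, heq φ p2⟩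
      rintro _ ⟨y, hy, rfl⟩
      rw [hRs]
      exact Or.inr ⟨_, hnear y hy 0 h00, _, p3 y hy, by simp [hvu, mul_assoc]⟩
    · obtain ⟨φ, p1, p2, -⟩ := hcone (𝔉 (u 0)) k _ hs (hk' ▸ hb)
      exact ⟨φ ∘ v, ⟨p1.comp hv.continuousOn hvm, fun h => absurd h (by omega)⟩, heq φ p2⟩
  have hzero : Good 0 {x | 1 < ‖x‖} (fun x => σ (‖x‖⁻¹ • x)) :=
    ⟨up (cont_normalize hσ hU0), fun _ => ⟨cont_normalize hσ hU0, fun x hx => by
      have hx1 : (1 : ℝ) < ‖x‖ := hx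
      have e : 𝔉 x = (σ (‖x‖⁻¹ • x)).g := by
        simp only [𝔉, ret, Function.comp_apply, max_eq_right hx1.le]
        exact hF₁σ _ (by
          rw [mem_sphere_zero_iff_norm, norm_smul, norm_inv, norm_norm,
            inv_mul_cancel₀ (by linarith)])
      rw [e, inv_mul_cancel]; exact hRs0⟩⟩
  obtain ⟨F, hFg, hFe⟩ := grid_ext Good id (K₀ := sphere 0 2) (K := closedBall 0 2)
    (isCompact_sphere _ _) (isCompact_closedBall _ _) (isOpen_lt continuous_const continuous_norm)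
    (fun x hx => by change 1 < ‖x‖; rw [mem_sphere_zero_iff_norm.1 hx]; norm_num) hδ
    (union_subset (sphere_subset_closedBall.trans (closedBall_subset_ball (by norm_num)))
      (closedBall_subset_ball (by norm_num)))
    hmono hcongr hunion hstep hvert hcell hzero
  refine ⟨F ∘ fun x => (2 : ℝ) • x, hFg.1.comp (by fun_prop) fun x hx => ?_, fun x hx => ?_⟩
  · rw [mem_closedBall_zero_iff] at hx ⊢
    rw [norm_smul, Real.norm_two]; linarith
  · have h1 : ‖x‖ = 1 := mem_sphere_zero_iff_norm.1 hx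
    have h2 : ‖(2 : ℝ) • x‖ = 2 := by rw [norm_smul, Real.norm_two, h1, mul_one]
    rw [Function.comp_apply, hFe (mem_sphere_zero_iff_norm.2 h2), Function.iterate_id]
    simp only [Function.comp_apply, id, h2, smul_smul]
    norm_num

end Crest.Agent.R185.Br
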