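import Crest.Agent.R185.SwindleAux
/-! Row 185: the swindle.  A formally null homomorphism kills coarse `π_n`, `n ≥ 2`. -/
set_option autoImplicit false
open Set Filter Topology Metric
open scoped Pointwise unitInterval Topology.Homotopy

namespace Crest.Agent.R185

/-- `x` is killed by every function on `Hom(B, Γ)` with values in an abelian group that is additive
on pointwise products of commuting homomorphisms. -/
def FNull {B Γ : Type} [Group B] [Group Γ] (x : B →* Γ) : Prop :=
  ∀ (A : Type) [AddCommGroup A] (c : (B →* Γ) → A),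
    (∀ u v w : B →* Γ, (∀ g h, Commute (u g) (v h)) → (∀ g, w g = u g * v g) → c w = c u + c v) →
    c x = 0

namespace Swindle

/-- the algebraic half: `x` kills the loops in the Rips poset, uniformly -/
theorem null_loops {B Γ : Type} [Group B] [Group Γ] {x : B →* Γ} (hx : FNull x) {N : Type}
    [DecidableEq N] [Nontrivial N] {S : Set B} (hS : S.Finite) :
    ∃ (T : Set Γ) (hT : MapsTo x S T), T.Finite ∧
      ∀ p : Ω^ N (R S) (pt S), GenLoop.Homotopic (lmap x hT p) GenLoop.const := by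
  classical
  let c : ∀ (T : Set Γ), Ω^ N (R S) (pt S) → (B →* Γ) → Additive (HomotopyGroup N (R T) (pt T)) :=
    fun T p u => if h : MapsTo u S T then
      Additive.ofMul (α := HomotopyGroup N (R T) (pt T)) ⟦lmap u h p⟧ else 0
  let K : AddSubgroup (FreeAbelianGroup (B →* Γ)) :=
    { carrier := {a | ∃ T₀ : Set Γ, T₀.Finite ∧ ∀ T, T₀ ⊆ T → ∀ p,
        FreeAbelianGroup.lift (c T p) a = 0}
      zero_mem' := ⟨∅, finite_empty, fun _ _ _ => map_zero _⟩
      add_mem' := by
        rintro a b ⟨T₁, h1, ha⟩ ⟨T₂, h2, hb⟩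
        refine ⟨T₁ ∪ T₂, h1.union h2, fun T hT p => ?_⟩
        rw [map_add, ha T (subset_union_left.trans hT), hb T (subset_union_right.trans hT),
          add_zero]
      neg_mem' := by
        rintro a ⟨T₁, h1, ha⟩
        exact ⟨T₁, h1, fun T hT p => by rw [map_neg, ha T hT, neg_zero]⟩ }
  have h0 := hx (FreeAbelianGroup (B →* Γ) ⧸ K)
    (fun u => QuotientAddGroup.mk (FreeAbelianGroup.of u)) (by
      intro u v w hc hw
      rw [← QuotientAddGroup.mk_add, QuotientAddGroup.eq]
      refine ⟨u '' insert 1 S * v '' insert 1 S,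
        ((hS.insert 1).image _).mul ((hS.insert 1).image _), fun T hT p => ?_⟩
      have hu : MapsTo u S T := fun g hg => hT ⟨_, ⟨g, mem_insert_of_mem _ hg, rfl⟩, _,
        ⟨1, mem_insert _ _, rfl⟩, by simp⟩
      have hv : MapsTo v S T := fun g hg => hT ⟨_, ⟨1, mem_insert _ _, rfl⟩, _,
        ⟨g, mem_insert_of_mem _ hg, rfl⟩, by simp⟩
      have hw' : MapsTo w S T := fun g hg => hT ⟨_, ⟨g, mem_insert_of_mem _ hg, rfl⟩, _,
        ⟨g, mem_insert_of_mem _ hg, rfl⟩, (hw g).symm⟩
      simp only [map_add, map_neg, FreeAbelianGroup.lift_apply_of, c, dif_pos hu, dif_pos hv,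
        dif_pos hw']
      rw [lmap_mul hc hw hT hu hv hw' p, neg_add_eq_zero, add_comm]
      rfl)
  obtain ⟨T₀, hT₀, H⟩ := (QuotientAddGroup.eq_zero_iff _).1 h0
  have hT : MapsTo x S (T₀ ∪ x '' S) := fun g hg => Or.inr ⟨g, hg, rfl⟩
  refine ⟨T₀ ∪ x '' S, hT, hT₀.union (hS.image _), fun p => ?_⟩
  have h1 := H (T₀ ∪ x '' S) subset_union_left p
  simp only [FreeAbelianGroup.lift_apply_of, c, dif_pos hT] at h1
  exact Quotient.exact (h1 : (⟦lmap x hT p⟧ : HomotopyGroup N _ _) = ⟦GenLoop.const⟧)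

variable {n : ℕ}

/-- the north pole -/
def pole (n : ℕ) : Fin (n + 1) → ℝ := Pi.single 0 1

theorem norm_pole : ‖pole n‖ = 1 := by simp [pole, Pi.norm_single]

/-- the weight of the pole -/
noncomputable def wgt (z : Fin (n + 1) → ℝ) : ℝ := min 1 (2 * ‖z + pole n‖)

/-- unnormalised deformation of the sphere -/
noncomputable def dfm (s : ℝ) (z : Fin (n + 1) → ℝ) : Fin (n + 1) → ℝ :=
  (1 - s * wgt z) • z + (s * wgt z) • pole n

theorem dfm_ne_zero {s : ℝ} (hs0 : 0 ≤ s) (hs1 : s ≤ 1) {z : Fin (n + 1) → ℝ} (hz : ‖z‖ = 1) :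
    dfm s z ≠ 0 := by
  intro h
  have hw0 : 0 ≤ wgt z := le_min zero_le_one (by positivity)
  have hw1 : wgt z ≤ 1 := min_le_left _ _
  have ha0 : 0 ≤ s * wgt z := mul_nonneg hs0 hw0
  have ha1 : s * wgt z ≤ 1 := mul_le_one₀ hs1 hw0 hw1
  have h1 : (1 - s * wgt z) • z = -((s * wgt z) • pole n) := eq_neg_of_add_eq_zero_left h
  have h2 := congrArg norm h1
  rw [norm_neg, norm_smul, norm_smul, hz, norm_pole, Real.norm_of_nonneg ha0,
    Real.norm_of_nonneg (by linarith)] at h2
  have h3 : s * wgt z = 1 / 2 := by linarith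
  have h4 : (1 / 2 : ℝ) • (z + pole n) = 0 := by
    rw [dfm, h3] at h
    rw [smul_add, ← h]
    norm_num
  have h5 : z + pole n = 0 := (smul_eq_zero.1 h4).resolve_left (by norm_num)
  have h6 : wgt z = 0 := by simp [wgt, h5]
  rw [h6] at h3
  norm_num at h3

/-- deformation of the sphere from the identity to a map collapsing most of it to the pole -/
noncomputable def ret (s : ℝ) (z : Fin (n + 1) → ℝ) : Fin (n + 1) → ℝ := ‖dfm s z‖⁻¹ • dfm s z

theorem norm_ret {s : ℝ} (hs0 : 0 ≤ s) (hs1 : s ≤ 1) {z : Fin (n + 1) → ℝ} (hz : ‖z‖ = 1) :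
    ‖ret s z‖ = 1 := by
  have := norm_ne_zero_iff.2 (dfm_ne_zero hs0 hs1 hz)
  rw [ret, norm_smul, norm_inv, norm_norm, inv_mul_cancel₀ this]

theorem ret_zero {z : Fin (n + 1) → ℝ} (hz : ‖z‖ = 1) : ret 0 z = z := by
  simp [ret, dfm, hz]

theorem ret_one {z : Fin (n + 1) → ℝ} (hz : 1 / 2 ≤ ‖z + pole n‖) : ret 1 z = pole n := by
  have : wgt z = 1 := min_eq_left (by linarith)
  simp [ret, dfm, this, norm_pole]

theorem continuousOn_ret {X : Type} [TopologicalSpace X] {s : X → ℝ} {z : X → Fin (n + 1) → ℝ}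
    {K : Set X} (hs : ContinuousOn s K) (hz : ContinuousOn z K) (hs0 : ∀ a ∈ K, 0 ≤ s a)
    (hs1 : ∀ a ∈ K, s a ≤ 1) (hz1 : ∀ a ∈ K, ‖z a‖ = 1) :
    ContinuousOn (fun a => ret (s a) (z a)) K := by
  have hw : ContinuousOn (fun a => wgt (z a)) K :=
    (show Continuous (wgt (n := n)) by unfold wgt; fun_prop).comp_continuousOn hz
  have hd : ContinuousOn (fun a => dfm (s a) (z a)) K :=
    ((continuousOn_const.sub (hs.mul hw)).smul hz).add ((hs.mul hw).smul continuousOn_const)
  exact (hd.norm.inv₀ fun a ha =>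
    norm_ne_zero_iff.2 (dfm_ne_zero (hs0 a ha) (hs1 a ha) (hz1 a ha))).smul hd

/-- parametrisation of the bottom face -/
def bot (y : I^(Fin n)) : Fin (n + 1) → ℝ := Fin.cons (-1) fun i => 2 * (y i : ℝ) - 1

theorem continuous_bot : Continuous (bot (n := n)) := by
  refine continuous_pi fun i => ?_
  refine Fin.cases ?_ (fun j => ?_) i
  · simpa [bot] using continuous_const
  · simp only [bot, Fin.cons_succ]
    fun_prop

theorem norm_bot (y : I^(Fin n)) : ‖bot y‖ = 1 := by
  refine le_antisymm ((pi_norm_le_iff_of_nonneg zero_le_one).2 fun i => ?_) ?_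
  · refine Fin.cases ?_ (fun j => ?_) i
    · simp [bot]
    · simp only [bot, Fin.cons_succ, Real.norm_eq_abs, abs_le]
      constructor <;> linarith [(y j).2.1, (y j).2.2]
  · simpa [bot] using norm_le_pi_norm (bot y) 0

theorem one_le_norm_bot {y : I^(Fin n)} (hy : y ∈ Cube.boundary (Fin n)) :
    1 ≤ ‖bot y + pole n‖ := by
  obtain ⟨i, hi⟩ := hy
  refine le_trans ?_ (norm_le_pi_norm _ i.succ)
  rcases hi with hi | hi
  · simp [bot, pole, hi]
  · simp [bot, pole, hi]
    norm_num

/-- coordinates on the cube -/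
noncomputable def crd (a : ℝ) : I := projIcc 0 1 zero_le_one ((a + 1) / 2)

theorem continuous_crd : Continuous crd := by
  unfold crd
  fun_prop

theorem crd_val {a : ℝ} (ha : |a| ≤ 1) : 2 * (crd a : ℝ) - 1 = a := by
  rw [abs_le] at ha
  rw [crd, projIcc_of_mem _ ⟨by linarith, by linarith⟩]
  ring

theorem crd_one : crd 1 = 1 := by simp [crd]
theorem crd_neg_one : crd (-1) = 0 := by simp [crd]

/-- the geometric half -/
theorem ext_of_null {B Γ : Type} [Group B] [Group Γ] {x : B →* Γ} {S : Set B} (hS : S.Finite)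
    {T : Set Γ} (hT : MapsTo x (S⁻¹ * S) T)
    (H : ∀ p : Ω^ (Fin n) (R (S⁻¹ * S)) (pt _), GenLoop.Homotopic (lmap x hT p) GenLoop.const)
    {f : (Fin (n + 1) → ℝ) → B} (hf : SCOn S f (sphere 0 1)) (hf1 : f (pole n) = 1) :
    ∃ F : (Fin (n + 1) → ℝ) → Γ, SCOn (insert 1 T ∪ x '' S) F (closedBall 0 1) ∧
      ∀ z ∈ sphere (0 : Fin (n + 1) → ℝ) 1, F z = x (f z) := by
  classical
  have hh : SCOn S (f ∘ fun y : I^(Fin n) => ret 1 (bot y)) univ :=
    hf.comp (continuousOn_ret continuousOn_const continuous_bot.continuousOn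
      (fun _ _ => zero_le_one) (fun _ _ => le_rfl) fun y _ => norm_bot y)
      fun y _ => mem_sphere_zero_iff_norm.2 (norm_ret zero_le_one le_rfl (norm_bot y))
  let p : Ω^ (Fin n) (R (S⁻¹ * S)) (pt _) := ⟨⟨hat hh, continuous_hat hS hh⟩, fun y hy => by
    refine hat_eq_pt hh ?_
    have h1 : ∀ᶠ y' in 𝓝 y, 1 / 2 < ‖bot y' + pole n‖ :=
      (isOpen_lt continuous_const (continuous_bot.add continuous_const).norm).mem_nhds
        (lt_of_lt_of_le (by norm_num) (one_le_norm_bot hy))
    filter_upwards [h1] with y' hy'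
    rw [Function.comp_apply, ret_one hy'.le, hf1]⟩
  obtain ⟨K⟩ := H p
  let E : (Fin (n + 1) → ℝ) → R T := fun z => K (crd (z 0), fun i => crd (z i.succ))
  have hE : Continuous E := K.continuous.comp
    ((continuous_crd.comp (continuous_apply 0)).prodMk
      (continuous_pi fun i => continuous_crd.comp (continuous_apply _)))
  have hE1 : ∀ z : Fin (n + 1) → ℝ, ‖z‖ = 1 → x (f (ret 1 z)) ∈ (E z).1 := by
    intro z hz
    have hle : ∀ i, |z i| ≤ 1 := fun i => hz ▸ norm_le_pi_norm z i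
    have hpt : E z = pt T → 1 / 2 ≤ ‖z + pole n‖ → x (f (ret 1 z)) ∈ (E z).1 := by
      intro h1 h2
      rw [h1, ret_one h2, hf1, map_one]
      exact mem_singleton _
    obtain ⟨i, hi⟩ : ∃ i, |z i| = 1 := by
      by_contra hcon
      have : ‖z‖ < 1 := (pi_norm_lt_iff zero_lt_one).2 fun i =>
        lt_of_le_of_ne (hle i) fun h => hcon ⟨i, h⟩
      exact this.ne hz
    revert hi
    refine Fin.cases ?_ (fun j => ?_) i
    · intro hi
      rcases (abs_eq zero_le_one).1 hi with hi | hi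
      · refine hpt ?_ (le_trans ?_ (norm_le_pi_norm _ 0))
        · simp only [E, hi, crd_one]
          exact K.apply_one _
        · simp [pole, hi]
          norm_num
      · have hb : bot (fun i => crd (z i.succ)) = z := by
          funext k
          refine Fin.cases ?_ (fun j => ?_) k
          · simp [bot, hi]
          · simp only [bot, Fin.cons_succ]
            exact crd_val (hle _)
        have h1 : E z = lmap x hT p (fun i => crd (z i.succ)) := by
          simp only [E, hi, crd_neg_one]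
          exact K.apply_zero _
        rw [h1, lmap_apply]
        refine ⟨_, mem_hat hh _, ?_⟩
        rw [Function.comp_apply, hb]
    · intro hi
      refine hpt ?_ (le_trans ?_ (norm_le_pi_norm _ j.succ))
      · refine K.eq_snd _ ⟨j, ?_⟩
        rcases (abs_eq zero_le_one).1 hi with hi | hi
        · right; simp only [hi, crd_one]
        · left; simp only [hi, crd_neg_one]
      · simp [pole, hi]
        norm_num
  let O : (Fin (n + 1) → ℝ) → (Fin (n + 1) → ℝ) := fun z => ret (2 - 2 * ‖z‖) (‖z‖⁻¹ • z)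
  let F : (Fin (n + 1) → ℝ) → Γ := fun z =>
    if 1 / 2 ≤ ‖z‖ then x (f (O z)) else (E ((2 : ℝ) • z)).2.1.some
  let A : Set (Fin (n + 1) → ℝ) := {z | 1 / 2 ≤ ‖z‖ ∧ ‖z‖ ≤ 1}
  have hA0 : ∀ z ∈ A, ‖z‖ ≠ 0 := fun z hz => by linarith [hz.1]
  have hA1 : ∀ z ∈ A, ‖‖z‖⁻¹ • z‖ = 1 := fun z hz => by
    rw [norm_smul, norm_inv, norm_norm, inv_mul_cancel₀ (hA0 z hz)]
  have hout : SCOn (x '' S) F A := by
    have h1 : SCOn S (f ∘ O) A :=
      hf.comp (continuousOn_ret (by fun_prop)
        ((continuousOn_id.norm.inv₀ hA0).smul continuousOn_id)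
        (fun z hz => by linarith [hz.2]) (fun z hz => by linarith [hz.1]) hA1)
        fun z hz => mem_sphere_zero_iff_norm.2
          (norm_ret (by linarith [hz.2]) (by linarith [hz.1]) (hA1 z hz))
    exact (h1.map x).congr fun z hz => if_pos hz.1
  have hin : SCOn (insert 1 T) F (closedBall 0 (1 / 2)) := by
    refine scOn_of_mem (E := fun z => E ((2 : ℝ) • z)) (hE.comp (by fun_prop)) fun z hz => ?_
    by_cases h1 : 1 / 2 ≤ ‖z‖
    · have h2 : ‖z‖ = 1 / 2 := le_antisymm (mem_closedBall_zero_iff.1 hz) h1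
      have h3 : O z = ret 1 ((2 : ℝ) • z) := by
        simp only [O, h2]
        norm_num
      simp only [F, if_pos h1, h3]
      exact hE1 _ (by rw [norm_smul, h2]; norm_num)
    · simp only [F, if_neg h1]
      exact Set.Nonempty.some_mem _
  refine ⟨F, ?_, fun z hz => ?_⟩
  · refine ((hin.mono subset_union_left).union (hout.mono subset_union_right) isClosed_closedBall
      ((isClosed_le continuous_const continuous_norm).inter
        (isClosed_le continuous_norm continuous_const))).mono_set fun z hz => ?_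
    by_cases h1 : 1 / 2 ≤ ‖z‖
    · exact Or.inr ⟨h1, mem_closedBall_zero_iff.1 hz⟩
    · exact Or.inl (mem_closedBall_zero_iff.2 (not_le.1 h1).le)
  · have h1 : ‖z‖ = 1 := mem_sphere_zero_iff_norm.1 hz
    have h2 : O z = z := by
      simp only [O, h1]
      simpa using ret_zero h1
    have h3 : (1 / 2 : ℝ) ≤ ‖z‖ := by rw [h1]; norm_num
    simp only [F, if_pos h3, h2]

end Swindle

theorem FNull.sExt {B Γ : Type} [Group B] [Group Γ] {x : B →* Γ} (hx : FNull x) {n : ℕ}
    (hn : 2 ≤ n) : SExt n x := by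
  intro S hS
  have : Nontrivial (Fin n) := Fin.nontrivial_iff_two_le.2 hn
  obtain ⟨T, hT, hTf, H⟩ := Swindle.null_loops hx (N := Fin n) (hS.inv.mul hS)
  refine ⟨insert 1 T ∪ x '' S, (hTf.insert 1).union (hS.image _), fun f hf => ?_⟩
  obtain ⟨F, hF, hFf⟩ := Swindle.ext_of_null hS hT H
    (hf.const_mul (f (Swindle.pole n))⁻¹) (by simp)
  refine ⟨fun z => x (f (Swindle.pole n)) * F z, hF.const_mul _, fun z hz => ?_⟩
  simp [hFf z hz]

end Crest.Agent.R185
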