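import Crest.Agent.R185.CubeB2
import Crest.Agent.R185.Swindle
/-! Row 185: the swindle group `L4 P` and the formally null embedding `x4 : P → L4 P`. -/
set_option autoImplicit false
open Set

noncomputable section
namespace Crest.Agent.R185.Cube
variable (P : Type) [Group P]

def D4 : HData (L3 P) Unit where
  D _ := F8 P
  i _ e := d8 P e
  ker_eq _ := by
    rw [(MonoidHom.ker_eq_bot_iff _).2 (d8_injective false),
      (MonoidHom.ker_eq_bot_iff _).2 (d8_injective true)]

abbrev L4 := MH (D4 P)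

/-- `L2 → L4`. -/
def i24 : L2 P →* L4 P := (MH.of (D4 P)).comp (MH.of (D3 P))

/-- The distinguished embedding. -/
def x4 : P →* L4 P := (i24 P).comp (cj P p0 iX)

theorem i24_apply (y : L2 P) : i24 P y = MH.of (D4 P) (MH.of (D3 P) y) := rfl

theorem x4_injective : Function.Injective (x4 P) := by
  intro g h e
  have e1 : cj P p0 iX g = cj P p0 iX h := MH.of_injective _ (MH.of_injective _ e)
  rw [cj_apply, cj_apply, mul_left_inj, mul_right_inj] at e1
  have e2 : sg P iX g = sg P iX h := MH.of_injective _ e1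
  simpa [sg] using congrFun e2 iX

/-- The diagonal in a set of coordinates. -/
def dgS (S : Finset Ix) : P →* B6 P :=
  MonoidHom.pi fun k => if k ∈ S then MonoidHom.id P else 1

theorem dgS_insert {S : Finset Ix} {k : Ix} (hk : k ∉ S) (g : P) :
    dgS P (insert k S) g = sg P k g * dgS P S g := by
  funext j
  by_cases h : j = k
  · subst h; simp [dgS, sg, hk]
  · simp [dgS, sg, h]

theorem c_dgS {Γ C : Type} [Group Γ] [AddCommGroup C] (c : (P →* Γ) → C)
    (hc : ∀ u v w : P →* Γ, (∀ g h, Commute (u g) (v h)) → (∀ g, w g = u g * v g) →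
      c w = c u + c v) (U : B6 P →* Γ) (S : Finset Ix) :
    c (U.comp (dgS P S)) = ∑ k ∈ S, c (U.comp (sg P k)) := by
  induction S using Finset.induction_on with
  | empty =>
    have e : U.comp (dgS P ∅) = 1 := by
      ext g
      have : dgS P ∅ g = 1 := by funext k; simp [dgS]
      simp [this]
    have := hc 1 1 1 (fun _ _ => Commute.one_left _) (fun _ => by simp)
    rw [e, Finset.sum_empty]
    simpa using this
  | insert k S hk ih =>
    rw [Finset.sum_insert hk, ← ih]
    refine hc _ _ _ (fun g h => Commute.map ?_ U) fun g => ?_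
    · funext j
      by_cases h : j = k
      · subst h; simp [dgS, sg, hk]
      · simp [dgS, sg, h]
    · simp only [MonoidHom.comp_apply]
      rw [dgS_insert P hk, map_mul]

theorem c_dl {Γ C : Type} [Group Γ] [AddCommGroup C] (c : (P →* Γ) → C)
    (hc : ∀ u v w : P →* Γ, (∀ g h, Commute (u g) (v h)) → (∀ g, w g = u g * v g) →
      c w = c u + c v) (U : L2 P →* Γ) (p : Bool × Bool) (e : Bool) :
    c (U.comp (dl P p e)) = c (U.comp (s2 P (ia p.1))) + c (U.comp (s2 P (ib p.2))) +
      c (U.comp (cj P p iF)) + cond e (c (U.comp (cj P p iX))) 0 := by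
  set U' : B6 P →* Γ :=
    U.comp ((MulAut.conj (MH.t (D2 P) p)).toMonoidHom.comp (MH.of (D2 P))) with hU'
  have hk : ∀ k, U'.comp (sg P k) = U.comp (cj P p k) := fun k => rfl
  have ha : U.comp (cj P p (ia p.1)) = U.comp (s2 P (ia p.1)) :=
    MonoidHom.ext fun g => congrArg U (cj_a P p g)
  have hb : U.comp (cj P p (ib p.2)) = U.comp (s2 P (ib p.2)) :=
    MonoidHom.ext fun g => congrArg U (cj_b P p g)
  have h0 : U.comp (dl P p e) = U'.comp (dg P p e) := rfl
  cases e
  · have : dg P p false = dgS P {ia p.1, ib p.2, iF} := by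
      simp only [dg, dgS]; congr; funext k; simp
    rw [h0, this, c_dgS P c hc, Finset.sum_insert (by simp), Finset.sum_insert (by simp),
      Finset.sum_singleton, hk, hk, hk, ha, hb]
    simp only [cond_false]; abel
  · have : dg P p true = dgS P {ia p.1, ib p.2, iF, iX} := by
      simp only [dg, dgS]; congr; funext k; simp
    rw [h0, this, c_dgS P c hc, Finset.sum_insert (by simp), Finset.sum_insert (by simp),
      Finset.sum_insert (by simp), Finset.sum_singleton, hk, hk, hk, hk, ha, hb]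
    simp only [cond_true]; abel

theorem d8_rel (v : V8) (g : P) :
    (MH.t (D4 P) ())⁻¹ * MH.of (D4 P) (dv P false v g) * MH.t (D4 P) () =
      MH.of (D4 P) (dv P true v g) := by
  have := MH.rel (D4 P) () (Monoid.CoprodI.of (i := v) g)
  change MH.of (D4 P) (d8 P false _) * _ = _ * MH.of (D4 P) (d8 P true _) at this
  rw [d8_of, d8_of] at this
  rw [mul_assoc, this, inv_mul_cancel_left]

theorem fnull_x4 : FNull (x4 P) := by
  intro C _ c hc
  set τ : L4 P →* L4 P := (MulAut.conj (MH.t (D4 P) ())⁻¹).toMonoidHom with hτ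
  set W : L2 P →* L4 P :=
    (MH.of (D4 P)).comp ((MulAut.conj (w3 P)).toMonoidHom.comp (MH.of (D3 P))) with hW
  have τ_apply : ∀ y, τ y = (MH.t (D4 P) ())⁻¹ * y * MH.t (D4 P) () := fun y => by
    simp [hτ]
  have hWf : ∀ p, W.comp (cj P p iF) = (i24 P).comp (cj P p iF) := fun p => by
    ext g
    have := (MH.central_comm (fun _ : Unit => Cp P) () (cj_iF_mem P p g)).eq
    change MH.of (D4 P) (w3 P * MH.of (D3 P) (cj P p iF g) * (w3 P)⁻¹) =
      MH.of (D4 P) (MH.of (D3 P) (cj P p iF g))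
    congr 1
    rw [mul_inv_eq_iff_eq_mul]
    exact this.symm
  have hτWf : ∀ p, (τ.comp W).comp (cj P p iF) = (τ.comp (i24 P)).comp (cj P p iF) := fun p =>
    congrArg τ.comp (hWf p)
  have h1 : ∀ p, (τ.comp W).comp (dl P p false) = W.comp (dl P p false) := fun p => by
    ext g
    exact (τ_apply _).trans (d8_rel P (true, p) g)
  have h2 : ∀ p, (τ.comp (i24 P)).comp (dl P p false) =
      (i24 P).comp (dl P p (decide (p = p0))) := fun p => by
    ext g
    exact (τ_apply _).trans (d8_rel P (false, p) g)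
  have k1 := fun p => c_dl P c hc (τ.comp W) p false
  have k2 := fun p => c_dl P c hc W p false
  have k3 := fun p => c_dl P c hc (τ.comp (i24 P)) p false
  have k4 := fun p => c_dl P c hc (i24 P) p (decide (p = p0))
  simp only [h1, h2, hWf, hτWf, cond_false] at k1 k2 k3 k4
  have a1 := k1 (false, false)
  have a2 := k1 (false, true)
  have a3 := k1 (true, false)
  have a4 := k1 (true, true)
  have b1 := k2 (false, false)
  have b2 := k2 (false, true)
  have b3 := k2 (true, false)
  have b4 := k2 (true, true)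
  have c1 := k3 (false, false)
  have c2 := k3 (false, true)
  have c3 := k3 (true, false)
  have c4 := k3 (true, true)
  have d1 := k4 (false, false)
  have d2 := k4 (false, true)
  have d3 := k4 (true, false)
  have d4 := k4 (true, true)
  simp only [Prod.mk.injEq, Bool.true_eq_false, and_true, and_false, false_and, and_self,
    decide_true, decide_false, cond_true, cond_false] at a1 a2 a3 a4 b1 b2 b3 b4 c1 c2 c3 c4 d1 d2 d3 d4
  change c ((i24 P).comp (cj P (false, false) iX)) = 0
  linear_combination (norm := abel1) (b1 - b2 - b3 + b4) - (a1 - a2 - a3 + a4) + (c1 - c2 - c3 + c4) -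
    (d1 - d2 - d3 + d4)

/-- Generators of `L4`. -/
def Gen4 (A : Type) : Type := (Ix × A) ⊕ (Bool × Bool) ⊕ Bool

instance (A : Type) [Finite A] : Finite (Gen4 A) := by unfold Gen4; infer_instance
instance (A : Type) [Primcodable A] : Primcodable (Gen4 A) := by unfold Gen4; infer_instance

variable {P} {A : Type} (s : A → P)

def gen4 : Gen4 A → L4 P
  | .inl q => i24 P (s2 P q.1 (s q.2))
  | .inr (.inl p) => i24 P (MH.t (D2 P) p)
  | .inr (.inr false) => MH.of (D4 P) (w3 P)
  | .inr (.inr true) => MH.t (D4 P) ()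

theorem closure_gen4 (hs : Subgroup.closure (range s) = ⊤) :
    Subgroup.closure (range (gen4 s)) = ⊤ := by
  set K := Subgroup.closure (range (gen4 s))
  have hg : ∀ q, gen4 s q ∈ K := fun q => Subgroup.subset_closure ⟨q, rfl⟩
  have h1 : ∀ k g, i24 P (s2 P k g) ∈ K := fun k g => by
    have : (⊤ : Subgroup P) ≤ K.comap ((i24 P).comp (s2 P k)) := by
      rw [← hs, Subgroup.closure_le]
      rintro _ ⟨a, rfl⟩
      exact hg (.inl (k, a))
    exact this trivial
  have h2 : ∀ b, i24 P (MH.of (D2 P) b) ∈ K := fun b =>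
    Subgroup.pi_mem_of_mulSingle_mem (H := K.comap ((i24 P).comp (MH.of (D2 P)))) b
      fun k => h1 k (b k)
  have h3 : ∀ y, i24 P y ∈ K := fun y => by
    have : (⊤ : Subgroup (L2 P)) ≤ K.comap (i24 P) := by
      rw [← MH.closure_eq_top (D2 P), Subgroup.closure_le]
      rintro _ (⟨b, rfl⟩ | ⟨p, rfl⟩)
      · exact h2 b
      · exact hg (.inr (.inl p))
    exact this trivial
  have h4 : ∀ z, MH.of (D4 P) z ∈ K := fun z => by
    have : (⊤ : Subgroup (L3 P)) ≤ K.comap (MH.of (D4 P)) := by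
      rw [← MH.closure_eq_top (D3 P), Subgroup.closure_le]
      rintro _ (⟨b, rfl⟩ | ⟨⟨⟩, rfl⟩)
      · exact h3 b
      · exact hg (.inr (.inr false))
    exact this trivial
  rw [eq_top_iff, ← MH.closure_eq_top (D4 P), Subgroup.closure_le]
  rintro _ (⟨b, rfl⟩ | ⟨⟨⟩, rfl⟩)
  · exact h4 b
  · exact hg (.inr (.inr true))

/-- The word for `x4 (s a)`. -/
def x4w (a : A) : FreeGroup (Gen4 A) :=
  FreeGroup.of (.inr (.inl p0)) * FreeGroup.of (.inl (iX, a)) * (FreeGroup.of (.inr (.inl p0)))⁻¹

theorem lift_x4w (a : A) : FreeGroup.lift (gen4 s) (x4w a) = x4 P (s a) := by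
  simp [x4w, gen4, x4, cj_apply]

theorem wl_x4 {g : P} {n : ℕ} (h : (Filt.wl s).le g n) :
    (Filt.wl (gen4 s)).le (x4 P g) (3 * n) := by
  refine wl_map s _ (x4 P) 3 (fun a => ?_) h
  have e : x4 P (s a) = gen4 s (.inr (.inl p0)) * gen4 s (.inl (iX, a)) *
      (gen4 s (.inr (.inl p0)))⁻¹ := by
    simp [gen4, x4, cj_apply]
  rw [e]
  exact Filt.mul' (Filt.mul' (wl_gen _ _) (wl_gen _ _) le_rfl) (Filt.inv _ (wl_gen _ _)) le_rfl

/-- The filtration of `L3` adapted to the last letter. -/
def F3' : Filt (L3 P) := ((F3 s).scale 15 1).inf ((F3 s).comap (rho3 P))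

theorem F3p_of {x : L3 P} {n : ℕ} (h : (F3 s).le x n) : (F3' s).le x n :=
  ⟨(F3 s).mono h (by omega), F3_rho3 s h⟩

theorem sumOK4 : (MH.split (D4 P)).SumOK (F3' s) fun _ => 1 where
  c_bar _ := rfl
  pinch := by
    rintro ⟨j, b⟩ _ n ⟨x, rfl⟩ ⟨-, h2⟩
    dsimp only
    rw [MH.split_φ]
    change (F3 s).le (rho3 P (d8 P b x)) n at h2
    rw [rho3_d8] at h2
    refine ⟨?_, ?_⟩
    · change (F3 s).le (d8 P (!b) x) (15 * (n + 2 * 1) / 1)
      exact (F3 s).mono (F3_d8 s _ (d8_distortion s h2)) (by omega)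
    · change (F3 s).le (rho3 P (d8 P (!b) x)) (n + 2 * 1)
      rw [rho3_d8]
      exact (F3 s).mono h2 (by omega)

def F4 : Filt (L4 P) := (MH.split (D4 P)).sumF (sumOK4 s)

theorem F4_of {z : L3 P} {n : ℕ} (h : (F3' s).le z n) : (F4 s).le (MH.of (D4 P) z) n :=
  (MH.split (D4 P)).sumF_of (sumOK4 s) h

theorem F4_t : (F4 s).le (MH.t (D4 P) ()) 1 := (MH.split (D4 P)).sumF_t (sumOK4 s) ((), false)

theorem F4_of_wl {x : L4 P} {n : ℕ} (h : (Filt.wl (gen4 s)).le x n) : (F4 s).le x n := by
  have := wl_map (gen4 s) (F4 s) (MonoidHom.id _) 1 ?_ h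
  · simpa using this
  · rintro (⟨k, a⟩ | p | _ | _)
    · exact F4_of s (F3p_of s (F3_of s (F2_s2 s k (wl_gen s a))))
    · exact F4_of s (F3p_of s (F3_of s (F2_t s p)))
    · exact F4_of s (F3p_of s (F3_w s))
    · exact F4_t s

end Crest.Agent.R185.Cube
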