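import Crest.Agent.R185.CubeDef
/-! Row 185: auxiliary lemmas for the undistortion of the diagonals in `L2`. -/
set_option autoImplicit false
open Set

noncomputable section
namespace Crest.Agent.R185.Cube
open PreSplit
variable {P : Type} [Group P] {A : Type} (s : A → P)

/-- One comparison step for centralising letters. -/
theorem cmp_central {B J : Type} [Group B] (K : J → Subgroup B) {g u : B} {e : J × Bool} {h : B}
    {l m : List ((J × Bool) × B)} (hl : (MH.split (HData.central K)).Red ((e, h) :: l))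
    (hm : (MH.split (HData.central K)).Red m)
    (he : (MH.split (HData.central K)).ev u m = (MH.split (HData.central K)).ev g ((e, h) :: l)) :
    ∃ u' m', m = (e, u') :: m' ∧ u⁻¹ * g ∈ K e.1 ∧
      (MH.split (HData.central K)).ev u' m' = (MH.split (HData.central K)).ev (u⁻¹ * g * h) l := by
  obtain ⟨u', m', h1, h2, h3⟩ := (MH.split (HData.central K)).cmp_cons hl hm he.symm
  rw [MH.central_A] at h2
  rw [MH.central_φ K _ h2] at h3
  exact ⟨u', m', h1, h2, h3.symm⟩

variable (P) in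
/-- Kill the letters. -/
def piL : L2 P →* B6 P :=
  MH.liftC (MonoidHom.id _) (fun _ => 1) fun _ _ _ => Commute.one_right _

theorem piL_of (g : B6 P) : piL P (MH.of (D2 P) g) = g := MH.liftC_of _ _ _ _

theorem piL_t (p : Bool × Bool) : piL P (MH.t (D2 P) p) = 1 := MH.liftC_t _ _ _ _

theorem piL_t' (e : (Bool × Bool) × Bool) : piL P ((MH.split (D2 P)).t e) = 1 := by
  rcases e with ⟨p, _ | _⟩
  · exact piL_t p
  · rw [MH.split_t_true, map_inv, piL_t, inv_one]

theorem piL_le {x : L2 P} {n : ℕ} (h : (F2 s).le x n) (k : Ix) :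
    (Filt.wl s).le (piL P x k) n :=
  (MH.split (D2 P)).sumF_map (sumOK2 s) (Filt.wl s).pi (piL P)
    (fun g n hg => by rw [MH.split_of, piL_of]; exact hg)
    (fun e => by rw [piL_t']; exact Filt.one' _ _) h k

theorem piL_pc {u : B6 P} {m : List (((Bool × Bool) × Bool) × B6 P)} {n : ℕ}
    (h : PC (Filt.wl s).pi (fun _ => 1) u m n) (k : Ix) :
    (Filt.wl s).le (piL P ((MH.split (D2 P)).ev u m) k) n :=
  piL_le s ⟨u, m, h, rfl⟩ k

theorem range_iF {a : B6 P} (ha : a ∈ (sg P iF).range) {k : Ix} (hk : k ≠ iF) : a k = 1 := by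
  obtain ⟨g, rfl⟩ := ha
  simp [sg, Pi.mulSingle_eq_of_ne hk]

theorem piL_Cp {c : L2 P} (hc : c ∈ Cp P) {k : Ix} (hk : k ≠ iF) : piL P c k = 1 := by
  have : Cp P ≤ (sg P iF).range.comap (piL P) := by
    refine (Subgroup.closure_le _).2 ?_
    rintro _ (⟨a, ha, rfl⟩ | ⟨e, -, rfl⟩)
    · show piL P _ ∈ (sg P iF).range
      rw [MH.split_of, piL_of]
      exact ha
    · show piL P _ ∈ (sg P iF).range
      rw [piL_t']
      exact one_mem _
  exact range_iF (this hc) hk

theorem dl_eq (p : Bool × Bool) (g : P) : dl P p false g =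
    MH.t (D2 P) p * MH.of (D2 P) (dg P p false g) * (MH.t (D2 P) p)⁻¹ := rfl

theorem piL_dl (p : Bool × Bool) (g : P) : piL P (dl P p false g) = dg P p false g := by
  rw [dl_eq, map_mul, map_mul, map_inv, piL_t, piL_of]
  simp

theorem dg_apply (p : Bool × Bool) (g : P) (k : Ix) :
    dg P p false g k = if k = ia p.1 ∨ k = ib p.2 ∨ k = iF then g else 1 := by
  simp only [dg, MonoidHom.pi_apply, Bool.false_eq_true, false_and, or_false]
  split_ifs <;> rfl

theorem dg_iF (p : Bool × Bool) (g : P) : dg P p false g iF = g := by simp [dg_apply]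

theorem Hp_iF {p : Bool × Bool} {a : B6 P} (ha : a ∈ Hp P p) : a iF = 1 :=
  ha iF (by simp) (by simp)

/-- A coordinate that sees `p` but not `q`. -/
theorem exists_coord {p q : Bool × Bool} (h : p ≠ q) : ∃ k : Ix, k ≠ iF ∧
    (∀ g : P, dg P p false g k = g) ∧ (∀ g : P, dg P q false g k = 1) ∧
      ∀ a ∈ Hp P q, a k = 1 := by
  by_cases h1 : p.1 = q.1
  · have h2 : p.2 ≠ q.2 := fun h2 => h (Prod.ext h1 h2)
    exact ⟨ib p.2, by simp, fun g => by simp [dg_apply], fun g => by simp [dg_apply, h2],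
      fun a ha => ha _ (by simp) (by simpa using h2)⟩
  · exact ⟨ia p.1, by simp, fun g => by simp [dg_apply], fun g => by simp [dg_apply, h1],
      fun a ha => ha _ (by simpa using h1) (by simp)⟩

theorem good_Cp : (MH.split (D2 P)).IsGood (sg P iF).range univ :=
  ⟨fun _ _ => trivial, fun e _ a ha ha' => by
    rw [MH.central_A] at ha'
    rwa [MH.central_φ (Hp P) e ha']⟩

theorem red2 {e e' : (Bool × Bool) × Bool} {g g' : B6 P} {l : List (((Bool × Bool) × Bool) × B6 P)}
    (h : (MH.split (D2 P)).Red ((e', g') :: l)) (h' : e'.1 = e.1 → g ∉ Hp P e.1) :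
    (MH.split (D2 P)).Red ((e, g) :: (e', g') :: l) := by
  refine ((MH.split (D2 P)).red_cons_cons _ _ _).2 ⟨?_, h⟩
  rintro ⟨h1, h2⟩
  have h3 : e'.1 = e.1 := (congrArg Prod.fst (show e' = (e.1, !e.2) from h1) :)
  rw [MH.central_A] at h2
  exact h' h3 (h3 ▸ h2)

theorem dg_notMem {p : Bool × Bool} {g : P} (hg : g ≠ 1) : dg P p false g ∉ Hp P p :=
  fun h => hg ((dg_iF p g).symm.trans (Hp_iF h))

/-- The right lemma. -/
theorem right_lemma {c : L2 P} (hc : c ∈ Cp P) {p q : Bool × Bool} (hpq : p ≠ q) {g : P}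
    (hg : g ≠ 1) : ∃ k l, (MH.split (D2 P)).ev k l = dl P p false g * c ∧
      (MH.split (D2 P)).Red (((q, true), k) :: l) := by
  obtain ⟨h, l, h1, h2, h3, rfl⟩ := good_Cp.exists_red hc
  rcases (MH.split (D2 P)).red_cons_or h3 (p, true) h with h4 | ⟨h', r, rfl, h4, h5⟩
  · refine ⟨1, ((p, false), dg P p false g) :: ((p, true), h) :: l, ?_,
      red2 (red2 h4 fun _ => dg_notMem hg) fun h => absurd h hpq⟩
    simp [dl_eq, mul_assoc]
  · rw [MH.central_A] at h4
    rw [MH.central_φ (Hp P) _ h4, MH.split_t_true] at h5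
    have hh' : h * h' ∈ (sg P iF).range := mul_mem h1 (h2 _ List.mem_cons_self).2
    have h6 : dl P p false g * (MH.split (D2 P)).ev h (((MH.split (D2 P)).bar (p, true), h') :: r)
        = (MH.split (D2 P)).t (p, false) * (MH.split (D2 P)).ev (dg P p false g * (h * h')) r := by
      rw [dl_eq, mul_assoc, h5, ev_mul _ (dg P p false g), mul_assoc]
      rfl
    rw [h6]
    rcases (MH.split (D2 P)).red_cons_or h3.tail (p, false) (dg P p false g * (h * h')) with
      h7 | ⟨h'', r', rfl, h7, h8⟩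
    · exact ⟨1, _, by simp, red2 h7 fun h => absurd h hpq⟩
    · rw [MH.central_A] at h7
      rw [MH.central_φ (Hp P) _ h7] at h8
      refine ⟨_, r', h8.symm, ?_⟩
      rcases r' with _ | ⟨⟨e', g'⟩, r'⟩
      · exact red_singleton _ _
      · refine red2 h3.tail.tail fun _ h9 => ?_
        obtain ⟨k, hk, k1, -, k3⟩ := exists_coord (P := P) hpq
        have h10 := k3 _ h9
        have hh'' : h'' ∈ (sg P iF).range :=
          (h2 _ (List.mem_cons_of_mem _ List.mem_cons_self)).2
        rw [Pi.mul_apply, Pi.mul_apply, range_iF hh' hk, range_iF hh'' hk, k1] at h10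
        exact hg (by simpa using h10)

/-- The left lemma. -/
theorem left_lemma {c : L2 P} (hc : c ∈ Cp P) {p q : Bool × Bool} (hpq : p ≠ q) {g : P}
    (hg : g ≠ 1) {g' : B6 P} {r : List (((Bool × Bool) × Bool) × B6 P)}
    (hr : (MH.split (D2 P)).Red (((q, false), g') :: r)) :
    ∃ k l, (MH.split (D2 P)).ev k l = c * dl P p false g ∧
      (MH.split (D2 P)).Red (l ++ ((q, false), g') :: r) := by
  have ht : ∀ e, ∀ y ∈ Cp P, (∃ k l, (MH.split (D2 P)).ev k l = y * dl P p false g ∧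
      (MH.split (D2 P)).Red (l ++ ((q, false), g') :: r)) →
      ∃ k l, (MH.split (D2 P)).ev k l = (MH.split (D2 P)).t e * y * dl P p false g ∧
      (MH.split (D2 P)).Red (l ++ ((q, false), g') :: r) := by
    rintro e y hy ⟨k, l, h1, h2⟩
    by_cases h3 : (MH.split (D2 P)).Red ((e, k) :: (l ++ ((q, false), g') :: r))
    · exact ⟨1, (e, k) :: l, by simp [h1, mul_assoc], h3⟩
    · rcases l with _ | ⟨f, l⟩
      · exfalso
        refine h3 (red2 h2 fun h4 h5 => ?_)
        obtain ⟨i, hi, k1, -, k3⟩ := exists_coord (P := P) hpq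
        have h6 := congrFun (congrArg (piL P) h1) i
        rw [ev_nil, MH.split_of, piL_of, map_mul, Pi.mul_apply, piL_Cp hy hi, piL_dl, k1, one_mul,
          k3 k (by rw [show q = e.1 from h4]; exact h5)] at h6
        exact hg h6.symm
      · rcases (MH.split (D2 P)).red_cons_or (Red.of_append_left h2) e k with
          h4 | ⟨h', r', h4, -, h5⟩
        · exact absurd ((red_cons_cons _ _ _ _).2 ⟨((red_cons_cons _ _ _ _).1 h4).1, h2⟩) h3
        · obtain ⟨-, rfl⟩ := List.cons.inj h4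
          exact ⟨_, l, by rw [← h5, h1, mul_assoc], Red.tail h2⟩
  have ho : ∀ a y, (∃ k l, (MH.split (D2 P)).ev k l = y * dl P p false g ∧
      (MH.split (D2 P)).Red (l ++ ((q, false), g') :: r)) →
      ∃ k l, (MH.split (D2 P)).ev k l = (MH.split (D2 P)).of a * y * dl P p false g ∧
      (MH.split (D2 P)).Red (l ++ ((q, false), g') :: r) := by
    rintro a y ⟨k, l, h1, h2⟩
    exact ⟨a * k, l, by rw [ev_mul, h1, mul_assoc], h2⟩
  induction hc using Subgroup.closure_induction_left with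
  | one =>
    refine ⟨1, [((p, false), dg P p false g), ((p, true), 1)], by simp [dl_eq, mul_assoc], ?_⟩
    exact red2 (red2 hr fun h => absurd h.symm hpq) fun _ => dg_notMem hg
  | mul_left x hx y hy ih =>
    rcases hx with ⟨a, ha, rfl⟩ | ⟨e, he, rfl⟩
    · exact ho a y ih
    · exact ht e y hy ih
  | inv_mul_cancel x hx y hy ih =>
    rcases hx with ⟨a, ha, rfl⟩ | ⟨e, he, rfl⟩
    · rw [← map_inv]; exact ho _ y ih
    · rw [← t_bar]; exact ht _ y hy ih

/-- Total cost of the syllables. -/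
def Cost (W : List ((Bool × Bool) × P)) (n : ℕ) : Prop :=
  ∃ ns : List ℕ, List.Forall₂ (fun q m => (Filt.wl s).le q.2 m) W ns ∧ ns.sum ≤ n

variable {s} in
theorem Cost.cons {W : List ((Bool × Bool) × P)} {q : (Bool × Bool) × P} {a b n : ℕ}
    (h1 : (Filt.wl s).le q.2 a) (h2 : Cost s W b) (h : a + b ≤ n) : Cost s (q :: W) n := by
  obtain ⟨ns, h3, h4⟩ := h2
  exact ⟨a :: ns, List.Forall₂.cons h1 h3, by rw [List.sum_cons]; omega⟩

theorem Cost.nil (n : ℕ) : Cost s [] n := ⟨[], List.Forall₂.nil, Nat.zero_le _⟩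

/-- The cost of `W` is read off every reduced path equivalent to `k, l` up to `Hp q`. -/
def Reads (q : Bool × Bool) (W : List ((Bool × Bool) × P)) (k : B6 P)
    (l : List (((Bool × Bool) × Bool) × B6 P)) : Prop :=
  ∀ a ∈ Hp P q, ∀ u m n, (MH.split (D2 P)).Red m → PC (Filt.wl s).pi (fun _ => 1) u m n →
    (MH.split (D2 P)).ev u m = (MH.split (D2 P)).ev (a * k) l → Cost s W n

theorem Reads.step {p : Bool × Bool} {g : P} {W : List ((Bool × Bool) × P)} {k : B6 P}
    {l : List (((Bool × Bool) × Bool) × B6 P)} (h : Reads s p W k l)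
    (hl : (MH.split (D2 P)).Red (((p, true), k) :: l)) :
    Reads s p ((p, g) :: W) (dg P p false g) (((p, true), k) :: l) := by
  intro a ha u m n hm hc he
  obtain ⟨u', m', rfl, h2, h3⟩ := cmp_central (Hp P) hl hm he
  obtain ⟨n1, n2, h4, h5, h6⟩ := hc
  have h7 := Hp_iF h2
  rw [Pi.mul_apply, Pi.mul_apply, Pi.inv_apply, Hp_iF ha, dg_iF, one_mul, inv_mul_eq_one] at h7
  exact Cost.cons (a := n1) (by simpa [← h7] using h4 iF) (h _ h2 u' m' n2 hm.tail h5 h3) (by omega)

theorem tail_lemma {c : L2 P} (hc : c ∈ Cp P) (W : List ((Bool × Bool) × P)) (p : Bool × Bool)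
    (g : P) (q : Bool × Bool) (hpq : p ≠ q) (h1 : ∀ x ∈ (p, g) :: W, x.2 ≠ 1)
    (h2 : ((p, g) :: W).IsChain fun q q' => q.1 ≠ q'.1) :
    ∃ k l, (MH.split (D2 P)).ev k l =
        (((p, g) :: W).map fun q => dl P q.1 false q.2).prod * c ∧
      (MH.split (D2 P)).Red (((q, true), k) :: l) ∧ Reads s q ((p, g) :: W) k l := by
  have hg : g ≠ 1 := h1 (p, g) List.mem_cons_self
  induction W generalizing p g q with
  | nil =>
    obtain ⟨k, l, h3, h4⟩ := right_lemma hc hpq hg
    refine ⟨k, l, by simpa using h3, h4, fun a ha u m n _ hc' he => ?_⟩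
    obtain ⟨i, hi, k1, -, k3⟩ := exists_coord (P := P) hpq
    have h5 := piL_pc s hc' i
    rw [he, ev_mul, h3, map_mul, map_mul, MH.split_of, piL_of, piL_dl, Pi.mul_apply, Pi.mul_apply,
      k3 a ha, k1, piL_Cp hc hi, one_mul, mul_one] at h5
    exact Cost.cons h5 (Cost.nil s 0) le_rfl
  | cons x W ih =>
    obtain ⟨p', g'⟩ := x
    obtain ⟨h3, h4⟩ := List.isChain_cons_cons.1 h2
    obtain ⟨k, l, h5, h6, h7⟩ := ih p' g' p (Ne.symm h3)
      (fun x hx => h1 x (List.mem_cons_of_mem _ hx)) h4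
      (h1 (p', g') (List.mem_cons_of_mem _ List.mem_cons_self))
    have h8 : (MH.split (D2 P)).Red (((p, false), dg P p false g) :: ((p, true), k) :: l) :=
      red2 h6 fun _ => dg_notMem hg
    refine ⟨1, ((p, false), dg P p false g) :: ((p, true), k) :: l, ?_,
      red2 h8 fun h => absurd h hpq, fun a ha u m n hm hc' he => ?_⟩
    · rw [List.map_cons, List.prod_cons, mul_assoc, ← h5]
      simp [dl_eq, mul_assoc]
    · obtain ⟨u', m', rfl, h9, h10⟩ := cmp_central (Hp P) h8 hm he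
      obtain ⟨n1, n2, -, h11, h12⟩ := hc'
      obtain ⟨ns, h13, h14⟩ := h7.step s h6 _ h9 u' m' n2 hm.tail h11 h10
      exact ⟨ns, h13, by omega⟩

theorem wl_zero {G X : Type} [Group G] {t : X → G} {g : G} (h : (Filt.wl t).le g 0) : g = 1 := by
  obtain ⟨w, hw, rfl⟩ := h
  obtain rfl : w = [] := List.length_eq_zero_iff.1 (Nat.le_zero.1 hw)
  rw [← FreeGroup.one_eq_mk, map_one]

end Crest.Agent.R185.Cube
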