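import Crest.Agent.R185.CubeDef
import Crest.Agent.R185.CubeB2Aux
/-! Row 185: the diagonals generate an undistorted free product. -/
set_option autoImplicit false
open Set

noncomputable section
namespace Crest.Agent.R185.Cube
open PreSplit
variable {P : Type} [Group P] {A : Type} (s : A → P)

/-- (B2) A reduced product of diagonals of `L2` is far from `Cp`, even in the double coset sense. -/
theorem b2 {c c' : L2 P} (hc : c ∈ Cp P) (hc' : c' ∈ Cp P) (W : List ((Bool × Bool) × P))
    (h1 : ∀ q ∈ W, q.2 ≠ 1) (h2 : W.IsChain fun q q' => q.1 ≠ q'.1) {n : ℕ}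
    (h : (F2 s).le (c * (W.map fun q => dl P q.1 false q.2).prod * c') n) :
    ∃ ns : List ℕ, List.Forall₂ (fun q m => (Filt.wl s).le q.2 m) W ns ∧ ns.sum ≤ 3 * n := by
  change Cost s W (3 * n)
  match W, h1, h2, h with
  | [], _, _, _ => exact Cost.nil s _
  | [(p, g)], _, _, h =>
    have h3 := piL_le s h (ia p.1)
    simp only [List.map_cons, List.map_nil, List.prod_cons, List.prod_nil, mul_one, map_mul,
      Pi.mul_apply, piL_dl, piL_Cp hc (k := ia p.1) (by simp), piL_Cp hc' (k := ia p.1) (by simp),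
      dg_apply, true_or, if_true, one_mul] at h3
    exact Cost.cons h3 (Cost.nil s 0) (by omega)
  | [(p, g), (p', g')], _, h2, h =>
    have hp : p ≠ p' := (List.isChain_cons_cons.1 h2).1
    obtain ⟨i, hi, i1, i2, -⟩ := exists_coord (P := P) hp
    obtain ⟨j, hj, j1, j2, -⟩ := exists_coord (P := P) hp.symm
    have h3 := piL_le s h i
    have h4 := piL_le s h j
    simp only [List.map_cons, List.map_nil, List.prod_cons, List.prod_nil, mul_one, map_mul,
      Pi.mul_apply, piL_dl, piL_Cp hc hi, piL_Cp hc' hi, piL_Cp hc hj, piL_Cp hc' hj,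
      i1, i2, j1, j2, one_mul] at h3 h4
    exact Cost.cons h3 (Cost.cons h4 (Cost.nil s 0) le_rfl) (by omega)
  | (p, g) :: (p', g') :: (p'', g'') :: W, h1, h2, h =>
    obtain ⟨hp, h2'⟩ := List.isChain_cons_cons.1 h2
    obtain ⟨hp', h2''⟩ := List.isChain_cons_cons.1 h2'
    have hg : g ≠ 1 := h1 (p, g) (by simp)
    have hg' : g' ≠ 1 := h1 (p', g') (by simp)
    obtain ⟨k, l, h3, h4, h5⟩ := tail_lemma s hc' W p'' g'' p' (Ne.symm hp')
      (fun x hx => h1 x (List.mem_cons_of_mem _ (List.mem_cons_of_mem _ hx))) h2''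
    have h6 : (MH.split (D2 P)).Red (((p', false), dg P p' false g') :: ((p', true), k) :: l) :=
      red2 h4 fun _ => dg_notMem hg'
    obtain ⟨k₁, l₁, h7, h8⟩ := left_lemma hc hp hg h6
    obtain ⟨u, m, h9, h10, h11⟩ := (MH.split (D2 P)).sumF_red (sumOK2 s) h
    have h12 : (MH.split (D2 P)).ev k₁
        (l₁ ++ ((p', false), dg P p' false g') :: ((p', true), k) :: l) =
        (MH.split (D2 P)).ev u m := by
      rw [h11, ev_append, h7, ev_cons, h3]
      simp [dl_eq, mul_assoc]
    have h13 := congrArg List.length ((MH.split (D2 P)).map_fst_eq h8 h9 h12)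
    rw [List.length_map, List.length_map, List.length_append, List.length_cons] at h13
    obtain ⟨m₁, f, m₂, rfl, h14⟩ : ∃ m₁ f m₂, m = m₁ ++ f :: m₂ ∧ l₁.length = m₁.length := by
      have h15 : l₁.length < m.length := by omega
      refine ⟨m.take l₁.length, m[l₁.length], m.drop (l₁.length + 1), ?_, ?_⟩
      · rw [← List.drop_eq_getElem_cons h15, List.take_append_drop]
      · rw [List.length_take]; omega
    obtain ⟨h15, a, ha, h16⟩ := (MH.split (D2 P)).cmp_prefix h8 h9 h12 h14
    rw [MH.central_A] at ha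
    obtain ⟨i, hi, i1, -, i3⟩ := exists_coord (P := P) hp
    have h17 := piL_pc s h10.prefix i
    have h18 := congrFun (congrArg (piL P) h16) i
    rw [h7, map_mul, map_mul, Pi.mul_apply, Pi.mul_apply, piL_Cp hc hi, piL_dl, i1, MH.split_of,
      piL_of, i3 a ha, one_mul, mul_one] at h18
    rw [← h18] at h17
    have h19 : (MH.split (D2 P)).ev f.2 m₂ =
        (MH.split (D2 P)).ev (a * dg P p' false g') (((p', true), k) :: l) := by
      rw [ev_append, ev_append, h16, ← h15, mul_assoc, mul_assoc, mul_assoc, mul_right_inj,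
        ← mul_assoc, MH.split_of, MH.split_t_false, (MH.central_comm (Hp P) p' ha).eq, mul_assoc,
        mul_right_inj] at h12
      rw [ev_mul, ← h12]
      rfl
    have h20 := h5.step s h4 a ha f.2 m₂ n (Red.of_append_right h9).tail h10.suffix h19
    exact Cost.cons h17 h20 (by omega)

theorem prod_notMem {W : List ((Bool × Bool) × P)} (hW : W ≠ []) (h1 : ∀ q ∈ W, q.2 ≠ 1)
    (h2 : W.IsChain fun q q' => q.1 ≠ q'.1) :
    (W.map fun q => dl P q.1 false q.2).prod ∉ Cp P := by
  intro h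
  obtain ⟨ns, h3, h4⟩ := b2 (id : P → P) (inv_mem h) (one_mem _) W h1 h2 (n := 0)
    (by rw [inv_mul_cancel, mul_one]; exact (F2 id).one)
  cases h3 with
  | nil => exact hW rfl
  | @cons q m W ns h5 _ =>
    rw [List.sum_cons] at h4
    obtain rfl : m = 0 := by omega
    exact h1 q List.mem_cons_self (wl_zero h5)

theorem wl_of (v : V8) {g : P} {n : ℕ} (h : (Filt.wl s).le g n) :
    (Filt.wl (s8 s)).le (Monoid.CoprodI.of (i := v) g) n := by
  obtain ⟨w, hw, rfl⟩ := h
  refine ⟨w.map fun x => ((v, x.1), x.2), by simpa using hw, ?_⟩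
  have : (FreeGroup.lift (s8 s)).comp (FreeGroup.map fun a => (v, a)) =
      (Monoid.CoprodI.of (M := fun _ : V8 => P) (i := v)).comp (FreeGroup.lift s) := by
    ext a
    simp [s8]
  rw [← FreeGroup.map.mk (f := fun a => (v, a))]
  exact DFunLike.congr_fun this (FreeGroup.mk w)

/-- The product of a run of letters in `F8`. -/
def run (b : Bool) (W : List ((Bool × Bool) × P)) : F8 P :=
  (W.map fun q => Monoid.CoprodI.of (M := fun _ : V8 => P) (i := (b, q.1)) q.2).prod

theorem wl_run (b : Bool) {W : List ((Bool × Bool) × P)} {n : ℕ} (h : Cost s W n) :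
    (Filt.wl (s8 s)).le (run b W) n := by
  obtain ⟨ns, h1, h2⟩ := h
  induction h1 generalizing n with
  | nil => exact Filt.one' _ _
  | cons h3 _ ih =>
    rw [List.sum_cons] at h2
    exact Filt.mul' (wl_of s _ h3) (ih le_rfl) h2

/-- The cost of `y` is read off every reduced path with tail equivalent to `l`. -/
def Reads3 (l : List ((Unit × Bool) × L2 P)) (y : F8 P) : Prop :=
  ∀ z u m n, (MH.split (D3 P)).Red m → PC (F2 s) (fun _ => 1) u m n →
    (MH.split (D3 P)).ev u m = (MH.split (D3 P)).ev z l →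
    ∃ n1 n2, n1 + n2 ≤ n ∧ (∃ a ∈ Cp P, (F2 s).le (z * a) n1) ∧ (Filt.wl (s8 s)).le y (3 * n2)

theorem Reads3.final {l : List ((Unit × Bool) × L2 P)} {y : F8 P} (h : Reads3 s l y) (b : Bool)
    {W : List ((Bool × Bool) × P)} (h1 : ∀ q ∈ W, q.2 ≠ 1)
    (h2 : W.IsChain fun q q' => q.1 ≠ q'.1) {a : L2 P} (ha : a ∈ Cp P) {u : L2 P}
    {m : List ((Unit × Bool) × L2 P)} {n : ℕ} (hm : (MH.split (D3 P)).Red m)
    (hc : PC (F2 s) (fun _ => 1) u m n) (he : (MH.split (D3 P)).ev u m =
      (MH.split (D3 P)).ev (a * (W.map fun q => dl P q.1 false q.2).prod) l) :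
    (Filt.wl (s8 s)).le (run b W * y) (3 * n) := by
  obtain ⟨n1, n2, h3, ⟨a', ha', h4⟩, h5⟩ := h _ u m n hm hc he
  exact Filt.mul' (wl_run s b (b2 s ha ha' W h1 h2 h4)) h5 (by omega)

theorem Reads3.step {l : List ((Unit × Bool) × L2 P)} {y : F8 P} (h : Reads3 s l y) (b : Bool)
    {W : List ((Bool × Bool) × P)} (h1 : ∀ q ∈ W, q.2 ≠ 1)
    (h2 : W.IsChain fun q q' => q.1 ≠ q'.1) {e : Unit × Bool}
    (hl : (MH.split (D3 P)).Red ((e, (W.map fun q => dl P q.1 false q.2).prod) :: l)) :
    Reads3 s ((e, (W.map fun q => dl P q.1 false q.2).prod) :: l) (run b W * y) := by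
  intro z u m n hm hc he
  obtain ⟨u', m', rfl, h3, h4⟩ := cmp_central (fun _ : Unit => Cp P) hl hm he
  obtain ⟨n1, n2, h5, h6, h7⟩ := hc
  refine ⟨n1, n2, by omega, ⟨_, inv_mem h3, by simpa using h5⟩, ?_⟩
  exact h.final s b h1 h2 h3 hm.tail h6 h4

theorem reads3_nil : Reads3 s [] 1 := by
  intro z u m n hm hc he
  obtain ⟨rfl, rfl⟩ := (MH.split (D3 P)).eq_nil_of_ev_eq_of hm he
  exact ⟨n, 0, le_rfl, ⟨1, one_mem _, by rw [mul_one]; exact hc⟩, Filt.one' _ _⟩

theorem exists_path3 (L : List (Σ _ : V8, P)) (h1 : ∀ x ∈ L, x.2 ≠ 1)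
    (h2 : L.IsChain fun x x' => x.1 ≠ x'.1) (b : Bool) :
    ∃ (W : List ((Bool × Bool) × P)) (l : List ((Unit × Bool) × L2 P)) (y : F8 P),
      (∀ q ∈ W, q.2 ≠ 1) ∧ (W.IsChain fun q q' => q.1 ≠ q'.1) ∧
      (∀ q ∈ W.head?, ∃ x ∈ L.head?, x.1 = (b, q.1)) ∧
      (L.map fun x => Monoid.CoprodI.of (M := fun _ : V8 => P) (i := x.1) x.2).prod = run b W * y ∧
      (MH.split (D3 P)).ev (W.map fun q => dl P q.1 false q.2).prod l = cond b (w3 P)⁻¹ 1 *
        d8 P false (L.map fun x => Monoid.CoprodI.of (M := fun _ : V8 => P) (i := x.1) x.2).prod ∧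
      (MH.split (D3 P)).Red l ∧ Reads3 s l y := by
  induction L generalizing b with
  | nil =>
    cases b
    · exact ⟨[], [], 1, by simp, List.isChain_nil, by simp, by simp [run], by simp, red_nil _,
        reads3_nil s⟩
    · refine ⟨[], [(((), true), 1)], run false [] * 1, by simp, List.isChain_nil, by simp,
        by simp [run], by simp [w3], red_singleton _ _, ?_⟩
      exact (reads3_nil s).step s false (W := []) (by simp) List.isChain_nil (red_singleton _ _)
  | cons x L ih =>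
    obtain ⟨⟨b₀, p⟩, g⟩ := x
    obtain ⟨W, l, y, k1, k2, k3, k4, k5, k6, k7⟩ :=
      ih (fun x hx => h1 x (List.mem_cons_of_mem _ hx)) h2.tail b₀
    have j1 : ∀ q ∈ (p, g) :: W, q.2 ≠ 1 := fun q hq => by
      rcases List.mem_cons.1 hq with rfl | hq
      · exact h1 _ List.mem_cons_self
      · exact k1 q hq
    have j2 : ((p, g) :: W).IsChain fun q q' => q.1 ≠ q'.1 := by
      refine List.isChain_cons.2 ⟨fun q hq hpq => ?_, k2⟩
      obtain ⟨x, hx, hx'⟩ := k3 q hq
      exact (List.isChain_cons.1 h2).1 x hx (by rw [hx', ← hpq])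
    have j4 : ((⟨(b₀, p), g⟩ :: L : List (Σ _ : V8, P)).map fun x =>
        Monoid.CoprodI.of (M := fun _ : V8 => P) (i := x.1) x.2).prod =
        run b₀ ((p, g) :: W) * y := by
      rw [List.map_cons, List.prod_cons, k4, run, run, List.map_cons, List.prod_cons, mul_assoc]
    have j5 : (MH.split (D3 P)).ev (((p, g) :: W).map fun q => dl P q.1 false q.2).prod l =
        cond b₀ (w3 P)⁻¹ 1 * d8 P false ((⟨(b₀, p), g⟩ :: L : List (Σ _ : V8, P)).map fun x =>
          Monoid.CoprodI.of (M := fun _ : V8 => P) (i := x.1) x.2).prod := by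
      rw [List.map_cons, List.prod_cons, ev_mul, k5, List.map_cons, List.prod_cons, map_mul,
        ← mul_assoc, ← mul_assoc]
      congr 1
      cases b₀ <;> simp [d8, dv, mul_assoc]
    by_cases hb : b = b₀
    · subst hb
      exact ⟨(p, g) :: W, l, y, j1, j2, by simp, j4, j5, k6, k7⟩
    · have j6 : (MH.split (D3 P)).Red
          ((((), b), (((p, g) :: W).map fun q => dl P q.1 false q.2).prod) :: l) := by
        rcases l with _ | ⟨f, l⟩
        · exact red_singleton _ _
        · refine (red_cons_cons _ _ _ _).2 ⟨fun h => ?_, k6⟩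
          have := h.2
          rw [MH.central_A] at this
          exact prod_notMem (List.cons_ne_nil _ _) j1 j2 this
      refine ⟨[], _, run b₀ ((p, g) :: W) * y, by simp, List.isChain_nil, by simp,
        by rw [j4]; simp [run], ?_, j6, k7.step s b₀ j1 j2 j6⟩
      rw [ev_cons, j5, ← mul_assoc]
      congr 1
      cases b <;> cases b₀ <;> simp [w3] at hb ⊢

theorem d8_distortion {x : F8 P} {n : ℕ} (h : (F3 s).le (d8 P false x) n) :
    (Filt.wl (s8 s)).le x (3 * n) := by
  classical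
  obtain ⟨w, rfl⟩ : ∃ w : Monoid.CoprodI.Word fun _ : V8 => P, w.prod = x :=
    ⟨Monoid.CoprodI.Word.equiv x, Monoid.CoprodI.Word.equiv.symm_apply_apply x⟩
  obtain ⟨W, l, y, k1, k2, -, k4, k5, -, k7⟩ := exists_path3 s w.toList w.ne_one w.chain_ne false
  obtain ⟨u, m, h1, h2, h3⟩ := (MH.split (D3 P)).sumF_red (sumOK3 s) h
  rw [Monoid.CoprodI.Word.prod, k4]
  refine k7.final s false k1 k2 (one_mem _) h1 h2 ?_
  rw [one_mul, k5, h3, cond_false, one_mul]
  rfl

theorem d8_injective (e : Bool) : Function.Injective (d8 P e) := by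
  rw [injective_iff_map_eq_one]
  intro x hx
  have h : d8 P false x = 1 := by rw [← rho3_d8 P e, hx, map_one]
  exact wl_zero (d8_distortion (id : P → P) (n := 0) (by rw [h]; exact (F3 id).one))

end Crest.Agent.R185.Cube
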