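import Crest.Agent.R185.SplitDef
/-! Row 185: Britton's lemma for multiple HNN extensions, finite presentability. -/
set_option autoImplicit false
open Set

namespace Crest.Agent.R185

namespace MHAux
variable {B Γ E : Type} [Group B] [Group Γ] (S : PreSplit B Γ E)

/-- The equivalence of paths: slide elements of the edge groups through the letters. -/
def R : B → List (E × B) → B → List (E × B) → Prop
  | g, [], g', [] => g = g'
  | g, p :: r, g', q :: r' =>
      p.1 = q.1 ∧ g'⁻¹ * g ∈ S.A p.1 ∧ R (S.φ p.1 (g'⁻¹ * g) * p.2) r q.2 r'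
  | _, [], _, _ :: _ => False
  | _, _ :: _, _, [] => False

/-- `φ` is multiplicative on the edge groups and `φ (bar e)` is the inverse of `φ e`. -/
structure Good : Prop where
  mul : ∀ e a b, a ∈ S.A e → b ∈ S.A e → S.φ e (a * b) = S.φ e a * S.φ e b
  bar : ∀ e a, a ∈ S.A e → S.φ (S.bar e) (S.φ e a) = a

variable {S}

theorem Good.one (hS : Good S) (e : E) : S.φ e 1 = 1 := by
  have := hS.mul e 1 1 (one_mem _) (one_mem _)
  rw [mul_one] at this
  exact mul_eq_left.1 this.symm

theorem Good.inv (hS : Good S) (e : E) {a : B} (ha : a ∈ S.A e) : S.φ e a⁻¹ = (S.φ e a)⁻¹ := by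
  have := hS.mul e a⁻¹ a (inv_mem ha) ha
  rw [inv_mul_cancel, hS.one] at this
  exact eq_inv_of_mul_eq_one_left this.symm

theorem R_mul (b : B) : ∀ {g l g' l'}, R S g l g' l' → R S (b * g) l (b * g') l'
  | g, [], g', [], h => by simp only [R] at h ⊢; rw [h]
  | g, p :: r, g', q :: r', h => by
      simp only [R] at h ⊢
      have : (b * g')⁻¹ * (b * g) = g'⁻¹ * g := by group
      rw [this]; exact h
  | _, [], _, _ :: _, h => h.elim
  | _, _ :: _, _, [], h => h.elim

theorem R_refl (hS : Good S) : ∀ (g : B) (l : List (E × B)), R S g l g l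
  | g, [] => rfl
  | g, p :: r => by
      simp only [R, inv_mul_cancel, hS.one, one_mul, true_and]
      exact ⟨one_mem _, R_refl hS _ _⟩

theorem R_symm (hS : Good S) : ∀ {l l' g g'}, R S g l g' l' → R S g' l' g l
  | [], [], g, g', h => h.symm
  | p :: r, q :: r', g, g', h => by
      obtain ⟨h1, h2, h3⟩ := h
      have e : g⁻¹ * g' = (g'⁻¹ * g)⁻¹ := by group
      refine ⟨h1.symm, ?_, ?_⟩
      · rw [e, ← h1]; exact inv_mem h2
      · have := R_mul (S.φ p.1 (g'⁻¹ * g))⁻¹ (R_symm hS h3)
        rw [inv_mul_cancel_left] at this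
        rw [e, ← h1, hS.inv _ h2]; exact this
  | [], _ :: _, _, _, h => h.elim
  | _ :: _, [], _, _, h => h.elim

theorem R_trans (hS : Good S) :
    ∀ {l l' l'' g g' g''}, R S g l g' l' → R S g' l' g'' l'' → R S g l g'' l''
  | [], [], [], g, g', g'', h, h' => Eq.trans h h'
  | p :: r, q :: r', s :: r'', g, g', g'', h, h' => by
      obtain ⟨h1, h2, h3⟩ := h
      obtain ⟨k1, k2, k3⟩ := h'
      have e : g''⁻¹ * g = (g''⁻¹ * g') * (g'⁻¹ * g) := by group
      rw [← h1] at k2 k3
      refine ⟨h1.trans k1, ?_, ?_⟩
      · rw [e]; exact mul_mem k2 h2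
      · rw [e, hS.mul _ _ _ k2 h2, mul_assoc]
        exact R_trans hS (R_mul _ h3) k3
  | [], _ :: _, _, _, _, _, h, _ => h.elim
  | _ :: _, [], _, _, _, _, h, _ => h.elim
  | _, [], _ :: _, _, _, _, _, h => h.elim
  | _, _ :: _, [], _, _, _, _, h => h.elim

variable (S) in
/-- The first letter of `g, l` cancels against a letter `e` put in front. -/
def Pinch (e : E) (g : B) : List (E × B) → Prop
  | [] => False
  | p :: _ => p.1 = S.bar e ∧ g ∈ S.A p.1

variable (S) in
open Classical in
/-- Put the letter `e` in front of a path. -/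
noncomputable def push (e : E) (g : B) : List (E × B) → B × List (E × B)
  | [] => (1, [(e, g)])
  | p :: r => if p.1 = S.bar e ∧ g ∈ S.A p.1 then (S.φ p.1 g * p.2, r) else (1, (e, g) :: p :: r)

theorem push_of_not {e : E} {g : B} : ∀ {l : List (E × B)}, ¬ Pinch S e g l →
    push S e g l = (1, (e, g) :: l)
  | [], _ => rfl
  | _ :: _, h => if_neg h

theorem push_of_pinch {e : E} {g : B} {p : E × B} {r : List (E × B)} (h : Pinch S e g (p :: r)) :
    push S e g (p :: r) = (S.φ p.1 g * p.2, r) := if_pos h

theorem red_cons {e : E} {g : B} : ∀ {l : List (E × B)},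
    S.Red ((e, g) :: l) ↔ ¬ Pinch S e g l ∧ S.Red l
  | [] => by simp [Pinch]
  | _ :: _ => S.red_cons_cons _ _ _

theorem push_red {e : E} {g : B} {l : List (E × B)} (h : S.Red l) : S.Red (push S e g l).2 := by
  by_cases hp : Pinch S e g l
  · cases l with
    | nil => exact hp.elim
    | cons p r => rw [push_of_pinch hp]; exact h.tail
  · rw [push_of_not hp]; exact red_cons.2 ⟨hp, h⟩

theorem pinch_congr {e : E} : ∀ {g l g' l'}, R S g l g' l' → Pinch S e g' l' → Pinch S e g l
  | g, p :: r, g', q :: r', h, h' => by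
      obtain ⟨h1, h2, -⟩ := h
      obtain ⟨k1, k2⟩ := h'
      refine ⟨h1.trans k1, ?_⟩
      rw [← h1] at k2
      simpa using mul_mem k2 h2
  | _, [], _, _ :: _, h, _ => h.elim
  | _, _, _, [], _, h => h.elim

theorem push_congr (hS : Good S) (e : E) {g l g' l'} (h : R S g l g' l') :
    R S (push S e g l).1 (push S e g l).2 (push S e g' l').1 (push S e g' l').2 := by
  by_cases hp : Pinch S e g l
  · have hp' := pinch_congr (R_symm hS h) hp
    cases l with
    | nil => exact hp.elim
    | cons p r =>
    cases l' with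
    | nil => exact hp'.elim
    | cons q r' =>
      rw [push_of_pinch hp, push_of_pinch hp']
      obtain ⟨h1, h2, h3⟩ := h
      have k := hp'.2
      rw [← h1] at k
      have := R_mul (S.φ p.1 g') h3
      rw [← mul_assoc, ← hS.mul _ _ _ k h2, mul_inv_cancel_left] at this
      rw [← h1]; exact this
  · have hp' : ¬ Pinch S e g' l' := fun h' => hp (pinch_congr h h')
    rw [push_of_not hp, push_of_not hp']
    refine ⟨rfl, by simp, ?_⟩
    simpa [hS.one] using h

theorem push_push (hS : Good S) (e : E) {g l} (h : S.Red l) :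
    R S (push S (S.bar e) (push S e g l).1 (push S e g l).2).1
      (push S (S.bar e) (push S e g l).1 (push S e g l).2).2 g l := by
  by_cases hp : Pinch S e g l
  · cases l with
    | nil => exact hp.elim
    | cons p r =>
      rw [push_of_pinch hp]
      obtain ⟨e', k⟩ := p
      obtain ⟨h1, h2⟩ := hp
      dsimp only at h1 h2 ⊢
      subst h1
      have hn : ¬ Pinch S (S.bar e) (S.φ (S.bar e) g * k) r := by
        intro hq
        refine (red_cons.1 h).1 ?_
        cases r with
        | nil => exact hq.elim
        | cons q r' =>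
          refine ⟨hq.1, ?_⟩
          have h3 := S.φ_mem _ _ h2
          rw [← hq.1] at h3
          simpa using mul_mem (inv_mem h3) hq.2
      rw [push_of_not hn]
      refine ⟨rfl, by simpa using h2, ?_⟩
      simp only [mul_one]
      rw [hS.inv _ h2, inv_mul_cancel_left]
      exact R_refl hS _ _
  · rw [push_of_not hp]
    have hq : Pinch S (S.bar e) 1 ((e, g) :: l) := ⟨(S.bar_bar e).symm, one_mem _⟩
    dsimp only
    rw [push_of_pinch hq]
    simp only [hS.one, one_mul]
    exact R_refl hS _ _

theorem push_rel (hS : Good S) (e : E) {a : B} (ha : a ∈ S.A e) (g l) :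
    R S (a * (push S e g l).1) (push S e g l).2
      (push S e (S.φ e a * g) l).1 (push S e (S.φ e a * g) l).2 := by
  have hφ := S.φ_mem _ _ ha
  by_cases hp : Pinch S e g l
  · cases l with
    | nil => exact hp.elim
    | cons p r =>
      obtain ⟨e', k⟩ := p
      have hp0 := hp
      obtain ⟨h1, h2⟩ := hp
      dsimp only at h1 h2
      subst h1
      have hp' : Pinch S e (S.φ e a * g) ((S.bar e, k) :: r) := ⟨rfl, mul_mem hφ h2⟩
      rw [push_of_pinch hp0, push_of_pinch hp']
      dsimp only
      rw [hS.mul _ _ _ hφ h2, hS.bar _ _ ha, mul_assoc]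
      exact R_refl hS _ _
  · have hp' : ¬ Pinch S e (S.φ e a * g) l := by
      intro hq
      apply hp
      cases l with
      | nil => exact hq.elim
      | cons q r' =>
        refine ⟨hq.1, ?_⟩
        rw [← hq.1] at hφ
        simpa using mul_mem (inv_mem hφ) hq.2
    rw [push_of_not hp, push_of_not hp']
    refine ⟨rfl, by simpa using ha, ?_⟩
    simp only [inv_one, mul_one, one_mul]
    exact R_refl hS _ _

variable (S) in
/-- Reduced paths. -/
def W : Type := {x : B × List (E × B) // S.Red x.2}

/-- The equivalence relation on reduced paths. -/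
def setoid (hS : Good S) : Setoid (W S) where
  r x y := R S x.1.1 x.1.2 y.1.1 y.1.2
  iseqv := ⟨fun _ => R_refl hS _ _, fun h => R_symm hS h, fun h h' => R_trans hS h h'⟩

/-- Classes of reduced paths. -/
def X (hS : Good S) : Type := Quotient (setoid hS)

/-- The class of a reduced path. -/
def cls (hS : Good S) (g : B) (l : List (E × B)) (h : S.Red l) : X hS :=
  Quotient.mk (setoid hS) ⟨(g, l), h⟩

theorem cls_eq (hS : Good S) {g l h g' l' h'} :
    cls hS g l h = cls hS g' l' h' ↔ R S g l g' l' := Quotient.eq (r := setoid hS)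

theorem X.ind {hS : Good S} {P : X hS → Prop} (h : ∀ g l hl, P (cls hS g l hl)) (x : X hS) : P x :=
  Quotient.inductionOn (s := setoid hS) x fun w => h w.1.1 w.1.2 w.2

/-- Left multiplication on classes. -/
def lmul (hS : Good S) (b : B) : X hS → X hS :=
  Quotient.map (sa := setoid hS) (sb := setoid hS)
    (fun w => ⟨(b * w.1.1, w.1.2), w.2⟩) fun _ _ h => R_mul b h

theorem lmul_cls (hS : Good S) (b g l h) : lmul hS b (cls hS g l h) = cls hS (b * g) l h := rfl

/-- The letter action on classes. -/
noncomputable def tmul (hS : Good S) (e : E) : X hS → X hS :=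
  Quotient.map (sa := setoid hS) (sb := setoid hS)
    (fun w => ⟨push S e w.1.1 w.1.2, push_red w.2⟩) fun _ _ h => push_congr hS e h

theorem tmul_cls (hS : Good S) (e g l h) :
    tmul hS e (cls hS g l h) = cls hS (push S e g l).1 (push S e g l).2 (push_red h) := rfl

theorem tmul_tmul (hS : Good S) (e : E) (x : X hS) : tmul hS (S.bar e) (tmul hS e x) = x := by
  induction x using X.ind with
  | h g l hl => rw [tmul_cls, tmul_cls, cls_eq]; exact push_push hS e hl

/-- The base acts on classes. -/
def actB (hS : Good S) : B →* Equiv.Perm (X hS) where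
  toFun b :=
    { toFun := lmul hS b
      invFun := lmul hS b⁻¹
      left_inv := fun x => by
        induction x using X.ind with
        | h g l hl => simp only [lmul_cls, inv_mul_cancel_left]
      right_inv := fun x => by
        induction x using X.ind with
        | h g l hl => simp only [lmul_cls, mul_inv_cancel_left] }
  map_one' := by
    ext x
    induction x using X.ind with
    | h g l hl => change cls hS (1 * g) l hl = cls hS g l hl; simp only [one_mul]
  map_mul' a b := by
    ext x
    induction x using X.ind with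
    | h g l hl => change cls hS (a * b * g) l hl = cls hS (a * (b * g)) l hl; simp only [mul_assoc]

/-- The letters act on classes. -/
noncomputable def actT (hS : Good S) (e : E) : Equiv.Perm (X hS) where
  toFun := tmul hS e
  invFun := tmul hS (S.bar e)
  left_inv := tmul_tmul hS e
  right_inv x := by
    have := tmul_tmul hS (S.bar e) x
    rwa [S.bar_bar] at this

theorem actT_bar (hS : Good S) (e : E) : actT hS (S.bar e) = (actT hS e)⁻¹ := by
  ext x; rfl

theorem act_rel (hS : Good S) (e : E) {a : B} (ha : a ∈ S.A e) :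
    actB hS a * actT hS e = actT hS e * actB hS (S.φ e a) := by
  ext x
  induction x using X.ind with
  | h g l hl =>
    change lmul hS a (tmul hS e (cls hS g l hl)) = tmul hS e (lmul hS (S.φ e a) (cls hS g l hl))
    rw [tmul_cls, lmul_cls, lmul_cls, tmul_cls, cls_eq]
    exact push_rel hS e ha g l

theorem act_ev (hS : Good S) (ρ : Γ →* Equiv.Perm (X hS)) (h1 : ∀ b, ρ (S.of b) = actB hS b)
    (h2 : ∀ e, ρ (S.t e) = actT hS e) : ∀ (l : List (E × B)) (g : B) (hl : S.Red l),
    ρ (S.ev g l) (cls hS 1 [] S.red_nil) = cls hS g l hl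
  | [], g, hl => by
      rw [S.ev_nil, h1]; change cls hS (g * 1) [] hl = _; simp only [mul_one]
  | (e, k) :: r, g, hl => by
      rw [S.ev_cons, map_mul, map_mul, h1, h2, Equiv.Perm.mul_apply, Equiv.Perm.mul_apply,
        act_ev hS ρ h1 h2 r k hl.tail]
      change lmul hS g (tmul hS e (cls hS k r hl.tail)) = _
      rw [tmul_cls, lmul_cls, cls_eq, push_of_not (red_cons.1 hl).1, mul_one]
      exact R_refl hS _ _

end MHAux

namespace MH
variable {B J : Type} [Group B] (H : HData B J)

theorem pre_good : MHAux.Good (pre H) where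
  mul := by
    rintro ⟨j, b⟩ _ _ ⟨d, rfl⟩ ⟨d', rfl⟩
    dsimp only
    rw [← map_mul, pre_φ, pre_φ, pre_φ, map_mul]
  bar := by
    rintro ⟨j, b⟩ _ ⟨d, rfl⟩
    dsimp only
    rw [pre_φ]
    change (pre H).φ (j, !b) _ = _
    rw [pre_φ, Bool.not_not]

/-- The action of `MH H` on classes of reduced paths. -/
noncomputable def act : MH H →* Equiv.Perm (MHAux.X (pre_good H)) :=
  lift (MHAux.actB (pre_good H)) (fun j => MHAux.actT (pre_good H) (j, false)) fun j d => by
    have := MHAux.act_rel (pre_good H) (j, false) (a := H.i j false d) ⟨d, rfl⟩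
    rwa [pre_φ] at this

theorem pre_R {g l g' l'} (hl : (pre H).Red l) (hl' : (pre H).Red l')
    (h : (pre H).ev g l = (pre H).ev g' l') : MHAux.R (pre H) g l g' l' := by
  have h1 : ∀ b, act H ((pre H).of b) = MHAux.actB (pre_good H) b := fun b => lift_of _ _ _ _ b
  have h2 : ∀ e, act H ((pre H).t e) = MHAux.actT (pre_good H) e := by
    rintro ⟨j, _ | _⟩
    · exact lift_t _ _ _ _ j
    · change act H (t H j)⁻¹ = MHAux.actT (pre_good H) ((pre H).bar (j, false))
      rw [MHAux.actT_bar, map_inv]
      exact congrArg _ (lift_t _ _ _ _ j)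
  have e1 := MHAux.act_ev (pre_good H) (act H) h1 h2 l g hl
  have e2 := MHAux.act_ev (pre_good H) (act H) h1 h2 l' g' hl'
  rw [h, e2, eq_comm, MHAux.cls_eq] at e1
  exact e1

theorem of_injective : Function.Injective (of H) := by
  intro a b h
  exact pre_R H (g := a) (l := []) (g' := b) (l' := []) (pre H).red_nil (pre H).red_nil h

theorem pre_cmp : ∀ g l g' l', (pre H).Red l → (pre H).Red l' → (pre H).ev g l = (pre H).ev g' l' →
    (l = [] ∧ l' = []) ∨
      ∃ e h r h' r', l = (e, h) :: r ∧ l' = (e, h') :: r' ∧ g'⁻¹ * g ∈ (pre H).A e := by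
  intro g l g' l' hl hl' h
  have hR := pre_R H hl hl' h
  match l, l', hR with
  | [], [], _ => exact Or.inl ⟨rfl, rfl⟩
  | (e, k) :: r, (e', k') :: r', hR =>
    obtain ⟨h1, h2, -⟩ := hR
    dsimp only at h1 h2
    subst h1
    exact Or.inr ⟨e, k, r, k', r', rfl, rfl, h2⟩
  | [], _ :: _, hR => exact hR.elim
  | _ :: _, [], hR => exact hR.elim

theorem closure_eq_top' : Subgroup.closure (range (of H) ∪ range (t H)) = ⊤ := by
  set K := Subgroup.closure (range (of H) ∪ range (t H))
  rw [eq_top_iff]
  rintro x -
  obtain ⟨y, rfl⟩ := QuotientGroup.mk'_surjective (Subgroup.normalClosure H.rels) x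
  induction y using Monoid.Coprod.induction_on with
  | inl b => exact Subgroup.subset_closure (Or.inl ⟨b, rfl⟩)
  | inr w =>
    induction w using FreeGroup.induction_on with
    | C1 => simp only [map_one]; exact one_mem K
    | of j => exact Subgroup.subset_closure (Or.inr ⟨j, rfl⟩)
    | inv_of j hj => simp only [map_inv]; exact inv_mem hj
    | mul a b ha hb => simp only [map_mul]; exact mul_mem ha hb
  | mul a b ha hb => simp only [map_mul]; exact mul_mem ha hb

theorem pre_gen : Subgroup.closure (range (pre H).of ∪ range (pre H).t) = ⊤ := by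
  rw [eq_top_iff, ← closure_eq_top' H]
  refine Subgroup.closure_mono (union_subset_union (subset_refl _) ?_)
  rintro _ ⟨j, rfl⟩
  exact ⟨(j, false), rfl⟩

/-- The HNN structure on `MH H`. -/
noncomputable def split : Split B (MH H) (J × Bool) where
  toPreSplit := pre H
  inj := of_injective H
  cmp := pre_cmp H
  gen := pre_gen H

@[simp] theorem split_of : (split H).of = of H := rfl
@[simp] theorem split_bar (e : J × Bool) : (split H).bar e = (e.1, !e.2) := rfl
@[simp] theorem split_t_false (j : J) : (split H).t (j, false) = t H j := rfl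
@[simp] theorem split_t_true (j : J) : (split H).t (j, true) = (t H j)⁻¹ := rfl
@[simp] theorem split_A (e : J × Bool) : (split H).A e = (H.i e.1 e.2).range := rfl
theorem split_φ (j : J) (b : Bool) (d : H.D j) :
    (split H).φ (j, b) (H.i j b d) = H.i j (!b) d := pre_φ H j b d

theorem closure_eq_top : Subgroup.closure (range (of H) ∪ range (t H)) = ⊤ :=
  closure_eq_top' H

theorem central_A (K : J → Subgroup B) (e : J × Bool) :
    (split (HData.central K)).A e = K e.1 := by
  simp [HData.central]

theorem central_φ (K : J → Subgroup B) (e : J × Bool) {a : B} (ha : a ∈ K e.1) :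
    (split (HData.central K)).φ e a = a :=
  split_φ (HData.central K) e.1 e.2 ⟨a, ha⟩

theorem central_comm (K : J → Subgroup B) (j : J) {a : B} (ha : a ∈ K j) :
    Commute (of (HData.central K) a) (t (HData.central K) j) :=
  rel (HData.central K) j ⟨a, ha⟩

theorem free_A (e : J × Bool) : (split (HData.free B J)).A e = ⊥ := central_A _ e

/-- Universal property for centralising letters. -/
def liftC {K : J → Subgroup B} {T : Type*} [Group T] (f : B →* T) (τ : J → T)
    (h : ∀ j, ∀ a ∈ K j, Commute (f a) (τ j)) : MH (HData.central K) →* T :=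
  lift f τ fun j d => h j d.1 d.2

@[simp] theorem liftC_of {K : J → Subgroup B} {T : Type*} [Group T] (f : B →* T) (τ : J → T) (h)
    (b : B) : liftC (K := K) f τ h (of _ b) = f b := lift_of _ _ _ _ _

@[simp] theorem liftC_t {K : J → Subgroup B} {T : Type*} [Group T] (f : B →* T) (τ : J → T) (h)
    (j : J) : liftC (K := K) f τ h (t _ j) = τ j := lift_t _ _ _ _ _

/-- Universal property for free letters. -/
def liftF {T : Type*} [Group T] (f : B →* T) (τ : J → T) : MH (HData.free B J) →* T :=
  liftC f τ fun _ a ha => by rw [Subgroup.mem_bot.1 ha, map_one]; exact Commute.one_left _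

@[simp] theorem liftF_of {T : Type*} [Group T] (f : B →* T) (τ : J → T) (b : B) :
    liftF f τ (of _ b) = f b := by unfold liftF; exact liftC_of _ _ _ _

@[simp] theorem liftF_t {T : Type*} [Group T] (f : B →* T) (τ : J → T) (j : J) :
    liftF f τ (t _ j) = τ j := by unfold liftF; exact liftC_t _ _ _ _

theorem isFinitelyPresented [Finite J] [Group.IsFinitelyPresented B] (h : ∀ j, Group.FG (H.D j)) :
    Group.IsFinitelyPresented (MH H) := by
  choose s hs hfin using fun j => (Group.fg_iff (G := H.D j)).1 (h j)
  let r : (j : J) → H.D j → Monoid.Coprod B (FreeGroup J) := fun j d =>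
    Monoid.Coprod.inl (H.i j false d) * Monoid.Coprod.inr (FreeGroup.of j) *
      (Monoid.Coprod.inr (FreeGroup.of j) * Monoid.Coprod.inl (H.i j true d))⁻¹
  refine Group.IsFinitelyPresented.quotient (Subgroup.normalClosure H.rels)
    ⟨⋃ j, r j '' s j, finite_iUnion fun j => (hfin j).image _, le_antisymm ?_ ?_⟩
  · refine Subgroup.normalClosure_mono ?_
    intro x hx
    obtain ⟨j, d, -, rfl⟩ := by simpa using hx
    exact ⟨j, d, rfl⟩
  · refine Subgroup.normalClosure_le_normal ?_
    rintro _ ⟨j, d, rfl⟩
    set N := Subgroup.normalClosure (⋃ j, r j '' s j)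
    change r j d ∈ N
    have hd : d ∈ Subgroup.closure (s j) := by rw [hs]; trivial
    induction hd using Subgroup.closure_induction with
    | mem x hx => exact Subgroup.subset_normalClosure (mem_iUnion.2 ⟨j, x, hx, rfl⟩)
    | one => simp only [r, map_one, one_mul, mul_one, mul_inv_cancel]; exact one_mem _
    | mul x y _ _ hx hy =>
      have : r j (x * y) = Monoid.Coprod.inl (H.i j false x) * r j y *
          (Monoid.Coprod.inl (H.i j false x))⁻¹ * r j x := by
        simp only [r, map_mul]; group
      rw [this]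
      exact mul_mem (Subgroup.Normal.conj_mem inferInstance _ hy _) hx
    | inv x _ hx =>
      have : r j x⁻¹ = (Monoid.Coprod.inl (H.i j false x))⁻¹ * (r j x)⁻¹ *
          ((Monoid.Coprod.inl (H.i j false x))⁻¹)⁻¹ := by
        simp only [r, map_inv]; group
      rw [this]
      exact Subgroup.Normal.conj_mem inferInstance _ (inv_mem hx) _

end MH
end Crest.Agent.R185
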