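import Crest.Agent.R185.Sub
import Crest.Agent.R185.MH
/-!
Row 185: the first three floors of the swindle group over a group `P`.
`B6 = P^6` with coordinates `a₀ a₁ b₀ b₁ f x`; `L2` adjoins letters `t p` (`p = (i,j)`) centralising
`a_i × b_j`; `L3` adjoins a letter `w` centralising the retract `Cp = ⟨f, t p⟩`.
-/
set_option autoImplicit false
open Set

noncomputable section
namespace Crest.Agent.R185.Cube

/-- Coordinates. -/
abbrev Ix := Bool ⊕ Bool ⊕ Bool
abbrev ia (i : Bool) : Ix := .inl i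
abbrev ib (j : Bool) : Ix := .inr (.inl j)
abbrev iF : Ix := .inr (.inr false)
abbrev iX : Ix := .inr (.inr true)

variable (P : Type) [Group P]

abbrev B6 := Ix → P

/-- Coordinate inclusion. -/
def sg (k : Ix) : P →* B6 P := MonoidHom.mulSingle (fun _ : Ix => P) k

/-- `a_i × b_j`. -/
def Hp (p : Bool × Bool) : Subgroup (B6 P) where
  carrier := {g | ∀ k, k ≠ ia p.1 → k ≠ ib p.2 → g k = 1}
  one_mem' _ _ _ := rfl
  mul_mem' ha hb k h1 h2 := by simp [ha k h1 h2, hb k h1 h2]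
  inv_mem' ha k h1 h2 := by simp [ha k h1 h2]

abbrev D2 : HData (B6 P) (Bool × Bool) := HData.central (Hp P)
abbrev L2 := MH (D2 P)

/-- Coordinate inclusion into `L2`. -/
def s2 (k : Ix) : P →* L2 P := (MH.of (D2 P)).comp (sg P k)

/-- The copy of the coordinate `k` conjugated by `t p`. -/
def cj (p : Bool × Bool) (k : Ix) : P →* L2 P :=
  (MulAut.conj (MH.t (D2 P) p)).toMonoidHom.comp (s2 P k)

theorem cj_apply (p : Bool × Bool) (k : Ix) (g : P) :
    cj P p k g = MH.t (D2 P) p * s2 P k g * (MH.t (D2 P) p)⁻¹ := rfl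

theorem sg_mem_Hp_a (p : Bool × Bool) (g : P) : sg P (ia p.1) g ∈ Hp P p :=
  fun k h _ => by simp [sg, Pi.mulSingle_eq_of_ne h]

theorem sg_mem_Hp_b (p : Bool × Bool) (g : P) : sg P (ib p.2) g ∈ Hp P p :=
  fun k _ h => by simp [sg, Pi.mulSingle_eq_of_ne h]

theorem s2_comm {k k' : Ix} (h : k ≠ k') (g g' : P) : Commute (s2 P k g) (s2 P k' g') :=
  (Pi.mulSingle_commute (f := fun _ : Ix => P) h g g').map (MH.of (D2 P))

theorem cj_a (p : Bool × Bool) (g : P) : cj P p (ia p.1) g = s2 P (ia p.1) g := by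
  have := (MH.central_comm (Hp P) p (sg_mem_Hp_a P p g)).eq
  rw [cj_apply, mul_inv_eq_iff_eq_mul]; exact this.symm

theorem cj_b (p : Bool × Bool) (g : P) : cj P p (ib p.2) g = s2 P (ib p.2) g := by
  have := (MH.central_comm (Hp P) p (sg_mem_Hp_b P p g)).eq
  rw [cj_apply, mul_inv_eq_iff_eq_mul]; exact this.symm

/-- The diagonal of `P` in the coordinates `a_i, b_j, f` (and `x` if `e`). -/
def dg (p : Bool × Bool) (e : Bool) : P →* B6 P :=
  MonoidHom.pi fun k => if k = ia p.1 ∨ k = ib p.2 ∨ k = iF ∨ (e = true ∧ k = iX) then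
    MonoidHom.id P else 1

/-- `δ_p = a_i b_j f_p` (times `x_p` if `e`). -/
def dl (p : Bool × Bool) (e : Bool) : P →* L2 P :=
  (MulAut.conj (MH.t (D2 P) p)).toMonoidHom.comp ((MH.of (D2 P)).comp (dg P p e))

/-- The special vertex. -/
abbrev p0 : Bool × Bool := (false, false)

/-- The retract `⟨f, t p⟩`. -/
def Cp : Subgroup (L2 P) := (MH.split (D2 P)).gsub (sg P iF).range univ

/-- The retraction onto `Cp`. -/
def r2 : L2 P →* L2 P :=
  MH.liftC ((s2 P iF).comp (Pi.evalMonoidHom (fun _ : Ix => P) iF)) (MH.t (D2 P))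
    fun p a ha => by
      have : a iF = 1 := ha iF (by simp) (by simp)
      simp [this]

/-- Kill the coordinate `x`. -/
def killX : B6 P →* B6 P :=
  MonoidHom.pi fun k => if k = iX then 1 else Pi.evalMonoidHom (fun _ : Ix => P) k

theorem killX_of_mem {p : Bool × Bool} {a : B6 P} (ha : a ∈ Hp P p) : killX P a = a := by
  funext k
  by_cases h : k = iX
  · subst h; simp [killX, ha iX (by simp) (by simp)]
  · simp [killX, h]

def rho2 : L2 P →* L2 P :=
  MH.liftC ((MH.of (D2 P)).comp (killX P)) (MH.t (D2 P)) fun p a ha => by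
    simpa [killX_of_mem P ha] using MH.central_comm (Hp P) p ha

theorem killX_sg_iF (g : P) : killX P (sg P iF g) = sg P iF g := by
  funext k
  by_cases h : k = iX
  · subst h; simp [killX, sg, Pi.mulSingle_eq_of_ne]
  · simp [killX, h]

/-- A homomorphism fixing the generators of `Cp` fixes `Cp`. -/
theorem eq_on_Cp {T : Type*} [Group T] (u v : L2 P →* T) (h1 : ∀ g, u (s2 P iF g) = v (s2 P iF g))
    (h2 : ∀ p, u (MH.t (D2 P) p) = v (MH.t (D2 P) p)) {a : L2 P} (ha : a ∈ Cp P) : u a = v a := by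
  have : Cp P ≤ u.eqLocus v := by
    refine (Subgroup.closure_le _).2 ?_
    rintro _ (⟨_, ⟨g, rfl⟩, rfl⟩ | ⟨⟨p, b⟩, -, rfl⟩)
    · exact h1 g
    · cases b
      · exact h2 p
      · exact inv_mem (show MH.t (D2 P) p ∈ u.eqLocus v from h2 p)
  exact this ha

theorem s2_iF_mem (g : P) : s2 P iF g ∈ Cp P :=
  Subgroup.subset_closure (Or.inl ⟨_, ⟨g, rfl⟩, rfl⟩)

theorem t_mem_Cp (p : Bool × Bool) : MH.t (D2 P) p ∈ Cp P :=
  Subgroup.subset_closure (Or.inr ⟨(p, false), trivial, rfl⟩)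

theorem cj_iF_mem (p : Bool × Bool) (g : P) : cj P p iF g ∈ Cp P :=
  mul_mem (mul_mem (t_mem_Cp P p) (s2_iF_mem P g)) (inv_mem (t_mem_Cp P p))

theorem rho2_of (b : B6 P) : rho2 P (MH.of (D2 P) b) = MH.of (D2 P) (killX P b) :=
  MH.liftC_of _ _ _ _

theorem rho2_t (p : Bool × Bool) : rho2 P (MH.t (D2 P) p) = MH.t (D2 P) p :=
  MH.liftC_t _ _ _ _

theorem r2_of (b : B6 P) : r2 P (MH.of (D2 P) b) = s2 P iF (b iF) :=
  MH.liftC_of _ _ _ _

theorem r2_t (p : Bool × Bool) : r2 P (MH.t (D2 P) p) = MH.t (D2 P) p :=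
  MH.liftC_t _ _ _ _

theorem rho2_of_mem {a : L2 P} (ha : a ∈ Cp P) : rho2 P a = a :=
  eq_on_Cp P (rho2 P) (MonoidHom.id _)
    (fun g => (rho2_of P _).trans (congrArg (MH.of (D2 P)) (killX_sg_iF P g))) (rho2_t P) ha

theorem dl_apply (p : Bool × Bool) (e : Bool) (g : P) :
    dl P p e g = MH.t (D2 P) p * MH.of (D2 P) (dg P p e g) * (MH.t (D2 P) p)⁻¹ := rfl

theorem killX_dg (p : Bool × Bool) (e : Bool) (g : P) : killX P (dg P p e g) = dg P p false g := by
  funext k
  by_cases h : k = iX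
  · subst h; simp [killX, dg]
  · simp [killX, dg, h]

theorem rho2_dl (p : Bool × Bool) (e : Bool) (g : P) : rho2 P (dl P p e g) = dl P p false g := by
  rw [dl_apply, dl_apply, map_mul, map_mul, map_inv, rho2_t, rho2_of, killX_dg]

abbrev D3 : HData (L2 P) Unit := HData.central fun _ => Cp P
abbrev L3 := MH (D3 P)

def w3 : L3 P := MH.t (D3 P) ()

def rho3 : L3 P →* L3 P :=
  MH.liftC ((MH.of (D3 P)).comp (rho2 P)) (MH.t (D3 P)) fun p a ha => by
    simpa [rho2_of_mem P ha] using MH.central_comm (fun _ : Unit => Cp P) p ha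

/-- The vertices of the 3-cube. -/
abbrev V8 := Bool × Bool × Bool

abbrev F8 := Monoid.CoprodI fun _ : V8 => P

/-- The eight diagonals; for `e = true` the one at the special vertex is multiplied by `x`. -/
def dv (e : Bool) (v : V8) : P →* L3 P :=
  cond v.1 ((MulAut.conj (w3 P)).toMonoidHom.comp ((MH.of (D3 P)).comp (dl P v.2 false)))
    ((MH.of (D3 P)).comp (dl P v.2 (e && decide (v.2 = p0))))

def d8 (e : Bool) : F8 P →* L3 P := Monoid.CoprodI.lift (dv P e)

theorem rho3_of (y : L2 P) : rho3 P (MH.of (D3 P) y) = MH.of (D3 P) (rho2 P y) :=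
  MH.liftC_of _ _ _ _

theorem rho3_w : rho3 P (w3 P) = w3 P := MH.liftC_t _ _ _ _

theorem dv_true (e : Bool) (p : Bool × Bool) (g : P) :
    dv P e (true, p) g = w3 P * MH.of (D3 P) (dl P p false g) * (w3 P)⁻¹ := rfl

theorem dv_false (e : Bool) (p : Bool × Bool) (g : P) :
    dv P e (false, p) g = MH.of (D3 P) (dl P p (e && decide (p = p0)) g) := rfl

theorem d8_of (e : Bool) (v : V8) (g : P) :
    d8 P e (Monoid.CoprodI.of (i := v) g) = dv P e v g := Monoid.CoprodI.lift_of _ _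

theorem rho3_d8 (e : Bool) (x : F8 P) : rho3 P (d8 P e x) = d8 P false x := by
  have : (rho3 P).comp (d8 P e) = d8 P false := by
    refine Monoid.CoprodI.ext_hom _ _ fun v => MonoidHom.ext fun g => ?_
    change rho3 P (d8 P e (Monoid.CoprodI.of (i := v) g)) = d8 P false (Monoid.CoprodI.of (i := v) g)
    rw [d8_of, d8_of]
    obtain ⟨_ | _, p⟩ := v
    · rw [dv_false, dv_false, rho3_of, rho2_dl, Bool.false_and]
    · rw [dv_true, dv_true, map_mul, map_mul, map_inv, rho3_w, rho3_of, rho2_dl]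
  exact DFunLike.congr_fun this x

/-! ### filtrations -/

variable {P} {A : Type} (s : A → P)

theorem wl_gen {G X : Type} [Group G] (σ : X → G) (a : X) : (Filt.wl σ).le (σ a) 1 :=
  ⟨[(a, true)], le_rfl, by simp⟩

/-- A homomorphism that sends generators to elements of cost `≤ c` is `c`-Lipschitz. -/
theorem wl_map {G T X : Type} [Group G] [Group T] (σ : X → G) (F' : Filt T) (ψ : G →* T) (c : ℕ)
    (h : ∀ a, F'.le (ψ (σ a)) c) {x : G} {n : ℕ} (hx : (Filt.wl σ).le x n) :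
    F'.le (ψ x) (c * n) := by
  obtain ⟨w, hw, rfl⟩ := hx
  refine F'.mono ?_ (Nat.mul_le_mul_left c hw)
  clear hw
  induction w with
  | nil => rw [← FreeGroup.one_eq_mk, map_one, map_one]; exact F'.one' _
  | cons q w ih =>
    have e : FreeGroup.mk (q :: w) = FreeGroup.mk [q] * FreeGroup.mk w := by
      rw [FreeGroup.mul_mk]; rfl
    rw [e, map_mul, map_mul]
    refine Filt.mul' (m := c) ?_ ih (by rw [List.length_cons, Nat.mul_add]; omega)
    obtain ⟨a, _ | _⟩ := q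
    · simpa using F'.inv (h a)
    · simpa using h a

theorem sumOK_central {B J : Type} [Group B] (K : J → Subgroup B) (F : Filt B) :
    (MH.split (HData.central K)).SumOK F fun _ => 1 where
  c_bar _ := rfl
  pinch e a n ha h := by
    rw [MH.central_A] at ha
    rw [MH.central_φ K e ha]
    exact F.mono h (Nat.le_add_right _ _)

theorem sumOK2 : (MH.split (D2 P)).SumOK ((Filt.wl s).pi) fun _ => 1 :=
  sumOK_central _ _

/-- Total cost filtration on `L2`. -/
def F2 : Filt (L2 P) := (MH.split (D2 P)).sumF (sumOK2 s)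

theorem sumOK3 : (MH.split (D3 P)).SumOK (F2 s) fun _ => 1 :=
  sumOK_central _ _

def F3 : Filt (L3 P) := (MH.split (D3 P)).sumF (sumOK3 s)

theorem r2_mem (x : L2 P) : r2 P x ∈ Cp P := by
  have : (⊤ : Subgroup (L2 P)) ≤ (Cp P).comap (r2 P) := by
    rw [← MH.closure_eq_top (D2 P), Subgroup.closure_le]
    rintro _ (⟨b, rfl⟩ | ⟨p, rfl⟩)
    · change r2 P _ ∈ Cp P
      rw [r2_of]; exact s2_iF_mem P _
    · change r2 P _ ∈ Cp P
      rw [r2_t]; exact t_mem_Cp P _
  exact this trivial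

theorem mem_Cp_iff (x : L2 P) : x ∈ Cp P ↔ r2 P x = x := by
  refine ⟨fun hx => eq_on_Cp P (r2 P) (MonoidHom.id _) (fun g => ?_) (r2_t P) hx,
    fun h => h ▸ r2_mem x⟩
  refine (r2_of P _).trans ?_
  simp [sg]

theorem F2_of {b : B6 P} {n : ℕ} (h : ∀ k, (Filt.wl s).le (b k) n) :
    (F2 s).le (MH.of (D2 P) b) n := (MH.split (D2 P)).sumF_of (sumOK2 s) h

theorem F2_t (p : Bool × Bool) : (F2 s).le (MH.t (D2 P) p) 1 :=
  (MH.split (D2 P)).sumF_t (sumOK2 s) (p, false)

theorem F2_s2 (k : Ix) {g : P} {n : ℕ} (h : (Filt.wl s).le g n) : (F2 s).le (s2 P k g) n := by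
  refine F2_of s fun k' => ?_
  by_cases hk : k' = k
  · subst hk; simpa [sg] using h
  · simpa [sg, Pi.mulSingle_eq_of_ne hk] using (Filt.wl s).one' n

theorem F3_of {y : L2 P} {n : ℕ} (h : (F2 s).le y n) : (F3 s).le (MH.of (D3 P) y) n :=
  (MH.split (D3 P)).sumF_of (sumOK3 s) h

theorem F3_w : (F3 s).le (w3 P) 1 := (MH.split (D3 P)).sumF_t (sumOK3 s) ((), false)

theorem F2_dl (p : Bool × Bool) (e : Bool) {g : P} {n : ℕ} (h : (Filt.wl s).le g n) :
    (F2 s).le (dl P p e g) (n + 2) := by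
  rw [dl_apply]
  refine Filt.mul' (Filt.mul' (F2_t s p) (F2_of s (n := n) fun k => ?_) le_rfl)
    ((F2 s).inv (F2_t s p)) (by omega)
  simp only [dg, MonoidHom.pi_apply]
  split_ifs
  · exact h
  · exact (Filt.wl s).one' n

theorem F2_r2 {x : L2 P} {n : ℕ} (h : (F2 s).le x n) : (F2 s).le (r2 P x) n := by
  refine (MH.split (D2 P)).sumF_map (sumOK2 s) (F2 s) (r2 P) (fun g n hg => ?_) ?_ h
  · rw [MH.split_of, r2_of]; exact F2_s2 s _ (hg iF)
  · rintro ⟨p, _ | _⟩
    · rw [MH.split_t_false, r2_t]; exact F2_t s p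
    · rw [MH.split_t_true, map_inv, r2_t]; exact (F2 s).inv (F2_t s p)

theorem F2_rho2 {x : L2 P} {n : ℕ} (h : (F2 s).le x n) : (F2 s).le (rho2 P x) n := by
  refine (MH.split (D2 P)).sumF_map (sumOK2 s) (F2 s) (rho2 P) (fun g n hg => ?_) ?_ h
  · rw [MH.split_of, rho2_of]
    refine F2_of s fun k => ?_
    by_cases hk : k = iX
    · subst hk; simpa [killX] using (Filt.wl s).one' n
    · simpa [killX, hk] using hg k
  · rintro ⟨p, _ | _⟩
    · rw [MH.split_t_false, rho2_t]; exact F2_t s p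
    · rw [MH.split_t_true, map_inv, rho2_t]; exact (F2 s).inv (F2_t s p)

theorem F3_rho3 {x : L3 P} {n : ℕ} (h : (F3 s).le x n) : (F3 s).le (rho3 P x) n := by
  refine (MH.split (D3 P)).sumF_map (sumOK3 s) (F3 s) (rho3 P) (fun g n hg => ?_) ?_ h
  · rw [MH.split_of, rho3_of]
    exact F3_of s (F2_rho2 s hg)
  · rintro ⟨⟨⟩, _ | _⟩
    · rw [MH.split_t_false]
      exact (rho3_w P).symm ▸ F3_w s
    · rw [MH.split_t_true, map_inv]
      exact (F3 s).inv ((rho3_w P).symm ▸ F3_w s)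

/-- Generators of `F8`. -/
def s8 (q : V8 × A) : F8 P := Monoid.CoprodI.of (i := q.1) (s q.2)

theorem F3_d8 (e : Bool) {x : F8 P} {n : ℕ} (h : (Filt.wl (s8 s)).le x n) :
    (F3 s).le (d8 P e x) (5 * n) := by
  refine wl_map (s8 s) (F3 s) (d8 P e) 5 ?_ h
  rintro ⟨⟨_ | _, p⟩, a⟩
  · rw [s8, d8_of, dv_false]
    exact (F3 s).mono (F3_of s (F2_dl s p _ (wl_gen s a))) (by omega)
  · rw [s8, d8_of, dv_true]
    exact Filt.mul' (Filt.mul' (F3_w s) (F3_of s (F2_dl s p _ (wl_gen s a))) le_rfl)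
      ((F3 s).inv (F3_w s)) (by omega)

end Crest.Agent.R185.Cube
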