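import Crest.Agent.R185.SplitRE
/-! Row 185: auxiliary facts on certificates (weakening, enumerable filtrations). -/
set_option autoImplicit false
open Set

namespace Crest.Agent.R185
variable {K : Ctx} {X L B Γ E : K.I → Type} [Rep K X] [Rep K L] [∀ i, Group (B i)]
  [∀ i, Group (Γ i)] [Rep K B] [Rep K Γ] [Rep K E]

theorem NMem.weaken {F : ∀ i, Filt (B i)} {T : ∀ i, Set (B i)} {c d c' d' : ℕ}
    (h : NMem F T c d) (hc : c ≤ c') (hd : d ≤ d') : NMem F T c' d' :=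
  h.mono fun _ _ n _ hx => ⟨n, hx, Nat.add_le_add (Nat.mul_le_mul_right n hc) hd⟩

/-- The levels of the filtration are uniformly r.e. -/
def UFilt (F : ∀ i, Filt (B i)) : Prop := URE fun i (p : B i × ℕ) => (F i).le p.1 p.2

theorem UFilt.wl [RGrp K B] {s : ∀ i, L i → B i} (hs : Trk s) :
    UFilt fun i => Filt.wl (s i) :=
  Cert.exists (P := fun i (p : B i × ℕ) (w : List (L i × Bool)) _ =>
      w.length ≤ p.2 ∧ FreeGroup.lift (s i) (FreeGroup.mk w) = p.1)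
    ((Cert.nat_le Trk.id.snd.length Trk.id.fst.snd).and
      (Cert.eq (Trk.lift hs Trk.id.snd.mk) Trk.id.fst.fst))

theorem UFilt.pi {F : ∀ i, Filt (B i)} (h : UFilt F) (ι : Type) [Fintype ι] :
    UFilt fun i => (F i).pi (ι := ι) :=
  Cert.forall_fin (P := fun k i (p : (ι → B i) × ℕ) _ => (F i).le (p.1 k) p.2) fun k =>
    Cert.comp h ((Trk.id.fst.apply k).pair Trk.id.snd)

theorem Trk.add {f g : ∀ i, X i → ℕ} (hf : Trk f) (hg : Trk g) : Trk fun i x => f i x + g i x :=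
  Trk.primrec (g := fun p : ℕ × ℕ => p.1 + p.2) Primrec.nat_add (hf.pair hg)

theorem Trk.natMul {f g : ∀ i, X i → ℕ} (hf : Trk f) (hg : Trk g) :
    Trk fun i x => f i x * g i x :=
  Trk.primrec (g := fun p : ℕ × ℕ => p.1 * p.2) Primrec.nat_mul (hf.pair hg)

theorem PreSplit.pc_iff {B E : Type} [Group B] (F : Filt B) (g : B) (l : List (E × B)) (n : ℕ) :
    PreSplit.PC F (fun _ => 1) g l n ↔ ∃ u : ℕ × List ((E × B) × ℕ), u.2.map Prod.fst = l ∧
      F.le g u.1 ∧ (∀ q ∈ u.2, F.le q.1.2 q.2) ∧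
        u.1 + u.2.foldr (fun q k => 1 + q.2 + k) 0 ≤ n := by
  induction l generalizing g n with
  | nil =>
    refine ⟨fun h => ⟨(n, []), rfl, h, by simp, by simp⟩, ?_⟩
    rintro ⟨⟨a, u⟩, -, h1, -, h2⟩
    exact F.mono h1 (le_trans (Nat.le_add_right _ _) h2)
  | cons p l ih =>
    constructor
    · rintro ⟨a, b, h1, h2, h3⟩
      obtain ⟨⟨a', u⟩, h4, h5, h6, h7⟩ := (ih _ _).1 h2
      refine ⟨(a, (p, a') :: u), by simpa using h4, h1, ?_, ?_⟩
      · intro q hq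
        rcases List.mem_cons.1 hq with rfl | hq
        · exact h5
        · exact h6 q hq
      · simp only [List.foldr_cons] at h7 h3 ⊢
        omega
    · rintro ⟨⟨a, u⟩, h1, h2, h3, h4⟩
      cases u with
      | nil => simp at h1
      | cons q u =>
        obtain ⟨rfl, rfl⟩ := List.cons.inj h1
        refine ⟨a, q.2 + u.foldr (fun q k => 1 + q.2 + k) 0, h2,
          (ih _ _).2 ⟨(q.2, u), rfl, h3 q List.mem_cons_self,
            fun r hr => h3 r (List.mem_cons_of_mem _ hr), le_rfl⟩, ?_⟩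
        simp only [List.foldr_cons] at h4 ⊢
        omega

theorem UFilt.sumF [RGrp K B] [RGrp K Γ] {S : ∀ i, Split (B i) (Γ i) (E i)} (hS : RSplit S)
    {F : ∀ i, Filt (B i)} (h : UFilt F) (hok : ∀ i, (S i).SumOK (F i) fun _ => 1) :
    UFilt fun i => (S i).sumF (hok i) := by
  have h1 : URE fun i (p : Γ i × ℕ) => ∃ v : B i × ℕ × List ((E i × B i) × ℕ),
      ((F i).le v.1 v.2.1 ∧ (∀ q ∈ v.2.2, (F i).le q.1.2 q.2) ∧
        v.2.1 + v.2.2.foldr (fun q k => 1 + q.2 + k) 0 ≤ p.2) ∧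
      (S i).ev v.1 (v.2.2.map Prod.fst) = p.1 := by
    refine Cert.exists (Cert.and (Cert.and ?_ (Cert.and ?_ ?_)) ?_)
    · exact Cert.comp h (Trk.id.snd.fst.pair Trk.id.snd.snd.fst)
    · exact Cert.forall_mem (P := fun i _ (q : (E i × B i) × ℕ) _ => (F i).le q.1.2 q.2)
        Trk.id.snd.snd.snd (Cert.comp h (Trk.id.snd.fst.snd.pair Trk.id.snd.snd))
    · refine Cert.nat_le (Trk.add Trk.id.snd.snd.fst ?_) Trk.id.fst.snd
      exact Trk.foldr (g := fun i _ (q : (E i × B i) × ℕ) k => 1 + q.2 + k) Trk.id.snd.snd.snd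
        (Trk.const 0) (((Trk.const 1).add Trk.id.snd.fst.snd).add Trk.id.snd.snd)
    · exact Cert.eq (hS.ev Trk.id.snd.fst
        (Trk.map (g := fun i _ (q : (E i × B i) × ℕ) => q.1) Trk.id.snd.snd.snd Trk.id.snd.fst))
        Trk.id.fst.fst
  refine URE.of_iff h1 fun i p => ?_
  constructor
  · rintro ⟨⟨g, u⟩, ⟨h2, h3, h4⟩, h5⟩
    exact ⟨g, _, (PreSplit.pc_iff _ _ _ _).2 ⟨u, rfl, h2, h3, h4⟩, h5⟩
  · rintro ⟨g, l, h2, h3⟩
    obtain ⟨u, rfl, h4, h5, h6⟩ := (PreSplit.pc_iff _ _ _ _).1 h2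
    exact ⟨(g, u), ⟨h4, h5, h6⟩, h3⟩

end Crest.Agent.R185
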