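import Crest.Agent.R185.Split
/-! Row 185: theory of sub-graphs of groups `Sub`. -/
set_option autoImplicit false
open Set

namespace Crest.Agent.R185
namespace Sub
variable {B Γ E : Type} [Group B] [Group Γ] {S : Split B Γ E} {V I : Type}
  (U : Sub S.toPreSplit V I)

theorem t_bar (i : I) : U.t (U.bar i) = (U.t i)⁻¹ := by
  simp only [Sub.t, U.bar_bar, U.e_bar, S.t_bar, mul_inv_rev, inv_inv, mul_assoc]

theorem ev_amb (h : B) (L : List (I × B)) : S.ev (U.amb h L).1 (U.amb h L).2 = U.ev h L := by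
  induction L generalizing h with
  | nil => rfl
  | cons p L ih =>
    simp only [Sub.amb, Sub.ev, PreSplit.ev_cons, PreSplit.ev_mul, ih, Sub.t, map_mul, map_inv,
      mul_assoc]

theorem map_fst_amb (h : B) (L : List (I × B)) :
    (U.amb h L).2.map Prod.fst = L.map fun p => U.e p.1 := by
  induction L generalizing h with
  | nil => rfl
  | cons p L ih => simp only [Sub.amb, List.map_cons, ih]

theorem Pth.mem {U : Sub S.toPreSplit V I} {v w : V} {h : B} {L : List (I × B)}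
    (hp : U.Pth v h L w) : h ∈ U.H v := by
  cases L with
  | nil => exact hp.1
  | cons p L => exact hp.1

theorem Pth.mul {U : Sub S.toPreSplit V I} {v w : V} {a h : B} {L : List (I × B)}
    (ha : a ∈ U.H v) (hp : U.Pth v h L w) : U.Pth v (a * h) L w := by
  cases L with
  | nil => exact ⟨mul_mem ha hp.1, hp.2⟩
  | cons p L => exact ⟨mul_mem ha hp.1, hp.2⟩

theorem ev_mul (a h : B) (L : List (I × B)) : U.ev (a * h) L = S.of a * U.ev h L := by
  cases L <;> simp [Sub.ev, mul_assoc]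

theorem gev_mul {T : Type*} [Group T] (f : V → B → T) (τ : I → T)
    (hf : ∀ v, ∀ a ∈ U.H v, ∀ b ∈ U.H v, f v (a * b) = f v a * f v b) {v : V} {a h : B}
    (ha : a ∈ U.H v) (hh : h ∈ U.H v) (L : List (I × B)) :
    U.gev f τ v (a * h) L = f v a * U.gev f τ v h L := by
  cases L <;> simp [Sub.gev, hf v a ha h hh, mul_assoc]

theorem conj_t (i : I) {a : B} (ha : a ∈ S.A (U.e i)) :
    S.of (U.l i * a * (U.l i)⁻¹) * U.t i =
      U.t i * S.of (U.l (U.bar i) * S.φ (U.e i) a * (U.l (U.bar i))⁻¹) := by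
  have h := S.conj (U.e i) a ha
  simp only [Sub.t, map_mul, map_inv, mul_assoc, inv_mul_cancel_left]
  rw [← mul_assoc (S.of a), h, mul_assoc]

theorem red_cons_cons (p q : I × B) (L : List (I × B)) :
    U.Red (p :: q :: L) ↔
      ¬ (q.1 = U.bar p.1 ∧ (U.l q.1)⁻¹ * p.2 * U.l q.1 ∈ S.A (U.e q.1)) ∧ U.Red (q :: L) :=
  List.isChain_cons_cons

theorem Red.tail {U : Sub S.toPreSplit V I} {p : I × B} {L : List (I × B)} (h : U.Red (p :: L)) :
    U.Red L := List.IsChain.tail h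

theorem amb_eq_nil {h : B} {L : List (I × B)} (e : (U.amb h L).2 = []) : L = [] := by
  cases L with
  | nil => rfl
  | cons p L => simp [Sub.amb] at e

theorem red_amb {v w : V} {h : B} {L : List (I × B)} (hp : U.Pth v h L w) (hr : U.Red L) :
    S.Red (U.amb h L).2 := by
  induction L generalizing v h with
  | nil => exact S.red_nil
  | cons p L ih =>
    have ih' := ih hp.2.2 hr.tail
    cases L with
    | nil => exact S.red_singleton _
    | cons q L =>
      refine (S.red_cons_cons _ _ _).2 ⟨?_, ih'⟩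
      rintro ⟨h1, h2⟩
      simp only [Sub.amb] at h1 h2
      have h3 : U.e (U.bar p.1) = U.e q.1 := by rw [U.e_bar, h1]
      have h4 : U.bar p.1 = q.1 := U.sep _ _ hp.2.2.2.1.symm h3 p.2 hp.2.2.1 (by
        rw [h3, mul_assoc]; exact h2)
      refine ((U.red_cons_cons p q L).1 hr).1 ⟨h4.symm, ?_⟩
      rw [h4, ← mul_assoc] at h2
      exact h2

/-- Concatenation of paths. -/
theorem exists_cat {T : Type*} [Group T] (f : V → B → T) (τ : I → T)
    (hf : ∀ v, ∀ a ∈ U.H v, ∀ b ∈ U.H v, f v (a * b) = f v a * f v b) {u v w : V} {h h' : B}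
    {L L' : List (I × B)} (hp : U.Pth u h L v) (hp' : U.Pth v h' L' w) :
    ∃ g M, U.Pth u g M w ∧ U.ev g M = U.ev h L * U.ev h' L' ∧
      U.gev f τ u g M = U.gev f τ u h L * U.gev f τ v h' L' := by
  induction L generalizing u h with
  | nil =>
    obtain ⟨h1, rfl⟩ := hp
    exact ⟨h * h', L', hp'.mul h1, U.ev_mul _ _ _, U.gev_mul f τ hf h1 hp'.mem _⟩
  | cons p L ih =>
    obtain ⟨g, M, h1, h2, h3⟩ := ih hp.2.2
    refine ⟨h, (p.1, g) :: M, ⟨hp.1, hp.2.1, h1⟩, ?_, ?_⟩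
    · simp only [Sub.ev, h2, mul_assoc]
    · simp only [Sub.gev, h3, mul_assoc]

theorem mul_mem_Mor {u v w : V} {x y : Γ} (hx : x ∈ U.Mor u v) (hy : y ∈ U.Mor v w) :
    x * y ∈ U.Mor u w := by
  obtain ⟨h, L, hp, rfl⟩ := hx
  obtain ⟨h', L', hp', rfl⟩ := hy
  obtain ⟨g, M, h1, h2, -⟩ := U.exists_cat (T := Γ) (fun _ _ => 1) (fun _ => 1) (by simp) hp hp'
  exact ⟨g, M, h1, h2⟩

theorem inv_mem_Mor {v w : V} {x : Γ} (hx : x ∈ U.Mor v w) : x⁻¹ ∈ U.Mor w v := by
  obtain ⟨h, L, hp, rfl⟩ := hx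
  induction L generalizing v h with
  | nil =>
    obtain ⟨h1, rfl⟩ := hp
    exact ⟨h⁻¹, [], ⟨inv_mem h1, rfl⟩, by simp [Sub.ev]⟩
  | cons p L ih =>
    obtain ⟨h1, h2, h3⟩ := hp
    have h4 : (U.t p.1)⁻¹ * (S.of h)⁻¹ ∈ U.Mor (U.src (U.bar p.1)) v :=
      ⟨1, [(U.bar p.1, h⁻¹)], ⟨one_mem _, rfl, by
        simp only [U.bar_bar, h2]; exact ⟨inv_mem h1, rfl⟩⟩, by simp [Sub.ev, U.t_bar]⟩
    have := U.mul_mem_Mor (ih _ h3) h4
    simpa only [Sub.ev, mul_inv_rev, mul_assoc] using this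

theorem of_mem_Mor {v : V} {h : B} (hh : h ∈ U.H v) : S.of h ∈ U.Mor v v :=
  ⟨h, [], ⟨hh, rfl⟩, rfl⟩

theorem t_mem_Mor (i : I) : U.t i ∈ U.Mor (U.src i) (U.src (U.bar i)) :=
  ⟨1, [(i, 1)], ⟨one_mem _, rfl, one_mem _, rfl⟩, by simp [Sub.ev]⟩

/-- The group of closed paths. -/
def K (v : V) : Subgroup Γ where
  carrier := U.Mor v v
  one_mem' := by simpa using U.of_mem_Mor (one_mem (U.H v))
  mul_mem' := U.mul_mem_Mor
  inv_mem' := U.inv_mem_Mor

/-- Reduction of a path, preserving both evaluations. -/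
theorem exists_red_gev {T : Type*} [Group T] (f : V → B → T) (τ : I → T)
    (hf : ∀ v, ∀ a ∈ U.H v, ∀ b ∈ U.H v, f v (a * b) = f v a * f v b)
    (hτ : ∀ i, τ (U.bar i) = (τ i)⁻¹)
    (hc : ∀ i a, a ∈ S.A (U.e i) → U.l i * a * (U.l i)⁻¹ ∈ U.H (U.src i) →
      f (U.src i) (U.l i * a * (U.l i)⁻¹) * τ i = τ i *
        f (U.src (U.bar i)) (U.l (U.bar i) * S.φ (U.e i) a * (U.l (U.bar i))⁻¹))
    {v w : V} {h : B} {L : List (I × B)} (hp : U.Pth v h L w) :
    ∃ g M, U.Pth v g M w ∧ U.Red M ∧ U.ev g M = U.ev h L ∧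
      U.gev f τ v g M = U.gev f τ v h L := by
  induction L generalizing v h with
  | nil => exact ⟨h, [], hp, List.isChain_nil, rfl, rfl⟩
  | cons p L ih =>
    obtain ⟨hh, rfl, hp'⟩ := hp
    obtain ⟨g, M, h1, h2, h3, h4⟩ := ih hp'
    by_cases hr : U.Red ((p.1, g) :: M)
    · refine ⟨h, (p.1, g) :: M, ⟨hh, rfl, h1⟩, hr, ?_, ?_⟩
      · simp only [Sub.ev, h3]
      · simp only [Sub.gev, h4]
    · cases M with
      | nil => exact absurd (List.isChain_singleton _) hr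
      | cons q M =>
        obtain ⟨j, k⟩ := q
        rw [U.red_cons_cons, not_and_or, not_not] at hr
        obtain ⟨rfl, ha⟩ := hr.resolve_right (not_not.2 h2)
        simp only at ha
        obtain ⟨hg, -, h5⟩ := h1
        have e1 : U.l (U.bar p.1) * ((U.l (U.bar p.1))⁻¹ * g * U.l (U.bar p.1)) *
            (U.l (U.bar p.1))⁻¹ = g := by group
        have hc1 := U.good _ _ ha (by rw [e1]; exact hg)
        have hc2 := U.conj_t _ ha
        have hc3 := hc _ _ ha (by rw [e1]; exact hg)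
        simp only [U.bar_bar] at hc1 hc2 hc3 h5
        rw [e1] at hc2 hc3
        set c := U.l p.1 * S.φ (U.e (U.bar p.1)) ((U.l (U.bar p.1))⁻¹ * g * U.l (U.bar p.1)) *
          (U.l p.1)⁻¹
        refine ⟨h * (c * k), M, (h5.mul hc1).mul hh, h2.tail, ?_, ?_⟩
        · rw [U.ev_mul, U.ev_mul]
          simp only [Sub.ev, ← h3, hc2]
          rw [U.t_bar]
          simp only [mul_assoc, mul_inv_cancel_left]
        · rw [U.gev_mul f τ hf hh (mul_mem hc1 h5.mem), U.gev_mul f τ hf hc1 h5.mem]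
          simp only [Sub.gev, ← h4, hc3, U.bar_bar]
          rw [hτ]
          simp only [mul_assoc, mul_inv_cancel_left]

theorem exists_red {v w : V} {x : Γ} (hx : x ∈ U.Mor v w) :
    ∃ h L, U.Pth v h L w ∧ U.Red L ∧ U.ev h L = x := by
  obtain ⟨h, L, hp, rfl⟩ := hx
  obtain ⟨g, M, h1, h2, h3, -⟩ := U.exists_red_gev (T := Γ) (fun _ _ => 1) (fun _ => 1) (by simp)
    (by simp) (by simp) hp
  exact ⟨g, M, h1, h2, h3⟩

theorem of_mem_Mor_iff {v w : V} {g : B} : S.of g ∈ U.Mor v w ↔ g ∈ U.H v ∧ v = w := by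
  constructor
  · intro hx
    obtain ⟨h, L, h1, h2, h3⟩ := U.exists_red hx
    obtain ⟨h4, h5⟩ := S.eq_nil_of_ev_eq_of (U.red_amb h1 h2) ((U.ev_amb h L).trans h3)
    obtain rfl := U.amb_eq_nil h4
    obtain rfl : h = g := h5
    exact h1
  · rintro ⟨h1, rfl⟩
    exact U.of_mem_Mor h1

/-- The first step of an ambient reduced path of an element of `Mor v w` is accepted. -/
theorem first {v w : V} {g : B} {p : E × B} {l : List (E × B)} (hl : S.Red (p :: l))
    (hx : S.ev g (p :: l) ∈ U.Mor v w) :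
    ∃ i, U.e i = p.1 ∧ U.src i = v ∧ ∃ h ∈ U.H v, (h * U.l i)⁻¹ * g ∈ S.A p.1 := by
  obtain ⟨h, L, h1, h2, h3⟩ := U.exists_red hx
  obtain ⟨h', r', h4, h5, -⟩ := S.cmp_cons hl (U.red_amb h1 h2) ((U.ev_amb h L).trans h3).symm
  cases L with
  | nil => simp [Sub.amb] at h4
  | cons q L =>
    simp only [Sub.amb, List.cons.injEq, Prod.mk.injEq] at h4 h5
    exact ⟨q.1, h4.1.1, h1.2.1, h, h1.1, h5⟩

theorem gev_eq_red {T : Type*} [Group T] (f : V → B → T) (τ : I → T)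
    (hf : ∀ v, ∀ a ∈ U.H v, ∀ b ∈ U.H v, f v (a * b) = f v a * f v b)
    (hc : ∀ i a, a ∈ S.A (U.e i) → U.l i * a * (U.l i)⁻¹ ∈ U.H (U.src i) →
      f (U.src i) (U.l i * a * (U.l i)⁻¹) * τ i = τ i *
        f (U.src (U.bar i)) (U.l (U.bar i) * S.φ (U.e i) a * (U.l (U.bar i))⁻¹))
    {v w : V} {h h' : B} {L L' : List (I × B)} (hp : U.Pth v h L w) (hp' : U.Pth v h' L' w)
    (hr : U.Red L) (hr' : U.Red L')
    (e : U.ev h L = U.ev h' L') : U.gev f τ v h L = U.gev f τ v h' L' := by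
  induction L generalizing v h h' L' with
  | nil =>
    obtain ⟨h4, h5⟩ := S.eq_nil_of_ev_eq_of (U.red_amb hp' hr') ((U.ev_amb h' L').trans e.symm)
    obtain rfl := U.amb_eq_nil h4
    obtain rfl : h' = h := h5
    rfl
  | cons p L ih =>
    have e' : S.ev (U.amb h (p :: L)).1 (U.amb h (p :: L)).2 =
        S.ev (U.amb h' L').1 (U.amb h' L').2 := by rw [U.ev_amb, U.ev_amb, e]
    obtain ⟨h'', r', h4, h5, -⟩ := S.cmp_cons (U.red_amb hp hr) (U.red_amb hp' hr') e'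
    cases L' with
    | nil => simp [Sub.amb] at h4
    | cons q L' =>
      obtain ⟨i, k⟩ := p
      obtain ⟨j, k'⟩ := q
      simp only [Sub.amb, List.cons.injEq, Prod.mk.injEq] at h4 h5
      obtain ⟨hh, rfl, hp1⟩ := hp
      obtain ⟨hh', hs, hp1'⟩ := hp'
      simp only at hs hh hh' hp1 hp1'
      have hm : h'⁻¹ * h ∈ U.H (U.src i) := mul_mem (inv_mem hh') hh
      have ha : (U.l j)⁻¹ * (h'⁻¹ * h) * U.l i ∈ S.A (U.e i) := by
        simpa only [mul_inv_rev, mul_assoc] using h5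
      obtain rfl : j = i := U.sep j i hs h4.1.1 _ (by rw [hs]; exact hm) (by rw [h4.1.1]; exact ha)
      have e1 : U.l j * ((U.l j)⁻¹ * (h'⁻¹ * h) * U.l j) * (U.l j)⁻¹ = h'⁻¹ * h := by group
      have hc1 := U.good _ _ ha (by rw [e1]; exact hm)
      have hc2 := U.conj_t _ ha
      have hc3 := hc _ _ ha (by rw [e1]; exact hm)
      rw [e1] at hc2 hc3
      set c := U.l (U.bar j) * S.φ (U.e j) ((U.l j)⁻¹ * (h'⁻¹ * h) * U.l j) * (U.l (U.bar j))⁻¹
      have e2 : U.ev (c * k) L = U.ev k' L' := by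
        simp only [Sub.ev] at e
        rw [U.ev_mul]
        apply mul_left_cancel (a := S.of h' * U.t j)
        rw [← e, ← mul_assoc, mul_assoc (S.of h'), ← hc2]
        simp only [map_mul, map_inv, mul_assoc, mul_inv_cancel_left]
      have e3 := ih (hp1.mul hc1) hp1' hr.tail hr'.tail e2
      rw [U.gev_mul f τ hf hc1 hp1.mem] at e3
      simp only [Sub.gev]
      rw [← e3, ← mul_assoc, mul_assoc (f (U.src j) h'), ← hc3, ← mul_assoc, ← hf _ _ hh' _ hm,
        mul_inv_cancel_left]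

/-- Universal property: a compatible family of homomorphisms on the vertex groups and values for
the letters define a function on paths that only depends on the value of the path in `Γ`. -/
theorem gev_eq {T : Type*} [Group T] (f : V → B → T) (τ : I → T)
    (hf : ∀ v, ∀ a ∈ U.H v, ∀ b ∈ U.H v, f v (a * b) = f v a * f v b)
    (hτ : ∀ i, τ (U.bar i) = (τ i)⁻¹)
    (hc : ∀ i a, a ∈ S.A (U.e i) → U.l i * a * (U.l i)⁻¹ ∈ U.H (U.src i) →
      f (U.src i) (U.l i * a * (U.l i)⁻¹) * τ i = τ i *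
        f (U.src (U.bar i)) (U.l (U.bar i) * S.φ (U.e i) a * (U.l (U.bar i))⁻¹))
    {v w : V} {h h' : B} {L L' : List (I × B)} (hp : U.Pth v h L w) (hp' : U.Pth v h' L' w)
    (e : U.ev h L = U.ev h' L') : U.gev f τ v h L = U.gev f τ v h' L' := by
  obtain ⟨g, M, h1, h2, h3, h4⟩ := U.exists_red_gev f τ hf hτ hc hp
  obtain ⟨g', M', h1', h2', h3', h4'⟩ := U.exists_red_gev f τ hf hτ hc hp'
  rw [← h4, ← h4']
  exact U.gev_eq_red f τ hf hc h1 h1' h2 h2' (by rw [h3, h3', e])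

theorem exists_lift {T : Type*} [Group T] (f : V → B → T) (τ : I → T)
    (hf : ∀ v, ∀ a ∈ U.H v, ∀ b ∈ U.H v, f v (a * b) = f v a * f v b)
    (hτ : ∀ i, τ (U.bar i) = (τ i)⁻¹)
    (hc : ∀ i a, a ∈ S.A (U.e i) → U.l i * a * (U.l i)⁻¹ ∈ U.H (U.src i) →
      f (U.src i) (U.l i * a * (U.l i)⁻¹) * τ i = τ i *
        f (U.src (U.bar i)) (U.l (U.bar i) * S.φ (U.e i) a * (U.l (U.bar i))⁻¹)) (v : V) :
    ∃ ψ : U.K v →* T, ∀ h L (hp : U.Pth v h L v), ψ ⟨U.ev h L, h, L, hp, rfl⟩ = U.gev f τ v h L := by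
  have hex : ∀ x : U.K v, ∃ q : B × List (I × B), U.Pth v q.1 q.2 v ∧ U.ev q.1 q.2 = x := by
    rintro ⟨x, h, L, h1, h2⟩
    exact ⟨(h, L), h1, h2⟩
  choose q hq1 hq2 using hex
  refine ⟨MonoidHom.mk' (fun x => U.gev f τ v (q x).1 (q x).2) fun x y => ?_, fun h L hp => ?_⟩
  · obtain ⟨g, M, h1, h2, h3⟩ := U.exists_cat f τ hf (hq1 x) (hq1 y)
    rw [← h3]
    refine U.gev_eq f τ hf hτ hc (hq1 _) h1 ?_
    rw [h2, hq2, hq2, hq2, Subgroup.coe_mul]
  · exact U.gev_eq f τ hf hτ hc (hq1 _) hp (hq2 _)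

/-- With one state, `K` is generated by the vertex group and the letters. -/
theorem K_eq_closure [Subsingleton V] (v : V) :
    U.K v = Subgroup.closure (S.of '' U.H v ∪ range U.t) := by
  apply le_antisymm
  · rintro _ ⟨h, L, hp, rfl⟩
    induction L generalizing h with
    | nil => exact Subgroup.subset_closure (Or.inl ⟨h, hp.1, rfl⟩)
    | cons p L ih =>
      refine mul_mem (mul_mem (Subgroup.subset_closure (Or.inl ⟨h, hp.1, rfl⟩))
        (Subgroup.subset_closure (Or.inr ⟨p.1, rfl⟩))) (ih _ ?_)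
      have := hp.2.2
      rwa [Subsingleton.elim (U.src (U.bar p.1)) v] at this
  · rw [Subgroup.closure_le]
    rintro _ (⟨h, hh, rfl⟩ | ⟨i, rfl⟩)
    · exact U.of_mem_Mor hh
    · have := U.t_mem_Mor i
      rwa [Subsingleton.elim (U.src (U.bar i)) v, Subsingleton.elim (U.src i) v] at this

end Sub
end Crest.Agent.R185
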