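import Crest.Agent.R185.REGrp
import Crest.Agent.R185.Sub
/-! Row 185: certificates of non-membership in multiple HNN extensions. -/
set_option autoImplicit false
open Set

namespace Crest.Agent.R185
variable {K : Ctx} {X B Γ E : K.I → Type} [∀ i, Group (B i)] [∀ i, Group (Γ i)] [Rep K X] [Rep K B]
  [Rep K Γ] [Rep K E] [RGrp K B] [RGrp K Γ] {S : ∀ i, Split (B i) (Γ i) (E i)}
  {F : ∀ i, Filt (B i)} {F' : ∀ i, Filt (Γ i)} {w : ∀ i, E i → ℕ} {c d : ℕ}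

theorem PreSplit.ev_eq_prod {B Γ E : Type} [Group B] [Group Γ] (S : PreSplit B Γ E) (g : B)
    (l : List (E × B)) : S.ev g l = S.of g * (l.map fun p => S.t p.1 * S.of p.2).prod := by
  induction l generalizing g with
  | nil => simp
  | cons p l ih => simp [ih, mul_assoc]

/-- After left multiplication by a suitable element of `gsub H L`, the first step of every reduced
path is rejected. -/
theorem Split.exists_rejected {B Γ E : Type} [Group B] [Group Γ] (S : Split B Γ E)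
    (H : Subgroup B) (L : Set E) (x : Γ) : ∃ y ∈ S.gsub H L, ∀ g p r, S.Red (p :: r) →
      S.ev g (p :: r) = y⁻¹ * x → ¬ (p.1 ∈ L ∧ ∃ a ∈ S.A p.1, g * a⁻¹ ∈ H) := by
  obtain ⟨g, l, hl, rfl⟩ := S.exists_red x
  induction l generalizing g with
  | nil =>
    refine ⟨1, one_mem _, fun g' p r h1 h2 => ?_⟩
    rw [inv_one, one_mul] at h2
    cases (S.eq_nil_of_ev_eq_of h1 h2).1
  | cons q l ih =>
    by_cases hq : q.1 ∈ L ∧ ∃ a ∈ S.A q.1, g * a⁻¹ ∈ H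
    · obtain ⟨hq, a, ha, hga⟩ := hq
      obtain ⟨y, hy, h1⟩ := ih (S.φ q.1 a * q.2) hl.tail
      refine ⟨S.of (g * a⁻¹) * S.t q.1 * y, mul_mem (mul_mem
        (Subgroup.subset_closure (Or.inl ⟨_, hga, rfl⟩))
        (Subgroup.subset_closure (Or.inr ⟨_, hq, rfl⟩))) hy, fun g' p r h2 h3 => h1 g' p r h2 ?_⟩
      rw [h3, S.ev_mul, S.of_φ ha, S.ev_cons, map_mul, map_inv]
      group
    · refine ⟨1, one_mem _, fun g' p r h1 h2 => ?_⟩
      rw [inv_one, one_mul] at h2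
      obtain ⟨k, r', h3, h4, -⟩ := S.cmp_cons h1 hl h2
      obtain ⟨rfl, -⟩ := List.cons.inj h3
      rintro ⟨h5, a, ha, h6⟩
      refine hq ⟨h5, a * (g⁻¹ * g')⁻¹, mul_mem ha (inv_mem h4), ?_⟩
      have e : g * (a * (g⁻¹ * g')⁻¹)⁻¹ = g' * a⁻¹ := by group
      rw [e]
      exact h6

theorem RSplit.ev (h : RSplit S) {g : ∀ i, X i → B i} {l : ∀ i, X i → List (E i × B i)}
    (hg : Trk g) (hl : Trk l) : Trk fun i x => (S i).ev (g i x) (l i x) := by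
  refine Trk.of_eq (f := fun i x => (S i).of (g i x) *
    ((l i x).map fun p => (S i).t p.1 * (S i).of p.2).prod) ?_
    fun i x => ((S i).ev_eq_prod _ _).symm
  refine (h.of.comp hg).mul (Trk.listProd
    (Trk.map (g := fun i _ p => (S i).t p.1 * (S i).of p.2) hl ?_))
  exact (h.t.comp Trk.id.snd.fst).mul (h.of.comp Trk.id.snd.snd)

/-- Reducedness of a path is certified. -/
theorem RSplit.red [RNe K E] (h : RSplit S) (hA : NMemA S F c d) :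
    Cert fun i (l : List (E i × B i)) m => (S i).Red l ∧ ∀ p ∈ l, Lev (F i) c d p.2 m := by
  have h1 : Cert fun i (l : List (E i × B i)) m => l.IsChain fun p q =>
      q.1 ≠ (S i).bar p.1 ∨ (p.2 ∉ (S i).A q.1 ∧ Lev (F i) c d p.2 m) := by
    refine Cert.isChain (P := fun i _ (p q : E i × B i) m =>
      q.1 ≠ (S i).bar p.1 ∨ (p.2 ∉ (S i).A q.1 ∧ Lev (F i) c d p.2 m)) Trk.id ?_
    exact Cert.or (Cert.ne Trk.id.snd.snd.fst (h.bar.comp Trk.id.snd.fst.fst))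
      (Cert.comp hA (Trk.id.snd.snd.fst.pair Trk.id.snd.fst.snd))
  refine h1.mono (fun i l hl => ⟨hl.imp fun p q hpq hn => ?_, fun _ _ => lev_top _ _ _ _⟩)
    fun i l m hl => List.IsChain.imp_of_mem_imp (fun p q hp _ hpq => ?_) hl.1
  · exact hpq.elim (fun h2 => h2 hn.1) fun h2 => h2.1 hn.2
  · by_cases h2 : q.1 = (S i).bar p.1
    · exact Or.inr ⟨fun h3 => hpq ⟨h2, h3⟩, hl.2 p hp⟩
    · exact Or.inl h2

/-- Existence of a reduced path with a certified property. -/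
theorem RSplit.path [RNe K E] (h : RSplit S) (hA : NMemA S F c d)
    {Q : ∀ i, B i × List (E i × B i) → ℕ∞ → Prop} (hQ : Cert Q) :
    Cert fun i (x : Γ i) m => ∃ u : B i × List (E i × B i), ((S i).ev u.1 u.2 = x ∧
      ((S i).Red u.2 ∧ ∀ p ∈ u.2, Lev (F i) c d p.2 m)) ∧ Q i u m :=
  Cert.exists (((Cert.eq (h.ev Trk.id.snd.fst Trk.id.snd.snd) Trk.id.fst).and
    (Cert.comp (h.red hA) Trk.id.snd.snd)).and (Cert.comp hQ Trk.id.snd))

theorem NMemA.of_fin {J : Type} [Finite J] [Primcodable J] [Rep K fun _ => J] [IsStd K J]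
    {S : ∀ i, Split (B i) (Γ i) J} (h : ∀ e, NMem F (fun i => (S i).A e) c d) : NMemA S F c d := by
  exact Cert.fin_cases (P := fun e i (p : J × B i) m => p.2 ∉ (S i).A e ∧ Lev (F i) c d p.2 m)
    (fun e => Cert.comp (h e) Trk.id.snd) Trk.id.fst

theorem NMemA.of_eq {T : ∀ i, Set (B i)} (h : NMem F T c d)
    (hT : ∀ i e, ((S i).A e : Set (B i)) = T i) : NMemA S F c d := by
  refine (Cert.comp h (Trk.id (X := fun i => E i × B i)).snd).of_iff fun i p m => ?_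
  rw [← hT i p.1, SetLike.mem_coe]

/-- Non-membership in the image of a subset of the base. -/
theorem RSplit.nmem_of [RNe K E] (h : RSplit S) (hA : NMemA S F c d)
    (hF : ∀ i, K.Nice i → (S i).RedCtl (F i) (w i) (F' i)) {T : ∀ i, Set (B i)} (hT : NMem F T c d) :
    NMem F' (fun i => (S i).of '' T i) c d := by
  have hQ : Cert fun i (u : B i × List (E i × B i)) m =>
      0 < u.2.length ∨ (u.1 ∉ T i ∧ Lev (F i) c d u.1 m) :=
    Cert.or (Cert.nat_lt (Trk.const 0) Trk.id.snd.length) (Cert.comp hT Trk.id.fst)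
  refine (h.path hA hQ).mono' (fun i x hx => ⟨?_, lev_top _ _ _ _⟩) fun i x m hN hx => ?_
  · obtain ⟨⟨g, l⟩, ⟨rfl, h1, -⟩, h2⟩ := hx
    rintro ⟨g', hg', h3⟩
    obtain ⟨h4, h5⟩ := (S i).eq_nil_of_ev_eq_of h1 h3.symm
    dsimp only at h2 h4 h5
    subst h4 h5
    exact h2.elim (fun h6 => by simp at h6) fun h6 => h6.1 hg'
  · obtain ⟨n, h1, h2⟩ := (lev_coe _ _ _ _ _).1 hx.2
    obtain ⟨g, l, h3, h4, h5, h6⟩ := hF i hN x n h1
    refine ⟨(g, l), ⟨h4, h3, fun p hp => (lev_coe _ _ _ _ _).2 ⟨n, (h6 p hp).1, h2⟩⟩, ?_⟩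
    cases l with
    | nil => exact Or.inr ⟨fun hg => hx.1 ⟨g, hg, h4⟩, (lev_coe _ _ _ _ _).2 ⟨n, h5, h2⟩⟩
    | cons p l => exact Or.inl (Nat.succ_pos _)

theorem RSplit.nmem_one [RNe K E] (h : RSplit S) (hA : NMemA S F c d)
    (hF : ∀ i, K.Nice i → (S i).RedCtl (F i) (w i) (F' i)) (hT : NMem F (fun _ => {1}) c d) :
    NMem F' (fun _ => {1}) c d :=
  (h.nmem_of hA hF hT).congr fun i x => by simp

/-- Non-membership in a good subgroup containing its edge groups. -/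
theorem RSplit.nmem_good_le [RNe K E] (h : RSplit S) (hA : NMemA S F c d)
    (hF : ∀ i, K.Nice i → (S i).RedCtl (F i) (w i) (F' i)) {H : ∀ i, Subgroup (B i)} {L : ∀ i, Set (E i)}
    (hg : ∀ i, (S i).IsGood (H i) (L i)) (hle : ∀ i, ∀ e ∈ L i, (S i).A e ≤ H i)
    (hH : NMem F (fun i => H i) c d)
    (hL : Cert fun i (e : E i) m => e ∉ L i ∧ ((c * w i e + d : ℕ) : ℕ∞) ≤ m) :
    NMem F' (fun i => (S i).gsub (H i) (L i)) c d := by
  have hQ : Cert fun i (u : B i × List (E i × B i)) m =>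
      (u.1 ∉ H i ∧ Lev (F i) c d u.1 m) ∨ ∃ p ∈ u.2,
        (p.1 ∉ L i ∧ ((c * w i p.1 + d : ℕ) : ℕ∞) ≤ m) ∨ (p.2 ∉ H i ∧ Lev (F i) c d p.2 m) :=
    Cert.or (Cert.comp hH Trk.id.fst) (Cert.exists_mem
      (P := fun i _ (p : E i × B i) m =>
        (p.1 ∉ L i ∧ ((c * w i p.1 + d : ℕ) : ℕ∞) ≤ m) ∨ (p.2 ∉ H i ∧ Lev (F i) c d p.2 m))
      Trk.id.snd (Cert.or (Cert.comp hL Trk.id.snd.fst) (Cert.comp hH Trk.id.snd.snd)))
  refine (h.path hA hQ).mono' (fun i x hx => ⟨?_, lev_top _ _ _ _⟩) fun i x m hN hx => ?_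
  · obtain ⟨⟨g, l⟩, ⟨rfl, h1, -⟩, h2⟩ := hx
    intro h3
    obtain ⟨h4, h5⟩ := (Split.good_mem_iff (hg i) (hle i) h1).1 h3
    rcases h2 with h2 | ⟨p, hp, h2 | h2⟩
    · exact h2.1 h4
    · exact h2.1 (h5 p hp).1
    · exact h2.1 (h5 p hp).2
  · obtain ⟨n, h1, h2⟩ := (lev_coe _ _ _ _ _).1 hx.2
    obtain ⟨g, l, h3, h4, h5, h6⟩ := hF i hN x n h1
    refine ⟨(g, l), ⟨h4, h3, fun p hp => (lev_coe _ _ _ _ _).2 ⟨n, (h6 p hp).1, h2⟩⟩, ?_⟩
    by_cases h7 : g ∈ H i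
    · have h8 : ¬ ∀ p ∈ l, p.1 ∈ L i ∧ p.2 ∈ H i := fun h8 =>
        hx.1 (h4 ▸ (S i).ev_mem_gsub h7 h8)
      push Not at h8
      obtain ⟨p, hp, h8⟩ := h8
      refine Or.inr ⟨p, hp, ?_⟩
      by_cases h9 : p.1 ∈ L i
      · exact Or.inr ⟨h8 h9, (lev_coe _ _ _ _ _).2 ⟨n, (h6 p hp).1, h2⟩⟩
      · refine Or.inl ⟨h9, Nat.cast_le.2 (le_trans ?_ h2)⟩
        exact Nat.add_le_add_right (Nat.mul_le_mul_left _ (h6 p hp).2) _
    · exact Or.inl ⟨h7, (lev_coe _ _ _ _ _).2 ⟨n, h5, h2⟩⟩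

/-- Non-membership in a good subgroup all of whose elements have size `0`. -/
theorem RSplit.nmem_good_zero [RNe K E] (h : RSplit S) (hA : NMemA S F c d)
    (hF : ∀ i, K.Nice i → (S i).RedCtl (F i) (w i) (F' i)) {H : ∀ i, Subgroup (B i)} {L : ∀ i, Set (E i)}
    (hg : ∀ i, (S i).IsGood (H i) (L i)) (h0 : ∀ i, ∀ x ∈ (S i).gsub (H i) (L i), (F' i).le x 0)
    (hmem : URE fun i x => x ∈ (S i).gsub (H i) (L i))
    (hH : NMem F (fun i => H i) c d)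
    (hHA : Cert fun i (p : E i × B i) m =>
      ¬ (p.1 ∈ L i ∧ ∃ a ∈ (S i).A p.1, p.2 * a⁻¹ ∈ H i) ∧ Lev (F i) c d p.2 m) :
    NMem F' (fun i => (S i).gsub (H i) (L i)) c d := by
  have hQ : Cert fun i (u : B i × List (E i × B i)) m =>
      (u.2 = [] ∧ u.1 ∉ H i ∧ Lev (F i) c d u.1 m) ∨ ∃ v : (E i × B i) × List (E i × B i),
        u.2 = v.1 :: v.2 ∧ ¬ (v.1.1 ∈ L i ∧ ∃ a ∈ (S i).A v.1.1, u.1 * a⁻¹ ∈ H i) ∧
          Lev (F i) c d u.1 m :=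
    Cert.or ((Cert.eq Trk.id.snd Trk.nil).and (Cert.comp hH Trk.id.fst))
      (Cert.exists ((Cert.eq Trk.id.fst.snd (Trk.id.snd.fst.cons Trk.id.snd.snd)).and
        (Cert.comp hHA (Trk.id.snd.fst.fst.pair Trk.id.fst.fst))))
  have h1 : Cert fun i (x : Γ i) m => ∃ y : Γ i, y ∈ (S i).gsub (H i) (L i) ∧
      ∃ u : B i × List (E i × B i), ((S i).ev u.1 u.2 = y⁻¹ * x ∧
        ((S i).Red u.2 ∧ ∀ p ∈ u.2, Lev (F i) c d p.2 m)) ∧
      ((u.2 = [] ∧ u.1 ∉ H i ∧ Lev (F i) c d u.1 m) ∨ ∃ v : (E i × B i) × List (E i × B i),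
        u.2 = v.1 :: v.2 ∧ ¬ (v.1.1 ∈ L i ∧ ∃ a ∈ (S i).A v.1.1, u.1 * a⁻¹ ∈ H i) ∧
          Lev (F i) c d u.1 m) :=
    Cert.exists ((Cert.comp hmem Trk.id.snd).and
      (Cert.comp (h.path hA hQ) (Trk.id.snd.inv.mul Trk.id.fst)))
  refine h1.mono' (fun i x hx => ⟨?_, lev_top _ _ _ _⟩) fun i x m hN hx => ?_
  · obtain ⟨y, hy, ⟨g, l⟩, ⟨h2, h3, -⟩, h4⟩ := hx
    intro h5
    have h6 : (S i).ev g l ∈ (S i).gsub (H i) (L i) := h2 ▸ mul_mem (inv_mem hy) h5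
    rcases h4 with ⟨h4, h7, -⟩ | ⟨⟨p, r⟩, h4, h7, -⟩
    · dsimp only at h4
      subst h4
      exact h7 ((Split.good_of_mem (hg i)).1 h6)
    · dsimp only at h4
      subst h4
      exact h7 (Split.good_first (hg i) h3 h6)
  · obtain ⟨n, h2, h3⟩ := (lev_coe _ _ _ _ _).1 hx.2
    obtain ⟨y, hy, h4⟩ := (S i).exists_rejected (H i) (L i) x
    obtain ⟨g, l, h5, h6, h7, h8⟩ := hF i hN (y⁻¹ * x) n
      (Filt.mul' ((F' i).inv (h0 i y hy)) h2 (by omega))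
    refine ⟨y, hy, (g, l), ⟨h6, h5, fun p hp => (lev_coe _ _ _ _ _).2 ⟨n, (h8 p hp).1, h3⟩⟩, ?_⟩
    have h9 : Lev (F i) c d g m := (lev_coe _ _ _ _ _).2 ⟨n, h7, h3⟩
    cases l with
    | nil =>
      refine Or.inl ⟨rfl, fun h10 => hx.1 ?_, h9⟩
      have h11 : y⁻¹ * x ∈ (S i).gsub (H i) (L i) := h6 ▸ (Split.good_of_mem (hg i)).2 h10
      simpa using mul_mem hy h11
    | cons p r => exact Or.inr ⟨(p, r), rfl, h4 g p r h5 h6, h9⟩

theorem RSplit.ure_gsub (h : RSplit S) {H : ∀ i, Subgroup (B i)} {L : ∀ i, Set (E i)}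
    (hH : URE fun i x => x ∈ H i) (hL : URE fun i e => e ∈ L i) :
    URE fun i x => x ∈ (S i).gsub (H i) (L i) := by
  exact URE.closure (Cert.or (URE.image h.of (S := fun i => (H i : Set (B i))) hH)
    (URE.image h.t hL))

end Crest.Agent.R185
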