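import Crest.Agent.R185.Cube
import Crest.Agent.R185.SplitRE
import Crest.Agent.R185.CubeREAux
/-! Row 185: certificates in the swindle group. -/
set_option autoImplicit false
set_option linter.unusedSectionVars false
open Set

namespace Crest.Agent.R185.Cube
variable {K : Ctx} {P : K.I → Type} [∀ i, Group (P i)] [Rep K P] [RGrp K P]
  {A : Type} [Finite A] [Primcodable A] (s : ∀ i, A → P i)

section floors
variable {X : K.I → Type} [Rep K X]

theorem trk_sg (k : Ix) {f : ∀ i, X i → P i} (hf : Trk f) : Trk fun i x => sg (P i) k (f i x) := by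
  refine Trk.pi fun k' => ?_
  by_cases h : k' = k
  · subst h
    exact hf.of_eq fun i x => by simp [sg]
  · exact Trk.one.of_eq fun i x => by simp [sg, Pi.mulSingle_eq_of_ne h]

theorem trk_dg (p : Bool × Bool) (e : Bool) {f : ∀ i, X i → P i} (hf : Trk f) :
    Trk fun i x => dg (P i) p e (f i x) := by
  refine Trk.pi fun k => ?_
  by_cases h : k = ia p.1 ∨ k = ib p.2 ∨ k = iF ∨ (e = true ∧ k = iX)
  · exact hf.of_eq fun i x => by simp only [dg, MonoidHom.pi_apply, if_pos h, MonoidHom.id_apply]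
  · exact Trk.one.of_eq fun i x => by
      simp only [dg, MonoidHom.pi_apply, if_neg h, MonoidHom.one_apply]

theorem trk_killX {f : ∀ i, X i → B6 (P i)} (hf : Trk f) :
    Trk fun i x => killX (P i) (f i x) := by
  refine Trk.pi fun k => ?_
  by_cases h : k = iX
  · exact Trk.one.of_eq fun i x => by simp [killX, h]
  · exact (hf.apply k).of_eq fun i x => by simp [killX, h]

theorem ure_Hp : URE fun i (q : (Bool × Bool) × B6 (P i)) => q.2 ∈ Hp (P i) q.1 := by
  refine Cert.fin_cases (P := fun p i (q : (Bool × Bool) × B6 (P i)) _ => q.2 ∈ Hp (P i) p)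
    (fun p => ?_) Trk.id.fst
  refine Cert.forall_fin (P := fun k i (q : (Bool × Bool) × B6 (P i)) _ =>
    k ≠ ia p.1 → k ≠ ib p.2 → q.2 k = 1) fun k => ?_
  by_cases h : k ≠ ia p.1 ∧ k ≠ ib p.2
  · exact (Cert.eq (Trk.id.snd.apply k) Trk.one).of_iff fun i x m =>
      ⟨fun h1 _ _ => h1, fun h1 => h1 h.1 h.2⟩
  · exact Cert.true.of_iff fun i x m => ⟨fun _ h1 h2 => absurd ⟨h1, h2⟩ h, fun _ => trivial⟩

variable {c d : ℕ}

/-- Sets of the form "prescribed conditions on each coordinate". -/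
theorem nmem_coord {T : Ix → ∀ i, Set (P i)}
    (h : ∀ k, NMem (fun i => Filt.wl (s i)) (T k) c d) :
    NMem (fun i => (Filt.wl (s i)).pi (ι := Ix)) (fun i => {g | ∀ k, g k ∈ T k i}) c d := by
  have h1 : ∀ k, NMem (fun i => (Filt.wl (s i)).pi (ι := Ix))
      (fun i => (fun g => g k) ⁻¹' T k i) c d := fun k =>
    (h k).comap (Trk.id.apply k) fun i x n hx => ⟨n, hx k, le_rfl⟩
  refine (Cert.exists_fin h1).of_iff fun i x m => ?_
  simp only [mem_preimage, mem_ofPred_eq, not_forall, exists_and_right]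

theorem nmem_univ {G : K.I → Type} [∀ i, Group (G i)] [Rep K G] {F : ∀ i, Filt (G i)} :
    NMem F (fun _ => univ) c d :=
  NMem.of_ure (Cert.false.of_iff fun _ _ _ => by simp) _ _

theorem nmem_Hp (h1 : NMem (fun i => Filt.wl (s i)) (fun _ => {1}) c d) (p : Bool × Bool) :
    NMem (fun i => (Filt.wl (s i)).pi (ι := Ix)) (fun i => Hp (P i) p) c d := by
  classical
  refine (nmem_coord s (T := fun k _ => if k ≠ ia p.1 ∧ k ≠ ib p.2 then {1} else univ)
    fun k => ?_).congr fun i x => ?_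
  · by_cases h : k ≠ ia p.1 ∧ k ≠ ib p.2
    · simpa only [if_pos h] using h1
    · simpa only [if_neg h] using nmem_univ
  · refine forall_congr' fun k => ?_
    by_cases h : k ≠ ia p.1 ∧ k ≠ ib p.2
    · simp [h.1, h.2]
    · simp only [if_neg h, mem_univ, true_iff]
      exact fun h1 h2 => absurd ⟨h1, h2⟩ h

theorem nmem_sgX (h1 : NMem (fun i => Filt.wl (s i)) (fun _ => {1}) c d) {T : ∀ i, Set (P i)}
    (hT : NMem (fun i => Filt.wl (s i)) T c d) :
    NMem (fun i => (Filt.wl (s i)).pi (ι := Ix)) (fun i => sg (P i) iX '' T i) c d := by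
  classical
  refine (nmem_coord s (T := fun k i => if k = iX then T i else {1})
    fun k => ?_).congr fun i x => ?_
  · by_cases h : k = iX
    · simpa only [if_pos h] using hT
    · simpa only [if_neg h] using h1
  · constructor
    · intro hx
      refine ⟨x iX, by simpa using hx iX, funext fun k => ?_⟩
      by_cases h : k = iX
      · subst h; simp [sg]
      · have := hx k
        simp only [if_neg h, mem_singleton_iff] at this
        simp [sg, Pi.mulSingle_eq_of_ne h, this]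
    · rintro ⟨g, hg, rfl⟩ k
      by_cases h : k = iX
      · subst h; simpa [sg] using hg
      · simp [sg, h]

section L2
variable [Rep K fun i => L2 (P i)] [RGrp K fun i => L2 (P i)]
  (h2 : RSplit fun i => MH.split (D2 (P i)))
include h2

theorem trk_t2 (p : Bool × Bool) : Trk fun i (_ : X i) => MH.t (D2 (P i)) p :=
  h2.mh_t (Trk.const p)

theorem trk_s2 (k : Ix) {f : ∀ i, X i → P i} (hf : Trk f) : Trk fun i x => s2 (P i) k (f i x) :=
  h2.mh_of (trk_sg k hf)

theorem trk_cj (p : Bool × Bool) (k : Ix) {f : ∀ i, X i → P i} (hf : Trk f) :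
    Trk fun i x => cj (P i) p k (f i x) :=
  ((trk_t2 h2 p).mul (trk_s2 h2 k hf)).mul (trk_t2 h2 p).inv

theorem trk_dl (p : Bool × Bool) (e : Bool) {f : ∀ i, X i → P i} (hf : Trk f) :
    Trk fun i x => dl (P i) p e (f i x) :=
  ((trk_t2 h2 p).mul (h2.mh_of (trk_dg p e hf))).mul (trk_t2 h2 p).inv

theorem ure_Cp : URE fun i (x : L2 (P i)) => x ∈ Cp (P i) :=
  h2.ure_gsub (H := fun i => (sg (P i) iF).range) (L := fun _ => univ)
    (URE.range (trk_sg iF Trk.id)) (ure_true' fun _ _ => mem_univ _)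

theorem trk_r2 : Trk fun i x => r2 (P i) x := by
  refine h2.hom (fun i => r2 (P i)) ((trk_s2 h2 iF (Trk.id.apply iF)).of_eq fun i x => ?_)
    (h2.t.of_eq fun i e => ?_)
  · simp [r2]
  · rcases e with ⟨j, _ | _⟩ <;> simp [r2]

theorem trk_rho2 : Trk fun i x => rho2 (P i) x := by
  refine h2.hom (fun i => rho2 (P i)) ((h2.mh_of (trk_killX Trk.id)).of_eq fun i x => ?_)
    (h2.t.of_eq fun i e => ?_)
  · simp [rho2]
  · rcases e with ⟨j, _ | _⟩ <;> simp [rho2]

theorem nmemA2 (h1 : NMem (fun i => Filt.wl (s i)) (fun _ => {1}) c d) :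
    NMemA (fun i => MH.split (D2 (P i))) (fun i => (Filt.wl (s i)).pi (ι := Ix)) c d :=
  NMemA.of_fin fun e => (nmem_Hp s h1 e.1).congr fun i x => by rw [MH.central_A]

theorem nmem2_one (h1 : NMem (fun i => Filt.wl (s i)) (fun _ => {1}) c d) :
    NMem (fun i => F2 (s i)) (fun _ => {1}) c d :=
  h2.nmem_one (nmemA2 s h2 h1) (fun i _ => PreSplit.sumF_redCtl _ (sumOK2 (s i))) h1.pi_one

theorem nmem_Cp (h1 : NMem (fun i => Filt.wl (s i)) (fun _ => {1}) c d) :
    NMem (fun i => F2 (s i)) (fun i => Cp (P i)) (c * 2) d := by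
  simpa using (nmem2_one s h2 h1).of_retr (trk_r2 h2) (T := fun i => Cp (P i))
    (fun i x => mem_Cp_iff x) (a := 1) (b := 0) fun i x n hx => by simpa using F2_r2 (s i) hx

theorem nmem_cj (h1 : NMem (fun i => Filt.wl (s i)) (fun _ => {1}) c d) {T : ∀ i, Set (P i)}
    (hT : NMem (fun i => Filt.wl (s i)) T c d) :
    NMem (fun i => F2 (s i)) (fun i => cj (P i) p0 iX '' T i) c (c * 2 + d) := by
  have h3 : NMem (fun i => F2 (s i)) (fun i => (MH.split (D2 (P i))).of '' (sg (P i) iX '' T i))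
      c d :=
    h2.nmem_of (nmemA2 s h2 h1) (fun i _ => PreSplit.sumF_redCtl _ (sumOK2 (s i))) (nmem_sgX s h1 hT)
  refine (h3.comap (F' := fun i => F2 (s i))
    (f := fun i y => (MH.t (D2 (P i)) p0)⁻¹ * y * MH.t (D2 (P i)) p0)
    (((trk_t2 h2 p0).inv.mul Trk.id).mul (trk_t2 h2 p0)) (c' := c) (d' := c * 2 + d)
    fun i x n hx => ⟨1 + n + 1, ?_, by ring_nf; rfl⟩).congr fun i x => ?_
  · have ht : (F2 (s i)).le (MH.t (D2 (P i)) p0) 1 :=
      PreSplit.sumF_t _ (sumOK2 (s i)) (p0, false)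
    exact (F2 (s i)).mul ((F2 (s i)).mul ((F2 (s i)).inv ht) hx) ht
  · constructor
    · rintro ⟨_, ⟨g, hg, rfl⟩, h4⟩
      refine ⟨g, hg, ?_⟩
      rw [cj_apply]
      have h5 : s2 (P i) iX g = (MH.t (D2 (P i)) p0)⁻¹ * x * MH.t (D2 (P i)) p0 := h4
      rw [h5]; group
    · rintro ⟨g, hg, rfl⟩
      refine ⟨_, ⟨g, hg, rfl⟩, ?_⟩
      change s2 (P i) iX g = _
      simp only [cj_apply]; group

theorem ufilt2 (hs : Trk s) : UFilt fun i => F2 (s i) :=
  UFilt.sumF h2 ((UFilt.wl hs).pi Ix) fun i => sumOK2 (s i)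

end L2

/-- Every element of the free product is the value of a word. -/
theorem exists_word8 {Q : Type} [Group Q] {t : A → Q} (ht : Subgroup.closure (range t) = ⊤)
    (x : F8 Q) : ∃ W : List ((V8 × A) × Bool), FreeGroup.lift (s8 t) (FreeGroup.mk W) = x := by
  have h1 : x ∈ (FreeGroup.lift (s8 t)).range := by
    induction x using Monoid.CoprodI.induction_on with
    | one => exact one_mem _
    | mul x y hx hy => exact mul_mem hx hy
    | of v g =>
      have hg : g ∈ Subgroup.closure (range t) := ht ▸ Subgroup.mem_top g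
      induction hg using Subgroup.closure_induction with
      | mem g hg =>
        obtain ⟨a, rfl⟩ := hg
        exact ⟨FreeGroup.of (v, a), by simp [s8]⟩
      | one => rw [map_one]; exact one_mem _
      | mul x y _ _ hx hy => rw [map_mul]; exact mul_mem hx hy
      | inv x _ hx => rw [map_inv]; exact inv_mem hx
  obtain ⟨y, rfl⟩ := h1
  induction y using Quot.ind with
  | mk W => exact ⟨W, rfl⟩

section L3
variable [Rep K fun i => L2 (P i)] [RGrp K fun i => L2 (P i)]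
  [Rep K fun i => L3 (P i)] [RGrp K fun i => L3 (P i)]
  (h2 : RSplit fun i => MH.split (D2 (P i))) (h3 : RSplit fun i => MH.split (D3 (P i)))
include h2 h3

theorem trk_w3 : Trk fun i (_ : X i) => w3 (P i) := h3.mh_t (Trk.const ())

theorem trk_dv (e : Bool) (v : V8) {f : ∀ i, X i → P i} (hf : Trk f) :
    Trk fun i x => dv (P i) e v (f i x) := by
  rcases v with ⟨_ | _, p⟩
  · exact h3.mh_of (trk_dl h2 p _ hf)
  · exact ((trk_w3 h2 h3).mul (h3.mh_of (trk_dl h2 p _ hf))).mul (trk_w3 h2 h3).inv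

theorem trk_d8 (hs : Trk s) (e : Bool) {f : ∀ i, X i → List ((V8 × A) × Bool)} (hf : Trk f) :
    Trk fun i x => d8 (P i) e (FreeGroup.lift (s8 (s i)) (FreeGroup.mk (f i x))) := by
  have h4 : Trk fun i (q : V8 × A) => dv (P i) e q.1 (s i q.2) :=
    Trk.fin_cases (g := fun v i (q : V8 × A) => dv (P i) e v (s i q.2))
      (fun v => trk_dv h2 h3 e v (hs.comp Trk.id.snd)) Trk.id.fst
  refine (Trk.lift h4 hf.mk).of_eq fun i x => ?_
  have : (d8 (P i) e).comp (FreeGroup.lift (s8 (s i))) =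
      FreeGroup.lift fun q : V8 × A => dv (P i) e q.1 (s i q.2) := by
    ext q
    simp [d8, s8]
  rw [← this]; rfl

theorem trk_rho3 : Trk fun i x => rho3 (P i) x := by
  refine h3.hom (fun i => rho3 (P i)) ((h3.mh_of (trk_rho2 h2)).of_eq fun i x => ?_)
    (h3.t.of_eq fun i e => ?_)
  · simp [rho3]
  · rcases e with ⟨j, _ | _⟩ <;> simp [rho3]

theorem ure_graph (hs : Trk s) (hgen : ∀ i, Subgroup.closure (range (s i)) = ⊤) :
    URE fun i (p : L3 (P i) × L3 (P i)) =>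
      ∃ z, d8 (P i) false z = p.1 ∧ d8 (P i) true z = p.2 := by
  have h4 : URE fun i (p : L3 (P i) × L3 (P i)) => ∃ W : List ((V8 × A) × Bool),
      d8 (P i) false (FreeGroup.lift (s8 (s i)) (FreeGroup.mk W)) = p.1 ∧
      d8 (P i) true (FreeGroup.lift (s8 (s i)) (FreeGroup.mk W)) = p.2 :=
    Cert.exists ((Cert.eq (trk_d8 s h2 h3 hs false Trk.id.snd) Trk.id.fst.fst).and
      (Cert.eq (trk_d8 s h2 h3 hs true Trk.id.snd) Trk.id.fst.snd))
  refine h4.of_iff fun i p => ⟨fun ⟨W, hW⟩ => ⟨_, hW⟩, fun ⟨z, hz⟩ => ?_⟩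
  obtain ⟨W, rfl⟩ := exists_word8 (hgen i) z
  exact ⟨W, hz⟩

theorem nmemA3 (h1 : NMem (fun i => Filt.wl (s i)) (fun _ => {1}) c d) {c' d' : ℕ}
    (hc : c * 2 ≤ c') (hd : d ≤ d') :
    NMemA (fun i => MH.split (D3 (P i))) (fun i => F2 (s i)) c' d' :=
  NMemA.of_eq ((nmem_Cp s h2 h1).weaken hc hd) fun i e => by rw [MH.central_A]

theorem nmem3_one (h1 : NMem (fun i => Filt.wl (s i)) (fun _ => {1}) c d) :
    NMem (fun i => F3 (s i)) (fun _ => {1}) (c * 2) d :=
  h3.nmem_one (nmemA3 s h2 h3 h1 le_rfl le_rfl) (fun i _ => PreSplit.sumF_redCtl _ (sumOK3 (s i)))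
    ((nmem2_one s h2 h1).weaken (by omega) le_rfl)

theorem ufilt3 (hs : Trk s) : UFilt fun i => F3 (s i) :=
  UFilt.sumF h3 (ufilt2 s h2 hs) fun i => sumOK3 (s i)

theorem nmem_d8_false (hs : Trk s) (h1 : NMem (fun i => Filt.wl (s i)) (fun _ => {1}) c d) :
    NMem (fun i => F3 (s i)) (fun i => (d8 (P i) false).range) (c * 32) d := by
  have h4 : Cert fun i (x : L3 (P i)) m => ∃ n : ℕ, (F3 (s i)).le x n ∧
      ∀ W : List ((V8 × A) × Bool), W.length ≤ 3 * n →
        x⁻¹ * d8 (P i) false (FreeGroup.lift (s8 (s i)) (FreeGroup.mk W)) ∉ ({1} : Set _) ∧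
        Lev (F3 (s i)) (c * 2) d
          (x⁻¹ * d8 (P i) false (FreeGroup.lift (s8 (s i)) (FreeGroup.mk W))) m := by
    refine Cert.exists (Cert.and (ufilt3 s h2 h3 hs) ?_)
    refine Cert.forall_words (P := fun i (p : L3 (P i) × ℕ) (W : List ((V8 × A) × Bool)) m =>
      p.1⁻¹ * d8 (P i) false (FreeGroup.lift (s8 (s i)) (FreeGroup.mk W)) ∉ ({1} : Set _) ∧
        Lev (F3 (s i)) (c * 2) d
          (p.1⁻¹ * d8 (P i) false (FreeGroup.lift (s8 (s i)) (FreeGroup.mk W))) m)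
      (fun a => TrkC.const a) ((Trk.const 3).natMul Trk.id.snd) ?_
    exact Cert.comp (nmem3_one s h2 h3 h1)
      (Trk.id.fst.fst.inv.mul (trk_d8 s h2 h3 hs false Trk.id.snd))
  refine h4.mono (fun i x hx => ⟨?_, lev_top _ _ _ _⟩) fun i x m hx => ?_
  · obtain ⟨n, h5, h6⟩ := hx
    rintro ⟨z, rfl⟩
    obtain ⟨W, h7, rfl⟩ := d8_distortion (s i) h5
    exact (h6 W h7).1 (by simp)
  · obtain ⟨n, h5, h6⟩ := (lev_coe _ _ _ _ _).1 hx.2
    refine ⟨n, h5, fun W hW => ⟨fun h7 => hx.1 ⟨_, (inv_mul_eq_one.1 h7).symm⟩, ?_⟩⟩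
    refine (lev_coe _ _ _ _ _).2 ⟨n + 5 * (3 * n),
      (F3 (s i)).mul ((F3 (s i)).inv h5) (F3_d8 (s i) false ⟨W, hW, rfl⟩), ?_⟩
    calc c * 2 * (n + 5 * (3 * n)) + d = c * 32 * n + d := by ring
      _ ≤ m := h6

theorem nmem_d8_true (hs : Trk s) (hgen : ∀ i, Subgroup.closure (range (s i)) = ⊤)
    (h1 : NMem (fun i => Filt.wl (s i)) (fun _ => {1}) c d) :
    NMem (fun i => F3 (s i)) (fun i => (d8 (P i) true).range) (c * 32) d := by
  have h4 : Cert fun i (x : L3 (P i)) m =>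
      (rho3 (P i) x ∉ ((d8 (P i) false).range : Set _) ∧
        Lev (F3 (s i)) (c * 32) d (rho3 (P i) x) m) ∨
      ∃ y : L3 (P i), (∃ z, d8 (P i) false z = rho3 (P i) x ∧ d8 (P i) true z = y) ∧
        (x⁻¹ * y ∉ ({1} : Set _) ∧ Lev (F3 (s i)) (c * 2) d (x⁻¹ * y) m) :=
    Cert.or (Cert.comp (nmem_d8_false s h2 h3 hs h1) (trk_rho3 h2 h3))
      (Cert.exists (Cert.and
        (Cert.comp (ure_graph s h2 h3 hs hgen) (((trk_rho3 h2 h3).comp Trk.id.fst).pair Trk.id.snd))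
        (Cert.comp (nmem3_one s h2 h3 h1) (Trk.id.fst.inv.mul Trk.id.snd))))
  refine h4.mono (fun i x hx => ⟨?_, lev_top _ _ _ _⟩) fun i x m hx => ?_
  · rintro ⟨z, rfl⟩
    rcases hx with hx | ⟨y, ⟨z', h5, rfl⟩, h6, -⟩
    · exact hx.1 ⟨z, (rho3_d8 _ true z).symm⟩
    · rw [rho3_d8] at h5
      obtain rfl := d8_injective false h5
      exact h6 (by simp)
  · obtain ⟨n, h5, h6⟩ := (lev_coe _ _ _ _ _).1 hx.2
    have h7 := F3_rho3 (s i) h5
    by_cases h8 : rho3 (P i) x ∈ (d8 (P i) false).range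
    · obtain ⟨z, hz⟩ := h8
      refine Or.inr ⟨d8 (P i) true z, ⟨z, hz, rfl⟩,
        fun h9 => hx.1 ⟨_, (inv_mul_eq_one.1 h9).symm⟩, ?_⟩
      refine (lev_coe _ _ _ _ _).2 ⟨n + 5 * (3 * n), (F3 (s i)).mul ((F3 (s i)).inv h5)
        (F3_d8 (s i) true (d8_distortion (s i) (hz ▸ h7))), ?_⟩
      calc c * 2 * (n + 5 * (3 * n)) + d = c * 32 * n + d := by ring
        _ ≤ m := h6
    · exact Or.inl ⟨h8, (lev_coe _ _ _ _ _).2 ⟨n, h7, h6⟩⟩

theorem nmem3_cj (h1 : NMem (fun i => Filt.wl (s i)) (fun _ => {1}) c d) {T : ∀ i, Set (P i)}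
    (hT : NMem (fun i => Filt.wl (s i)) T c d) :
    NMem (fun i => F3 (s i)) (fun i => (MH.split (D3 (P i))).of '' (cj (P i) p0 iX '' T i))
      (c * 2) (c * 2 + d) :=
  h3.nmem_of (nmemA3 s h2 h3 h1 le_rfl (by omega))
    (fun i _ => PreSplit.sumF_redCtl _ (sumOK3 (s i))) ((nmem_cj s h2 h1 hT).weaken (by omega) le_rfl)

omit h2 h3 in
theorem nmem_F3' {T : ∀ i, Set (L3 (P i))} (h : NMem (fun i => F3 (s i)) T c d) :
    NMem (fun i => F3' (s i)) T (c * 15) d :=
  h.mono fun i x n _ hx => ⟨15 * n / 1, hx.1, by rw [Nat.div_one, mul_assoc]⟩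

end L3

end floors

theorem cube_rep (hs : Trk s) (hgen : ∀ i, Subgroup.closure (range (s i)) = ⊤) :
    ∃ _ : Rep K fun i => L4 (P i), RGrp K (fun i => L4 (P i)) ∧ (Trk fun i => gen4 (s i)) ∧
      (Trk fun i x => x4 (P i) x) ∧
      ∀ (T : ∀ i, Set (P i)) (c d : ℕ), NMem (fun i => Filt.wl (s i)) (fun _ => {1}) c d →
        NMem (fun i => Filt.wl (s i)) T c d →
        NMem (fun i => Filt.wl (gen4 (s i))) (fun i => x4 (P i) '' T i) (c * 32 * 15) (c * 2 + d) := by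
  obtain ⟨_, _, h2⟩ := MH.exists_rep_central (K := K) (L := fun _ => Bool × Bool)
    (fun i => Hp (P i)) ure_Hp
  obtain ⟨_, _, h3⟩ := MH.exists_rep_central (K := K) (L := fun _ => Unit)
    (fun i _ => Cp (P i)) (Cert.comp (ure_Cp h2) Trk.id.snd)
  obtain ⟨r4, g4, h4⟩ := MH.exists_rep (K := K) (L := fun _ => Unit) (fun i => D4 (P i))
    (Cert.comp (ure_graph s h2 h3 hs hgen) Trk.id.snd)
  refine ⟨r4, g4, ?_, h4.mh_of (h3.mh_of (trk_cj h2 p0 iX Trk.id)), fun T c d h1 hT => ?_⟩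
  · refine Trk.fin_cases (g := fun a i (_ : Gen4 A) => gen4 (s i) a) ?_ Trk.id
    rintro (q | p | _ | _)
    · exact h4.mh_of (h3.mh_of (trk_s2 h2 q.1 (hs.comp (Trk.const q.2))))
    · exact h4.mh_of (h3.mh_of (trk_t2 h2 p))
    · exact h4.mh_of (trk_w3 h2 h3)
    · exact h4.mh_t (Trk.const ())
  · have hA : NMemA (fun i => MH.split (D4 (P i))) (fun i => F3' (s i)) (c * 32 * 15)
        (c * 2 + d) := by
      refine NMemA.of_fin ?_
      rintro ⟨j, _ | _⟩
      · exact (nmem_F3' s (nmem_d8_false s h2 h3 hs h1)).weaken le_rfl (by omega)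
      · exact (nmem_F3' s (nmem_d8_true s h2 h3 hs hgen h1)).weaken le_rfl (by omega)
    have h5 := h4.nmem_of hA (fun i _ => PreSplit.sumF_redCtl _ (sumOK4 (s i)))
      ((nmem_F3' s (nmem3_cj s h2 h3 h1 hT)).weaken (by omega) le_rfl)
    refine (h5.mono fun i x n _ hx =>
      ⟨n, F4_of_wl (s i) hx, le_rfl⟩).congr fun i x => ?_
    rw [image_image, image_image]
    rfl

end Crest.Agent.R185.Cube
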