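import Crest.Agent.R185.SC
/-! Row 185: coarse connectivity in dimensions 0 and 1. -/
set_option autoImplicit false
open Set Filter Topology Metric
open scoped Pointwise

namespace Crest.Agent.R185

namespace Low
open unitInterval
universe u
variable {G : Type u} [Group G]

/-- `T`-small subsets -/
def Sml (T W : Set G) : Prop := ∀ a ∈ W, ∀ b ∈ W, a⁻¹ * b ∈ T

theorem Sml.mono {T W W' : Set G} (h : Sml T W) (h' : W' ⊆ W) : Sml T W' :=
  fun a ha b hb => h a (h' ha) b (h' hb)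

/-- the space of nonempty `T`-small subsets -/
def R (T : Set G) : Type u := {W : Set G // W.Nonempty ∧ Sml T W}

instance (T : Set G) : TopologicalSpace (R T) where
  IsOpen U := ∀ a ∈ U, ∀ b : R T, b.1 ⊆ a.1 → b ∈ U
  isOpen_univ := fun _ _ _ _ => mem_univ _
  isOpen_inter := fun _ _ hU hV a ha b hb => ⟨hU a ha.1 b hb, hV a ha.2 b hb⟩
  isOpen_sUnion := fun _ h a ⟨U, hU, ha⟩ b hb => ⟨U, hU, h U hU a ha b hb⟩

variable {T : Set G}

theorem nhds_eq (a : R T) : 𝓝 a = 𝓟 {b : R T | b.1 ⊆ a.1} := by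
  apply le_antisymm
  · rw [le_principal_iff]
    exact IsOpen.mem_nhds (fun x hx y hy => hy.trans hx) (subset_refl a.1)
  · intro U hU
    obtain ⟨V, hVU, hV, ha⟩ := mem_nhds_iff.1 hU
    exact fun b hb => hVU (hV a ha b hb)

theorem tendsto_iff {Y : Type*} {l : Filter Y} {φ : Y → R T} {a : R T} :
    Tendsto φ l (𝓝 a) ↔ ∀ᶠ y in l, (φ y).1 ⊆ a.1 := by
  rw [nhds_eq, tendsto_principal]; rfl

theorem sc_of_cont {Y : Type*} [TopologicalSpace Y] {K : Set Y} {φ : Y → R T}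
    (hφ : ContinuousOn φ K) {F : Y → G} (hF : ∀ y ∈ K, F y ∈ (φ y).1) : SCOn T F K := by
  intro x hx
  filter_upwards [tendsto_iff.1 (hφ x hx), self_mem_nhdsWithin] with y hy hyK
  exact (φ x).2.2 _ (hF x hx) _ (hy (hF y hyK))

/-- gluing two maps whose union is small -/
def mid {Y : Type*} (p q : Y → R T) (h : ∀ y, Sml T ((p y).1 ∪ (q y).1)) (z : I × Y) : R T :=
  ⟨{g | ((z.1 : ℝ) ≤ 1 / 2 ∧ g ∈ (p z.2).1) ∨ (1 / 2 ≤ (z.1 : ℝ) ∧ g ∈ (q z.2).1)}, by
    rcases le_total (z.1 : ℝ) (1 / 2) with h1 | h1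
    · obtain ⟨g, hg⟩ := (p z.2).2.1
      exact ⟨g, Or.inl ⟨h1, hg⟩⟩
    · obtain ⟨g, hg⟩ := (q z.2).2.1
      exact ⟨g, Or.inr ⟨h1, hg⟩⟩,
    (h z.2).mono fun g hg => hg.elim (fun h => Or.inl h.2) (fun h => Or.inr h.2)⟩

theorem mid_sub {Y : Type*} (p q : Y → R T) (h : ∀ y, Sml T ((p y).1 ∪ (q y).1)) (z : I × Y) :
    (mid p q h z).1 ⊆ (p z.2).1 ∪ (q z.2).1 :=
  fun _ hg => hg.elim (fun h => Or.inl h.2) (fun h => Or.inr h.2)

theorem mid_zero {Y : Type*} (p q : Y → R T) (h : ∀ y, Sml T ((p y).1 ∪ (q y).1)) (y : Y) :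
    mid p q h (0, y) = p y := by
  apply Subtype.ext
  ext g
  simp only [mid, mem_ofPred_eq, Set.Icc.coe_zero]
  norm_num

theorem mid_one {Y : Type*} (p q : Y → R T) (h : ∀ y, Sml T ((p y).1 ∪ (q y).1)) (y : Y) :
    mid p q h (1, y) = q y := by
  apply Subtype.ext
  ext g
  simp only [mid, mem_ofPred_eq, Set.Icc.coe_one]
  norm_num

theorem mid_eq {Y : Type*} (p q : Y → R T) (h : ∀ y, Sml T ((p y).1 ∪ (q y).1)) (s : I) (y : Y)
    (hy : p y = q y) : mid p q h (s, y) = p y := by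
  apply Subtype.ext
  ext g
  simp only [mid, mem_ofPred_eq, ← hy]
  rcases le_total (s : ℝ) (1 / 2) with h1 | h1 <;> tauto

theorem mid_cont {Y : Type*} [TopologicalSpace Y] {p q : Y → R T} (hp : Continuous p)
    (hq : Continuous q) (h : ∀ y, Sml T ((p y).1 ∪ (q y).1)) : Continuous (mid p q h) := by
  rw [continuous_iff_continuousAt]
  intro z
  refine tendsto_iff.2 ?_
  have c1 : Continuous fun z : I × Y => (z.1 : ℝ) := by fun_prop
  have e1 : ∀ᶠ w in 𝓝 z, (p w.2).1 ⊆ (p z.2).1 :=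
    tendsto_iff.1 ((hp.comp continuous_snd).continuousAt (x := z))
  have e2 : ∀ᶠ w in 𝓝 z, (q w.2).1 ⊆ (q z.2).1 :=
    tendsto_iff.1 ((hq.comp continuous_snd).continuousAt (x := z))
  have e3 : ∀ᶠ w in 𝓝 z, (w.1 : ℝ) ≤ 1 / 2 → (z.1 : ℝ) ≤ 1 / 2 := by
    by_cases hz : (z.1 : ℝ) ≤ 1 / 2
    · exact Eventually.of_forall fun _ _ => hz
    · filter_upwards [c1.continuousAt.eventually (lt_mem_nhds (not_le.1 hz))] with w hw hw'
      exact absurd hw' (not_le.2 hw)
  have e4 : ∀ᶠ w in 𝓝 z, 1 / 2 ≤ (w.1 : ℝ) → 1 / 2 ≤ (z.1 : ℝ) := by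
    by_cases hz : 1 / 2 ≤ (z.1 : ℝ)
    · exact Eventually.of_forall fun _ _ => hz
    · filter_upwards [c1.continuousAt.eventually (gt_mem_nhds (not_le.1 hz))] with w hw hw'
      exact absurd hw' (not_le.2 hw)
  filter_upwards [e1, e2, e3, e4] with w h1 h2 h3 h4 g hg
  exact hg.elim (fun h => Or.inl ⟨h3 h.1, h1 h.2⟩) (fun h => Or.inr ⟨h4 h.1, h2 h.2⟩)

/-- the canonical path between two sets with small union -/
def cl (a b : R T) (h : Sml T (a.1 ∪ b.1)) : Path a b where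
  toFun t := mid (fun _ : Unit => a) (fun _ => b) (fun _ => h) (t, ())
  continuous_toFun := (mid_cont continuous_const continuous_const _).comp (by fun_prop)
  source' := mid_zero _ _ _ _
  target' := mid_one _ _ _ _

theorem cl_sub (a b : R T) (h : Sml T (a.1 ∪ b.1)) (t : I) : (cl a b h t).1 ⊆ a.1 ∪ b.1 :=
  mid_sub (fun _ : Unit => a) (fun _ => b) (fun _ => h) (t, ())

theorem homotopic_of_sub {a b : R T} (p q : Path a b) {W : Set G} (hW : Sml T W)
    (hp : ∀ t, (p t).1 ⊆ W) (hq : ∀ t, (q t).1 ⊆ W) : p.Homotopic q := by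
  have h : ∀ t, Sml T ((p t).1 ∪ (q t).1) := fun t => hW.mono (union_subset (hp t) (hq t))
  refine ⟨⟨⟨⟨mid p q h, mid_cont p.continuous q.continuous h⟩, fun t => mid_zero _ _ h _,
    fun t => mid_one _ _ h _⟩, fun s t ht => ?_⟩⟩
  refine mid_eq _ _ h _ _ ?_
  rcases ht with rfl | rfl <;> simp

theorem trans_sub {a b c : R T} (p : Path a b) (q : Path b c) {W : Set G}
    (hp : ∀ t, (p t).1 ⊆ W) (hq : ∀ t, (q t).1 ⊆ W) (t : I) : ((p.trans q) t).1 ⊆ W := by
  have : (p.trans q) t ∈ range p ∪ range q := by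
    rw [← Path.trans_range]; exact mem_range_self t
  rcases this with ⟨s, hs⟩ | ⟨s, hs⟩
  · rw [← hs]; exact hp s
  · rw [← hs]; exact hq s

/-- homotopy classes of paths from a base point -/
def E' (x₀ : R T) : Type u := Σ x : R T, Path.Homotopic.Quotient x₀ x

open Classical in
/-- move the end point along the canonical path -/
noncomputable def mv {x₀ : R T} (e : E' x₀) (b : R T) : E' x₀ :=
  if h : Sml T (e.1.1 ∪ b.1) then ⟨b, e.2.trans (Path.Homotopic.Quotient.mk (cl e.1 b h))⟩ else e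

theorem mv_eq {x₀ : R T} (e : E' x₀) (b : R T) (p : Path e.1 b) {W : Set G} (hW : Sml T W)
    (hp : ∀ t, (p t).1 ⊆ W) : mv e b = ⟨b, e.2.trans (Path.Homotopic.Quotient.mk p)⟩ := by
  have h0 : e.1.1 ⊆ W := by simpa using hp 0
  have h1 : b.1 ⊆ W := by simpa using hp 1
  have h : Sml T (e.1.1 ∪ b.1) := hW.mono (union_subset h0 h1)
  rw [mv, dif_pos h]
  congr 2
  exact Path.Homotopic.Quotient.eq.2 (homotopic_of_sub _ _ hW
    (fun t => (cl_sub _ _ h t).trans (union_subset h0 h1)) hp)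

theorem mv_fst {x₀ : R T} (e : E' x₀) (b : R T) (h : Sml T (e.1.1 ∪ b.1)) : (mv e b).1 = b := by
  rw [mv, dif_pos h]

theorem mv_self {x₀ : R T} (e : E' x₀) : mv e e.1 = e := by
  rw [mv_eq e e.1 (Path.refl _) e.1.2.2 (fun _ => subset_refl _), Path.Homotopic.Quotient.mk_refl,
    Path.Homotopic.Quotient.trans_refl]
  rfl

theorem mv_mv {x₀ : R T} (e : E' x₀) (b c : R T) {W : Set G} (hW : Sml T W) (h0 : e.1.1 ⊆ W)
    (h1 : b.1 ⊆ W) (h2 : c.1 ⊆ W) : mv (mv e b) c = mv e c := by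
  have hb : Sml T (e.1.1 ∪ b.1) := hW.mono (union_subset h0 h1)
  have hc : Sml T (b.1 ∪ c.1) := hW.mono (union_subset h1 h2)
  have k1 : ∀ t, (cl e.1 b hb t).1 ⊆ W := fun t => (cl_sub _ _ hb t).trans (union_subset h0 h1)
  have k2 : ∀ t, (cl b c hc t).1 ⊆ W := fun t => (cl_sub _ _ hc t).trans (union_subset h1 h2)
  rw [mv_eq e b _ hW k1, mv_eq e c _ hW (trans_sub _ _ k1 k2),
    mv_eq (⟨b, e.2.trans (Path.Homotopic.Quotient.mk (cl e.1 b hb))⟩ : E' x₀) c _ hW k2, Path.Homotopic.Quotient.mk_trans,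
    Path.Homotopic.Quotient.trans_assoc]

/-- the vertices -/
def pt (h1 : (1 : G) ∈ T) (g : G) : R T :=
  ⟨{g}, singleton_nonempty g, fun a ha b hb => by
    rw [mem_singleton_iff.1 ha, mem_singleton_iff.1 hb]; simpa using h1⟩

theorem small_pair (h1 : (1 : G) ∈ T) (hs : ∀ s ∈ T, s⁻¹ ∈ T) {a b : G} (h : a⁻¹ * b ∈ T) :
    Sml T ((pt h1 a).1 ∪ (pt h1 b).1) := by
  rintro x (rfl | rfl) y (rfl | rfl)
  · simpa using h1
  · exact h
  · simpa using hs _ h
  · simpa using h1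

/-- the algebraic content of finite presentability -/
theorem alg [hG : Group.IsFinitelyPresented G] {S : Set G} (hS : S.Finite) :
    ∃ T : Set G, T.Finite ∧ (1 : G) ∈ T ∧ (∀ s ∈ T, s⁻¹ ∈ T) ∧ ∃ S' : Set G, S ⊆ S' ∧ S' ⊆ T ∧
      Subgroup.closure S' = ⊤ ∧ ∀ (H : Type u) [Group H] (τ : G → H),
        (∀ a ∈ T, ∀ b ∈ T, a * b ∈ T → τ (a * b) = τ a * τ b) →
          ∃ ρ : G →* H, ∀ s ∈ S', ρ s = τ s := by
  obtain ⟨n, φ, hφ, Rel, hRel, hker⟩ := hG.out
  have key : ∀ w : FreeGroup (Fin n), ∃ A : Set G, A.Finite ∧ ∀ T : Set G, A ⊆ T → (1 : G) ∈ T →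
      (∀ s ∈ T, s⁻¹ ∈ T) → ∀ (H : Type u) [Group H] (τ : G → H),
        (∀ a ∈ T, ∀ b ∈ T, a * b ∈ T → τ (a * b) = τ a * τ b) →
          FreeGroup.lift (fun i => τ (φ (FreeGroup.of i))) w = τ (φ w) := by
    have one : ∀ T : Set G, (1 : G) ∈ T → ∀ (H : Type u) [Group H] (τ : G → H),
        (∀ a ∈ T, ∀ b ∈ T, a * b ∈ T → τ (a * b) = τ a * τ b) → τ 1 = 1 := by
      intro T h1 H _ τ hτ
      have := hτ 1 h1 1 h1 (by simpa using h1)
      simpa using this
    intro w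
    induction w using FreeGroup.induction_on with
    | C1 =>
      refine ⟨∅, finite_empty, fun T _ h1 _ H _ τ hτ => ?_⟩
      rw [map_one, map_one, one T h1 H τ hτ]
    | of i => exact ⟨∅, finite_empty, fun T _ _ _ H _ τ _ => by simp⟩
    | inv_of i _ =>
      refine ⟨{φ (FreeGroup.of i)}, finite_singleton _, fun T hA h1 hs H _ τ hτ => ?_⟩
      have hi : φ (FreeGroup.of i) ∈ T := hA rfl
      have := hτ _ hi _ (hs _ hi) (by simpa using h1)
      rw [mul_inv_cancel, one T h1 H τ hτ] at this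
      rw [map_inv, map_inv, FreeGroup.lift_apply_of]
      exact inv_eq_of_mul_eq_one_right this.symm
    | mul x y hx hy =>
      obtain ⟨A, hA, HA⟩ := hx
      obtain ⟨B, hB, HB⟩ := hy
      refine ⟨A ∪ B ∪ {φ x, φ y, φ x * φ y}, (hA.union hB).union (toFinite _),
        fun T hT h1 hs H _ τ hτ => ?_⟩
      rw [map_mul, map_mul, HA T (fun _ h => hT (Or.inl (Or.inl h))) h1 hs H τ hτ,
        HB T (fun _ h => hT (Or.inl (Or.inr h))) h1 hs H τ hτ,
        hτ _ (hT (Or.inr (by simp))) _ (hT (Or.inr (by simp))) (hT (Or.inr (by simp)))]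
  choose A hA HA using key
  obtain ⟨w, hw⟩ := hφ.hasRightInverse
  set S' : Set G := S ∪ range fun i => φ (FreeGroup.of i) with hS'
  have hS'f : S'.Finite := hS.union (finite_range _)
  set T0 : Set G := {1} ∪ S' ∪ (⋃ r ∈ Rel, A r) ∪ ⋃ s ∈ S', A (w s) with hT0
  have hT0f : T0.Finite := (((finite_singleton _).union hS'f).union
    (hRel.biUnion fun r _ => hA r)).union (hS'f.biUnion fun s _ => hA _)
  have h1 : (1 : G) ∈ T0 ∪ T0⁻¹ := Or.inl (Or.inl (Or.inl (Or.inl rfl)))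
  have hs : ∀ s ∈ T0 ∪ T0⁻¹, s⁻¹ ∈ T0 ∪ T0⁻¹ := by
    rintro s (h | h)
    · exact Or.inr (by simpa using h)
    · exact Or.inl h
  refine ⟨T0 ∪ T0⁻¹, hT0f.union hT0f.inv, h1, hs, S', subset_union_left,
    fun s hs => Or.inl (Or.inl (Or.inl (Or.inr hs))), ?_, fun H _ τ hτ => ?_⟩
  · rw [eq_top_iff]
    intro g _
    obtain ⟨x, rfl⟩ := hφ g
    have : x ∈ Subgroup.comap φ (Subgroup.closure S') := by
      have h2 : Subgroup.closure (range (FreeGroup.of : Fin n → FreeGroup (Fin n))) ≤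
          Subgroup.comap φ (Subgroup.closure S') := by
        rw [Subgroup.closure_le]
        rintro _ ⟨i, rfl⟩
        exact Subgroup.subset_closure (Or.inr ⟨i, rfl⟩)
      exact h2 (by rw [FreeGroup.closure_range_of]; trivial)
    exact this
  · set ψ : FreeGroup (Fin n) →* H := FreeGroup.lift (fun i => τ (φ (FreeGroup.of i))) with hψ
    have hτ1 : τ 1 = 1 := by
      have := hτ 1 h1 1 h1 (by simpa using h1)
      simpa using this
    have hle : φ.ker ≤ ψ.ker := by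
      rw [← hker]
      apply Subgroup.normalClosure_le_normal
      intro r hr
      have h2 : φ r = 1 := by
        have : r ∈ φ.ker := hker ▸ Subgroup.subset_normalClosure hr
        exact this
      change ψ r = 1
      rw [hψ, HA r _ (fun g hg => Or.inl (Or.inl (Or.inr (mem_biUnion hr hg)))) h1 hs H τ hτ, h2,
        hτ1]
    refine ⟨φ.liftOfRightInverse w hw ⟨ψ, hle⟩, fun s hs' => ?_⟩
    have h3 := φ.liftOfRightInverse_comp_apply w hw ⟨ψ, hle⟩ (w s)
    rw [hw s] at h3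
    rw [h3]
    change ψ (w s) = τ s
    rw [hψ, HA (w s) _ (fun g hg => Or.inl (Or.inr (mem_biUnion hs' hg))) h1 hs H τ hτ, hw s]

/-- classes of paths ending at a vertex -/
def E (h1 : (1 : G) ∈ T) : Type u := {e : G × E' (pt h1 1) // e.2.1 = pt h1 e.1}

open Classical in
/-- one step -/
noncomputable def st (h1 : (1 : G) ∈ T) (hs : ∀ s ∈ T, s⁻¹ ∈ T) (s : G) (e : E h1) : E h1 :=
  if h : s ∈ T then ⟨(e.1.1 * s⁻¹, mv e.1.2 (pt h1 (e.1.1 * s⁻¹))), mv_fst _ _ (by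
    rw [e.2]; exact small_pair h1 hs (by simpa using hs s h))⟩ else e

theorem st_mul (h1 : (1 : G) ∈ T) (hs : ∀ s ∈ T, s⁻¹ ∈ T) {a b : G} (ha : a ∈ T) (hb : b ∈ T)
    (hab : a * b ∈ T) (e : E h1) : st h1 hs (a * b) e = st h1 hs a (st h1 hs b e) := by
  simp only [st, dif_pos ha, dif_pos hb, dif_pos hab]
  apply Subtype.ext
  have h2 : e.1.1 * (a * b)⁻¹ = e.1.1 * b⁻¹ * a⁻¹ := by group
  simp only [h2]
  congr 1
  symm
  refine mv_mv (W := {e.1.1, e.1.1 * b⁻¹, e.1.1 * b⁻¹ * a⁻¹}) _ _ _ ?_ ?_ ?_ ?_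
  · have k1 := hs _ ha
    have k2 := hs _ hb
    have k3 := hs _ hab
    rw [mul_inv_rev] at k3
    rintro x (rfl | rfl | rfl) y (rfl | rfl | rfl) <;> simp [mul_assoc, *]
  · rw [e.2]; rintro x rfl; simp
  · rintro x rfl; simp
  · rintro x rfl; simp

theorem st_one (h1 : (1 : G) ∈ T) (hs : ∀ s ∈ T, s⁻¹ ∈ T) (e : E h1) : st h1 hs 1 e = e := by
  simp only [st, dif_pos h1]
  apply Subtype.ext
  simp only [inv_one, mul_one]
  rw [← e.2, mv_self]

open Classical in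
/-- one step as a permutation -/
noncomputable def stP (h1 : (1 : G) ∈ T) (hs : ∀ s ∈ T, s⁻¹ ∈ T) (s : G) : Equiv.Perm (E h1) :=
  if h : s ∈ T then
    { toFun := st h1 hs s
      invFun := st h1 hs s⁻¹
      left_inv := fun e => by
        rw [← st_mul h1 hs (hs s h) h (by simpa using h1), inv_mul_cancel, st_one]
      right_inv := fun e => by
        rw [← st_mul h1 hs h (hs s h) (by simpa using h1), mul_inv_cancel, st_one] }
  else 1

theorem stP_apply (h1 : (1 : G) ∈ T) (hs : ∀ s ∈ T, s⁻¹ ∈ T) {s : G} (h : s ∈ T) (e : E h1) :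
    (stP h1 hs s e).1 = (e.1.1 * s⁻¹, mv e.1.2 (pt h1 (e.1.1 * s⁻¹))) := by
  rw [stP, dif_pos h]
  change (st h1 hs s e).1 = _
  rw [st, dif_pos h]

theorem sig_eq {x₀ a b b' : R T} (γ : Path.Homotopic.Quotient x₀ a) (h : b = b') (r : Path a b)
    (r' : Path a b') (hr : ∀ t, r t = r' t) :
    (⟨b, γ.trans (Path.Homotopic.Quotient.mk r)⟩ : E' x₀) = ⟨b', γ.trans (Path.Homotopic.Quotient.mk r')⟩ := by
  subst h
  have : r = r' := by ext t; rw [hr t]
  rw [this]

/-- a coherent family of classes trivialises all small paths -/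
theorem path_eq {x₀ : R T} {S : Set G} (N : R T → E' x₀)
    (hN1 : ∀ x, Sml S x.1 → (N x).1 = x)
    (hN2 : ∀ x y : R T, Sml S x.1 → y.1 ⊆ x.1 → N y = mv (N x) y)
    {a b : R T} (γ : Path.Homotopic.Quotient x₀ a) (hγ : N a = ⟨a, γ⟩) (p : Path a b)
    (hp : ∀ t, Sml S (p t).1) : N b = ⟨b, γ.trans (Path.Homotopic.Quotient.mk p)⟩ := by
  let Ψ : I → E' x₀ := fun t =>
    ⟨p t, γ.trans (Path.Homotopic.Quotient.mk ((p.subpath 0 t).cast p.source.symm rfl))⟩
  have hloc : IsLocallyConstant fun t => N (p t) = Ψ t := by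
    rw [IsLocallyConstant.iff_eventually_eq]
    intro t
    obtain ⟨ε, hε, hb⟩ := Metric.eventually_nhds_iff.1
      (tendsto_iff.1 (p.continuous.continuousAt (x := t)))
    filter_upwards [Metric.ball_mem_nhds t hε] with t' ht'
    have hsub : ∀ s, (p.subpath t t' s).1 ⊆ (p t).1 := by
      intro s
      have : p.subpath t t' s ∈ p '' uIcc t t' := by
        rw [← Path.range_subpath]; exact mem_range_self s
      obtain ⟨s', hs', h⟩ := this
      rw [← h]
      apply hb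
      have h2 : (s' : ℝ) ∈ uIcc (t : ℝ) (t' : ℝ) := hs'
      have h3 := Real.dist_left_le_of_mem_uIcc h2
      rw [dist_comm] at h3
      rw [mem_ball, Subtype.dist_eq, dist_comm] at ht'
      exact lt_of_le_of_lt h3 ht'
    have h4 : (p t').1 ⊆ (p t).1 := hb ht'
    have h5 : Ψ t' = mv (Ψ t) (p t') := by
      rw [mv_eq (Ψ t) (p t') (p.subpath t t') (p t).2.2 hsub]
      simp only [Ψ]
      rw [Path.Homotopic.Quotient.trans_assoc, ← Path.Homotopic.Quotient.mk_trans]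
      congr 2
      exact Path.Homotopic.Quotient.eq.2 (Path.Homotopic.symm ⟨Path.Homotopy.subpathTransSubpath p 0 t t'⟩)
    have h6 := hN2 (p t) (p t') (hp t) h4
    apply propext
    constructor
    · intro h
      have k1 : N (p t) = mv (N (p t')) (p t) := by
        rw [h6, mv_mv _ _ _ (p t).2.2 (by rw [hN1 _ (hp t)]) h4 subset_rfl]
        conv_rhs => rw [← hN1 _ (hp t)]
        rw [hN1 _ (hp t)]
        conv_lhs => rw [← mv_self (N (p t)), hN1 _ (hp t)]
      rw [k1, h, h5, mv_mv _ _ _ (p t).2.2 subset_rfl h4 subset_rfl]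
      exact mv_self (Ψ t)
    · intro h
      rw [h6, h, h5]
  have h0 : N (p 0) = Ψ 0 := by
    have : Ψ 0 = ⟨a, γ.trans (Path.Homotopic.Quotient.mk (Path.refl a))⟩ :=
      sig_eq γ p.source _ _ fun t => by simp
    rw [this, p.source, hγ, Path.Homotopic.Quotient.mk_refl, Path.Homotopic.Quotient.trans_refl]
  have h1 : N (p 1) = Ψ 1 := (hloc.apply_eq_of_preconnectedSpace 0 1) ▸ h0
  rw [p.target] at h1
  rw [h1]
  exact sig_eq γ p.target _ _ fun t => by simp

theorem simply [Group.IsFinitelyPresented G] {S : Set G} (hS : S.Finite) :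
    ∃ T : Set G, T.Finite ∧ S ⊆ T ∧ ∀ (a b : R T) (p q : Path a b), (∀ t, Sml S (p t).1) →
      (∀ t, Sml S (q t).1) → p.Homotopic q := by
  obtain ⟨T, hT, h1, hs, S', hSS', hS'T, hcl, H⟩ := alg hS
  refine ⟨T, hT, hSS'.trans hS'T, fun a b p q hp hq => ?_⟩
  obtain ⟨ρ, hρ⟩ := H (Equiv.Perm (E h1)) (stP h1 hs) (fun a ha b hb hab => by
    ext e : 1
    rw [Equiv.Perm.mul_apply]
    simp only [stP, dif_pos ha, dif_pos hb, dif_pos hab, Equiv.coe_fn_mk]
    exact st_mul h1 hs ha hb hab e)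
  have hfst : ∀ g : G, ∀ e, (ρ g e).1.1 = e.1.1 * g⁻¹ := by
    intro g
    have hg : g ∈ Subgroup.closure S' := hcl ▸ Subgroup.mem_top g
    induction hg using Subgroup.closure_induction with
    | mem s hs' => intro e; rw [hρ s hs', stP_apply h1 hs (hS'T hs')]
    | one => intro e; simp
    | mul x y _ _ hx hy => intro e; rw [map_mul, Equiv.Perm.mul_apply, hx, hy]; group
    | inv x _ hx =>
      intro e
      have := hx (ρ x⁻¹ e)
      rw [← Equiv.Perm.mul_apply, ← map_mul, mul_inv_cancel, map_one, Equiv.Perm.one_apply] at this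
      rw [this]; group
  let e₀ : E h1 := ⟨(1, ⟨pt h1 1, Path.Homotopic.Quotient.refl _⟩), rfl⟩
  let D : G → E' (pt h1 1) := fun g => (ρ g⁻¹ e₀).1.2
  have hD0 : ∀ g, (ρ g⁻¹ e₀).1.1 = g := fun g => by rw [hfst]; simp [e₀]
  have hD1 : ∀ g, (D g).1 = pt h1 g := fun g => by
    have := (ρ g⁻¹ e₀).2
    rw [hD0] at this
    exact this
  have hD2 : ∀ g h, h⁻¹ * g ∈ S → D h = mv (D g) (pt h1 h) := by
    intro g h hgh
    have k : h⁻¹ = (h⁻¹ * g) * g⁻¹ := by group
    simp only [D]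
    rw [k, map_mul, Equiv.Perm.mul_apply, hρ _ (hSS' hgh), stP_apply h1 hs (hS'T (hSS' hgh)), hD0]
    group
  let c : R T → G := fun x => x.2.1.some
  have hc : ∀ x, c x ∈ x.1 := fun x => x.2.1.some_mem
  let N : R T → E' (pt h1 1) := fun x => mv (D (c x)) x
  have hpt : ∀ (g : G) (x : R T), g ∈ x.1 → (pt h1 g).1 ⊆ x.1 := by
    rintro g x hg y rfl; exact hg
  have hN1 : ∀ x, Sml S x.1 → (N x).1 = x := fun x _ =>
    mv_fst _ _ (x.2.2.mono (union_subset (by rw [hD1]; exact hpt _ _ (hc x)) subset_rfl))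
  have hN2 : ∀ x y : R T, Sml S x.1 → y.1 ⊆ x.1 → N y = mv (N x) y := by
    intro x y hx hyx
    have k1 : (D (c x)).1.1 ⊆ x.1 := by rw [hD1]; exact hpt _ _ (hc x)
    simp only [N]
    rw [mv_mv _ _ _ x.2.2 k1 subset_rfl hyx, hD2 (c x) (c y) (hx _ (hyx (hc y)) _ (hc x)),
      mv_mv _ _ _ x.2.2 k1 (hpt _ _ (hyx (hc y))) hyx]
  have ha : Sml S a.1 := by simpa using hp 0
  obtain ⟨γ, hγ⟩ : ∃ γ, N a = ⟨a, γ⟩ := by
    have := hN1 a ha
    generalize N a = e at this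
    obtain ⟨a', γ⟩ := e
    obtain rfl : a' = a := this
    exact ⟨γ, rfl⟩
  have k1 := path_eq N hN1 hN2 γ hγ p hp
  have k2 := path_eq N hN1 hN2 γ hγ q hq
  rw [k1] at k2
  have k3 : γ.trans (Path.Homotopic.Quotient.mk p) = γ.trans (Path.Homotopic.Quotient.mk q) := eq_of_heq (Sigma.mk.inj k2).2
  have k4 := congrArg (fun δ => γ.symm.trans δ) k3
  simp only [← Path.Homotopic.Quotient.trans_assoc, Path.Homotopic.Quotient.symm_trans, Path.Homotopic.Quotient.refl_trans] at k4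
  exact Path.Homotopic.Quotient.eq.1 k4

/-- a semicontinuous function gives a continuous map to the space of small sets -/
theorem hat {Y : Type*} [TopologicalSpace Y] {S : Set G} (hS : S.Finite) (hST : S⁻¹ * S ⊆ T)
    {f : Y → G} {K : Set Y} (hf : SCOn S f K) :
    ∃ φ : K → R T, Continuous φ ∧ (∀ x, f x ∈ (φ x).1) ∧ ∀ x, Sml (S⁻¹ * S) (φ x).1 := by
  let A : K → Set G := fun x => {g | x ∈ closure ((fun y : K => f y) ⁻¹' {g})}
  have hev : ∀ x : K, ∀ᶠ y : K in 𝓝 x, (f x)⁻¹ * f y ∈ S := fun x => by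
    have := hf x x.2
    rw [← map_nhds_subtype_val] at this
    exact this
  have h0 : ∀ x : K, f x ∈ A x := fun x => subset_closure rfl
  have h1 : ∀ x : K, ∀ᶠ y : K in 𝓝 x, ∀ g ∈ A y, (f x)⁻¹ * g ∈ S := fun x => by
    filter_upwards [(hev x).eventually_nhds] with y hy g hg
    obtain ⟨z, hz1, hz2⟩ := mem_closure_iff_nhds.1 hg _ hy
    have : f z = g := hz2
    rw [← this]; exact hz1
  have h2 : ∀ x : K, Sml (S⁻¹ * S) (A x) := fun x a ha b hb => by
    have ka := (h1 x).self_of_nhds a ha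
    have kb := (h1 x).self_of_nhds b hb
    exact ⟨_, Set.inv_mem_inv.2 ka, _, kb, by group⟩
  refine ⟨fun x => ⟨A x, ⟨_, h0 x⟩, fun a ha b hb => hST (h2 x a ha b hb)⟩, ?_, h0, h2⟩
  rw [continuous_iff_continuousAt]
  intro x
  refine tendsto_iff.2 ?_
  have h3 : ∀ᶠ y : K in 𝓝 x, ∀ s ∈ S, f x * s ∈ A y → f x * s ∈ A x := by
    rw [hS.eventually_all]
    intro s _
    by_cases hs : f x * s ∈ A x
    · exact Eventually.of_forall fun _ _ => hs
    · filter_upwards [isClosed_closure.isOpen_compl.mem_nhds hs] with y hy hy'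
      exact absurd hy' hy
  filter_upwards [h1 x, h3] with y hy hy' g hg
  have := hy' _ (hy g hg) (by simpa using hg)
  simpa using this

/-- choose values of a continuous map to the space of small sets -/
theorem extend_choice {Y : Type*} [TopologicalSpace Y] {K K₀ : Set Y} {φ : Y → R T}
    (hφ : ContinuousOn φ K) (f : Y → G) (hf : ∀ y ∈ K₀, f y ∈ (φ y).1) :
    ∃ F : Y → G, SCOn T F K ∧ ∀ x ∈ K₀, F x = f x := by
  classical
  refine ⟨fun y => if y ∈ K₀ then f y else (φ y).2.1.some, sc_of_cont hφ fun y _ => ?_,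
    fun x hx => if_pos hx⟩
  split_ifs with h
  · exact hf y h
  · exact (φ y).2.1.some_mem

/-- parametrisation of the square by the antidiagonal slices -/
noncomputable def sq (z : I × I) : Fin 2 → ℝ :=
  ![(4 * (z.2 : ℝ) - 2) / 2 + (2 * (z.1 : ℝ) - 1) * (2 - |4 * (z.2 : ℝ) - 2|) / 2,
    (4 * (z.2 : ℝ) - 2) / 2 - (2 * (z.1 : ℝ) - 1) * (2 - |4 * (z.2 : ℝ) - 2|) / 2]

theorem sq_cont : Continuous sq := by
  unfold sq
  refine continuous_pi fun i => ?_
  fin_cases i <;> simp <;> fun_prop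

theorem norm_two (x : Fin 2 → ℝ) : ‖x‖ = max |x 0| |x 1| := by
  apply le_antisymm
  · refine (pi_norm_le_iff_of_nonneg (by positivity)).2 fun i => ?_
    fin_cases i
    · exact le_max_left _ _
    · exact le_max_right _ _
  · exact max_le (norm_le_pi_norm x 0) (norm_le_pi_norm x 1)

theorem sq_mem (z : I × I) : sq z ∈ closedBall (0 : Fin 2 → ℝ) 1 := by
  obtain ⟨⟨v, hv0, hv1⟩, ⟨u, hu0, hu1⟩⟩ := z
  rw [mem_closedBall_zero_iff, norm_two]
  simp only [sq, Matrix.cons_val_zero, Matrix.cons_val_one, max_le_iff, abs_le]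
  rcases abs_cases (4 * u - 2) with ⟨h, h'⟩ | ⟨h, h'⟩ <;> rw [h] <;>
    refine ⟨⟨?_, ?_⟩, ?_, ?_⟩ <;> nlinarith

theorem sq_sphere (v : I) (hv : v = 0 ∨ v = 1) (u : I) :
    sq (v, u) ∈ sphere (0 : Fin 2 → ℝ) 1 := by
  obtain ⟨u, hu0, hu1⟩ := u
  rw [mem_sphere_zero_iff_norm, norm_two]
  rcases hv with rfl | rfl <;>
  simp only [sq, Matrix.cons_val_zero, Matrix.cons_val_one, Set.Icc.coe_zero, Set.Icc.coe_one] <;>
  rcases abs_cases (4 * u - 2) with ⟨h, h'⟩ | ⟨h, h'⟩ <;> rw [h] <;>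
  apply le_antisymm <;>
  first
  | (refine max_le (abs_le.2 ⟨?_, ?_⟩) (abs_le.2 ⟨?_, ?_⟩) <;> linarith)
  | (refine le_max_of_le_left (le_abs.2 (Or.inl ?_)); linarith)
  | (refine le_max_of_le_left (le_abs.2 (Or.inr ?_)); linarith)
  | (refine le_max_of_le_right (le_abs.2 (Or.inl ?_)); linarith)
  | (refine le_max_of_le_right (le_abs.2 (Or.inr ?_)); linarith)

theorem sq_surj {x : Fin 2 → ℝ} (hx : x ∈ closedBall (0 : Fin 2 → ℝ) 1) :
    ∃ z, sq z = x ∧ (x ∈ sphere (0 : Fin 2 → ℝ) 1 → z.1 = 0 ∨ z.1 = 1) := by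
  rw [mem_closedBall_zero_iff, norm_two, max_le_iff, abs_le, abs_le] at hx
  obtain ⟨⟨h1, h2⟩, h3, h4⟩ := hx
  have hu : (x 0 + x 1 + 2) / 4 ∈ I := ⟨by linarith, by linarith⟩
  have hc : 4 * ((x 0 + x 1 + 2) / 4) - 2 = x 0 + x 1 := by ring
  have hw : |x 0 - x 1| ≤ 2 - |x 0 + x 1| := by
    rcases abs_cases (x 0 - x 1) with ⟨h, _⟩ | ⟨h, _⟩ <;>
    rcases abs_cases (x 0 + x 1) with ⟨h', _⟩ | ⟨h', _⟩ <;> rw [h, h'] <;> linarith
  rcases eq_or_lt_of_le ((abs_nonneg _).trans hw) with hw0 | hw0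
  · refine ⟨(0, ⟨_, hu⟩), ?_, fun _ => Or.inl rfl⟩
    have h5 : x 0 - x 1 = 0 := abs_nonpos_iff.1 (hw0 ▸ hw)
    funext i
    fin_cases i <;> simp only [sq, hc, ← hw0] <;> simp <;> linarith
  · have hv : ((x 0 - x 1) / (2 - |x 0 + x 1|) + 1) / 2 ∈ I := by
      have k := abs_le.1 hw
      have k1 : -1 ≤ (x 0 - x 1) / (2 - |x 0 + x 1|) := by
        rw [le_div_iff₀ hw0]; linarith [k.1]
      have k2 : (x 0 - x 1) / (2 - |x 0 + x 1|) ≤ 1 := by
        rw [div_le_iff₀ hw0]; linarith [k.2]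
      exact ⟨by linarith, by linarith⟩
    have hd : (2 * (((x 0 - x 1) / (2 - |x 0 + x 1|) + 1) / 2) - 1) * (2 - |x 0 + x 1|) =
        x 0 - x 1 := by
      field_simp
      ring
    refine ⟨(⟨_, hv⟩, ⟨_, hu⟩), ?_, fun hs => ?_⟩
    · funext i
      fin_cases i <;> simp only [sq, hc, hd] <;> simp <;> linarith
    · rw [mem_sphere_zero_iff_norm, norm_two] at hs
      have h6 : x 0 - x 1 = -(2 - |x 0 + x 1|) ∨ x 0 - x 1 = 2 - |x 0 + x 1| := by
        rcases max_cases |x 0| |x 1| with ⟨h, _⟩ | ⟨h, _⟩ <;> rw [h] at hs <;>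
        rcases (abs_eq zero_le_one).1 hs with h7 | h7 <;>
        rcases abs_cases (x 0 + x 1) with ⟨h', _⟩ | ⟨h', _⟩ <;> rw [h'] <;>
        first
        | (left; linarith)
        | (right; linarith)
      rcases h6 with h6 | h6
      · left
        apply Subtype.ext
        simp only [h6, Set.Icc.coe_zero]
        rw [neg_div, div_self hw0.ne']
        norm_num
      · right
        apply Subtype.ext
        simp only [h6, Set.Icc.coe_one]
        rw [div_self hw0.ne']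
        norm_num

theorem sq_fib {z z' : I × I} (h : sq z = sq z') : z = z' ∨ (z.2 = z'.2 ∧ (z.2 = 0 ∨ z.2 = 1)) := by
  obtain ⟨⟨v, hv0, hv1⟩, ⟨u, hu0, hu1⟩⟩ := z
  obtain ⟨⟨v', hv0', hv1'⟩, ⟨u', hu0', hu1'⟩⟩ := z'
  have h0 := congrFun h 0
  have h1 := congrFun h 1
  simp only [sq, Matrix.cons_val_zero, Matrix.cons_val_one] at h0 h1
  obtain rfl : u = u' := by linarith
  by_cases hw : 2 - |4 * u - 2| = 0
  · right
    refine ⟨rfl, ?_⟩
    rcases abs_cases (4 * u - 2) with ⟨h', _⟩ | ⟨h', _⟩ <;> rw [h'] at hw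
    · right; apply Subtype.ext; simp only [Set.Icc.coe_one]; linarith
    · left; apply Subtype.ext; simp only [Set.Icc.coe_zero]; linarith
  · left
    have : (v - v') * (2 - |4 * u - 2|) = 0 := by linarith
    obtain rfl : v = v' := by linarith [(mul_eq_zero.1 this).resolve_right hw]
    rfl

theorem sq_zero (v v' : I) : sq (v, 0) = sq (v', 0) := by
  funext i
  fin_cases i <;> simp [sq]

theorem sq_one (v v' : I) : sq (v, 1) = sq (v', 1) := by
  funext i
  fin_cases i <;> simp [sq] <;> norm_num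

end Low

variable {G : Type*} [Group G]

theorem sExt_zero [Group.FG G] : SExt 0 (MonoidHom.id G) := by
  intro S _
  obtain ⟨S₀, hcl, hS₀⟩ := Group.fg_iff.1 (inferInstance : Group.FG G)
  have h1 : (1 : G) ∈ {1} ∪ S₀ ∪ S₀⁻¹ := Or.inl (Or.inl rfl)
  have hs : ∀ s ∈ {1} ∪ S₀ ∪ S₀⁻¹, s⁻¹ ∈ ({1} ∪ S₀ ∪ S₀⁻¹ : Set G) := by
    rintro s ((rfl | h) | h)
    · simpa using h1
    · exact Or.inr (by simpa using h)
    · exact Or.inl (Or.inr h)
  have hj : ∀ g a : G, Joined (Low.pt h1 a) (Low.pt h1 (a * g)) := by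
    intro g
    have hg : g ∈ Subgroup.closure S₀ := hcl ▸ Subgroup.mem_top g
    induction hg using Subgroup.closure_induction with
    | mem s hs' =>
      exact fun a => ⟨Low.cl _ _ (Low.small_pair h1 hs (by simpa using Or.inl (Or.inr hs')))⟩
    | one => intro a; rw [mul_one]
    | mul x y _ _ hx hy => intro a; rw [← mul_assoc]; exact (hx a).trans (hy _)
    | inv x _ hx =>
      intro a
      have := (hx (a * x⁻¹)).symm
      rwa [inv_mul_cancel_right] at this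
  refine ⟨_, ((finite_singleton (1 : G)).union hS₀).union hS₀.inv, fun f _ => ?_⟩
  have h2 := hj ((f fun _ => -1)⁻¹ * f fun _ => 1) (f fun _ => -1)
  rw [mul_inv_cancel_left] at h2
  obtain ⟨γ⟩ := h2
  refine Low.extend_choice (φ := fun z => γ.extend ((z 0 + 1) / 2))
    (γ.continuous_extend.comp (by fun_prop)).continuousOn f fun z hz => ?_
  have hz0 : z = fun _ => z 0 := funext fun i => congrArg z (Subsingleton.elim (α := Fin 1) _ _)
  rw [mem_sphere_zero_iff_norm, hz0, pi_norm_const, Real.norm_eq_abs] at hz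
  rcases (abs_eq zero_le_one).1 hz with h | h
  · rw [hz0, h]
    norm_num
    rfl
  · rw [hz0, h]
    norm_num
    rfl

theorem sExt_one [Group.IsFinitelyPresented G] : SExt 1 (MonoidHom.id G) := by
  intro S hS
  obtain ⟨T, hT, hST, H⟩ := Low.simply (hS.inv.mul hS)
  refine ⟨T, hT, fun f hf => ?_⟩
  obtain ⟨φ, hφ, hφ1, hφ2⟩ := Low.hat hS hST hf
  let a := φ ⟨Low.sq (0, 0), Low.sq_sphere 0 (Or.inl rfl) 0⟩
  let b := φ ⟨Low.sq (0, 1), Low.sq_sphere 0 (Or.inl rfl) 1⟩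
  let P : ∀ v : unitInterval, v = 0 ∨ v = 1 → Path a b := fun v hv =>
    { toFun := fun u => φ ⟨Low.sq (v, u), Low.sq_sphere v hv u⟩
      continuous_toFun := hφ.comp ((Low.sq_cont.comp (by fun_prop)).subtype_mk _)
      source' := congrArg φ (Subtype.ext (Low.sq_zero _ _))
      target' := congrArg φ (Subtype.ext (Low.sq_one _ _)) }
  obtain ⟨Hm⟩ := H a b (P 0 (Or.inl rfl)) (P 1 (Or.inr rfl)) (fun t => hφ2 _) (fun t => hφ2 _)
  let Q : unitInterval × unitInterval → closedBall (0 : Fin 2 → ℝ) 1 :=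
    fun z => ⟨Low.sq z, Low.sq_mem z⟩
  have hQc : Continuous Q := Low.sq_cont.subtype_mk _
  have hQs : Function.Surjective Q := fun x => by
    obtain ⟨z, hz, -⟩ := Low.sq_surj x.2
    exact ⟨z, Subtype.ext hz⟩
  have hQ : IsQuotientMap Q := hQc.isClosedMap.isQuotientMap hQc hQs
  have hfib : ∀ z z', Low.sq z = Low.sq z' → Hm z = Hm z' := by
    rintro ⟨v, u⟩ ⟨v', u'⟩ h
    rcases Low.sq_fib h with h | ⟨h, h' | h'⟩
    · rw [h]
    · simp only at h h'
      rw [← h, h', Hm.source, Hm.source]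
    · simp only at h h'
      rw [← h, h', Hm.target, Hm.target]
  let Φ : closedBall (0 : Fin 2 → ℝ) 1 → Low.R T := fun x => Hm (Function.surjInv hQs x)
  have hΦQ : ∀ z, Φ (Q z) = Hm z := fun z =>
    hfib _ _ (congrArg Subtype.val (Function.surjInv_eq hQs (Q z)))
  have hΦ : Continuous Φ := by
    rw [hQ.continuous_iff]
    have : Φ ∘ Q = Hm := funext hΦQ
    rw [this]
    exact Hm.continuous
  classical
  refine Low.extend_choice
    (φ := fun x => if h : x ∈ closedBall (0 : Fin 2 → ℝ) 1 then Φ ⟨x, h⟩ else a) ?_ f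
    fun x hx => ?_
  · rw [continuousOn_iff_continuous_domRestrict]
    convert hΦ using 1
    funext x
    exact dif_pos x.2
  · have hx' := sphere_subset_closedBall hx
    rw [dif_pos hx']
    obtain ⟨⟨v, u⟩, hz, hz'⟩ := Low.sq_surj hx'
    have h1 : (⟨x, hx'⟩ : closedBall (0 : Fin 2 → ℝ) 1) = Q (v, u) := Subtype.ext hz.symm
    rw [h1, hΦQ]
    have h2 := hφ1 ⟨x, hx⟩
    rcases hz' hx with h | h
    · simp only at h
      subst h
      rw [Hm.apply_zero]
      subst hz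
      exact h2
    · simp only at h
      subst h
      rw [Hm.apply_one]
      subst hz
      exact h2

end Crest.Agent.R185
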