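import Crest.Agent.R185.FixDef
import Crest.Agent.R185.Low
/-! Row 185: algebra at a fixed point. -/
set_option autoImplicit false
open Set

noncomputable section
namespace Crest.Agent.R185.Dat
open Hig
variable {St κ J AG G : Type} [Fintype κ] [DecidableEq κ] [Group G] {d : Dat St κ J AG}
  {sG : AG → G} {rel : ℕ × ℕ → List (GenQ (Gen St κ J) AG × Bool)} {e : ℕ} {r₀ : J}

theorem ev_surjective (d : Dat St κ J AG) (e : ℕ) : Function.Surjective (d.ev e) := by
  rw [← MonoidHom.range_eq_top, ev, FreeGroup.range_lift_eq_closure, closure_gen0]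

theorem closure_c (d : Dat St κ J AG) (sG : AG → G) (e : ℕ) :
    Subgroup.closure (range (d.c sG e)) = ⊤ := by
  refine top_unique ((Subgroup.closure_closure_coe_preimage
    (k := range ((d.Q e).genQ sG))).ge.trans (Subgroup.closure_mono ?_))
  rintro ⟨_, hq⟩ ⟨x, rfl⟩
  exact ⟨some x, rfl⟩

theorem fixAlg_coe_lift (d : Dat St κ J AG) (sG : AG → G) (e : ℕ)
    (w : FreeGroup (GenQ (Gen St κ J) AG)) :
    ((FreeGroup.lift (d.c sG e) (FreeGroup.map some w) : d.Qp sG e) : (d.Q e).Qh G) =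
      FreeGroup.lift ((d.Q e).genQ sG) w := by
  have : (d.Qp sG e).subtype.comp ((FreeGroup.lift (d.c sG e)).comp (FreeGroup.map some)) =
      FreeGroup.lift ((d.Q e).genQ sG) := by
    ext x
    simp [c]
  exact DFunLike.congr_fun this w

theorem fixAlg_lift_sw (hr : d.IsRel sG rel) (e j : ℕ) :
    FreeGroup.lift (d.c sG e) (sw rel e j) = 1 := by
  have h1 : FreeGroup.lift (d.c sG e) (FreeGroup.map some (FreeGroup.mk (rel (e, j)))) = 1 :=
    Subtype.ext ((fixAlg_coe_lift d sG e _).trans (hr.sound e j))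
  rw [sw, map_mul, h1, map_pow, FreeGroup.lift_apply_of]
  simp [c]

theorem valid (hr : d.IsRel sG rel) (hi : Function.Injective (FreeGroup.lift d.β))
    (h : MSpec (d.m e) (d.Acc rel e) r₀) : Valid (d.m e) d.β (d.c sG e) := by
  refine ⟨hi, fun j hj ν hν hH => ?_⟩
  obtain rfl := (h.tw j).1 hj
  obtain ⟨i, hi⟩ := (h.acc ν hν).1 hH
  exact ⟨_, hi, fixAlg_lift_sw hr e i⟩

theorem full (hr : d.IsRel sG rel) (h : MSpec (d.m e) (d.Acc rel e) r₀) :
    Full (d.m e) d.β (d.c sG e) := by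
  refine ⟨fun j hj ν => ?_, closure_c d sG e, fun f hf => ?_⟩
  · obtain rfl := (h.tw j).1 hj
    exact h.loop ν
  obtain ⟨N, hN⟩ : ∃ N, Subgroup.normalClosure {f : FreeGroup (CC St κ J AG) | ∃ j,
      ((d.m e).R j).tw = true ∧ ∃ ν ∈ ((d.m e).R j).L, ((d.m e).R j).o false ν ∈ (d.m e).H0 ∧
        FreeGroup.lift d.β f = ν.1} = N := ⟨_, rfl⟩
  rw [hN]
  have hn : N.Normal := hN ▸ Subgroup.normalClosure_normal
  have h1 : ∀ j, sw rel e j ∈ N := fun j => by
    have hL : ((FreeGroup.lift d.β (sw rel e j), 1) : Lam κ) ∈ ((d.m e).R r₀).L :=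
      ⟨fun ht => by simp [h.tst] at ht, fun _ _ => rfl⟩
    rw [← hN]
    exact Subgroup.subset_normalClosure
      ⟨r₀, (h.tw r₀).2 rfl, _, hL, (h.acc _ hL).2 ⟨j, rfl⟩, rfl⟩
  have h2 : FreeGroup.of none ∈ N := by
    have := h1 0
    rwa [sw, hr.zero, ← FreeGroup.one_eq_mk, map_one, one_mul, zero_add, pow_one] at this
  let π : FreeGroup (CC St κ J AG) →* FreeGroup (GenQ (Gen St κ J) AG) :=
    FreeGroup.lift fun o => o.elim 1 FreeGroup.of
  have h3 : (QuotientGroup.mk' N).comp ((FreeGroup.map some).comp π) = QuotientGroup.mk' N := by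
    ext (_ | x)
    · simpa [π] using ((QuotientGroup.eq_one_iff _).2 h2).symm
    · simp [π]
  have h4 : (FreeGroup.lift (d.c sG e)).comp ((FreeGroup.map some).comp π) =
      FreeGroup.lift (d.c sG e) := by
    ext (_ | x) <;> simp [π, c]
  have h5 : FreeGroup.lift ((d.Q e).genQ sG) (π f) = 1 := by
    rw [← fixAlg_coe_lift]
    exact congrArg Subtype.val ((DFunLike.congr_fun h4 f).trans hf)
  obtain ⟨⟨w⟩, hw⟩ : ∃ w, w = π f := ⟨_, rfl⟩
  change FreeGroup.mk w = _ at hw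
  obtain ⟨j, hj⟩ := hr.complete e w (by rw [hw, h5])
  have h6 := h1 j
  rw [sw, hj, hw, mul_mem_cancel_right (pow_mem h2 _)] at h6
  rw [← QuotientGroup.eq_one_iff] at h6 ⊢
  exact (DFunLike.congr_fun h3 f).symm.trans h6

theorem exists_emb (hv : Valid (d.m e) d.β (d.c sG e)) (hf : Full (d.m e) d.β (d.c sG e)) :
    ∃ E : d.Emb sG e, ∀ (T : Subgroup (d.Qp sG e)) (w : FreeGroup (Gen St κ J)),
      FreeGroup.lift (genH hv) w ∈ T.map (iQ hv) ↔ d.ev e w ∈ T.map E.ι := by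
  obtain ⟨Θ, hΘ⟩ := exists_equiv hv hf
  have key : ∀ w, Θ (d.ev e w) = FreeGroup.lift (genH hv) w := fun w => by
    have : Θ.toMonoidHom.comp (d.ev e) = FreeGroup.lift (genH hv) := by
      ext a
      simp [ev, hΘ]
    exact DFunLike.congr_fun this w
  refine ⟨⟨Θ.symm.toMonoidHom.comp (iQ hv), Θ.symm.injective.comp (iQ_injective hv), fun x => ?_⟩,
    fun T w => ?_⟩
  · refine Θ.symm_apply_eq.2 ?_
    rw [key, cw, map_cT, ← cT_genH hv]
    congr 1
    funext a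
    simp
  · simp only [Subgroup.mem_map, ← key]
    exact exists_congr fun t => and_congr_right fun _ => Θ.symm_apply_eq.symm

namespace Emb
variable (E : d.Emb sG e) (hG : Subgroup.closure (range sG) = ⊤)

/-- `L4 (P e) × G → P e`. -/
def i1 : QIn.G1 (d.P e) G →* d.P e :=
  E.ι.comp (((d.Q e).i1 G).codRestrict _ ((d.Q e).i1_mem_closure sG (closure_gen0 _ _) hG))

theorem i1_injective : Function.Injective (E.i1 hG) := by
  exact E.inj.comp ((MonoidHom.injective_codRestrict _ _ _).2 ((d.Q e).i1_injective G))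

def α : d.P e →* d.P e := (E.i1 hG).comp (QIn.x1 _ _)

theorem α_injective : Function.Injective (E.α hG) :=
  (E.i1_injective hG).comp (QIn.x1_injective _ _)

theorem α_ev (w : FreeGroup (Gen St κ J)) : E.α hG (d.ev e w) = d.ev e (d.αw w) := by
  have : (E.α hG).comp (d.ev e) = (d.ev e).comp d.αw := by
    ext a
    simp only [MonoidHom.comp_apply, αw, FreeGroup.lift_apply_of]
    rw [higPres_map_lift, ← funext fun g => E.gen (.inl g), ← higPres_map_lift E.ι]
    refine congrArg E.ι (Subtype.ext ?_)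
    refine Eq.trans ?_ (higPres_map_lift (d.Qp sG e).subtype
      (fun g => d.c sG e (some (.inl g))) (Cube.x4w a)).symm
    refine Eq.trans (b := (d.Q e).xq G ((d.Q e).s a)) ?_ ?_
    · rw [ev, FreeGroup.lift_apply_of]
      rfl
    · rw [← (d.Q e).lift_xw sG a]
      have : (FreeGroup.lift ((d.Q e).genQ sG)).comp
          (FreeGroup.map fun c => (Sum.inl c : GenQ (Gen St κ J) AG)) =
          FreeGroup.lift fun x => (d.Qp sG e).subtype (d.c sG e (some (.inl x))) := by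
        ext x
        simp [c]
      exact DFunLike.congr_fun this (Cube.x4w a)
  exact DFunLike.congr_fun this w

theorem fixAlg_iter (n : ℕ) (w : FreeGroup (Gen St κ J)) :
    d.ev e (d.αw^[n] w) = (E.α hG)^[n] (d.ev e w) := by
  induction n with
  | zero => rfl
  | succ n ih => rw [Function.iterate_succ_apply', Function.iterate_succ_apply', ← ih, α_ev]

include hG in
theorem fixAlg_xq_mem (g : d.P e) : (d.Q e).xq G g ∈ d.Qp sG e :=
  (d.Q e).i1_mem_closure sG (closure_gen0 _ _) hG _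

theorem fixAlg_α (g : d.P e) : E.α hG g = E.ι ⟨(d.Q e).xq G g, fixAlg_xq_mem hG g⟩ := rfl

omit hG in
theorem fixAlg_yv_mem (k : Fin 6) : (d.Q e).yv G k ∈ d.Qp sG e :=
  Subgroup.subset_closure ⟨.inr (.inr (.inl k)), rfl⟩

omit hG in
theorem fixAlg_y (k : Fin 6) : d.ev e (d.yw k) = E.ι ⟨(d.Q e).yv G k, fixAlg_yv_mem k⟩ :=
  (E.gen (.inr (.inr (.inl k)))).symm

theorem fixAlg_α_mem {g : d.P e} (hg : g ∈ d.D e) : E.α hG g ∈ d.D e := by
  have : d.D e ≤ (d.D e).comap (E.α hG) := by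
    refine (Subgroup.closure_le _).2 ?_
    rintro _ ⟨n, k, rfl⟩
    refine Subgroup.subset_closure ⟨n + 1, k, ?_⟩
    rw [Function.iterate_succ_apply', α_ev]
  exact this hg

include hG in
theorem map_Dp : (d.Dp sG e).map E.ι = d.D e := by
  refine le_antisymm ?_ ((Subgroup.closure_le _).2 ?_)
  · have : (d.Q e).Dq G ≤ ((d.D e).comap E.ι).map (d.Qp sG e).subtype := by
      refine (Subgroup.closure_le _).2 ?_
      rintro _ (⟨k, rfl⟩ | ⟨g, hg, rfl⟩)
      · refine ⟨⟨_, fixAlg_yv_mem k⟩, ?_, rfl⟩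
        exact Subgroup.subset_closure ⟨0, k, E.fixAlg_y k⟩
      · exact ⟨⟨_, fixAlg_xq_mem hG g⟩, E.fixAlg_α_mem hG hg, rfl⟩
    rintro _ ⟨q, hq, rfl⟩
    obtain ⟨q', h1, h2⟩ := this hq
    rw [← Subtype.ext h2]
    exact h1
  · rintro _ ⟨n, k, rfl⟩
    cases n with
    | zero => exact ⟨⟨_, fixAlg_yv_mem k⟩, Subgroup.subset_closure (Or.inl ⟨k, rfl⟩),
        (E.fixAlg_y k).symm⟩
    | succ n =>
      rw [Function.iterate_succ_apply', ← E.α_ev hG]
      exact ⟨⟨_, fixAlg_xq_mem hG _⟩, Subgroup.subset_closure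
        (Or.inr ⟨_, Subgroup.subset_closure ⟨n, k, rfl⟩, rfl⟩), rfl⟩

include hG in
theorem fixAlg_ι_mem (q : d.Qp sG e) : E.ι q ∈ d.D e ↔ q.1 ∈ (d.Q e).Dq G := by
  rw [← E.map_Dp hG, Subgroup.mem_map_iff_mem E.inj, Dp, Subgroup.mem_subgroupOf]

include hG in
theorem fixAlg_Dq_le : (d.Q e).Dq G ≤ d.Qp sG e := by
  refine (Subgroup.closure_le _).2 ?_
  rintro _ (⟨k, rfl⟩ | ⟨g, -, rfl⟩)
  · exact fixAlg_yv_mem k
  · exact fixAlg_xq_mem hG g

omit hG in
theorem fixAlg_sq_mem (q : Bool × ℤ) : (d.Q e).sq G q ∈ d.Qp sG e := by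
  obtain ⟨ε, j⟩ := q
  have hp : (d.Q e).pp G ∈ d.Qp sG e := fixAlg_yv_mem 2
  have h0 : (d.Q e).sq G (ε, 0) ∈ d.Qp sG e := by
    cases ε
    · exact fixAlg_yv_mem 0
    · exact fixAlg_yv_mem 1
  rw [QIn.sq_eq]
  exact mul_mem (mul_mem (inv_mem (zpow_mem hp _)) h0) (zpow_mem hp _)

include hG in
theorem fixAlg_mq_mem {N i : ℕ} (h : i < (d.Q e).len N) : (d.Q e).mq G N i ∈ d.Qp sG e := by
  have h1 := fixAlg_sq_mem (d := d) (sG := sG) (e := e)
    (QIn.par i, (Nat.pair N ((d.Q e).nxt N i) : ℕ))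
  rw [QIn.sq_edge _ _ h, mul_mem_cancel_right (fixAlg_xq_mem hG _),
    mul_mem_cancel_right (fixAlg_sq_mem _), mul_mem_cancel_left (fixAlg_xq_mem hG _)] at h1
  exact h1

omit hG in
theorem fixAlg_ι_sq (ε : Bool) (j : ℤ) :
    (d.ev e (d.yw 2) ^ j)⁻¹ * d.ev e (d.yw (cond ε 1 0)) * d.ev e (d.yw 2) ^ j =
      E.ι ⟨(d.Q e).sq G (ε, j), fixAlg_sq_mem _⟩ := by
  rw [E.fixAlg_y, E.fixAlg_y, ← map_zpow, ← map_inv, ← map_mul, ← map_mul]
  congr 1
  refine Subtype.ext (Eq.trans ?_ ((d.Q e).sq_eq G ε j).symm)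
  cases ε <;> rfl

theorem sExt [Finite St] [Finite J] [Finite AG] (n : ℕ) : SExt n (E.α hG) := by
  rcases n with _ | _ | n
  · have : Group.FG (d.P e) := Group.fg_iff.2 ⟨_, closure_gen0 (d.m e) d.β, finite_range _⟩
    exact sExt_zero.postcomp (E.α hG)
  · exact sExt_one.postcomp (E.α hG)
  · exact ((Cube.fnull_x4 (d.P e)).sExt (by omega)).postcomp
      ((E.i1 hG).comp (MonoidHom.inl _ _))

include E hG in
theorem exists_g : ∃ f : G →* d.P e, Function.Injective f :=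
  ⟨(E.i1 hG).comp (MonoidHom.inr _ _), (E.i1_injective hG).comp fun _ _ h => congrArg Prod.snd h⟩

theorem exists_sIn (hQ : (d.Q e).Good)
    (hL : ∀ L : List (d.P e), Even L.length → (∀ a ∈ L, a ∉ d.D e) → ∃ N, (d.Q e).lab N = L) :
    ∃ S : SIn (d.P e), S.α = E.α hG := by
  have hz : (d.Q e).zp G ∈ d.Qp sG e :=
    Subgroup.subset_closure ⟨.inr (.inr (.inr none)), rfl⟩
  refine ⟨{
    α := E.α hG
    inj := E.α_injective hG
    y := fun k => d.ev e (d.yw k)
    D := d.D e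
    D_eq := by simp only [D, E.fixAlg_iter hG]
    mem_iff := fun g => (E.fixAlg_ι_mem hG _).trans ((d.Q e).xq_mem_Dq G)
    free := fun T _ f v => ?_
    z := E.ι ⟨_, hz⟩
    z_notMem := fun h => (d.Q e).zp_notMem G ((E.fixAlg_ι_mem hG _).1 h)
    z_conj := fun g hg h => ?_
    gen := range (gen0 (d.m e) d.β)
    gen_top := closure_gen0 _ _
    vrel := ?_
    gad := fun L hne hev hall => ?_ }, rfl⟩
  · obtain ⟨ρ, h1, h2⟩ := (d.Q e).Dq_lift G hQ f v
    let ψ : (d.Q e).Dq G →* d.D e :=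
      (E.ι.comp (Subgroup.inclusion (fixAlg_Dq_le hG))).codRestrict _ fun q =>
        (E.fixAlg_ι_mem hG _).2 q.2
    have hψ : Function.Bijective ψ := by
      refine ⟨(MonoidHom.injective_codRestrict _ _ _).2
        (E.inj.comp (Subgroup.inclusion_injective _)), fun x => ?_⟩
      obtain ⟨q, hq, h⟩ := (E.map_Dp hG).ge x.2
      exact ⟨⟨q.1, hq⟩, Subtype.ext h⟩
    refine ⟨ρ.comp (MulEquiv.ofBijective ψ hψ).symm.toMonoidHom, fun x h => ?_, fun k h => ?_⟩
    · refine Eq.trans (congrArg ρ ((MulEquiv.symm_apply_eq _).2 ?_)) (h1 x)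
      rfl
    · refine Eq.trans (congrArg ρ ((MulEquiv.symm_apply_eq _).2 ?_)) (h2 k)
      exact Subtype.ext (E.fixAlg_y k)
  · rw [fixAlg_α, ← map_inv, ← map_mul, ← map_mul] at h
    exact (d.Q e).zp_conj_notMem G hg ((E.fixAlg_ι_mem hG _).1 h)
  · rintro _ ⟨a, rfl⟩
    refine ⟨E.ι ⟨(d.Q e).vv G a, Subgroup.subset_closure ⟨.inr (.inr (.inr (some a))), rfl⟩⟩, ?_⟩
    rw [E.fixAlg_y, E.fixAlg_y, fixAlg_α, ← higPres_map_cm, ← map_mul, ← map_mul, ← map_mul]
    exact congrArg E.ι (Subtype.ext ((d.Q e).vv_rel G a))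
  · obtain ⟨N, rfl⟩ := hL L hev hall
    refine ⟨fun i => (Nat.pair N (i % (d.Q e).len N) : ℕ),
      fun i => if h : i < (d.Q e).len N then E.ι ⟨_, fixAlg_mq_mem hG h⟩ else 1, ?_,
      fun i x hx => ?_, fun i hi => ?_⟩
    · simp [QIn.len]
    · dsimp only
      split_ifs with h
      · rw [fixAlg_α]
        exact Commute.map (Subtype.ext ((d.Q e).mq_comm G N i hx).eq) E.ι
      · exact Commute.one_left _
    · have hi' : i < (d.Q e).len N := hi
      dsimp only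
      rw [dif_pos hi', Nat.mod_eq_of_lt hi', E.fixAlg_ι_sq, E.fixAlg_ι_sq, fixAlg_α, fixAlg_α,
        ← map_mul, ← map_mul, ← map_mul]
      exact congrArg E.ι (Subtype.ext ((d.Q e).sq_edge G hi'))

end Emb
end Crest.Agent.R185.Dat
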