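import Crest.Agent.R185.QFilt
import Crest.Agent.R185.CubeRE
/-! Row 185: tracked functions in the tower `G1 ≤ Ps ≤ E1 ≤ Qh`. -/
set_option autoImplicit false
set_option linter.unusedSectionVars false
open Set

namespace Crest.Agent.R185
variable {K : Ctx} {X : K.I → Type} [Rep K X]

section generic

theorem Trk.natSub {f g : ∀ i, X i → ℕ} (hf : Trk f) (hg : Trk g) :
    Trk fun i x => f i x - g i x :=
  Trk.primrec (g := fun p : ℕ × ℕ => p.1 - p.2) Primrec.nat_sub (hf.pair hg)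

theorem Trk.natMod {f g : ∀ i, X i → ℕ} (hf : Trk f) (hg : Trk g) :
    Trk fun i x => f i x % g i x :=
  Trk.primrec (g := fun p : ℕ × ℕ => p.1 % p.2) Primrec.nat_mod (hf.pair hg)

theorem Trk.natPair {f g : ∀ i, X i → ℕ} (hf : Trk f) (hg : Trk g) :
    Trk fun i x => Nat.pair (f i x) (g i x) :=
  Trk.primrec (g := fun p : ℕ × ℕ => Nat.pair p.1 p.2) Primrec₂.natPair (hf.pair hg)

theorem Trk.unpair {f : ∀ i, X i → ℕ} (hf : Trk f) : Trk fun i x => (f i x).unpair :=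
  Trk.primrec Primrec.unpair hf

theorem Trk.toNat {f : ∀ i, X i → ℤ} (hf : Trk f) : Trk fun i x => (f i x).toNat :=
  Trk.primrec Lib.Computability.int_toNat hf

theorem Trk.natCast {f : ∀ i, X i → ℕ} (hf : Trk f) : Trk fun i x => (f i x : ℤ) :=
  Trk.primrec Lib.Computability.int_natCast hf

theorem Trk.intAdd {f g : ∀ i, X i → ℤ} (hf : Trk f) (hg : Trk g) :
    Trk fun i x => f i x + g i x :=
  Trk.primrec (g := fun p : ℤ × ℤ => p.1 + p.2) Lib.Computability.int_add (hf.pair hg)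

theorem Trk.not {f : ∀ i, X i → Bool} (hf : Trk f) : Trk fun i x => !(f i x) :=
  Trk.primrec Primrec.not hf

theorem Trk.qpar {f : ∀ i, X i → ℕ} (hf : Trk f) : Trk fun i x => QIn.par (f i x) :=
  Trk.ite (c := fun i x => f i x % 2 = 1) (Cert.eq (hf.natMod (Trk.const 2)) (Trk.const 1))
    (Cert.ne (hf.natMod (Trk.const 2)) (Trk.const 1)) (Trk.const true) (Trk.const false)
    |>.of_eq fun i x => by
      by_cases h : f i x % 2 = 1 <;> simp [QIn.par, h]

theorem Cert.int_nonneg {f : ∀ i, X i → ℤ} (hf : Trk f) : Cert fun i x _ => 0 ≤ f i x :=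
  (Cert.int_lt (Trk.const (-1)) hf).of_iff fun _ _ _ => by omega

theorem Cert.exists' {Y : K.I → Type} [Rep K Y] {P : ∀ i, X i × Y i → ℕ∞ → Prop} (h : Cert P) :
    Cert fun i x m => ∃ y, P i (x, y) m :=
  Cert.exists (P := fun i x y m => P i (x, y) m) h

variable {B L G' : K.I → Type} [∀ i, Group (B i)] [∀ i, Group (G' i)] [Rep K B] [Rep K L]
  [Rep K G']

theorem RSplit.mh_hom {H : ∀ i, HData (B i) (L i)} [Rep K fun i => MH (H i)]
    [RGrp K fun i => MH (H i)] [RGrp K G'] (h : RSplit fun i => MH.split (H i))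
    (f : ∀ i, MH (H i) →* G' i) (h1 : Trk fun i b => f i (MH.of (H i) b))
    (h2 : Trk fun i j => f i (MH.t (H i) j)) : Trk fun i x => f i x := by
  refine h.hom f h1 ((Trk.cond Trk.id.snd (h2.comp Trk.id.fst).inv (h2.comp Trk.id.fst)).of_eq
    fun i e => ?_)
  rcases e with ⟨j, _ | _⟩ <;> simp

theorem NMem.of_retr' [RGrp K B] {F : ∀ i, Filt (B i)} {c d : ℕ} (h : NMem F (fun _ => {1}) c d)
    {r : ∀ i, B i → B i} (hr : Trk r) {T : ∀ i, Set (B i)} (hT : ∀ i x, x ∈ T i ↔ r i x = x)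
    {a b : ℕ} (hF : ∀ i x n, K.Nice i → (F i).le x n → (F i).le (r i x) (a * n + b)) :
    NMem F T (c * (a + 1)) (c * b + d) := by
  have e : ∀ i x, x ∉ T i ↔ r i x * x⁻¹ ∉ ({1} : Set (B i)) := fun i x => by
    rw [hT, mem_singleton_iff, mul_inv_eq_one]
  refine Cert.mono' (Cert.comp h (Trk.mul hr (Trk.inv Trk.id)))
    (fun i x hx => ⟨(e i x).2 hx.1, lev_top _ _ _ _⟩) fun i x m hN hx => ⟨(e i x).1 hx.1, ?_⟩
  obtain ⟨n, h1, h2⟩ := (lev_coe _ _ _ _ _).1 hx.2
  exact (lev_coe _ _ _ _ _).2 ⟨_, (F i).mul (hF i x n hN h1) ((F i).inv h1),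
    le_trans (le_of_eq (by ring)) h2⟩

theorem NMem.scale {F : ∀ i, Filt (B i)} {T : ∀ i, Set (B i)} {c d : ℕ} (h : NMem F T c d)
    (a : ℕ) : NMem (fun i => (F i).scale a 1) T (c * a) d :=
  h.mono fun i x n _ hx => ⟨a * n / 1, hx, by rw [Nat.div_one, mul_assoc]⟩

end generic

namespace QIn
section pure
variable {P A : Type} [Group P] (Q : QIn P A) (G : Type) [Group G]

theorem qre_shift_surjective : Function.Surjective shift := by
  intro w
  refine ⟨FreeGroup.map (fun q : Bool × ℤ => (q.1, q.2 - 1)) w, ?_⟩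
  simp [shift, FreeGroup.map.comp, Function.comp_def]

theorem qre_De_eq : Q.De G = Subgroup.closure (MH.of (Q.DE G) '' Q.Dp G ∪ (range (Q.sigv G) ∪
    (fun k => Q.lt G (.inr k)) '' {k | k ≠ (true, true)})) := by
  have ht : ∀ k (hk : k ≠ (true, true)),
      (Q.subE G).t ⟨(.inr k, false), hk⟩ = Q.lt G (.inr k) := fun k hk => by
    simp [Sub.t, subE, subl, lt]
  apply le_antisymm
  · unfold De
    rw [Sub.K_eq_closure, Subgroup.closure_le]
    have h1 : ∀ l (hl : Q.Acc l), (Q.subE G).t ⟨(l, false), hl⟩ ∈ Subgroup.closure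
        (MH.of (Q.DE G) '' Q.Dp G ∪ (range (Q.sigv G) ∪
          (fun k => Q.lt G (.inr k)) '' {k | k ≠ (true, true)})) := by
      rintro (q | k) hl
      · refine Subgroup.subset_closure (Or.inr (Or.inl ⟨q, ?_⟩))
        simp [Sub.t, subE, subl, lt, sigv, xe]
      · exact Subgroup.subset_closure (Or.inr (Or.inr ⟨k, hl, (ht k hl).symm⟩))
    rintro _ (⟨x, hx, rfl⟩ | ⟨⟨⟨l, _ | _⟩, hl⟩, rfl⟩)
    · exact Subgroup.subset_closure (Or.inl ⟨x, hx, rfl⟩)
    · exact h1 l hl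
    · have := (Q.subE G).t_bar ⟨(l, false), hl⟩
      exact this ▸ inv_mem (h1 l hl)
  · rw [Subgroup.closure_le]
    rintro _ (⟨x, hx, rfl⟩ | ⟨q, rfl⟩ | ⟨k, hk, rfl⟩)
    · exact (Q.subE G).of_mem_Mor (v := ()) hx
    · exact Q.sigv_mem_De G q
    · have := (Q.subE G).t_mem_Mor ⟨(.inr k, false), hk⟩
      rw [ht k hk] at this
      exact this

theorem qre_sig_mem_De (w : FreeGroup (Bool × ℤ)) : Q.sig G w ∈ Q.De G := by
  induction w using FreeGroup.induction_on with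
  | C1 => rw [map_one]; exact one_mem _
  | of q => simpa [sig] using Q.sigv_mem_De G q
  | inv_of q h => rw [map_inv]; exact inv_mem h
  | mul x y hx hy => rw [map_mul]; exact mul_mem hx hy

/-- The projection to the free group on `y, ω`. -/
noncomputable def qreRho : Q.E1 G →* FreeGroup Bool :=
  MH.liftF 1 (Sum.elim (fun _ => 1) fun k => if k.1 = k.2 then 1 else FreeGroup.of k.1)

theorem qreRho_zz (g : P) :
    Q.qreRho G (Q.zz G * Q.xe G g) = cm (FreeGroup.of false) (FreeGroup.of true) := by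
  simp [qreRho, zz, cm, xe, lt]

theorem qre_rej_mono {X Y : Q.Ps G → Prop} (h : ∀ y, X y → Y y) {g : Q.Ps G} {e : Ltr × Bool}
    (he : Q.Rej G X g e) : Q.Rej G Y g e := by
  rcases e with ⟨q | k, b⟩
  · exact he.imp id fun h1 => ⟨h _ h1.1, h _ h1.2⟩
  · exact he.imp id (h _)

theorem qre_rej_iff (X : Q.Ps G → Prop) (g : Q.Ps G) (e : Ltr × Bool) :
    Q.Rej G X g e ↔ (∃ q, e.1 = .inl q ∧
      (Q.Elim q ∨ (X g ∧ X (g * (Q.subl G (.inl (Q.tq q), e.2))⁻¹)))) ∨
      ∃ k, e.1 = .inr k ∧ (k = (true, true) ∨ X g) := by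
  rcases e with ⟨q | k, b⟩ <;> simp [Rej]

end pure

/-- A computable function on words that reads off the exponent of the commutator. -/
theorem qre_exists_exp : ∃ h : List (Bool × Bool) → ℤ, Primrec h ∧ ∀ (w : List (Bool × Bool)) (m : ℤ),
    cm (FreeGroup.of false) (FreeGroup.of true) ^ m = FreeGroup.mk w → h w = m := by
  let Q : QIn Unit Empty := ⟨Empty.elim, ⊤, 1, trivial, fun _ => [], fun _ => by simp⟩
  obtain ⟨h, h1, ρ, -, -, h4, h5⟩ := exists_heis (Q := Q) (G := Unit)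
  refine ⟨fun w => (h w).2.2, Primrec.snd.comp (Primrec.snd.comp h1), fun w m hw => ?_⟩
  have e : ρ (Q.zz Unit * Q.xe Unit 1) = cm (FreeGroup.of false) (FreeGroup.of true) := by
    rw [map_one, mul_one]
    simp [zz, cm, h4]
  beta_reduce
  rw [h5 w 1 m (by rw [map_zpow, e, hw])]

end QIn

end Crest.Agent.R185
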