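import Crest.Agent.R185.QFilt
import Crest.Agent.R185.CubeRE
import Crest.Agent.R185.QREAux
/-! Row 185: representation of `Qh` and certificates. -/
set_option autoImplicit false
set_option linter.unusedSectionVars false
open Set

namespace Crest.Agent.R185
variable {K : Ctx} {P : K.I → Type} [∀ i, Group (P i)] [Rep K P] [RGrp K P]
  {A AG : Type} [Finite A] [Primcodable A] [Finite AG] [Primcodable AG]
  {G : Type} [Group G] [Rep K fun _ => G] [RGrp K fun _ => G]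

/-- Effectivity of the input. -/
structure QEff (Q : ∀ i, QIn (P i) A) (sG : AG → G) : Prop where
  s : Trk fun i => (Q i).s
  gen : ∀ i, Subgroup.closure (range (Q i).s) = ⊤
  trkG : Trk (K := K) fun _ => sG
  genG : Subgroup.closure (range sG) = ⊤
  D : URE fun i x => x ∈ (Q i).D
  om : TrkC fun i => (Q i).om
  lab : Trk fun i N => (Q i).lab N

/-- Sizes of the labels. -/
structure QSize (Q : ∀ i, QIn (P i) A) (k : ℕ) : Prop where
  size : ∀ i, (Q i).Size k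
  good : ∀ i, K.Nice i → (Q i).Good

/-- Universal constants. -/
def cE1 (k c : ℕ) : ℕ := c + c * 20 + c * ((6 * k + 6) * 2 + 1)
def dE1 (k c d : ℕ) : ℕ := c * (6 * k + 2) + c * (6 * k + 6) + c * 3 + d
def cQ (k c : ℕ) : ℕ := cE1 k (c * 32 * 15) * (6 * k + 6)
def dQ (k c d : ℕ) : ℕ := dE1 k (c * 32 * 15) (c * 2 + d)

namespace QRE
open QIn
variable {X : K.I → Type} [Rep K X] {Q : ∀ i, QIn (P i) A} {sG : AG → G} (h : QEff Q sG)
include h

theorem trk_len {f : ∀ i, X i → ℕ} (hf : Trk f) : Trk fun i x => (Q i).len (f i x) :=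
  (h.lab.comp hf).length

theorem trk_lb {f g : ∀ i, X i → ℕ} (hf : Trk f) (hg : Trk g) :
    Trk fun i x => (Q i).lb (f i x) (g i x) :=
  (h.lab.comp hf).getD hg Trk.one

theorem trk_nxt {f g : ∀ i, X i → ℕ} (hf : Trk f) (hg : Trk g) :
    Trk fun i x => (Q i).nxt (f i x) (g i x) :=
  (hg.add (Trk.const 1)).natMod (trk_len h hf)

theorem trk_prv {f g : ∀ i, X i → ℕ} (hf : Trk f) (hg : Trk g) :
    Trk fun i x => (Q i).prv (f i x) (g i x) :=
  ((hg.add (trk_len h hf)).natSub (Trk.const 1)).natMod (trk_len h hf)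

theorem trk_tw {f g : ∀ i, X i → ℕ} (hf : Trk f) (hg : Trk g) :
    Trk fun i x => (Q i).tw (f i x) (g i x) :=
  Trk.ite (c := fun i x => g i x + 1 = (Q i).len (f i x))
    (Cert.eq (hg.add (Trk.const 1)) (trk_len h hf)) (Cert.ne (hg.add (Trk.const 1)) (trk_len h hf))
    h.om.trk Trk.one

theorem ure_row {b : Bool → Bool} (hb : Primrec b) {f : ∀ i, X i → Bool × ℤ} (hf : Trk f) :
    (URE fun i x => 0 ≤ (f i x).2 ∧ (f i x).2.toNat.unpair.2 < (Q i).len (f i x).2.toNat.unpair.1 ∧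
      (f i x).1 = b (par (f i x).2.toNat.unpair.2)) ∧
    URE fun i x => ¬ (0 ≤ (f i x).2 ∧
      (f i x).2.toNat.unpair.2 < (Q i).len (f i x).2.toNat.unpair.1 ∧
      (f i x).1 = b (par (f i x).2.toNat.unpair.2)) := by
  have h1 := hf.snd.toNat.unpair.fst
  have h2 := hf.snd.toNat.unpair.snd
  refine ⟨(Cert.int_nonneg hf.snd).and ((Cert.nat_lt h2 (trk_len h h1)).and
    (Cert.eq hf.fst (Trk.primrec hb h2.qpar))), ?_⟩
  refine ((Cert.int_lt hf.snd (Trk.const 0)).or ((Cert.nat_le (trk_len h h1) h2).or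
    (Cert.ne hf.fst (Trk.primrec hb h2.qpar)))).of_iff fun i x _ => ?_
  simp only [not_and_or, not_le, not_lt, ne_eq]

theorem ure_elim {f : ∀ i, X i → Bool × ℤ} (hf : Trk f) : URE fun i x => (Q i).Elim (f i x) :=
  (ure_row h Primrec.not hf).1

theorem ure_not_elim {f : ∀ i, X i → Bool × ℤ} (hf : Trk f) :
    URE fun i x => ¬ (Q i).Elim (f i x) :=
  (ure_row h Primrec.not hf).2

theorem trk_srcq {f : ∀ i, X i → Bool × ℤ} (hf : Trk f) : Trk fun i x => (Q i).srcq (f i x) :=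
  Trk.ite (ure_elim h hf) (ure_not_elim h hf) (hf.fst.pair (hf.snd.toNat.unpair.fst.natPair
    (trk_prv h hf.snd.toNat.unpair.fst hf.snd.toNat.unpair.snd)).natCast) hf

theorem trk_tq {f : ∀ i, X i → Bool × ℤ} (hf : Trk f) : Trk fun i x => (Q i).tq (f i x) :=
  Trk.ite (ure_row h Primrec.id hf).1 (ure_row h Primrec.id hf).2
    (hf.fst.pair (hf.snd.toNat.unpair.fst.natPair
      (trk_nxt h hf.snd.toNat.unpair.fst hf.snd.toNat.unpair.snd)).natCast) hf

theorem trk_rco {f : ∀ i, X i → Bool × ℤ} (hf : Trk f) : Trk fun i x => (Q i).rco (f i x) :=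
  Trk.ite (ure_elim h hf) (ure_not_elim h hf) (trk_lb h hf.snd.toNat.unpair.fst
    (trk_prv h hf.snd.toNat.unpair.fst hf.snd.toNat.unpair.snd)) Trk.one

theorem ure_bad {f : ∀ i, X i → ℕ × ℕ} (hf : Trk f) : URE fun i x => (Q i).Bad (f i x) :=
  (Cert.nat_lt hf.snd (trk_len h hf.fst)).and (Cert.comp h.D (trk_lb h hf.fst hf.snd))

variable [Rep K fun i => Cube.L4 (P i)] [RGrp K fun i => Cube.L4 (P i)]
  (h4 : Trk fun i x => Cube.x4 (P i) x)
include h4

theorem trk_x1 {f : ∀ i, X i → P i} (hf : Trk f) : Trk fun i x => x1 (P i) G (f i x) :=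
  (h4.comp hf).pair Trk.one

theorem ure_D1 : URE fun i x => x ∈ (Q i).D.map (x1 (P i) G) :=
  URE.image (trk_x1 h h4 Trk.id) (S := fun i => ((Q i).D : Set (P i))) h.D

variable {c d k : ℕ}

theorem nmem_F1 (hG : URE (K := K) fun _ (g : G) => g ≠ 1) {T : ∀ i, Set (P i)}
    (hT : NMem (fun i => Filt.wl (Cube.gen4 (Q i).s)) (fun i => Cube.x4 (P i) '' T i) c d) :
    NMem (fun i => (Q i).F1 G) (fun i => x1 (P i) G '' T i) c d := by
  have h1 : NMem (fun i => (Q i).F1 G) (fun i => Prod.fst ⁻¹' (Cube.x4 (P i) '' T i)) c d :=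
    hT.comap Trk.id.fst fun i x n hx => ⟨n, hx, le_rfl⟩
  have h2 : NMem (fun i => (Q i).F1 G) (fun i => {x | x.2 = 1}) c d :=
    NMem.of_ure (Cert.comp hG Trk.id.snd) c d
  refine (h1.inter h2).congr fun i x => ?_
  constructor
  · rintro ⟨⟨g, hg, h1⟩, h2⟩
    exact ⟨g, hg, Prod.ext h1 h2.symm⟩
  · rintro ⟨g, hg, rfl⟩
    exact ⟨⟨g, hg, rfl⟩, rfl⟩

variable [Rep K fun i => (Q i).Ps G] [RGrp K fun i => (Q i).Ps G]
  (hP : RSplit fun i => MH.split ((Q i).DP G))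
include hP

theorem trk_xs {f : ∀ i, X i → P i} (hf : Trk f) : Trk fun i x => (Q i).xs G (f i x) :=
  hP.mh_of (trk_x1 h h4 hf)

theorem trk_mrk {f g : ∀ i, X i → ℕ} (hf : Trk f) (hg : Trk g) :
    Trk fun i x => (Q i).mrk G (f i x) (g i x) :=
  hP.mh_t (hf.pair hg)

theorem trk_lco {f : ∀ i, X i → Bool × ℤ} (hf : Trk f) : Trk fun i x => (Q i).lco G (f i x) :=
  have h1 := hf.snd.toNat.unpair.fst
  have h2 := trk_prv h h1 hf.snd.toNat.unpair.snd
  Trk.ite (ure_elim h hf) (ure_not_elim h hf)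
    ((trk_xs h h4 hP (trk_tw h h1 h2)).mul (trk_mrk h h4 hP h1 h2)) Trk.one

theorem trk_subl {f : ∀ i, X i → Bool × ℤ} {b : ∀ i, X i → Bool} (hf : Trk f) (hb : Trk b) :
    Trk fun i x => (Q i).subl G (.inl (f i x), b i x) := by
  refine (Trk.cond hb (trk_xs h h4 hP (trk_rco h hf)).inv (trk_lco h h4 hP hf)).of_eq
    fun i x => ?_
  cases b i x <;> rfl

theorem ure_Dp : URE fun i x => x ∈ (Q i).Dp G :=
  hP.ure_gsub (L := fun i => {e | (Q i).Bad e.1}) (ure_D1 h h4) (ure_bad h Trk.id.fst)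

theorem nmemAP (hD : NMem (fun i => (Q i).F1 G) (fun i => x1 (P i) G '' (Q i).D) c d) :
    NMemA (fun i => MH.split ((Q i).DP G)) (fun i => (Q i).F1 G) c d :=
  NMemA.of_eq hD fun i e => by rw [MH.central_A]; rfl

theorem nmemP_one (h1 : NMem (fun i => (Q i).F1 G) (fun _ => {1}) c d)
    (hD : NMem (fun i => (Q i).F1 G) (fun i => x1 (P i) G '' (Q i).D) c d) :
    NMem (fun i => (Q i).FP G) (fun _ => {1}) c d :=
  hP.nmem_one (nmemAP h h4 hP hD) (fun i _ => PreSplit.sumF_redCtl _ ((Q i).sumOKP G)) h1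

theorem nmem_Dp (hs : QSize Q k) (hD0 : NMem (fun i => Filt.wl (Q i).s) (fun i => (Q i).D) c d)
    (hD : NMem (fun i => (Q i).F1 G) (fun i => x1 (P i) G '' (Q i).D) c d) :
    NMem (fun i => (Q i).FP G) (fun i => (Q i).Dp G) c d := by
  refine hP.nmem_good_le (nmemAP h h4 hP hD) (fun i _ => PreSplit.sumF_redCtl _ ((Q i).sumOKP G))
    (fun i => (Q i).isGood_Dp G) (fun i e _ => (MH.central_A _ e).le) hD ?_
  refine ((Cert.nat_le (trk_len h Trk.id.fst.fst) Trk.id.fst.snd).or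
    (Cert.comp hD0 (trk_lb h Trk.id.fst.fst Trk.id.fst.snd))).mono
    (fun i e he => ⟨fun h1 => ?_, le_top⟩) fun i e m he => ?_
  · exact he.elim (fun h2 => h2.not_gt h1.1) fun h2 => h2.1 h1.2
  · rcases le_or_gt ((Q i).len e.1.1) e.1.2 with h1 | h1
    · exact Or.inl h1
    · refine Or.inr ⟨fun h2 => he.1 ⟨h1, h2⟩, (lev_coe _ _ _ _ _).2 ⟨e.1.1, ?_, ?_⟩⟩
      · refine (hs.size i).lab _ _ ?_
        unfold QIn.lb
        rw [List.getD_eq_getElem _ _ h1]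
        exact List.getElem_mem _
      · refine le_trans ?_ (Nat.cast_le.1 he.2)
        exact Nat.add_le_add_right (Nat.mul_le_mul_left _
          ((Nat.left_le_pair _ _).trans (Nat.le_succ _))) _

variable [Rep K fun i => (Q i).E1 G] [RGrp K fun i => (Q i).E1 G]
  (hE : RSplit fun i => MH.split ((Q i).DE G))
include hE

theorem trk_xe {f : ∀ i, X i → P i} (hf : Trk f) : Trk fun i x => (Q i).xe G (f i x) :=
  hE.mh_of (trk_xs h h4 hP hf)

theorem trk_lt {f : ∀ i, X i → Ltr} (hf : Trk f) : Trk fun i x => (Q i).lt G (f i x) :=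
  hE.mh_t hf

theorem trk_sigv {f : ∀ i, X i → Bool × ℤ} (hf : Trk f) : Trk fun i x => (Q i).sigv G (f i x) :=
  ((hE.mh_of (trk_lco h h4 hP hf)).mul (trk_lt h h4 hP hE (trk_srcq h hf).inl)).mul
    (trk_xe h h4 hP hE (trk_rco h hf))

theorem trk_sig {f : ∀ i, X i → FreeGroup (Bool × ℤ)} (hf : Trk f) :
    Trk fun i x => (Q i).sig G (f i x) :=
  Trk.lift (trk_sigv h h4 hP hE Trk.id) hf

omit h h4 hP hE in
theorem trk_shift {f : ∀ i, X i → FreeGroup (Bool × ℤ)} (hf : Trk f) :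
    Trk fun i x => shift (f i x) :=
  (Trk.lift (s := fun _ (q : Bool × ℤ) => FreeGroup.of (q.1, q.2 + 1))
    (Trk.id.fst.pair (Trk.id.snd.intAdd (Trk.const 1))).of hf).of_eq fun i x =>
      (DFunLike.congr_fun (FreeGroup.map_eq_lift (f := fun q : Bool × ℤ => (q.1, q.2 + 1)))
        (f i x)).symm

theorem trk_zz : Trk fun i (_ : X i) => (Q i).zz G :=
  have h1 : Trk fun i (_ : X i) => (Q i).lt G (.inr (false, true)) :=
    trk_lt h h4 hP hE (Trk.const _)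
  have h2 : Trk fun i (_ : X i) => (Q i).lt G (.inr (true, false)) :=
    trk_lt h h4 hP hE (Trk.const _)
  ((h1.mul h2).mul h1.inv).mul h2.inv

theorem trk_zeta (a : A) (b : Bool) :
    Trk fun i (_ : X i) => (Q i).zz G * (Q i).xe G (cond b ((Q i).s a) 1) := by
  refine (trk_zz h h4 hP hE).mul (trk_xe h h4 hP hE ?_)
  cases b
  · exact Trk.one
  · exact h.s.comp (Trk.const a)

theorem trk_Rt : Trk fun i x => (Q i).Rt G x := by
  refine hE.mh_hom (fun i => (Q i).Rt G) ?_ ?_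
  · refine hP.mh_hom (fun i => ((Q i).Rt G).comp (MH.of ((Q i).DE G)))
      (Trk.one.of_eq fun i x => by simp [Rt]) ?_
    have h1 : Trk (K := K) fun _ (e : ℕ × ℕ) => par e.2 := Trk.id.snd.qpar
    refine (Trk.ite (c := fun i (e : ℕ × ℕ) => e.2 < (Q i).len e.1)
      (Cert.nat_lt Trk.id.snd (trk_len h Trk.id.fst))
      ((Cert.nat_le (trk_len h Trk.id.fst) Trk.id.snd).of_iff fun _ _ _ => not_lt.symm)
      ((h1.pair (Trk.id.fst.natPair (trk_nxt h Trk.id.fst Trk.id.snd)).natCast).of.mul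
        (h1.pair (Trk.id.fst.natPair Trk.id.snd).natCast).of.inv) Trk.one).of_eq fun i e => ?_
    simp [Rt]
  · refine (Trk.elim (g := fun _ _ q => FreeGroup.of q) (h := fun _ _ _ => 1) Trk.id
      Trk.id.snd.of Trk.one).of_eq fun i l => ?_
    simp [Rt]

theorem trk_rho : Trk fun i x => (Q i).qreRho G x := by
  refine hE.mh_hom (fun i => (Q i).qreRho G) (Trk.one.of_eq fun i x => by simp [qreRho]) ?_
  refine (Trk.elim (g := fun _ _ _ => (1 : FreeGroup Bool))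
    (h := fun _ _ (k : Bool × Bool) => if k.1 = k.2 then 1 else FreeGroup.of k.1) Trk.id Trk.one
    (Trk.ite (c := fun _ (p : Ltr × Bool × Bool) => p.2.1 = p.2.2)
      (Cert.eq Trk.id.snd.fst Trk.id.snd.snd) (Cert.ne Trk.id.snd.fst Trk.id.snd.snd) Trk.one
      Trk.id.snd.fst.of)).of_eq fun i l => ?_
  simp [qreRho]

theorem ure_De : URE fun i x => x ∈ (Q i).De G := by
  refine (URE.closure (S := fun i => MH.of ((Q i).DE G) '' (Q i).Dp G ∪ (range ((Q i).sigv G) ∪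
    (fun k => (Q i).lt G (.inr k)) '' {k | k ≠ (true, true)}))
    (Cert.or (URE.image (hE.mh_of Trk.id) (S := fun i => ((Q i).Dp G : Set _)) (ure_Dp h h4 hP))
      (Cert.or (URE.range (trk_sigv h h4 hP hE Trk.id))
        (URE.image (trk_lt h h4 hP hE Trk.id.inr) (S := fun _ => {k | k ≠ (true, true)})
          (Cert.ne Trk.id (Trk.const _)))))).of_iff fun i x => ?_
  rw [qre_De_eq]

theorem ure_DQ : URE fun i (p : Option A × (Q i).E1 G × (Q i).E1 G) =>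
    ∃ d, ((Q i).DQ G).i p.1 false d = p.2.1 ∧ ((Q i).DQ G).i p.1 true d = p.2.2 := by
  refine Cert.fin_cases (P := fun j i (p : Option A × (Q i).E1 G × (Q i).E1 G) _ =>
    ∃ d, ((Q i).DQ G).i j false d = p.2.1 ∧ ((Q i).DQ G).i j true d = p.2.2) ?_ Trk.id.fst
  rintro (_ | a)
  · exact Cert.exists (Y := fun _ => FreeGroup (Bool × ℤ))
      ((Cert.eq (trk_sig h h4 hP hE Trk.id.snd) Trk.id.fst.snd.fst).and
        (Cert.eq (trk_sig h h4 hP hE (trk_shift Trk.id.snd)) Trk.id.fst.snd.snd))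
  · exact Cert.exists (Y := fun _ => ℤ)
      ((Cert.eq ((trk_zeta h h4 hP hE a false).zpow Trk.id.snd) Trk.id.fst.snd.fst).and
        (Cert.eq ((trk_zeta h h4 hP hE a true).zpow Trk.id.snd) Trk.id.fst.snd.snd))

theorem nmemAE (h1 : NMem (fun i => (Q i).FP G) (fun _ => {1}) c d) :
    NMemA (fun i => MH.split ((Q i).DE G)) (fun i => (Q i).FP G) c d :=
  NMemA.of_eq h1 fun i e => by rw [MH.free_A]; rfl

theorem nmemE_one (h1 : NMem (fun i => (Q i).FP G) (fun _ => {1}) c d) :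
    NMem (fun i => (Q i).FE G) (fun _ => {1}) c d :=
  hE.nmem_one (nmemAE h h4 hP hE h1) (fun i _ => Split.supF_redCtl _ ((Q i).supOKE G)) h1

theorem nmem_De (hs : QSize Q k) (h1 : NMem (fun i => (Q i).FP G) (fun _ => {1}) c d)
    (hD : NMem (fun i => (Q i).FP G) (fun i => (Q i).Dp G) c d) :
    NMem (fun i => (Q i).FE G) (fun i => (Q i).De G) (c * 20) (c * (6 * k + 2) + d) := by
  have hR : Cert fun i (p : (Q i).Ps G × (Ltr × Bool)) m =>
      (Q i).Rej G (fun y => y ∉ (Q i).Dp G ∧ Lev ((Q i).FP G) c d y m) p.1 p.2 := by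
    refine Cert.of_iff ?_ fun i p m => (qre_rej_iff _ _ _ _ _).symm
    refine Cert.or (Cert.exists (Cert.and (Cert.eq Trk.id.fst.snd.fst Trk.id.snd.inl)
      (Cert.or (ure_elim h Trk.id.snd) (Cert.and (Cert.comp hD Trk.id.fst.fst) (Cert.comp hD
        (Trk.id.fst.fst.mul (trk_subl h h4 hP (trk_tq h Trk.id.snd) Trk.id.fst.snd.snd).inv))))))
      (Cert.exists (Cert.and (Cert.eq Trk.id.fst.snd.fst Trk.id.snd.inr)
        (Cert.or (Cert.eq Trk.id.snd (Trk.const _)) (Cert.comp hD Trk.id.fst.fst))))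
  have hQ : Cert fun i (u : (Q i).Ps G × List ((Ltr × Bool) × (Q i).Ps G)) m =>
      (u.2 = [] ∧ u.1 ∉ (Q i).Dp G ∧ Lev ((Q i).FP G) c d u.1 m) ∨
      ∃ v : ((Ltr × Bool) × (Q i).Ps G) × List ((Ltr × Bool) × (Q i).Ps G), u.2 = v.1 :: v.2 ∧
        (Q i).Rej G (fun y => y ∉ (Q i).Dp G ∧ Lev ((Q i).FP G) c d y m) u.1 v.1.1 :=
    Cert.or ((Cert.eq Trk.id.snd Trk.nil).and (Cert.comp hD Trk.id.fst))
      (Cert.exists ((Cert.eq Trk.id.fst.snd (Trk.id.snd.fst.cons Trk.id.snd.snd)).and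
        (Cert.comp hR (Trk.id.fst.fst.pair Trk.id.snd.fst.fst))))
  have h2 := Cert.exists' (X := fun i => (Q i).E1 G) ((Cert.comp (ure_De h h4 hP hE) Trk.id.snd).and
    (Cert.comp (hE.path (nmemAE h h4 hP hE h1) hQ) (Trk.id.snd.inv.mul Trk.id.fst)))
  refine h2.mono' (fun i x hx => ⟨fun h3 => ?_, lev_top _ _ _ _⟩) fun i x m hN hx => ?_
  · obtain ⟨y, hy, ⟨g, l⟩, ⟨h5, h6, -⟩, h7⟩ := hx
    have h8 : (MH.split ((Q i).DE G)).ev g l ∈ (Q i).De G := h5 ▸ mul_mem (inv_mem hy) h3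
    rcases h7 with ⟨h7, h9, -⟩ | ⟨⟨p, r⟩, h7, h9⟩
    · dsimp only at h7
      subst h7
      exact notMem_De_of_nil h9 h8
    · dsimp only at h7
      subst h7
      exact notMem_De_of_rej h6 (qre_rej_mono _ _ (fun _ hy => hy.1) h9) h8
  · obtain ⟨n, h3, h5⟩ := (lev_coe _ _ _ _ _).1 hx.2
    obtain ⟨y, hy, g, l, h6, h7, h8, h9⟩ := exists_rej (hs.size i) (hs.good i hN) hx.1 h3
    have e : c * (20 * n + 6 * k + 2) + d ≤ m := le_trans (le_of_eq (by ring)) h5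
    have e' : c * n + d ≤ m :=
      le_trans (Nat.add_le_add_right (Nat.mul_le_mul_left _ (by omega)) _) e
    refine ⟨y, hy, (g, l), ⟨h7, h6, fun p hp => (lev_coe _ _ _ _ _).2 ⟨n, h8 p hp, e'⟩⟩, ?_⟩
    rcases h9 with ⟨h9, h10, h11⟩ | ⟨p, r, h9, h10⟩
    · exact Or.inl ⟨h9, h10, (lev_coe _ _ _ _ _).2 ⟨_, h11, e⟩⟩
    · exact Or.inr ⟨(p, r), h9, qre_rej_mono _ _
        (fun _ hy => ⟨hy.1, (lev_coe _ _ _ _ _).2 ⟨_, hy.2, e⟩⟩) h10⟩

theorem nmem_sig (hs : QSize Q k) (h1 : NMem (fun i => (Q i).FE G) (fun _ => {1}) c d) :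
    NMem (fun i => (Q i).FE G) (fun i => range ((Q i).sig G)) (c * ((6 * k + 6) * 2 + 1))
      (c * (6 * k + 6) + d) := by
  refine h1.of_retr' (trk_sig h h4 hP hE (trk_Rt h h4 hP hE)) (fun i x => ?_) fun i x n hN hx => ?_
  · refine ⟨?_, fun hx => ⟨_, hx⟩⟩
    rintro ⟨w, rfl⟩
    rw [Rt_sig]
  · exact ((Q i).FE G).mono (FE_sig (hs.size i) (hs.good i hN) (FR_Rt (hs.size i) hx))
      (le_of_eq (by ring))

theorem nmem_zeta (h1 : NMem (fun i => (Q i).FE G) (fun _ => {1}) c d) (a : A) (b : Bool) :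
    NMem (fun i => (Q i).FE G) (fun i =>
      (zpowersHom _ ((Q i).zz G * (Q i).xe G (cond b ((Q i).s a) 1))).range) c (c * 3 + d) := by
  obtain ⟨μ, hμ, hμ'⟩ := qre_exists_exp
  have h2 := Cert.exists' (X := fun i => (Q i).E1 G) (Y := fun _ => List (Bool × Bool))
    ((Cert.eq ((trk_rho h h4 hP hE).comp Trk.id.fst) Trk.id.snd.mk).and (Cert.comp h1
      (((trk_zeta h h4 hP hE a b).zpow (Trk.primrec hμ Trk.id.snd)).mul Trk.id.fst.inv)))
  refine h2.mono (fun i x hx => ⟨?_, lev_top _ _ _ _⟩) fun i x m hx => ?_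
  · obtain ⟨w, h3, h5, -⟩ := hx
    rintro ⟨j, rfl⟩
    rw [zpowersHom_apply] at h3 h5
    rw [map_zpow, qreRho_zz] at h3
    rw [hμ' w _ h3] at h5
    exact h5 (mul_inv_cancel _)
  · obtain ⟨n, h3, h5⟩ := (lev_coe _ _ _ _ _).1 hx.2
    obtain ⟨w, hw⟩ : ∃ w, (Q i).qreRho G x = FreeGroup.mk w := ⟨_, FreeGroup.mk_toWord.symm⟩
    refine ⟨w, hw, fun h6 => hx.1 ⟨Multiplicative.ofAdd (μ w), mul_inv_eq_one.1 h6⟩,
      (lev_coe _ _ _ _ _).2 ⟨3 + n, ((Q i).FE G).mul (FE_zz a b _) (((Q i).FE G).inv h3),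
        le_trans (le_of_eq (by ring)) h5⟩⟩

variable [Rep K fun i => (Q i).Qh G] [RGrp K fun i => (Q i).Qh G]
  (hQ : RSplit fun i => MH.split ((Q i).DQ G))
include hQ

theorem trk_genQ (hg : Trk fun i => Cube.gen4 (Q i).s) : Trk fun i => (Q i).genQ sG := by
  refine Trk.fin_cases (g := fun a i (_ : GenQ A AG) => (Q i).genQ sG a) ?_ Trk.id
  have hl : ∀ l : Ltr, Trk fun i (_ : GenQ A AG) => MH.of ((Q i).DQ G) ((Q i).lt G l) :=
    fun l => hQ.mh_of (trk_lt h h4 hP hE (Trk.const l))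
  rintro (a | a | j | _ | a)
  · exact hQ.mh_of (hE.mh_of (hP.mh_of ((hg.comp (Trk.const a)).pair Trk.one)))
  · exact hQ.mh_of (hE.mh_of (hP.mh_of (Trk.one.pair (h.trkG.comp (Trk.const a)))))
  · fin_cases j
    · exact hQ.mh_of (trk_sigv h h4 hP hE (Trk.const (false, 0)))
    · exact hQ.mh_of (trk_sigv h h4 hP hE (Trk.const (true, 0)))
    · exact hQ.mh_t (Trk.const none)
    · exact hl _
    · exact hl _
    · exact hl _
  · exact hl _
  · exact hQ.mh_t (Trk.const (some a))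

theorem nmem_Q (hs : QSize Q k) (h1 : NMem (fun i => (Q i).FP G) (fun _ => {1}) c d)
    (hD : NMem (fun i => (Q i).FP G) (fun i => (Q i).Dp G) c d) :
    NMem (fun i => Filt.wl ((Q i).genQ sG)) (fun _ => {1}) (cE1 k c * (6 * k + 6)) (dE1 k c d) ∧
      NMem (fun i => Filt.wl ((Q i).genQ sG)) (fun i => (Q i).Dq G) (cE1 k c * (6 * k + 6))
        (dE1 k c d) := by
  have e1 := nmemE_one h h4 hP hE h1
  obtain ⟨hc1, hc2, hc3⟩ : c ≤ cE1 k c ∧ c * 20 ≤ cE1 k c ∧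
      c * ((6 * k + 6) * 2 + 1) ≤ cE1 k c := by
    unfold cE1; omega
  obtain ⟨hd1, hd2, hd3, hd4⟩ : d ≤ dE1 k c d ∧ c * (6 * k + 2) + d ≤ dE1 k c d ∧
      c * (6 * k + 6) + d ≤ dE1 k c d ∧ c * 3 + d ≤ dE1 k c d := by
    unfold dE1; omega
  generalize cE1 k c = c' at *
  generalize dE1 k c d = d' at *
  have e2 := ((nmem_sig h h4 hP hE hs e1).weaken hc3 hd3).scale (6 * k + 6)
  have hA : NMemA (fun i => MH.split ((Q i).DQ G)) (fun i => ((Q i).FE G).scale (6 * k + 6) 1)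
      (c' * (6 * k + 6)) d' := by
    refine NMemA.of_fin ?_
    rintro ⟨_ | a, b⟩
    · refine e2.congr fun i x => ?_
      cases b
      · exact Iff.rfl
      · refine ⟨fun ⟨w, hw⟩ => ?_, fun ⟨w, hw⟩ => ⟨_, hw⟩⟩
        obtain ⟨v, rfl⟩ := qre_shift_surjective w
        exact ⟨v, hw⟩
    · exact ((nmem_zeta h h4 hP hE e1 a b).weaken hc1 hd4).scale _
  have hF := fun i (hN : K.Nice i) => redCtl_Q (hs.size i) (hs.good i hN) sG
  refine ⟨hQ.nmem_one hA hF ((e1.weaken hc1 hd1).scale _), ?_⟩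
  refine (hQ.nmem_good_le hA hF (fun i => (Q i).isGood_De G) ?_
    (((nmem_De h h4 hP hE hs h1 hD).weaken hc2 hd2).scale _) ?_).congr
    fun i x => by rw [Dq_eq]
  · rintro i ⟨_, _ | _⟩ rfl _ ⟨w, rfl⟩
    · exact qre_sig_mem_De _ _ _
    · exact qre_sig_mem_De _ _ _
  · exact (Cert.ne Trk.id.fst (Trk.const none)).mono (fun i e he => ⟨he, le_top⟩)
      fun i e m he => he.1

end QRE

theorem q_rep (Q : ∀ i, QIn (P i) A) (sG : AG → G) (h : QEff Q sG) :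
    ∃ _ : Rep K fun i => (Q i).Qh G, RGrp K (fun i => (Q i).Qh G) ∧
      (Trk fun i => (Q i).genQ sG) ∧
      ∀ k c d, QSize Q k → NMem (fun i => Filt.wl (Q i).s) (fun _ => {1}) c d →
        NMem (fun i => Filt.wl (Q i).s) (fun i => (Q i).D) c d →
        (URE (K := K) fun _ (g : G) => g ≠ 1) →
        NMem (fun i => Filt.wl ((Q i).genQ sG)) (fun _ => {1}) (cQ k c) (dQ k c d) ∧
          NMem (fun i => Filt.wl ((Q i).genQ sG)) (fun i => (Q i).Dq G) (cQ k c) (dQ k c d) := by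
  obtain ⟨_, _, hg, h4, hn⟩ := Cube.cube_rep (fun i => (Q i).s) h.s h.gen
  obtain ⟨_, _, hP⟩ := MH.exists_rep_central (K := K) (L := fun _ => ℕ × ℕ)
    (fun i _ => (Q i).D.map (QIn.x1 (P i) G)) (Cert.comp (QRE.ure_D1 h h4) Trk.id.snd)
  obtain ⟨_, _, hE⟩ := MH.exists_rep_free (K := K) (L := fun _ => Ltr) (G := fun i => (Q i).Ps G)
  obtain ⟨rQ, gQ, hQ⟩ := MH.exists_rep (K := K) (L := fun _ => Option A) (fun i => (Q i).DQ G)
    (QRE.ure_DQ h h4 hP hE)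
  refine ⟨rQ, gQ, QRE.trk_genQ h h4 hP hE hQ hg, fun k c d hs h1 hD hG => ?_⟩
  have a1 := hn _ c d h1 h1
  have a2 := hn _ c d h1 hD
  have b1 : NMem (fun i => (Q i).F1 G) (fun _ => {1}) (c * 32 * 15) (c * 2 + d) :=
    (QRE.nmem_F1 h h4 hG a1).congr fun i x => by simp
  have b2 := QRE.nmem_F1 h h4 hG a2
  exact QRE.nmem_Q h h4 hP hE hQ hs (QRE.nmemP_one h h4 hP b1 b2)
    (QRE.nmem_Dp h h4 hP hs (hD.weaken (by omega) (by omega)) b2)

end Crest.Agent.R185
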