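import Crest.Agent.R185.Cube
/-!
Row 185: the group `Qh` built over `P` (with a subgroup `D`, an element `om ∈ D`, lists of labels
`lab N`) and `G`.

Floors: `G1 = L4 P × G`; `Ps` adjoins markers `g (N,i)` centralising `x1 D`; `E1` adjoins free letters
(two rows indexed by `ℤ` and four letters `u y ω z'`); `Qh` adjoins `p` (shifting the rows of the
twisted basis `sigv`) and `v a` (conjugating `z = [y, ω]` to `z * xe (s a)`).
The gadget `N` is the cycle with nodes `pair N i`, `i < len N`, the edge `i` lies in the row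
`par i`, goes from the node `i` to the node `nxt N i` and has the label `lb N i`.
-/
set_option autoImplicit false
open Set

noncomputable section
namespace Crest.Agent.R185

/-- Commutator. -/
def cm {G : Type*} [Group G] (a b : G) : G := a * b * a⁻¹ * b⁻¹

/-- Input of the construction. -/
structure QIn (P A : Type) [Group P] where
  s : A → P
  D : Subgroup P
  om : P
  om_mem : om ∈ D
  lab : ℕ → List P
  even : ∀ N, Even (lab N).length

/-- Free letters: rows, and `u = (ff,ff)`, `y = (ff,tt)`, `ω = (tt,ff)`, `z' = (tt,tt)`. -/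
abbrev Ltr := (Bool × ℤ) ⊕ (Bool × Bool)

/-- Generators of the final group: generators of `L4 P`, of `G`, the six letters
`s, s~, p, u, y, ω`, the letter `z'` and the letters `v a`. -/
def GenQ (A AG : Type) : Type := Cube.Gen4 A ⊕ AG ⊕ Fin 6 ⊕ Option A

instance (A AG : Type) [Finite A] [Finite AG] : Finite (GenQ A AG) := by
  unfold GenQ; infer_instance
instance (A AG : Type) [Primcodable A] [Primcodable AG] : Primcodable (GenQ A AG) := by
  unfold GenQ; infer_instance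

namespace QIn
variable {P A : Type} [Group P] (Q : QIn P A) (G : Type) [Group G]

def len (N : ℕ) : ℕ := (Q.lab N).length
def lb (N i : ℕ) : P := (Q.lab N).getD i 1
def nxt (N i : ℕ) : ℕ := (i + 1) % Q.len N
def prv (N i : ℕ) : ℕ := (i + Q.len N - 1) % Q.len N
def par (i : ℕ) : Bool := decide (i % 2 = 1)
/-- The twist of the last edge. -/
def tw (N i : ℕ) : P := if i + 1 = Q.len N then Q.om else 1

/-- All labels lie outside `D`. -/
def Good : Prop := ∀ N, ∀ a ∈ Q.lab N, a ∉ Q.D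

/-- The row letter `q` is the target of an edge. -/
def Elim (q : Bool × ℤ) : Prop :=
  0 ≤ q.2 ∧ q.2.toNat.unpair.2 < Q.len q.2.toNat.unpair.1 ∧ q.1 = !par q.2.toNat.unpair.2

instance : DecidablePred Q.Elim := fun q => by unfold Elim; infer_instance

abbrev G1 (P G : Type) [Group P] [Group G] := Cube.L4 P × G

def x1 (P G : Type) [Group P] [Group G] : P →* G1 P G := (MonoidHom.inl _ _).comp (Cube.x4 P)

abbrev DP : HData (G1 P G) (ℕ × ℕ) := HData.central fun _ => Q.D.map (x1 P G)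
abbrev Ps := MH (Q.DP G)

def xs : P →* Q.Ps G := (MH.of (Q.DP G)).comp (x1 P G)
/-- The marker of the edge `(N, i)`. -/
def mrk (N i : ℕ) : Q.Ps G := MH.t (Q.DP G) (N, i)

abbrev DE : HData (Q.Ps G) Ltr := HData.free _ _
abbrev E1 := MH (Q.DE G)

def xe : P →* Q.E1 G := (MH.of (Q.DE G)).comp (Q.xs G)
def lt (l : Ltr) : Q.E1 G := MH.t (Q.DE G) l

/-- The partner of a row letter. -/
def srcq (q : Bool × ℤ) : Bool × ℤ :=
  if Q.Elim q then (q.1, (Nat.pair q.2.toNat.unpair.1 (Q.prv q.2.toNat.unpair.1 q.2.toNat.unpair.2) : ℕ))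
  else q
/-- Left coefficient. -/
def lco (q : Bool × ℤ) : Q.Ps G :=
  if Q.Elim q then
    Q.xs G (Q.tw q.2.toNat.unpair.1 (Q.prv q.2.toNat.unpair.1 q.2.toNat.unpair.2)) *
      Q.mrk G q.2.toNat.unpair.1 (Q.prv q.2.toNat.unpair.1 q.2.toNat.unpair.2)
  else 1
/-- Right coefficient. -/
def rco (q : Bool × ℤ) : P :=
  if Q.Elim q then Q.lb q.2.toNat.unpair.1 (Q.prv q.2.toNat.unpair.1 q.2.toNat.unpair.2) else 1

/-- The twisted basis. -/
def sigv (q : Bool × ℤ) : Q.E1 G :=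
  MH.of (Q.DE G) (Q.lco G q) * Q.lt G (.inl (Q.srcq q)) * Q.xe G (Q.rco q)

def sig : FreeGroup (Bool × ℤ) →* Q.E1 G := FreeGroup.lift (Q.sigv G)

/-- A left inverse of `sig`. -/
def Rt : Q.E1 G →* FreeGroup (Bool × ℤ) :=
  MH.liftF (MH.liftC 1 (fun e : ℕ × ℕ => if e.2 < Q.len e.1 then
      FreeGroup.of (par e.2, (Nat.pair e.1 (Q.nxt e.1 e.2) : ℤ)) *
        (FreeGroup.of (par e.2, (Nat.pair e.1 e.2 : ℤ)))⁻¹ else 1) fun _ _ _ => by simp)
    (Sum.elim FreeGroup.of fun _ => 1)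

/-! ### arithmetic of the cycle -/

theorem nxt_eq {N i : ℕ} (h : i < Q.len N) : Q.nxt N i = if i + 1 = Q.len N then 0 else i + 1 := by
  unfold nxt
  split_ifs with h1
  · rw [h1, Nat.mod_self]
  · exact Nat.mod_eq_of_lt (by omega)

theorem prv_eq {N i : ℕ} (h : i < Q.len N) :
    Q.prv N i = if i = 0 then Q.len N - 1 else i - 1 := by
  unfold prv
  split_ifs with h1
  · rw [h1, zero_add]; exact Nat.mod_eq_of_lt (by omega)
  · rw [show i + Q.len N - 1 = i - 1 + Q.len N by omega, Nat.add_mod_right]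
    exact Nat.mod_eq_of_lt (by omega)

theorem nxt_lt {N i : ℕ} (h : i < Q.len N) : Q.nxt N i < Q.len N := Nat.mod_lt _ (by omega)

theorem prv_lt {N i : ℕ} (h : i < Q.len N) : Q.prv N i < Q.len N := Nat.mod_lt _ (by omega)

theorem nxt_prv {N i : ℕ} (h : i < Q.len N) : Q.nxt N (Q.prv N i) = i := by
  rw [Q.nxt_eq (Q.prv_lt h), Q.prv_eq h]
  split_ifs <;> omega

theorem prv_nxt {N i : ℕ} (h : i < Q.len N) : Q.prv N (Q.nxt N i) = i := by
  have h1 := Q.prv_eq (Q.nxt_lt h)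
  have h2 := Q.nxt_eq h
  split_ifs at h1 h2 <;> omega

theorem par_nxt {N i : ℕ} (h : i < Q.len N) : par (Q.nxt N i) = !par i := by
  have he : Q.len N % 2 = 0 := Nat.even_iff.1 (Q.even N)
  have h2 := Q.nxt_eq h
  unfold par
  rw [← decide_not, decide_eq_decide]
  split_ifs at h2 <;> omega

theorem par_prv {N i : ℕ} (h : i < Q.len N) : par (Q.prv N i) = !par i := by
  have := Q.par_nxt (Q.prv_lt h)
  rw [Q.nxt_prv h] at this
  rw [this, Bool.not_not]

theorem tw_mem (N i : ℕ) : Q.tw N i ∈ Q.D := by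
  unfold tw
  split_ifs
  · exact Q.om_mem
  · exact Q.D.one_mem

/-- Every eliminated letter is the target of an edge. -/
theorem Elim.exists_edge {Q : QIn P A} {q : Bool × ℤ} (h : Q.Elim q) :
    ∃ N i, i < Q.len N ∧ q = (par i, ((Nat.pair N (Q.nxt N i) : ℕ) : ℤ)) := by
  obtain ⟨h1, h2, h3⟩ := h
  refine ⟨_, _, Q.prv_lt h2, Prod.ext ?_ ?_⟩
  · rw [h3, Q.par_prv h2]
  · rw [Q.nxt_prv h2, Nat.pair_unpair]
    exact (Int.toNat_of_nonneg h1).symm

theorem elim_tgt {N i : ℕ} (h : i < Q.len N) :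
    Q.Elim (par i, ((Nat.pair N (Q.nxt N i) : ℕ) : ℤ)) := by
  refine ⟨Int.natCast_nonneg _, ?_, ?_⟩
  · simp only [Int.toNat_natCast, Nat.unpair_pair]; exact Q.nxt_lt h
  · simp only [Int.toNat_natCast, Nat.unpair_pair]; rw [Q.par_nxt h, Bool.not_not]

theorem not_elim_src (N i : ℕ) : ¬ Q.Elim (par i, ((Nat.pair N i : ℕ) : ℤ)) := by
  rintro ⟨-, -, h⟩
  simp only [Int.toNat_natCast, Nat.unpair_pair] at h
  revert h
  cases par i <;> simp

theorem srcq_tgt {N i : ℕ} (h : i < Q.len N) :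
    Q.srcq (par i, ((Nat.pair N (Q.nxt N i) : ℕ) : ℤ)) = (par i, ((Nat.pair N i : ℕ) : ℤ)) := by
  rw [srcq, if_pos (Q.elim_tgt h)]
  simp only [Int.toNat_natCast, Nat.unpair_pair, Q.prv_nxt h]

theorem lco_tgt {N i : ℕ} (h : i < Q.len N) :
    Q.lco G (par i, ((Nat.pair N (Q.nxt N i) : ℕ) : ℤ)) = Q.xs G (Q.tw N i) * Q.mrk G N i := by
  rw [lco, if_pos (Q.elim_tgt h)]
  simp only [Int.toNat_natCast, Nat.unpair_pair, Q.prv_nxt h]

theorem rco_tgt {N i : ℕ} (h : i < Q.len N) :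
    Q.rco (par i, ((Nat.pair N (Q.nxt N i) : ℕ) : ℤ)) = Q.lb N i := by
  rw [rco, if_pos (Q.elim_tgt h)]
  simp only [Int.toNat_natCast, Nat.unpair_pair, Q.prv_nxt h]

theorem srcq_of_not {q : Bool × ℤ} (h : ¬ Q.Elim q) : Q.srcq q = q := if_neg h

theorem lco_of_not {q : Bool × ℤ} (h : ¬ Q.Elim q) : Q.lco G q = 1 := if_neg h

theorem rco_of_not {q : Bool × ℤ} (h : ¬ Q.Elim q) : Q.rco q = 1 := if_neg h

theorem sigv_of_not {q : Bool × ℤ} (h : ¬ Q.Elim q) : Q.sigv G q = Q.lt G (.inl q) := by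
  rw [sigv, Q.srcq_of_not h, Q.lco_of_not G h, Q.rco_of_not h, map_one, map_one, one_mul, mul_one]

theorem sigv_tgt {N i : ℕ} (h : i < Q.len N) :
    Q.sigv G (par i, ((Nat.pair N (Q.nxt N i) : ℕ) : ℤ)) =
      Q.xe G (Q.tw N i) * MH.of (Q.DE G) (Q.mrk G N i) *
        Q.lt G (.inl (par i, ((Nat.pair N i : ℕ) : ℤ))) * Q.xe G (Q.lb N i) := by
  rw [sigv, Q.srcq_tgt h, Q.lco_tgt G h, Q.rco_tgt h, map_mul]
  rfl

theorem x1_injective (P G : Type) [Group P] [Group G] : Function.Injective (x1 P G) :=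
  fun _ _ h => Cube.x4_injective P (congrArg Prod.fst h)

theorem xs_injective : Function.Injective (Q.xs G) :=
  (MH.of_injective _).comp (x1_injective P G)

theorem xe_injective : Function.Injective (Q.xe G) :=
  (MH.of_injective _).comp (Q.xs_injective G)

theorem sig_of (q : Bool × ℤ) : Q.sig G (FreeGroup.of q) = Q.sigv G q := FreeGroup.lift_apply_of

theorem Rt_xe (g : P) : Q.Rt G (Q.xe G g) = 1 :=
  (MH.liftF_of _ _ _).trans (MH.liftC_of _ _ _ _)

theorem Rt_lt (q : Bool × ℤ) : Q.Rt G (Q.lt G (.inl q)) = FreeGroup.of q := MH.liftF_t _ _ _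

theorem Rt_mrk {N i : ℕ} (h : i < Q.len N) : Q.Rt G (MH.of (Q.DE G) (Q.mrk G N i)) =
    FreeGroup.of (par i, ((Nat.pair N (Q.nxt N i) : ℕ) : ℤ)) *
      (FreeGroup.of (par i, ((Nat.pair N i : ℕ) : ℤ)))⁻¹ :=
  ((MH.liftF_of _ _ _).trans (MH.liftC_t _ _ _ _)).trans (if_pos h)

theorem Rt_sigv (q : Bool × ℤ) : Q.Rt G (Q.sigv G q) = FreeGroup.of q := by
  by_cases h : Q.Elim q
  · obtain ⟨N, i, hi, rfl⟩ := h.exists_edge
    rw [Q.sigv_tgt G hi, map_mul, map_mul, map_mul, Rt_xe, Rt_xe, Rt_lt, Q.Rt_mrk G hi]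
    group
  · rw [Q.sigv_of_not G h, Rt_lt]

theorem Rt_sig (w : FreeGroup (Bool × ℤ)) : Q.Rt G (Q.sig G w) = w := by
  have : (Q.Rt G).comp (Q.sig G) = MonoidHom.id _ := by
    ext q
    rw [MonoidHom.comp_apply, sig_of, Rt_sigv, MonoidHom.id_apply]
  exact DFunLike.congr_fun this w

def shift : FreeGroup (Bool × ℤ) →* FreeGroup (Bool × ℤ) := FreeGroup.map fun q => (q.1, q.2 + 1)

theorem shift_injective : Function.Injective shift := by
  refine FreeGroup.map_injective fun q q' h => ?_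
  rw [Prod.mk.injEq, add_left_inj] at h
  exact Prod.ext h.1 h.2

def zz : Q.E1 G := cm (Q.lt G (.inr (false, true))) (Q.lt G (.inr (true, false)))

/-- The shear `(a, b) ↦ (a, b + a)`. -/
def shear : Equiv.Perm (ℤ × ℤ) where
  toFun x := (x.1, x.2 + x.1)
  invFun x := (x.1, x.2 - x.1)
  left_inv x := by simp
  right_inv x := by simp

/-- A representation of `E1` that kills `Ps` and sends `z` to a translation. -/
def heis : Q.E1 G →* Equiv.Perm (ℤ × ℤ) :=
  MH.liftF 1 (Sum.elim (fun _ => 1) fun k => cond k.1 shear (Equiv.addLeft (1, 0)))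

theorem heis_zz (g : P) : Q.heis G (Q.zz G * Q.xe G g) = Equiv.addLeft (0, -1) := by
  have h0 : Q.heis G (Q.xe G g) = 1 := MH.liftF_of _ _ _
  have h1 : Q.heis G (Q.lt G (.inr (false, true))) = Equiv.addLeft (1, 0) := MH.liftF_t _ _ _
  have h2 : Q.heis G (Q.lt G (.inr (true, false))) = shear := MH.liftF_t _ _ _
  rw [map_mul, h0, mul_one, zz, cm, map_mul, map_mul, map_mul, map_inv, map_inv, h1, h2,
    mul_inv_eq_iff_eq_mul, mul_inv_eq_iff_eq_mul]
  ext x
  · simp [shear]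
  · simp [shear]; ring

/-- `z * xe g` has infinite order. -/
theorem zz_injective (g : P) : Function.Injective (zpowersHom _ (Q.zz G * Q.xe G g)) := by
  rw [injective_iff_map_eq_one]
  intro m hm
  have h1 := congrArg (Q.heis G) hm
  rw [zpowersHom_apply, map_zpow, heis_zz, map_one, Equiv.zsmul_addLeft] at h1
  have h2 := congrArg (fun f : Equiv.Perm (ℤ × ℤ) => (f 0).2) h1
  simpa using h2

def DQ : HData (Q.E1 G) (Option A) where
  D j := match j with
    | none => FreeGroup (Bool × ℤ)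
    | some _ => Multiplicative ℤ
  grp j := match j with
    | none => inferInstanceAs (Group (FreeGroup (Bool × ℤ)))
    | some _ => inferInstanceAs (Group (Multiplicative ℤ))
  i j b := match j with
    | none => cond b ((Q.sig G).comp shift) (Q.sig G)
    | some a => zpowersHom _ (Q.zz G * Q.xe G (cond b (Q.s a) 1))
  ker_eq j := match j with
    | none => by
      have h : Function.Injective (Q.sig G) := Function.LeftInverse.injective (Q.Rt_sig G)
      exact ((MonoidHom.ker_eq_bot_iff _).2 h).trans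
        ((MonoidHom.ker_eq_bot_iff ((Q.sig G).comp shift)).2 (h.comp shift_injective)).symm
    | some a => ((MonoidHom.ker_eq_bot_iff _).2 (Q.zz_injective G _)).trans
        ((MonoidHom.ker_eq_bot_iff _).2 (Q.zz_injective G _)).symm

abbrev Qh := MH (Q.DQ G)

/-- `G1 → Qh`. -/
def i1 : G1 P G →* Q.Qh G :=
  (MH.of (Q.DQ G)).comp ((MH.of (Q.DE G)).comp (MH.of (Q.DP G)))

def xq : P →* Q.Qh G := (Q.i1 G).comp (x1 P G)
def gq : G →* Q.Qh G := (Q.i1 G).comp (MonoidHom.inr _ _)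
def pp : Q.Qh G := MH.t (Q.DQ G) none
def zp : Q.Qh G := MH.of (Q.DQ G) (Q.lt G (.inr (true, true)))
def vv (a : A) : Q.Qh G := MH.t (Q.DQ G) (some a)
def sq (q : Bool × ℤ) : Q.Qh G := MH.of (Q.DQ G) (Q.sigv G q)
def mq (N i : ℕ) : Q.Qh G := MH.of (Q.DQ G) (MH.of (Q.DE G) (Q.mrk G N i))

/-- The letters `s, s~, p, u, y, ω`. -/
def yv : Fin 6 → Q.Qh G :=
  ![Q.sq G (false, 0), Q.sq G (true, 0), Q.pp G, MH.of (Q.DQ G) (Q.lt G (.inr (false, false))),
    MH.of (Q.DQ G) (Q.lt G (.inr (false, true))), MH.of (Q.DQ G) (Q.lt G (.inr (true, false)))]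

/-- The subgroup generated by the six letters and `D`. -/
def Dq : Subgroup (Q.Qh G) := Subgroup.closure (range (Q.yv G) ∪ Q.xq G '' Q.D)

variable {G} in
def genQ {AG : Type} (sG : AG → G) : GenQ A AG → Q.Qh G
  | .inl c => Q.i1 G (Cube.gen4 Q.s c, 1)
  | .inr (.inl a) => Q.gq G (sG a)
  | .inr (.inr (.inl k)) => Q.yv G k
  | .inr (.inr (.inr none)) => Q.zp G
  | .inr (.inr (.inr (some a))) => Q.vv G a

/-! ### the subgroups `Dp ≤ Ps`, `De ≤ E1` -/

/-- Edges whose label lies in `D`. -/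
def Bad (e : ℕ × ℕ) : Prop := e.2 < Q.len e.1 ∧ Q.lb e.1 e.2 ∈ Q.D

def Dp : Subgroup (Q.Ps G) :=
  (MH.split (Q.DP G)).gsub (Q.D.map (x1 P G)) {e | Q.Bad e.1}

/-- Letters that are used by the sub-structure. -/
def Acc : Ltr → Prop
  | .inl q => ¬ (Q.Elim q ∧ Q.rco q ∈ Q.D)
  | .inr k => k ≠ (true, true)

theorem isGood_Dp : (MH.split (Q.DP G)).IsGood (Q.D.map (x1 P G)) {e | Q.Bad e.1} := by
  refine ⟨fun e he => he, fun e _ a ha ha' => ?_⟩
  rw [MH.central_A] at ha'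
  rw [MH.central_φ _ e ha']
  exact ha

/-- Left coefficients of the sub-structure. -/
def subl : Ltr × Bool → Q.Ps G
  | (.inl q, false) => Q.lco G q
  | (.inl q, true) => (Q.xs G (Q.rco q))⁻¹
  | (.inr _, _) => 1

theorem xs_mem_Dp {g : P} : Q.xs G g ∈ Q.Dp G ↔ g ∈ Q.D :=
  (Split.good_of_mem (Q.isGood_Dp G)).trans
    (Subgroup.mem_map_iff_mem (x1_injective P G))

theorem mrk_mem_Dp {N i : ℕ} : Q.mrk G N i ∈ Q.Dp G ↔ Q.Bad (N, i) := by
  refine ⟨fun h => ?_, fun h => Subgroup.subset_closure (Or.inr ⟨((N, i), false), h, rfl⟩)⟩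
  have e : (MH.split (Q.DP G)).ev 1 [(((N, i), false), 1)] = Q.mrk G N i := by
    simp [mrk]
  rw [← e] at h
  exact (Split.good_first (Q.isGood_Dp G) (PreSplit.red_singleton _ _) h).1

theorem srcq_inj_of_elim {q q' : Bool × ℤ} (h : Q.Elim q) (h' : Q.Elim q')
    (e : Q.srcq q = Q.srcq q') : q = q' := by
  obtain ⟨N, i, hi, rfl⟩ := h.exists_edge
  obtain ⟨N', i', hi', rfl⟩ := h'.exists_edge
  rw [Q.srcq_tgt hi, Q.srcq_tgt hi', Prod.mk.injEq, Nat.cast_inj, Nat.pair_eq_pair] at e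
  obtain ⟨-, rfl, rfl⟩ := e
  rfl

theorem subl_notMem {q : Bool × ℤ} (h : Q.Elim q) (ha : Q.Acc (.inl q)) (b : Bool) :
    Q.subl G (.inl q, b) ∉ Q.Dp G := by
  have hr : Q.rco q ∉ Q.D := fun h' => ha ⟨h, h'⟩
  cases b
  · obtain ⟨N, i, hi, rfl⟩ := h.exists_edge
    rw [Q.rco_tgt hi] at hr
    change Q.lco G _ ∉ _
    rw [Q.lco_tgt G hi, Subgroup.mul_mem_cancel_left _ ((Q.xs_mem_Dp G).2 (Q.tw_mem N i)),
      mrk_mem_Dp]
    exact fun hb => hr hb.2
  · change (Q.xs G (Q.rco q))⁻¹ ∉ _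
    rw [inv_mem_iff, xs_mem_Dp]
    exact hr

theorem subl_of_not {q : Bool × ℤ} (h : ¬ Q.Elim q) (b : Bool) : Q.subl G (.inl q, b) = 1 := by
  cases b
  · exact Q.lco_of_not G h
  · change (Q.xs G (Q.rco q))⁻¹ = 1
    rw [Q.rco_of_not h, map_one, inv_one]

theorem sub_sep (i i' : {q : Ltr × Bool // Q.Acc q.1})
    (he : (Sum.map Q.srcq id i.1.1, i.1.2) = (Sum.map Q.srcq id i'.1.1, i'.1.2))
    {h : Q.Ps G} (hh : h ∈ Q.Dp G) (h1 : (Q.subl G i.1)⁻¹ * h * Q.subl G i'.1 = 1) : i = i' := by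
  obtain ⟨⟨l, b⟩, ha⟩ := i
  obtain ⟨⟨l', b'⟩, ha'⟩ := i'
  obtain ⟨he1, rfl⟩ : Sum.map Q.srcq id l = Sum.map Q.srcq id l' ∧ b = b' := Prod.mk.inj he
  suffices l = l' by subst this; rfl
  rcases l with q | k <;> rcases l' with q' | k'
  · have he2 : Q.srcq q = Q.srcq q' := Sum.inl.inj he1
    congr 1
    dsimp only at h1
    by_cases hq : Q.Elim q <;> by_cases hq' : Q.Elim q'
    · exact Q.srcq_inj_of_elim hq hq' he2
    · rw [Q.subl_of_not G hq', mul_one, inv_mul_eq_one] at h1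
      exact absurd (h1 ▸ hh) (Q.subl_notMem G hq ha b)
    · rw [Q.subl_of_not G hq, inv_one, one_mul, mul_eq_one_iff_eq_inv] at h1
      rw [h1, inv_mem_iff] at hh
      exact absurd hh (Q.subl_notMem G hq' ha' b)
    · rwa [Q.srcq_of_not hq, Q.srcq_of_not hq'] at he2
  · cases he1
  · cases he1
  · exact he1

/-- The sub-structure of `E1` whose fundamental group is `De`. -/
def subE : Sub (MH.split (Q.DE G)).toPreSplit Unit {q : Ltr × Bool // Q.Acc q.1} where
  H _ := Q.Dp G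
  src _ := ()
  bar i := ⟨(i.1.1, !i.1.2), i.2⟩
  bar_bar i := by simp
  e i := (Sum.map Q.srcq id i.1.1, i.1.2)
  e_bar _ := rfl
  l i := Q.subl G i.1
  good i a ha _ := by
    rw [MH.free_A, Subgroup.mem_bot] at ha
    subst ha
    rw [Split.φ_one]; simp
  sep i i' _ he h hh h1 := by
    rw [MH.free_A, Subgroup.mem_bot] at h1
    exact Q.sub_sep G i i' he hh h1

def De : Subgroup (Q.E1 G) := (Q.subE G).K ()

end QIn
end Crest.Agent.R185
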