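import Crest.Agent.R185.Amal
import Crest.Agent.R185.QDef
/-!
Row 185: a group `P` with a self-embedding `α` and gadgets; the ascending HNN extension `AH`,
the free subgroup `C = ⟨D, τ⟩` and its twist.
The letters `y 0, …, y 5` are `s, s~, p, u, y, ω`.
-/
set_option autoImplicit false
open Set

noncomputable section
namespace Crest.Agent.R185

structure SIn (P : Type) [Group P] where
  α : P →* P
  inj : Function.Injective α
  y : Fin 6 → P
  D : Subgroup P
  D_eq : D = Subgroup.closure {x | ∃ (n : ℕ) (k : Fin 6), α^[n] (y k) = x}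
  mem_iff : ∀ g, α g ∈ D ↔ g ∈ D
  free : ∀ (T : Type) [Group T] (f : D →* T) (v : Fin 6 → T), ∃ ρ : D →* T,
    (∀ (d : D) h, ρ ⟨α d, h⟩ = f d) ∧ ∀ k h, ρ ⟨y k, h⟩ = v k
  z : P
  z_notMem : z ∉ D
  z_conj : ∀ g, g ≠ 1 → z * α g * z⁻¹ ∉ D
  gen : Set P
  gen_top : Subgroup.closure gen = ⊤
  vrel : ∀ a ∈ gen, ∃ v, cm (y 4) (y 5) * v = v * (cm (y 4) (y 5) * α a)
  gad : ∀ L : List P, L ≠ [] → Even L.length → (∀ a ∈ L, a ∉ D) →
    ∃ (n : ℕ → ℤ) (mk : ℕ → P), n L.length = n 0 ∧ (∀ i, ∀ d ∈ D, Commute (mk i) (α d)) ∧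
      ∀ i, i < L.length →
        (y 2 ^ n (i + 1))⁻¹ * y (cond (QIn.par i) 1 0) * y 2 ^ n (i + 1) =
          α (if i + 1 = L.length then y 5 else 1) * mk i *
            ((y 2 ^ n i)⁻¹ * y (cond (QIn.par i) 1 0) * y 2 ^ n i) * α (L.getD i 1)

namespace SIn
variable {P : Type} [Group P] (S : SIn P)

abbrev AH := MH (asc S.α S.inj)
def of : P →* S.AH := MH.of _
def τ : S.AH := MH.t _ ()

theorem of_injective : Function.Injective S.of := MH.of_injective _

theorem of_α (g : P) : S.of (S.α g) = S.τ⁻¹ * S.of g * S.τ := by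
  have h : S.of g * S.τ = S.τ * S.of (S.α g) := MH.rel (asc S.α S.inj) () g
  rw [mul_assoc, h, inv_mul_cancel_left]

/-- The exponent of `τ`. -/
def χ : S.AH →* Multiplicative ℤ := MH.lift 1 (fun _ => Multiplicative.ofAdd 1) fun _ _ => by simp

@[simp] theorem χ_of (g : P) : S.χ (S.of g) = 1 := MH.lift_of _ _ _ _ _
@[simp] theorem χ_τ : S.χ S.τ = Multiplicative.ofAdd 1 := MH.lift_t _ _ _ _ _

theorem y_mem (k : Fin 6) : S.y k ∈ S.D := by
  rw [S.D_eq]
  exact Subgroup.subset_closure ⟨0, k, rfl⟩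

def γ : FreeGroup (Option (Fin 6)) →* S.AH := FreeGroup.lift fun o => o.elim S.τ fun k => S.of (S.y k)

/-- The twist `τ ↦ τ`, `s ↔ s~`, `u ↦ u τ⁻¹`. -/
def θ : FreeGroup (Option (Fin 6)) →* FreeGroup (Option (Fin 6)) :=
  FreeGroup.lift fun o => o.elim (FreeGroup.of none)
    ![.of (some 1), .of (some 0), .of (some 2), .of (some 3) * (FreeGroup.of none)⁻¹,
      .of (some 4), .of (some 5)]

theorem θ_bijective : Function.Bijective θ := by
  let θ' : FreeGroup (Option (Fin 6)) →* FreeGroup (Option (Fin 6)) :=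
    FreeGroup.lift fun o => o.elim (FreeGroup.of none)
      ![.of (some 1), .of (some 0), .of (some 2), .of (some 3) * FreeGroup.of none,
        .of (some 4), .of (some 5)]
  have h1 : θ'.comp θ = MonoidHom.id _ := by
    ext (_ | k)
    · simp [θ, θ']
    · fin_cases k <;> simp [θ, θ']
  have h2 : θ.comp θ' = MonoidHom.id _ := by
    ext (_ | k)
    · simp [θ, θ']
    · fin_cases k <;> simp [θ, θ']
  exact Function.bijective_iff_has_inverse.2
    ⟨θ', fun x => DFunLike.congr_fun h1 x, fun x => DFunLike.congr_fun h2 x⟩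

theorem of_α_iter (n : ℕ) (g : P) : S.of (S.α^[n] g) = (S.τ ^ n)⁻¹ * S.of g * S.τ ^ n := by
  induction n with
  | zero => simp
  | succ n ih => rw [Function.iterate_succ_apply', of_α, ih, pow_succ]; group

theorem nf_shift {x : S.AH} {a b : ℕ} {g : P} (h : (S.τ ^ a)⁻¹ * x * S.τ ^ b = S.of g) (n : ℕ) :
    (S.τ ^ (a + n))⁻¹ * x * S.τ ^ (b + n) = S.of (S.α^[n] g) := by
  rw [of_α_iter, ← h, pow_add, pow_add]; group

theorem exists_nf (x : S.AH) : ∃ (a b : ℕ) (g : P), (S.τ ^ a)⁻¹ * x * S.τ ^ b = S.of g := by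
  have hx : x ∈ Subgroup.closure (range (MH.of (asc S.α S.inj)) ∪ range (MH.t (asc S.α S.inj))) := by
    rw [MH.closure_eq_top]; trivial
  induction hx using Subgroup.closure_induction with
  | mem x hx =>
    rcases hx with ⟨g, rfl⟩ | ⟨_, rfl⟩
    · exact ⟨0, 0, g, by simp [of]⟩
    · exact ⟨1, 0, 1, by simp [τ]⟩
  | one => exact ⟨0, 0, 1, by simp⟩
  | mul x y _ _ hx hy =>
    obtain ⟨a, b, g, h1⟩ := hx
    obtain ⟨c, d, g', h2⟩ := hy
    refine ⟨a + c, d + b, S.α^[c] g * S.α^[b] g', ?_⟩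
    rw [map_mul, ← S.nf_shift h1 c, ← S.nf_shift h2 b, add_comm c b]
    group
  | inv x _ hx =>
    obtain ⟨a, b, g, h1⟩ := hx
    refine ⟨b, a, g⁻¹, ?_⟩
    rw [map_inv, ← h1]
    group

/-- Elements of exponent zero are conjugated into `P` by all large powers of `τ`. -/
theorem exists_conj {x : S.AH} (h : S.χ x = 1) :
    ∃ n₀ : ℕ, ∀ n, n₀ ≤ n → ∃ g, (S.τ ^ n)⁻¹ * x * S.τ ^ n = S.of g := by
  obtain ⟨a, b, g, h1⟩ := S.exists_nf x
  have h2 := congrArg (fun y => (S.χ y).toAdd) h1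
  simp only [map_mul, map_inv, map_pow, h, χ_τ, χ_of, toAdd_mul, toAdd_inv, toAdd_pow,
    toAdd_ofAdd, toAdd_one, nsmul_eq_mul, mul_one] at h2
  have h3 : a = b := by omega
  subst h3
  refine ⟨a, fun n hn => ?_⟩
  obtain ⟨k, rfl⟩ := Nat.exists_eq_add_of_le hn
  exact ⟨_, S.nf_shift h1 k⟩

@[simp] theorem γ_none : S.γ (FreeGroup.of none) = S.τ := by simp [γ]
@[simp] theorem γ_some (k : Fin 6) : S.γ (FreeGroup.of (some k)) = S.of (S.y k) := by simp [γ]

theorem isGood : (MH.split (asc S.α S.inj)).IsGood S.D univ where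
  bar_mem _ _ := trivial
  φ_mem := by
    rintro ⟨j, _ | _⟩ - a ha ⟨d, rfl⟩
    · rw [MH.split_φ]; exact (S.mem_iff d).2 ha
    · rw [MH.split_φ]; exact (S.mem_iff d).1 ha

theorem range_γ : S.γ.range = (MH.split (asc S.α S.inj)).gsub S.D univ := by
  apply le_antisymm
  · rw [γ, FreeGroup.range_lift_eq_closure, Subgroup.closure_le]
    rintro _ ⟨_ | k, rfl⟩
    · exact Subgroup.subset_closure (Or.inr ⟨((), false), trivial, rfl⟩)
    · exact Subgroup.subset_closure (Or.inl ⟨_, S.y_mem k, rfl⟩)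
  · have hτ : S.τ ∈ S.γ.range := ⟨_, S.γ_none⟩
    unfold PreSplit.gsub
    rw [Subgroup.closure_le]
    rintro _ (⟨d, hd, rfl⟩ | ⟨⟨j, _ | _⟩, -, rfl⟩)
    · have : S.D ≤ S.γ.range.comap S.of := by
        rw [S.D_eq, Subgroup.closure_le]
        rintro _ ⟨n, k, rfl⟩
        change S.of _ ∈ S.γ.range
        rw [of_α_iter]
        exact mul_mem (mul_mem (inv_mem (pow_mem hτ n)) ⟨_, S.γ_some k⟩) (pow_mem hτ n)
      exact this hd
    · exact hτ
    · exact inv_mem hτ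

theorem of_mem_range {g : P} : S.of g ∈ S.γ.range ↔ g ∈ S.D := by
  rw [range_γ]
  exact Split.good_of_mem S.isGood

theorem exists_f {T : Type} [Group T] (t : T) (v : Fin 6 → T) : ∃ f : S.D →* T,
    (∀ (d : S.D) h, f ⟨S.α d, h⟩ = t⁻¹ * f d * t) ∧ ∀ k h, f ⟨S.y k, h⟩ = v k := by
  choose ρ h1 h2 using fun f : S.D →* T => S.free T ((MulAut.conj t⁻¹).toMonoidHom.comp f) v
  let F : ℕ → S.D →* T := fun m => ρ^[m] 1
  have F1 : ∀ m (d : S.D) h, F (m + 1) ⟨S.α d, h⟩ = t⁻¹ * F m d * t := by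
    intro m d h
    simp only [F, Function.iterate_succ_apply', h1]
    simp
  have F2 : ∀ m k h, F (m + 1) ⟨S.y k, h⟩ = v k := by
    intro m k h
    simp only [F, Function.iterate_succ_apply', h2]
  have st : ∀ d : S.D, ∃ w, ∃ m₀, ∀ m, m₀ ≤ m → F m d = w := by
    have gen : ∀ (n : ℕ) (k : Fin 6), ∃ h : S.α^[n] (S.y k) ∈ S.D, ∃ w, ∃ m₀, ∀ m, m₀ ≤ m →
        F m ⟨_, h⟩ = w := by
      intro n k
      induction n with
      | zero =>
        refine ⟨S.y_mem k, v k, 1, fun m hm => ?_⟩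
        obtain ⟨m, rfl⟩ := Nat.exists_eq_add_of_le' hm
        exact F2 m k _
      | succ n ih =>
        obtain ⟨h, w, m₀, hw⟩ := ih
        simp only [Function.iterate_succ_apply']
        refine ⟨(S.mem_iff _).2 h, t⁻¹ * w * t, m₀ + 1, fun m hm => ?_⟩
        obtain ⟨m, rfl⟩ : ∃ m', m = m' + 1 := ⟨m - 1, by omega⟩
        rw [← hw m (by omega)]
        exact F1 m ⟨_, h⟩ _
    rintro ⟨d, hd⟩
    have hd' := hd
    rw [S.D_eq] at hd'
    have hle : ∀ {x}, x ∈ Subgroup.closure {x | ∃ (n : ℕ) (k : Fin 6), S.α^[n] (S.y k) = x} →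
        x ∈ S.D := fun h => by rw [S.D_eq]; exact h
    induction hd' using Subgroup.closure_induction with
    | mem x hx =>
      obtain ⟨n, k, rfl⟩ := hx
      obtain ⟨_, h⟩ := gen n k
      exact h
    | one => exact ⟨1, 0, fun m _ => map_one (F m)⟩
    | mul x y hx hy ihx ihy =>
      obtain ⟨w, a, ha⟩ := ihx (hle hx)
      obtain ⟨w', b, hb⟩ := ihy (hle hy)
      refine ⟨w * w', a + b, fun m hm => ?_⟩
      rw [← ha m (by omega), ← hb m (by omega), ← map_mul]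
      rfl
    | inv x hx ihx =>
      obtain ⟨w, a, ha⟩ := ihx (hle hx)
      refine ⟨w⁻¹, a, fun m hm => ?_⟩
      rw [← ha m hm, ← map_inv]
      rfl
  choose w m₀ hw using st
  refine ⟨MonoidHom.mk' w fun a b => ?_, fun d h => ?_, fun k h => ?_⟩
  · rw [← hw a (m₀ a + m₀ b + m₀ (a * b)) (by omega), ← hw b (m₀ a + m₀ b + m₀ (a * b)) (by omega),
      ← hw (a * b) (m₀ a + m₀ b + m₀ (a * b)) (by omega), map_mul]
  · change w _ = t⁻¹ * w d * t
    rw [← hw d (m₀ d + m₀ ⟨S.α d, h⟩) (by omega), ← F1 _ d h, hw _ _ (by omega)]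
  · change w _ = _
    rw [← F2 (m₀ ⟨S.y k, h⟩) k h, hw _ _ (by omega)]

theorem γ_injective : Function.Injective S.γ := by
  obtain ⟨f, h1, h2⟩ := S.exists_f (FreeGroup.of (none : Option (Fin 6)))
    fun k => FreeGroup.of (some k)
  obtain ⟨ψ, p1, p2⟩ := Split.good_lift S.isGood f
    (fun e => cond e.2 (FreeGroup.of none)⁻¹ (FreeGroup.of none))
    (by rintro ⟨j, _ | _⟩ - <;> simp) (by
      rintro ⟨j, _ | _⟩ he ⟨a, ha⟩ hA
      · have e : (MH.split (asc S.α S.inj)).φ (j, false) a = S.α a :=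
          MH.split_φ (asc S.α S.inj) j false a
        have := h1 ⟨a, ha⟩ ((S.mem_iff a).2 ha)
        simp only [e, cond_false]
        rw [this, ← mul_assoc, mul_inv_cancel_left]
      · obtain ⟨d, rfl⟩ : ∃ d, S.α d = a := hA
        have e : (MH.split (asc S.α S.inj)).φ (j, true) (S.α d) = d :=
          MH.split_φ (asc S.α S.inj) j true d
        have := h1 ⟨d, (S.mem_iff d).1 ha⟩ ha
        simp only [e, cond_true]
        exact (congrArg (· * (FreeGroup.of none)⁻¹) this).trans (mul_inv_cancel_right _ _))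
  have hm : ∀ x, S.γ x ∈ (MH.split (asc S.α S.inj)).gsub S.D univ := fun x => by
    rw [← range_γ]; exact ⟨x, rfl⟩
  have key : ψ.comp (S.γ.codRestrict _ hm) = MonoidHom.id _ := by
    ext (_ | k)
    · rw [MonoidHom.comp_apply, MonoidHom.id_apply]
      exact Eq.trans (congrArg ψ (Subtype.ext (by exact S.γ_none))) (p2 ((), false) trivial)
    · rw [MonoidHom.comp_apply, MonoidHom.id_apply]
      exact (congrArg ψ (Subtype.ext (S.γ_some k))).trans
        ((p1 ⟨_, S.y_mem k⟩).trans (h2 k _))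
  intro x y h
  have hx := DFunLike.congr_fun key x
  have hy := DFunLike.congr_fun key y
  rw [MonoidHom.comp_apply, MonoidHom.id_apply] at hx hy
  rw [← hx, ← hy]
  exact congrArg ψ (Subtype.ext h)

theorem χ_of_commute {w : FreeGroup (Option (Fin 6))}
    (h : cm w (FreeGroup.of (some 4)) = 1) : S.χ (S.γ w) = 1 := by
  let μ : FreeGroup (Option (Fin 6)) →* Equiv.Perm ℚ := FreeGroup.lift fun o =>
    o.elim (Equiv.mulLeft₀ 2 two_ne_zero) fun _ => Equiv.addRight 1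
  have key : ∀ w, ∃ c : ℚ, ∀ x, μ w x = 2 ^ (S.χ (S.γ w)).toAdd * x + c := by
    intro w
    induction w using FreeGroup.induction_on with
    | C1 => exact ⟨0, by simp⟩
    | of o =>
      cases o with
      | none => exact ⟨0, by simp [μ]⟩
      | some k => exact ⟨1, by simp [μ]⟩
    | inv_of o ih =>
      obtain ⟨c, hc⟩ := ih
      refine ⟨-(2 ^ (S.χ (S.γ (FreeGroup.of o))).toAdd)⁻¹ * c, fun x => ?_⟩
      rw [map_inv, Equiv.Perm.inv_eq_iff_eq, hc, map_inv, map_inv, toAdd_inv, zpow_neg]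
      have : (2 : ℚ) ^ (S.χ (S.γ (FreeGroup.of o))).toAdd ≠ 0 := zpow_ne_zero _ two_ne_zero
      field_simp
      ring
    | mul x y hx hy =>
      obtain ⟨c, hc⟩ := hx
      obtain ⟨c', hc'⟩ := hy
      refine ⟨2 ^ (S.χ (S.γ x)).toAdd * c' + c, fun z => ?_⟩
      rw [map_mul, Equiv.Perm.mul_apply, hc, hc', map_mul, map_mul, toAdd_mul,
        zpow_add₀ two_ne_zero]
      ring
  obtain ⟨c, hc⟩ := key w
  have h1 : w * FreeGroup.of (some 4) = FreeGroup.of (some 4) * w := by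
    rw [cm, mul_inv_eq_one, mul_inv_eq_iff_eq_mul] at h
    exact h
  have h2 := congrArg (fun u => μ u 0) h1
  simp only [map_mul, Equiv.Perm.mul_apply, hc] at h2
  simp only [μ, FreeGroup.lift_apply_of, Option.elim, Equiv.coe_addRight] at h2
  have h3 : (2 : ℚ) ^ (S.χ (S.γ w)).toAdd = 1 := by linarith
  have h4 := (zpow_eq_one_iff_right₀ (by norm_num) (by norm_num)).1 h3
  exact Multiplicative.toAdd.injective h4

/-- `C` contains no non-trivial normal subgroup. -/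
theorem exists_notMem (N : Subgroup S.AH) [N.Normal] (h : N ≠ ⊥) : ∃ x ∈ N, x ∉ S.γ.range := by
  have hN : N.Normal := inferInstance
  have key : ∀ g ∈ N, g ≠ 1 → S.χ g = 1 → ∃ x ∈ N, x ∉ S.γ.range := by
    intro g hg h1 h2
    obtain ⟨n, hn⟩ := S.exists_conj h2
    obtain ⟨g₀, h0⟩ := hn n le_rfl
    have m1 : S.of g₀ ∈ N := by
      rw [← h0]; exact hN.conj_mem' g hg _
    have m2 : S.of (S.α g₀) ∈ N := by
      rw [of_α]; exact hN.conj_mem' _ m1 _
    have ne : g₀ ≠ 1 := by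
      rintro rfl
      rw [map_one, mul_assoc, inv_mul_eq_one, right_eq_mul] at h0
      exact h1 h0
    refine ⟨S.of (S.z * S.α g₀ * S.z⁻¹), ?_, fun hx => S.z_conj g₀ ne (S.of_mem_range.1 hx)⟩
    rw [map_mul, map_mul, map_inv]
    exact hN.conj_mem _ m2 _
  obtain ⟨⟨g, hg⟩, h1⟩ := Subgroup.ne_bot_iff_exists_ne_one.1 h
  have h1' : g ≠ 1 := fun e => h1 (Subtype.ext e)
  by_cases hr : g ∈ S.γ.range
  swap
  · exact ⟨g, hg, hr⟩
  obtain ⟨w, rfl⟩ := hr
  by_cases h2 : S.χ (S.γ w) = 1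
  · exact key _ hg h1' h2
  refine key (S.γ (cm w (FreeGroup.of (some 4)))) ?_ ?_ ?_
  · rw [cm, mul_assoc, mul_assoc, map_mul, ← mul_assoc, map_mul, map_mul, map_inv, map_inv]
    exact mul_mem hg (hN.conj_mem _ (inv_mem hg) _)
  · intro e
    rw [← map_one S.γ] at e
    exact h2 (S.χ_of_commute (S.γ_injective e))
  · simp [cm]

end SIn
end Crest.Agent.R185
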