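import Crest.Agent.R185.HigPres
import Crest.Agent.R185.Beta
import Crest.Agent.R185.QRE
import Crest.Agent.R185.SimDef
/-! Row 185: the self-referential family of groups `P e`, `Q e`. -/
set_option autoImplicit false
open Set

noncomputable section
namespace Crest.Agent.R185
open Hig

abbrev CC (St κ J AG : Type) : Type := Option (GenQ (Gen St κ J) AG)

structure Dat (St κ J AG : Type) where
  m : ℕ → MIn St κ J
  β : CC St κ J AG → Fr
  lab : ℕ × ℕ → List (List (Gen St κ J × Bool))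
  even : ∀ x, Even (lab x).length

/-- The universal constant. -/
def c0 : ℕ := cQ 0 1 + dQ 0 1 0

/-- The twisted rule is a loop and accepts the set `S`. -/
structure MSpec {St κ J : Type} (m : MIn St κ J) (S : Set Fr) (r₀ : J) : Prop where
  tw : ∀ r, (m.R r).tw = true ↔ r = r₀
  tst : (m.R r₀).tst = false
  loop : ∀ ν, (m.R r₀).o false ν = (m.R r₀).o true ν
  acc : ∀ ν ∈ (m.R r₀).L, (m.R r₀).o false ν ∈ m.H0 ↔ ν.1 ∈ S

namespace Dat
variable {St κ J AG G : Type} [Fintype κ] [DecidableEq κ] [Group G] (d : Dat St κ J AG)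

abbrev P (e : ℕ) : Type := A0 (d.m e) d.β
def ev (e : ℕ) : FreeGroup (Gen St κ J) →* d.P e := FreeGroup.lift (gen0 (d.m e) d.β)
def cw (x : GenQ (Gen St κ J) AG) : FreeGroup (Gen St κ J) := cT FreeGroup.of (d.β (some x))
def αw : FreeGroup (Gen St κ J) →* FreeGroup (Gen St κ J) :=
  FreeGroup.lift fun a => FreeGroup.lift (fun g => d.cw (.inl g)) (Cube.x4w a)
def yw (k : Fin 6) : FreeGroup (Gen St κ J) := d.cw (.inr (.inr (.inl k)))
def D (e : ℕ) : Subgroup (d.P e) :=
  Subgroup.closure {x | ∃ (n : ℕ) (k : Fin 6), d.ev e (d.αw^[n] (d.yw k)) = x}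

def Q (e : ℕ) : QIn (d.P e) (Gen St κ J) where
  s := gen0 (d.m e) d.β
  D := d.D e
  om := d.ev e (d.yw 5)
  om_mem := Subgroup.subset_closure ⟨0, 5, rfl⟩
  lab N := (d.lab (e, N)).map fun w => d.ev e (FreeGroup.mk w)
  even N := by simpa using d.even (e, N)

variable (sG : AG → G)

def Qp (e : ℕ) : Subgroup ((d.Q e).Qh G) := Subgroup.closure (range ((d.Q e).genQ sG))

def c (e : ℕ) : CC St κ J AG → d.Qp sG e
  | none => 1
  | some x => ⟨(d.Q e).genQ sG x, Subgroup.subset_closure ⟨x, rfl⟩⟩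

def Dp (e : ℕ) : Subgroup (d.Qp sG e) := ((d.Q e).Dq G).subgroupOf (d.Qp sG e)

/-- Padded relators. -/
def sw (rel : ℕ × ℕ → List (GenQ (Gen St κ J) AG × Bool)) (e j : ℕ) : FreeGroup (CC St κ J AG) :=
  FreeGroup.map some (FreeGroup.mk (rel (e, j))) * FreeGroup.of none ^ (j + 1)

def Acc (rel : ℕ × ℕ → List (GenQ (Gen St κ J) AG × Bool)) (e : ℕ) : Set Fr :=
  range fun j => FreeGroup.lift d.β (sw rel e j)

/-- `rel` enumerates the relations of `Q e`. -/
structure IsRel (rel : ℕ × ℕ → List (GenQ (Gen St κ J) AG × Bool)) : Prop where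
  zero : ∀ e, rel (e, 0) = []
  sound : ∀ e j, FreeGroup.lift ((d.Q e).genQ sG) (FreeGroup.mk (rel (e, j))) = 1
  complete : ∀ e w, FreeGroup.lift ((d.Q e).genQ sG) (FreeGroup.mk w) = 1 → ∃ j, rel (e, j) = w

/-- An embedding of `Qp e` into `P e`. -/
structure Emb (e : ℕ) where
  ι : d.Qp sG e →* d.P e
  inj : Function.Injective ι
  gen : ∀ x, ι (d.c sG e (some x)) = d.ev e (d.cw x)

variable [Primcodable St] [Primcodable κ] [Primcodable J] [Primcodable AG]

structure Setup (rel : ℕ × ℕ → List (GenQ (Gen St κ J) AG × Bool)) (r₀ : J) (M : ℕ)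
    (Good : ℕ → Prop) : Prop where
  isRel : d.IsRel sG rel
  inj : Function.Injective (FreeGroup.lift d.β)
  shrink : Shrink d.β M
  big : 34 * c0 < M
  lab : Computable d.lab
  size : ∀ e, (d.Q e).Size 0
  spec : ∀ e, Good e → MSpec (d.m e) (d.Acc rel e) r₀
  eff : ∀ K : Ctx, MEff fun i => d.m (K.par i)
  co : ∀ K : Ctx, (∀ i, Good (K.par i)) →
    URE fun i (ω : St × Lam κ) => ω ∉ (d.m (K.par i)).H0
  fix : ∀ p : ℕ × List (Gen St κ J × Bool) → Prop, REPred p → ∃ e, Good e ∧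
    (∀ N, ∀ w ∈ d.lab (e, N), p (e, w)) ∧
    ∀ L : List (List (Gen St κ J × Bool)), Even L.length → (∀ w ∈ L, p (e, w)) →
      ∃ N, d.lab (e, N) = L

end Dat
end Crest.Agent.R185
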