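import Crest.Agent.R185.HigPresAux
/-! Row 185: the presentation theorem `A0 m β ≃* H`. -/
set_option autoImplicit false
open Set

noncomputable section
namespace Crest.Agent.R185.Hig
variable {St κ J C : Type} [Fintype κ]

theorem higPres_map_lift {α T T' : Type} [Group T] [Group T'] (f : T →* T') (g : α → T)
    (w : FreeGroup α) : f (FreeGroup.lift g w) = FreeGroup.lift (fun x => f (g x)) w := by
  have : f.comp (FreeGroup.lift g) = FreeGroup.lift fun x => f (g x) := by
    ext x; simp
  exact DFunLike.congr_fun this w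

theorem higPres_cm_iff {T : Type} [Group T] {a b : T} : cm a b = 1 ↔ Commute a b := by
  rw [cm, mul_inv_eq_one, mul_inv_eq_iff_eq_mul]
  rfl

section nat
variable {T T' : Type} [Group T] [Group T'] (f : T →* T') (τ : Gen St κ J → T)

theorem map_lamT (ν : Lam κ) : f (lamT τ ν) = lamT (f ∘ τ) ν := by
  simp only [lamT, map_mul, higPres_map_lift, map_list_prod, List.map_map, Function.comp_def,
    map_zpow]

theorem map_bT (w : Fr) : f (bT τ w) = bT (f ∘ τ) w := by
  exact higPres_map_lift f _ w

theorem map_tT (ω : St × Lam κ) : f (tT τ ω) = tT (f ∘ τ) ω := by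
  simp only [tT, map_mul, map_inv, map_lamT, Function.comp_apply]

theorem map_cT (w : Fr) : f (cT τ w) = cT (f ∘ τ) w := by
  simp only [cT, map_mul, map_inv, map_bT, Function.comp_apply]

theorem higPres_map_cm (a b : T) : f (cm a b) = cm (f a) (f b) := by
  simp [cm]

theorem higPres_map_epsT (r : Rule St κ) (b : Bool) (ν : Lam κ) :
    f (epsT τ r b ν) = epsT (f ∘ τ) r b ν := by
  unfold epsT
  cases r.tw && b <;> simp [map_tT, map_bT]

theorem higPres_map_comT (m : MIn St κ J) (x : Bool ⊕ J) :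
    f (comT τ m x) = comT (f ∘ τ) m x := by
  rcases x with (_ | _) | j
  · exact map_tT f τ _
  · rfl
  · rfl

theorem higPres_lamT_one : lamT τ 1 = 1 := by
  simp [lamT]

theorem higPres_lamT_lgen [DecidableEq κ] (a : Bool ⊕ κ) : lamT τ (Rule.lgen a) = τ (gL a) := by
  rcases a with x | k
  · simp [lamT, Rule.lgen]
  · rw [lamT, List.prod_map_eq_pow_single k _ fun a ha _ => by simp [Rule.lgen, ha],
      List.count_eq_one_of_mem (Finset.nodup_toList _) (by simp)]
    simp [Rule.lgen]

theorem higPres_lamT_hom [DecidableEq κ] (φ : Lam κ →* T) (h : ∀ a, τ (gL a) = φ (Rule.lgen a))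
    (ν : Lam κ) : lamT τ ν = φ ν := by
  have h1 : FreeGroup.lift (fun x => τ (gL (.inl x))) = φ.comp (MonoidHom.inl _ _) := by
    ext x
    simp [h, Rule.lgen]
  have h2 : ∀ a, τ (gL (.inr a)) ^ (ν.2 a).toAdd =
      φ.comp (MonoidHom.inr _ _) (Pi.mulSingle a (ν.2 a)) := by
    intro a
    have e : (Pi.mulSingle a (Multiplicative.ofAdd 1) : κ → Multiplicative ℤ) ^ (ν.2 a).toAdd =
        Pi.mulSingle a (ν.2 a) := by
      rw [← Pi.mulSingle_zpow]
      congr 1
      apply Multiplicative.toAdd.injective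
      simp
    rw [← e, map_zpow, h]
    rfl
  have h3 : (Finset.univ.toList.map fun a => τ (gL (.inr a)) ^ (ν.2 a).toAdd).prod =
      φ.comp (MonoidHom.inr _ _) ν.2 := by
    conv_rhs => rw [← Finset.univ_prod_mulSingle ν.2, ← Finset.prod_map_toList, map_list_prod,
      List.map_map]
    simp only [h2]
    rfl
  rw [lamT, h1, h3, MonoidHom.comp_apply, MonoidHom.comp_apply, ← map_mul]
  simp

theorem map_relT [DecidableEq κ] (m : MIn St κ J) (β : C → Fr) (x : RelIx κ J C) :
    f (relT τ m β x) = relT (f ∘ τ) m β x := by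
  rcases x with p | p | p | p | a | j | p | x
  all_goals simp only [relT, higPres_map_cm, map_mul, map_inv, map_cT, map_bT, higPres_map_epsT,
    higPres_map_comT, Function.comp_apply]
  split_ifs
  · simp only [map_mul, map_inv, map_lamT]
  · exact map_one f

end nat

variable [DecidableEq κ] {Q : Type} [Group Q] {m : MIn St κ J} {β : C → Fr} {c : C → Q}

theorem relT_gen0 (m : MIn St κ J) (β : C → Fr) (x : RelIx κ J C) :
    relT (gen0 m β) m β x = 1 := by
  have h := map_relT (PresentedGroup.mk (range (relT FreeGroup.of m β))) FreeGroup.of m β x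
  exact h.symm.trans (PresentedGroup.one_of_mem (mem_range_self x))

theorem closure_gen0 (m : MIn St κ J) (β : C → Fr) :
    Subgroup.closure (range (gen0 m β)) = ⊤ := by
  exact PresentedGroup.closure_range_of _

instance [Finite St] [Finite J] [Finite C] (m : MIn St κ J) (β : C → Fr) :
    Group.IsFinitelyPresented (A0 m β) := by
  infer_instance

omit [Fintype κ] [DecidableEq κ] in
theorem higPres_conj (μ : Lam κ) (x : N St κ Q) :
    vL Q m μ * vN Q m x * (vL Q m μ)⁻¹ = vN Q m (actE Q μ x) := by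
  have h := SemidirectProduct.inl_aut (φ := act St κ Q) μ x
  rw [act_apply] at h
  simp only [vL, vN, MonoidHom.comp_apply]
  rw [h, map_mul, map_mul, map_inv, map_inv]

omit [Fintype κ] [DecidableEq κ] in
theorem higPres_comm {μ : Lam κ} {x : N St κ Q} (h : actE Q μ x = x) :
    Commute (vL Q m μ) (vN Q m x) := by
  have h1 := higPres_conj (m := m) μ x
  rw [h, mul_inv_eq_iff_eq_mul] at h1
  exact h1

variable (hv : Valid m β c)

omit [Fintype κ] in
theorem higPres_genH_L (a : Bool ⊕ κ) : genH hv (gL a) = hV hv (vL Q m (Rule.lgen a)) := rfl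
omit [Fintype κ] in
theorem higPres_genH_S (q : St) : genH hv (gS q) = hV hv (vN Q m (tN Q (q, 1))) := rfl
omit [Fintype κ] in
theorem higPres_genH_R (j : J) : genH hv (gR j) = hV hv (MH.t _ j) := rfl
omit [Fintype κ] in
theorem higPres_genH_B (x : Bool) :
    genH hv (gB x) = hV hv (vN Q m (bN Q (FreeGroup.of x))) := rfl
omit [Fintype κ] in
theorem higPres_genH_D : genH hv gD = hV hv (vN Q m (dN Q)) := rfl

theorem lamT_genH (ν : Lam κ) : lamT (genH hv) ν = hV hv (vL Q m ν) := by
  exact higPres_lamT_hom (genH hv) ((hV hv).comp (vL Q m)) (fun _ => rfl) ν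

theorem bT_genH (w : Fr) : bT (genH hv) w = hV hv (vN Q m (bN Q w)) := by
  have : bT (genH hv) = (hV hv).comp ((vN Q m).comp (bN Q)) := by
    ext x
    simp [bT, higPres_genH_B]
  exact DFunLike.congr_fun this w

theorem tT_genH (ω : St × Lam κ) : tT (genH hv) ω = hV hv (vN Q m (tN Q ω)) := by
  rw [tT, lamT_genH, higPres_genH_S, ← map_inv, ← map_mul, ← map_mul, higPres_conj, actE_t,
    mul_one]

theorem cT_genH (i : C) : cT (genH hv) (β i) = iQ hv (c i) := by
  have h := MH.rel (DH hv) () (FreeGroup.of (.inr i))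
  have h1 : (DH hv).i () false (FreeGroup.of (.inr i)) = vN Q m (bN Q (β i)) :=
    FreeGroup.lift_apply_of
  have h2 : (DH hv).i () true (FreeGroup.of (.inr i)) = vN Q m (bN Q (β i)) * vN Q m (qN Q (c i)) := by
    refine FreeGroup.lift_apply_of.trans ?_
    rw [← map_mul]
    have e : ((β i, c i) : Fr × Q) = (β i, 1) * (1, c i) := by simp
    exact congrArg (vN Q m) ((congrArg (xN Q) e).trans (map_mul (xN Q) (β i, 1) (1, c i)))
  rw [h1, h2, map_mul] at h
  rw [cT, bT_genH, genH_K, mul_assoc, mul_assoc]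
  change (hV hv _)⁻¹ * (_ * (MH.of _ _ * _)) = MH.of _ (vN Q m (qN Q (c i)))
  rw [h, inv_mul_cancel_left]
  exact inv_mul_cancel_left _ _

theorem higPres_epsT_genH (r : Rule St κ) (b : Bool) (ν : Lam κ) :
    epsT (genH hv) r b ν = hV hv (vN Q m (eps Q r b ν)) := by
  unfold epsT eps
  cases r.tw && b <;> simp [tT_genH, bT_genH, higPres_genH_D]

theorem higPres_comT_genH (x : Bool ⊕ J) : comT (genH hv) m x = hV hv (com Q m x) := by
  rcases x with (_ | _) | j
  · exact tT_genH hv _
  · rfl
  · rfl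

theorem relT_genH (x : RelIx κ J C) : relT (genH hv) m β x = 1 := by
  rcases x with p | p | p | p | a | j | p | x
  · refine higPres_cm_iff.2 (Commute.map (Commute.map ?_ (vL Q m)) (hV hv))
    exact Prod.ext (by simp [Rule.lgen]) (mul_comm _ _)
  · exact higPres_cm_iff.2 ((higPres_comm (actE_b Q _ _)).map (hV hv))
  · simp only [relT]
    rw [cT_genH]
    exact higPres_cm_iff.2 ((higPres_comm (actE_q Q _ _)).map (hV hv))
  · simp only [relT]
    rw [cT_genH]
    refine higPres_cm_iff.2 (Commute.map (Commute.map (Commute.map (x := ((1, c p.1) : Fr × Q))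
      (y := (FreeGroup.of p.2, 1)) ?_ (xN Q)) (vN Q m)) (hV hv))
    exact Prod.ext (by simp) (by simp)
  · simp only [relT]
    rw [mul_inv_eq_one, bT_genH, higPres_genH_L, higPres_genH_D, ← map_inv, ← map_mul, ← map_mul,
      higPres_conj, actE_d, map_mul, map_mul, map_inv, map_inv]
  · simp only [relT]
    rw [mul_inv_eq_one, higPres_epsT_genH, higPres_epsT_genH, higPres_genH_R, ← map_mul, ← map_mul]
    have h := MH.rel (DV Q m) j (SemidirectProduct.inl (FreeGroup.of 1))
    have h1 : ∀ b, (DV Q m).i j b (SemidirectProduct.inl (FreeGroup.of 1)) =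
        SemidirectProduct.inl (eps Q (m.R j) b 1) := fun b => by
      change jr Q (m.R j) b (SemidirectProduct.inl (FreeGroup.of 1)) = _
      rw [jr, SemidirectProduct.map_inl, epsH, FreeGroup.lift_apply_of]
      rfl
    rw [h1, h1] at h
    exact congrArg _ h
  · simp only [relT]
    split_ifs with hp
    · rw [mul_inv_eq_one, lamT_genH, lamT_genH, higPres_genH_R, ← map_mul, ← map_mul]
      have h := MH.rel (DV Q m) p.1 (SemidirectProduct.inr ⟨_, hp⟩)
      have h1 : ∀ b, (DV Q m).i p.1 b (SemidirectProduct.inr ⟨_, hp⟩) =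
          SemidirectProduct.inr ((m.R p.1).i b (Rule.lgen p.2)) := fun b => by
        change jr Q (m.R p.1) b (SemidirectProduct.inr ⟨_, hp⟩) = _
        rw [jr, SemidirectProduct.map_inr]
        rfl
      rw [h1, h1] at h
      exact congrArg _ h
    · rfl
  · simp only [relT]
    rw [higPres_comT_genH, genH_K, higPres_cm_iff]
    have h := MH.rel (DH hv) () (FreeGroup.of (.inl x))
    have h1 : ∀ b, (DH hv).i () b (FreeGroup.of (.inl x)) = com Q m x := fun b =>
      FreeGroup.lift_apply_of
    rw [h1, h1] at h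
    exact h

/-- If the relations hold in `T`, there is a homomorphism from the tower over the trivial group. -/
theorem exists_hom_V {T Q' : Type} [Group T] [Group Q'] (τ : Gen St κ J → T)
    (h : ∀ x, relT τ m β x = 1) (f : Q' →* T) (hb : ∀ q x, Commute (f q) (τ (gB x)))
    (hl : ∀ q a, Commute (f q) (τ (gL a))) :
    ∃ θ : V Q' m →* T, (∀ x, θ (vN Q' m (xN Q' x)) = bT τ x.1 * f x.2) ∧
      (∀ ω, θ (vN Q' m (tN Q' ω)) = tT τ ω) ∧ θ (vN Q' m (dN Q')) = τ gD ∧
      (∀ ν, θ (vL Q' m ν) = lamT τ ν) ∧ ∀ j, θ (MH.t _ j) = τ (gR j) :=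
  exists_hom_V' τ h f hb hl

/-- The relations of `Q` hold for the words `cT`. -/
theorem Full.lift_cT (hf : Full m β c) {T : Type} [Group T] (τ : Gen St κ J → T)
    (h : ∀ x, relT τ m β x = 1) {f : FreeGroup C} (hc : FreeGroup.lift c f = 1) :
    FreeGroup.lift (fun i => cT τ (β i)) f = 1 :=
  hf.lift_cT' τ h hc

theorem higPres_exists_f (hf : Full m β c) {T : Type} [Group T] (τ : Gen St κ J → T)
    (h : ∀ x, relT τ m β x = 1) : ∃ f : Q →* T, (∀ i, f (c i) = cT τ (β i)) ∧
      (∀ q x, Commute (f q) (τ (gB x))) ∧ ∀ q a, Commute (f q) (τ (gL a)) := by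
  have hs : Function.Surjective (FreeGroup.lift c) := by
    rw [← MonoidHom.range_eq_top, FreeGroup.range_lift_eq_closure, hf.gen]
  let f : Q →* T := (FreeGroup.lift c).liftOfSurjective hs
    ⟨FreeGroup.lift fun i => cT τ (β i), fun w hw => hf.lift_cT τ h hw⟩
  have hfc : ∀ i, f (c i) = cT τ (β i) := fun i => by
    have := (FreeGroup.lift c).liftOfRightInverse_comp_apply _ (Function.rightInverse_surjInv hs)
      ⟨FreeGroup.lift fun i => cT τ (β i), fun w hw => hf.lift_cT τ h hw⟩ (FreeGroup.of i)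
    simpa using this
  have key : ∀ y : T, (∀ i, Commute (cT τ (β i)) y) → ∀ q, Commute (f q) y := by
    intro y hy q
    have hq : q ∈ Subgroup.closure (range c) := hf.gen ▸ Subgroup.mem_top q
    induction hq using Subgroup.closure_induction with
    | mem x hx =>
      obtain ⟨i, rfl⟩ := hx
      rw [hfc]
      exact hy i
    | one => rw [map_one]; exact Commute.one_left _
    | mul x y _ _ hx hy => rw [map_mul]; exact hx.mul_left hy
    | inv x _ hx => rw [map_inv]; exact hx.inv_left
  exact ⟨f, hfc, fun q x => key (τ (gB x))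
      (fun i => higPres_cm_iff.1 (h (.inr (.inr (.inr (.inl (i, x))))))) q,
    fun q a => key (τ (gL a))
      (fun i => (higPres_cm_iff.1 (h (.inr (.inr (.inl (a, i)))))).symm) q⟩

theorem exists_equiv (hf : Full m β c) :
    ∃ Θ : A0 m β ≃* H hv, ∀ a, Θ (gen0 m β a) = genH hv a := by
  let Φ : A0 m β →* H hv := PresentedGroup.toGroup (f := genH hv) (by
    rintro _ ⟨x, rfl⟩
    rw [map_relT]
    have : (FreeGroup.lift (genH hv) ∘ FreeGroup.of) = genH hv := funext fun a => by simp
    rw [this, relT_genH])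
  have hΦ : ∀ a, Φ (gen0 m β a) = genH hv a := fun a => PresentedGroup.toGroup.of _
  have hΦ' : Φ ∘ gen0 m β = genH hv := funext hΦ
  obtain ⟨f, hfc, hb, hl⟩ := higPres_exists_f hf (gen0 m β) (relT_gen0 m β)
  obtain ⟨θ, hx, ht, hd, hL, hR⟩ := exists_hom_V (gen0 m β) (relT_gen0 m β) f hb hl
  have hcom : ∀ x, θ (com Q m x) = comT (gen0 m β) m x := by
    rintro ((_ | _) | j)
    · exact ht _
    · exact hd
    · exact hR j
  have hsemi : ∀ d : FreeGroup ((Bool ⊕ J) ⊕ C), SemiconjBy (gen0 m β gK)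
      (θ (FreeGroup.lift (genA m β c true) d)) (θ (FreeGroup.lift (genA m β c false) d)) := by
    intro d
    induction d using FreeGroup.induction_on with
    | C1 => simp only [map_one]; exact SemiconjBy.one_right _
    | of a =>
      simp only [FreeGroup.lift_apply_of]
      rcases a with x | i
      · change SemiconjBy _ (θ (com Q m x)) (θ (com Q m x))
        rw [hcom]
        exact (higPres_cm_iff.1 (relT_gen0 m β
          (.inr (.inr (.inr (.inr (.inr (.inr (.inr x))))))))).symm
      · change SemiconjBy _ (θ (vN Q m (xN Q (β i, c i)))) (θ (vN Q m (xN Q (β i, 1))))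
        rw [hx, hx, hfc, map_one, cT, SemiconjBy]
        group
    | inv_of a ih => simp only [map_inv]; exact ih.inv_right
    | mul x y hx hy => simp only [map_mul]; exact hx.mul_right hy
  let Ψ : H hv →* A0 m β := MH.lift θ (fun _ => gen0 m β gK) fun _ d => (hsemi d).eq.symm
  have hΨ : ∀ x, Ψ (hV hv x) = θ x := fun x => MH.lift_of _ _ _ _ _
  have hΨK : Ψ (MH.t _ ()) = gen0 m β gK := MH.lift_t _ _ _ _ _
  have h1 : Ψ.comp Φ = MonoidHom.id _ := by
    refine PresentedGroup.ext fun a => ?_
    change Ψ (Φ (gen0 m β a)) = gen0 m β a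
    rw [hΦ]
    rcases a with a | q | j | x | _ | _
    · exact (hΨ _).trans ((hL _).trans (higPres_lamT_lgen _ a))
    · refine (hΨ _).trans ((ht _).trans ?_)
      rw [tT, higPres_lamT_one, one_mul, inv_one, mul_one]
      rfl
    · exact (hΨ _).trans (hR j)
    · refine (hΨ _).trans ((hx (FreeGroup.of x, 1)).trans ?_)
      rw [map_one, mul_one]
      exact FreeGroup.lift_apply_of
    · exact (hΨ _).trans hd
    · exact hΨK
  have hq : Φ.comp f = iQ hv := by
    refine MonoidHom.eq_of_eqOn_dense hf.gen ?_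
    rintro _ ⟨i, rfl⟩
    change Φ (f (c i)) = iQ hv (c i)
    rw [hfc, map_cT, hΦ', cT_genH]
  have hθ : Φ.comp θ = hV hv := by
    refine MH.hom_ext (fun x => ?_) fun j => ?_
    · have e : (Φ.comp θ).comp (MH.of (DV Q m)) = (hV hv).comp (MH.of (DV Q m)) := by
        refine SemidirectProduct.hom_ext (N_ext (fun x => ?_) (fun ω => ?_) ?_)
          (MonoidHom.ext fun ν => ?_)
        · change Φ (θ (vN Q m (xN Q x))) = hV hv (vN Q m (xN Q x))
          have e2 : Φ (f x.2) = hV hv (vN Q m (qN Q x.2)) := DFunLike.congr_fun hq x.2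
          rw [hx, map_mul, map_bT, hΦ', bT_genH, e2, ← map_mul, ← map_mul]
          exact congrArg _ (congrArg _ ((map_mul (xN Q) (x.1, 1) (1, x.2)).symm.trans
            (congrArg _ (by simp))))
        · change Φ (θ (vN Q m (tN Q ω))) = hV hv (vN Q m (tN Q ω))
          rw [ht, map_tT, hΦ', tT_genH]
        · change Φ (θ (vN Q m (dN Q))) = hV hv (vN Q m (dN Q))
          rw [hd, hΦ, higPres_genH_D]
        · change Φ (θ (vL Q m ν)) = hV hv (vL Q m ν)
          rw [hL, map_lamT, hΦ', lamT_genH]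
      exact DFunLike.congr_fun e x
    · change Φ (θ (MH.t _ j)) = hV hv (MH.t _ j)
      rw [hR, hΦ, higPres_genH_R]
  have h2 : Φ.comp Ψ = MonoidHom.id _ := by
    refine MH.hom_ext (fun x => ?_) fun j => ?_
    · change Φ (Ψ (hV hv x)) = hV hv x
      rw [hΨ]
      exact DFunLike.congr_fun hθ x
    · change Φ (Ψ (MH.t _ ())) = MH.t _ ()
      rw [hΨK, hΦ, genH_K]
  exact ⟨MonoidHom.toMulEquiv Φ Ψ h1 h2, hΦ⟩

end Crest.Agent.R185.Hig
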