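import Crest.Agent.R185.HigFilt
import Crest.Agent.R185.CubeREAux
/-! Row 185: representation of the floors `N`, `V0`, `V` of the Higman tower (tracked maps). -/
set_option autoImplicit false
set_option linter.unusedSectionVars false
open Set

namespace Crest.Agent.R185.Hig.VRep

section option
variable {K : Ctx} {X Y Z : K.I → Type} [Rep K X] [Rep K Y] [Rep K Z]

def optSum {α : Type} (o : Option α) : α ⊕ Unit := o.elim (.inr ()) .inl

theorem optSum_inj {α : Type} : Function.Injective (optSum (α := α)) := by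
  rintro (_ | a) (_ | b) h <;> simp_all [optSum]

theorem optSum_surj {α : Type} (x : α ⊕ Unit) : ∃ o, optSum o = x := by
  rcases x with a | _
  · exact ⟨some a, rfl⟩
  · exact ⟨none, rfl⟩

/-- Representation of `Option`. -/
@[reducible] def repOpt : Rep K fun i => Option (X i) :=
  Rep.ofInj (X := fun i => X i ⊕ Unit) (fun _ => optSum) (fun _ => optSum_inj)
    (ure_true' fun _ x => optSum_surj x)

attribute [local instance] repOpt

theorem trk_optSum : Trk fun i (o : Option (X i)) => optSum o :=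
  Trk.ofInj (X := fun i => X i ⊕ Unit) (Y := fun i => Option (X i)) (fun _ => optSum)
    (fun _ => optSum_inj) (ure_true' fun _ x => optSum_surj x)

theorem trk_some {f : ∀ i, X i → Y i} (hf : Trk f) : Trk fun i x => some (f i x) :=
  Trk.of_inj_comp trk_optSum (fun _ => optSum_inj) (Trk.inl hf)

theorem trk_none : Trk fun i (_ : X i) => (none : Option (Y i)) :=
  Trk.of_inj_comp trk_optSum (fun _ => optSum_inj) (Trk.inr (Trk.const ()))

theorem trk_elim {f : ∀ i, X i → Option (Y i)} {g : ∀ i, X i → Z i} {h : ∀ i, X i → Y i → Z i}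
    (hf : Trk f) (hg : Trk g) (hh : Trk fun i (p : X i × Y i) => h i p.1 p.2) :
    Trk fun i x => (f i x).elim (g i x) (h i x) :=
  (Trk.elim (g := h) (h := fun i x (_ : Unit) => g i x) (trk_optSum.comp hf) hh
    (hg.comp Trk.id.fst)).of_eq fun i x => by cases f i x <;> rfl

theorem rneOpt [RNe K X] : RNe K fun i => Option (X i) :=
  ⟨(Cert.ne (trk_optSum.comp Trk.id.fst) (trk_optSum.comp Trk.id.snd)).of_iff
    fun _ _ _ => optSum_inj.ne_iff⟩

end option

section hom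
variable {K : Ctx} {P L G G' : K.I → Type} [Rep K P] [Rep K L] [∀ i, Group (G i)]
  [∀ i, Group (G' i)] [Rep K G] [Rep K G']

/-- Families of homomorphisms depending on a parameter. -/
theorem trk_hom_param [RGrp K G] [RGrp K G'] (f : ∀ i, P i → G i →* G' i) (s : ∀ i, L i → G i)
    (hs : Trk s) (hfs : Trk fun i (p : P i × L i) => f i p.1 (s i p.2))
    (hgen : ∀ i, Subgroup.closure (range (s i)) = ⊤) :
    Trk fun i (p : P i × G i) => f i p.1 p.2 := by
  refine Trk.of_comp_surj (f := fun i (q : P i × List (L i × Bool)) =>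
      (q.1, FreeGroup.lift (s i) (FreeGroup.mk q.2)))
    (Trk.id.fst.pair (Trk.lift hs Trk.id.snd.mk)) (fun i p => ?_) ?_
  · have h : p.2 ∈ (FreeGroup.lift (s i)).range := by
      rw [FreeGroup.range_lift_eq_closure, hgen]; trivial
    obtain ⟨w, hw⟩ := h
    obtain ⟨l, rfl⟩ := regrp_mk_surj _ w
    exact ⟨(p.1, l), Prod.ext rfl hw⟩
  · have h := hfs.comp (f := fun i (q : (P i × List (L i × Bool)) × (L i × Bool)) => (q.1.1, q.2.1))
      (Trk.id.fst.fst.pair Trk.id.snd.fst)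
    refine (Trk.listProd (Trk.map (g := fun i (q : P i × List (L i × Bool)) (a : L i × Bool) =>
      cond a.2 (f i q.1 (s i a.1)) (f i q.1 (s i a.1))⁻¹) Trk.id.snd
      (Trk.cond Trk.id.snd.snd h h.inv))).of_eq fun i q => ?_
    simp only [FreeGroup.lift_mk, map_list_prod, List.map_map]
    congr 1
    refine List.map_congr_left fun a _ => ?_
    rcases a with ⟨a, _ | _⟩ <;> simp

theorem mh_hom {H : ∀ i, HData (G i) (L i)} [Rep K fun i => MH (H i)]
    [RGrp K fun i => MH (H i)] [RGrp K G'] (h : RSplit fun i => MH.split (H i))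
    (f : ∀ i, MH (H i) →* G' i) (h1 : Trk fun i b => f i (MH.of (H i) b))
    (h2 : Trk fun i j => f i (MH.t (H i) j)) : Trk fun i x => f i x := by
  refine h.hom f h1 ((Trk.cond Trk.id.snd (h2.comp Trk.id.fst).inv (h2.comp Trk.id.fst)).of_eq
    fun i e => ?_)
  rcases e with ⟨j, _ | _⟩ <;> simp

end hom

attribute [local instance] repOpt rneOpt

variable {K : Ctx} {St κ J C : Type} [Primcodable St] [Fintype κ]
  {Q : K.I → Type} [∀ i, Group (Q i)] [Rep K Q] [RGrp K Q] {X : K.I → Type} [Rep K X]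
  [Rep K fun i => N St κ (Q i)] [RGrp K fun i => N St κ (Q i)]
  (hN : RSplit fun i => MH.split (DN St κ (Q i)))
include hN

theorem trk_xN {f : ∀ i, X i → Fr × Q i} (hf : Trk f) :
    Trk fun i x => (xN (Q i) (f i x) : N St κ (Q i)) := hN.mh_of hf

theorem trk_bN {f : ∀ i, X i → Fr} (hf : Trk f) :
    Trk fun i x => (bN (Q i) (f i x) : N St κ (Q i)) := hN.mh_of (hf.pair Trk.one)

theorem trk_tN {f : ∀ i, X i → St × Lam κ} (hf : Trk f) : Trk fun i x => tN (Q i) (f i x) :=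
  hN.mh_t (trk_some hf)

theorem trk_dN : Trk fun i (_ : X i) => (dN (Q i) : N St κ (Q i)) := hN.mh_t trk_none

theorem trk_actE : Trk fun i (p : Lam κ × N St κ (Q i)) => act St κ (Q i) p.1 p.2 := by
  refine trk_hom_param (P := fun _ => Lam κ) (L := fun i => (Fr × Q i) ⊕ Option (St × Lam κ))
    (fun i μ => actE (Q i) μ) (fun i => Sum.elim (MH.of _) (MH.t _)) ?_ ?_ fun i => ?_
  · exact Trk.elim (g := fun i _ b => MH.of (DN St κ (Q i)) b)
      (h := fun i _ l => MH.t (DN St κ (Q i)) l) Trk.id (hN.mh_of Trk.id.snd) (hN.mh_t Trk.id.snd)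
  · refine (Trk.elim (g := fun i _ b => xN (Q i) b)
      (h := fun i (p : Lam κ × ((Fr × Q i) ⊕ Option (St × Lam κ))) (l : Option (St × Lam κ)) =>
        l.elim ((bN (Q i) p.1.1)⁻¹ * dN (Q i)) fun ω => tN (Q i) (ω.1, p.1 * ω.2))
      Trk.id.snd (trk_xN hN Trk.id.snd) ?_).of_eq fun i p => ?_
    · exact trk_elim (h := fun i (q : (Lam κ × ((Fr × Q i) ⊕ Option (St × Lam κ))) ×
          Option (St × Lam κ)) (ω : St × Lam κ) => tN (Q i) (ω.1, q.1.1 * ω.2)) Trk.id.snd
        ((trk_bN hN Trk.id.fst.fst.fst).inv.mul (trk_dN hN))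
        (trk_tN hN (Trk.id.snd.fst.pair (Trk.id.fst.fst.fst.mul Trk.id.snd.snd)))
    · rcases p with ⟨μ, b | _ | ω⟩
      · exact (actE_x _ μ b).symm
      · exact (actE_d _ μ).symm
      · exact (actE_t _ μ ω).symm
  · rw [Sum.elim_range, MH.closure_eq_top]

theorem rgrp_V0 : RGrp K fun i => V0 St κ (Q i) :=
  RGrp.semidirect (fun i => act St κ (Q i)) (trk_actE hN)

theorem trk_rN : Trk fun i (x : N St κ (Q i)) => rN (Q i) x := by
  refine mh_hom hN (fun i => rN (Q i)) ((trk_bN hN Trk.id.fst).of_eq fun i b => (rN_x _ b).symm)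
    ((hN.mh_t Trk.id).of_eq fun i l => (MH.liftF_t _ _ _).symm)

omit hN in
theorem trk_inl {f : ∀ i, X i → N St κ (Q i)} (hf : Trk f) :
    Trk fun i x => (SemidirectProduct.inl (f i x) : V0 St κ (Q i)) :=
  Trk.sdMk (fun i => act St κ (Q i)) hf Trk.one

omit hN in
theorem trk_inr {f : ∀ i, X i → Lam κ} (hf : Trk f) :
    Trk fun i x => (SemidirectProduct.inr (f i x) : V0 St κ (Q i)) :=
  Trk.sdMk (fun i => act St κ (Q i)) Trk.one hf

omit hN in
theorem trk_left {f : ∀ i, X i → V0 St κ (Q i)} (hf : Trk f) : Trk fun i x => (f i x).left :=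
  Trk.left (fun i => act St κ (Q i)) hf

omit hN in
theorem trk_right {f : ∀ i, X i → V0 St κ (Q i)} (hf : Trk f) : Trk fun i x => (f i x).right :=
  Trk.right (fun i => act St κ (Q i)) hf

theorem trk_r0 : Trk fun i (x : V0 St κ (Q i)) => r0 (Q i) x :=
  Trk.sdMk (fun i => act St κ (Q i)) ((trk_rN hN).comp (trk_left Trk.id)) (trk_right Trk.id)

section rule
variable {r : K.I → Rule St κ} (hr : REff r)
include hr

theorem trk_eps (b : Bool) {f : ∀ i, X i → Lam κ} (hf : Trk f) :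
    Trk fun i x => eps (Q i) (r i) b (f i x) := by
  have hb : Trk fun i (_ : X i) => ((r i).tw && b) := by
    cases b
    · exact (Trk.const false).of_eq fun i _ => by simp
    · exact hr.tw.trk.of_eq fun i _ => by simp
  exact (trk_tN hN ((hr.o b).comp hf)).mul
    (Trk.cond hb ((trk_bN hN hf.fst).inv.mul (trk_dN hN)) Trk.one)

theorem trk_rho (b : Bool) : Trk fun i (x : N St κ (Q i)) => rho (Q i) (r i) b x := by
  have h1 : URE fun i (p : (St × Lam κ) × N St κ (Q i)) => ∃ ν : Lam κ,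
      ν ∈ (r i).L ∧ (r i).o b ν = p.1 ∧ eps (Q i) (r i) b ν = p.2 :=
    Cert.exists ((Cert.comp hr.mem_L Trk.id.snd).and
      ((Cert.eq ((hr.o b).comp Trk.id.snd) Trk.id.fst.fst).and
        (Cert.eq (trk_eps hN hr b Trk.id.snd) Trk.id.fst.snd)))
  have h2 : URE fun i (p : (St × Lam κ) × N St κ (Q i)) => p.1 ∉ (r i).o b '' (r i).L ∧ 1 = p.2 :=
    (Cert.comp (hr.notMem_o b) Trk.id.fst).and (Cert.eq Trk.one Trk.id.snd)
  have h3 : Trk fun i (ω : St × Lam κ) => rho (Q i) (r i) b (tN (Q i) ω) := by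
    refine Cert.of_iff (Cert.or h1 h2) fun i p _ => ⟨?_, fun h => ?_⟩
    · rintro (⟨ν, hν, e1, e2⟩ | ⟨e1, e2⟩)
      · rw [← e1, ← e2]; exact rho_t _ _ b hν
      · rw [← e2]; exact rho_t_of_not _ _ b e1
    · by_cases e : p.1 ∈ (r i).o b '' (r i).L
      · obtain ⟨ν, hν, e⟩ := e
        refine Or.inl ⟨ν, hν, e, ?_⟩
        rw [← h, ← e]; exact (rho_t _ _ b hν).symm
      · exact Or.inr ⟨e, (rho_t_of_not _ _ b e).symm.trans h⟩
  refine mh_hom hN (fun i => rho (Q i) (r i) b) (Trk.one.of_eq fun i x => (rho_x _ _ b x).symm)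
    ((trk_elim (g := fun i _ => (1 : N St κ (Q i)))
      (h := fun i _ ω => rho (Q i) (r i) b (tN (Q i) ω)) Trk.id Trk.one
      (h3.comp Trk.id.snd)).of_eq fun i l => ?_)
  cases l
  · exact (rho_d _ _ b).symm
  · rfl

omit hN hr in
theorem graph_jr {Q : Type} [Group Q] (r : Rule St κ) (p : V0 St κ Q × V0 St κ Q) :
    p ∈ Subgroup.closure {p : V0 St κ Q × V0 St κ Q | ∃ ν : Lam κ, ν ∈ r.L ∧
      ((SemidirectProduct.inl (eps Q r false ν), SemidirectProduct.inl (eps Q r true ν)) = p ∨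
        (SemidirectProduct.inr (r.i false ν), SemidirectProduct.inr (r.i true ν)) = p)} ↔
      ∃ d, jr Q r false d = p.1 ∧ jr Q r true d = p.2 := by
  have e1 : ∀ b (w : FreeGroup r.L), jr Q r b (SemidirectProduct.inl w) =
      SemidirectProduct.inl (epsH Q r b w) := fun b w => SemidirectProduct.map_inl _ _ _ _
  have e2 : ∀ b (μ : r.L), jr Q r b (SemidirectProduct.inr μ) =
      SemidirectProduct.inr (r.i b μ) := fun b μ => SemidirectProduct.map_inr _ _ _ _
  have e3 : ∀ b (ν : r.L), epsH Q r b (FreeGroup.of ν) = eps Q r b ν := fun b ν =>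
    FreeGroup.lift_apply_of
  constructor
  · intro hp
    have : p ∈ ((jr Q r false).prod (jr Q r true)).range := by
      refine (Subgroup.closure_le _).2 ?_ hp
      rintro _ ⟨ν, hν, rfl | rfl⟩
      · exact ⟨SemidirectProduct.inl (FreeGroup.of ⟨ν, hν⟩), by
          rw [MonoidHom.prod_apply, e1, e1, e3, e3]⟩
      · exact ⟨SemidirectProduct.inr ⟨ν, hν⟩, by rw [MonoidHom.prod_apply, e2, e2]⟩
    obtain ⟨d, hd⟩ := this
    exact ⟨d, congrArg Prod.fst hd, congrArg Prod.snd hd⟩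
  · rintro ⟨d, h1, h2⟩
    have : p = ((jr Q r false).prod (jr Q r true)) d := Prod.ext h1.symm h2.symm
    rw [this, ← SemidirectProduct.inl_left_mul_inr_right d, map_mul]
    refine mul_mem ?_ (Subgroup.subset_closure ⟨d.right, d.right.2, Or.inr ?_⟩)
    · induction d.left using FreeGroup.induction_on with
      | C1 => rw [map_one, map_one]; exact one_mem _
      | of ν =>
        exact Subgroup.subset_closure ⟨ν, ν.2, Or.inl (by rw [MonoidHom.prod_apply, e1, e1, e3, e3])⟩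
      | inv_of ν ih => rw [map_inv, map_inv]; exact inv_mem ih
      | mul x y hx hy => rw [map_mul, map_mul]; exact mul_mem hx hy
    · rw [MonoidHom.prod_apply, e2, e2]

theorem ure_jr : URE fun i (p : V0 St κ (Q i) × V0 St κ (Q i)) =>
    ∃ d, jr (Q i) (r i) false d = p.1 ∧ jr (Q i) (r i) true d = p.2 := by
  have := rgrp_V0 hN
  refine URE.of_iff (URE.closure (G := fun i => V0 St κ (Q i) × V0 St κ (Q i)) ?_)
    fun i p => graph_jr (r i) p
  exact Cert.exists (P := fun i (p : V0 St κ (Q i) × V0 St κ (Q i)) (ν : Lam κ) _ => ν ∈ (r i).L ∧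
      ((SemidirectProduct.inl (eps (Q i) (r i) false ν),
        SemidirectProduct.inl (eps (Q i) (r i) true ν)) = p ∨
        (SemidirectProduct.inr ((r i).i false ν), SemidirectProduct.inr ((r i).i true ν)) = p))
    ((Cert.comp hr.mem_L Trk.id.snd).and (Cert.or
      (Cert.eq ((trk_inl (trk_eps hN hr false Trk.id.snd)).pair
        (trk_inl (trk_eps hN hr true Trk.id.snd))) Trk.id.fst)
      (Cert.eq ((trk_inr ((hr.i false).comp Trk.id.snd)).pair
        (trk_inr ((hr.i true).comp Trk.id.snd))) Trk.id.fst)))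

end rule

variable [Finite J] [Primcodable J] {m : K.I → MIn St κ J} (hm : MEff m)
include hm

theorem ure_DV : URE fun i (p : J × V0 St κ (Q i) × V0 St κ (Q i)) =>
    ∃ d, (DV (Q i) (m i)).i p.1 false d = p.2.1 ∧ (DV (Q i) (m i)).i p.1 true d = p.2.2 :=
  Cert.fin_cases (P := fun j i (p : J × V0 St κ (Q i) × V0 St κ (Q i)) _ =>
      ∃ d, (DV (Q i) (m i)).i j false d = p.2.1 ∧ (DV (Q i) (m i)).i j true d = p.2.2)
    (fun j => Cert.comp (ure_jr hN (hm.R j)) Trk.id.snd) Trk.id.fst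

variable [Rep K fun i => V (Q i) (m i)] [RGrp K fun i => V (Q i) (m i)]
  (hV : RSplit fun i => MH.split (DV (Q i) (m i)))
include hV

omit hN hm in
theorem trk_vN {f : ∀ i, X i → N St κ (Q i)} (hf : Trk f) :
    Trk fun i x => vN (Q i) (m i) (f i x) := hV.mh_of (trk_inl hf)

theorem trk_com : Trk fun i (x : Bool ⊕ J) => com (Q i) (m i) x := by
  refine Trk.fin_cases (g := fun a i (_ : Bool ⊕ J) => com (Q i) (m i) a) (fun a => ?_) Trk.id
  rcases a with (_ | _) | j
  · exact trk_vN hV (trk_tN hN hm.ω0.trk)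
  · exact trk_vN hV (trk_dN hN)
  · exact hV.mh_t (Trk.const j)

omit hN hm hV in
theorem trk_lgen [DecidableEq κ] (a : Bool ⊕ κ) : Trk fun i (_ : X i) => Rule.lgen a := by
  rcases a with a | c
  · exact (Trk.of (Trk.const a)).pair Trk.one
  · exact Trk.one.pair (Trk.pi fun c' => Trk.ofAdd (Trk.const
      (Multiplicative.toAdd ((Pi.mulSingle c (Multiplicative.ofAdd 1) : κ → Multiplicative ℤ) c'))))

omit hm in
theorem trk_genV [Finite St] [DecidableEq κ] [Primcodable κ] :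
    Trk fun i (a : Gen St κ J) => genV (Q i) (m i) a := by
  refine Trk.fin_cases (g := fun a i (_ : Gen St κ J) => genV (Q i) (m i) a) (fun a => ?_) Trk.id
  rcases a with a | q | j | x | _ | _
  · exact hV.mh_of (trk_inr (trk_lgen a))
  · exact trk_vN hV (trk_tN hN ((Trk.const q).pair Trk.one))
  · exact hV.mh_t (Trk.const j)
  · exact trk_vN hV (trk_bN hN (Trk.of (Trk.const x)))
  · exact trk_vN hV (trk_dN hN)
  · exact Trk.one

omit hm in
theorem trk_rV : Trk fun i (x : V (Q i) (m i)) => rV (Q i) (m i) x :=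
  mh_hom hV (fun i => rV (Q i) (m i))
    ((hV.mh_of (trk_r0 hN)).of_eq fun _ x => (rV_of _ _ x).symm)
    ((hV.mh_t Trk.id).of_eq fun _ j => (rV_t _ _ j).symm)

/-! ### certificates -/

variable {F : ∀ i, Filt (Q i)} {c₀ : ℕ}

omit hN hm hV in
theorem nmem_X {S : Set Fr} (hS : URE (K := K) fun _ (w : Fr) => w ∉ S) {T : ∀ i, Set (Q i)}
    (hT : NMem F T c₀ 0) : NMem (fun i => LX (F i)) (fun i => S ×ˢ T i) c₀ 0 := by
  have h1 : NMem (fun i => LX (F i)) (fun i => {x | x.1 ∈ S}) c₀ 0 :=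
    NMem.of_ure (T := fun i => {x : Fr × Q i | x.1 ∈ S}) (Cert.comp hS Trk.id.fst) c₀ 0
  have h2 : NMem (fun i => LX (F i)) (fun i => Prod.snd ⁻¹' T i) c₀ 0 :=
    hT.comap Trk.id.snd fun i x n hx => ⟨n, hx, le_rfl⟩
  exact (h1.inter h2).congr fun i x => Iff.rfl

omit hN hm hV in
theorem ure_ne_one : URE (K := K) fun _ (w : Fr) => w ∉ ({1} : Set Fr) :=
  Cert.ne Trk.id Trk.one

omit hN hm hV in
theorem nmemA_N (h1 : NMem F (fun _ => {1}) c₀ 0) :
    NMemA (fun i => MH.split (DN St κ (Q i))) (fun i => LX (F i)) c₀ 0 :=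
  NMemA.of_eq (nmem_X ure_ne_one h1) fun i e => by
    rw [MH.free_A]
    ext x
    simp [Prod.ext_iff]

omit hN hm hV in
theorem redCtl_N (i : K.I) : (MH.split (DN St κ (Q i))).RedCtl (LX (F i)) (fun _ => 0) (LN (F i)) :=
  (MH.split _).supF_redCtl (supOK_free (LX (F i)))

omit hm hV in
theorem nmem_N (h1 : NMem F (fun _ => {1}) c₀ 0) {T : ∀ i, Set (Q i)} (hT : NMem F T c₀ 0) :
    NMem (fun i => (LN (F i) : Filt (N St κ (Q i)))) (fun i => qN (Q i) '' T i) c₀ 0 := by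
  refine (hN.nmem_of (nmemA_N h1) (fun i _ => redCtl_N i) (nmem_X ure_ne_one hT)).congr
    fun i x => ⟨?_, ?_⟩
  · rintro ⟨⟨a, q⟩, ⟨h2, h3⟩, rfl⟩
    obtain rfl : a = 1 := h2
    exact ⟨q, h3, rfl⟩
  · rintro ⟨q, h, rfl⟩
    exact ⟨(1, q), ⟨rfl, h⟩, rfl⟩

omit hm hV in
theorem nmem_N1 (h1 : NMem F (fun _ => {1}) c₀ 0) :
    NMem (fun i => (LN (F i) : Filt (N St κ (Q i)))) (fun _ => {1}) c₀ 0 :=
  (nmem_N hN h1 h1).congr fun i x => by simp

omit hN hm hV in
theorem mem_XB {Q : Type} [Group Q] (β : C → Fr) (x : Fr × Q) :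
    x ∈ XB Q β ↔ x.1 ∈ (FreeGroup.lift β).range ∧ x.2 = 1 := by
  constructor
  · rintro ⟨w, hw, rfl⟩
    exact ⟨hw, rfl⟩
  · rintro ⟨h1, h2⟩
    exact ⟨x.1, h1, Prod.ext rfl h2.symm⟩

omit hm hV in
theorem nmem_BN (h1 : NMem F (fun _ => {1}) c₀ 0) {β : C → Fr}
    (hβ : URE (K := K) fun _ (w : Fr) => w ∉ (FreeGroup.lift β).range)
    (hH : URE fun i (ω : St × Lam κ) => ω ∉ (m i).H0) :
    NMem (fun i => (LN (F i) : Filt (N St κ (Q i)))) (fun i => BN (Q i) (m i) β) c₀ 0 := by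
  refine hN.nmem_good_le (nmemA_N h1) (fun i _ => redCtl_N i) (fun i => isGood_N (Q i) (m i) β)
    (fun i e _ => by rw [MH.free_A]; exact bot_le) ?_ ?_
  · exact (nmem_X (S := (FreeGroup.lift β).range) hβ h1).congr fun i x => (mem_XB β x).symm
  · refine URE.cert ?_ fun _ _ => le_top
    refine (Cert.exists (P := fun i (e : Option (St × Lam κ) × Bool) (ω : St × Lam κ) _ =>
      e.1 = some ω ∧ ω ∉ (m i).H0) ((Cert.eq Trk.id.fst.fst (trk_some Trk.id.snd)).and
        (Cert.comp hH Trk.id.snd))).of_iff fun i e _ => ?_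
    simp [LB]

omit hV in
theorem ure_BN [Finite C] [Primcodable C] (β : C → Fr) :
    URE fun i x => x ∈ BN (Q i) (m i) β := by
  refine hN.ure_gsub ?_ ?_
  · have h : URE (K := K) fun _ (w : Fr) => w ∈ range (FreeGroup.lift β) :=
      URE.range (f := fun _ (w : FreeGroup C) => FreeGroup.lift β w) (Trk.lift (trk_beta β) Trk.id)
    exact ((Cert.comp h Trk.id.fst).and (Cert.eq Trk.id.snd Trk.one)).of_iff
      fun i x _ => (mem_XB β x).symm
  · refine (Cert.or (Cert.eq Trk.id.fst trk_none)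
      (Cert.exists (P := fun i (e : Option (St × Lam κ) × Bool) (ω : St × Lam κ) _ =>
        e.1 = some ω ∧ ω ∈ (m i).H0) ((Cert.eq Trk.id.fst.fst (trk_some Trk.id.snd)).and
        (Cert.comp hm.mem_H0 Trk.id.snd)))).of_iff fun i e _ => ?_
    rcases e with ⟨_ | ω, b⟩
    · simp [LB]
    · exact ⟨fun h _ e => h.elim (fun h => nomatch h) fun ⟨_, e', h⟩ =>
        Option.some.inj (e'.symm.trans e) ▸ h,
        fun h => Or.inr ⟨ω, rfl, h ω rfl⟩⟩

omit hN hm hV in
theorem nmem_0 {T : ∀ i, Set (N St κ (Q i))} (hT : NMem (fun i => LN (F i)) T c₀ 0) :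
    NMem (fun i => (L0 (F i) : Filt (V0 St κ (Q i)))) (fun i => SemidirectProduct.inl '' T i)
      c₀ 0 := by
  have h1 : NMem (fun i => (L0 (F i) : Filt (V0 St κ (Q i)))) (fun i => {x | x.right = 1}) c₀ 0 :=
    NMem.of_ure (Cert.ne (trk_right Trk.id) Trk.one) c₀ 0
  have h2 : NMem (fun i => (L0 (F i) : Filt (V0 St κ (Q i))))
      (fun i => SemidirectProduct.left ⁻¹' T i) c₀ 0 :=
    hT.comap (trk_left Trk.id) fun i x n hx => ⟨n, hx, le_rfl⟩
  refine (h1.inter h2).congr fun i x => ⟨fun h => ⟨x.left, h.2, ?_⟩, ?_⟩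
  · exact SemidirectProduct.ext rfl h.1.symm
  · rintro ⟨y, hy, rfl⟩
    exact ⟨rfl, hy⟩

omit hm hV in
theorem nmem_step {r : K.I → Rule St κ} (hr : REff r) (b : Bool) {T : ∀ i, Set (N St κ (Q i))}
    (hT : NMem (fun i => LN (F i)) T c₀ 0) :
    NMem (fun i => (L0 (F i) : Filt (V0 St κ (Q i)))) (fun i => {g | g.right ∈ (r i).i b '' (r i).L ∧
      g.left * (rho (Q i) (r i) b g.left)⁻¹ ∈ T i}) c₀ 0 := by
  have h1 : NMem (fun i => (L0 (F i) : Filt (V0 St κ (Q i))))
      (fun i => {g | g.right ∈ (r i).i b '' (r i).L}) c₀ 0 :=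
    NMem.of_ure (T := fun i => {g : V0 St κ (Q i) | g.right ∈ (r i).i b '' (r i).L})
      (Cert.comp (hr.notMem_i b) (trk_right Trk.id)) c₀ 0
  have h2 : NMem (fun i => (L0 (F i) : Filt (V0 St κ (Q i))))
      (fun i => (fun g => g.left * (rho (Q i) (r i) b g.left)⁻¹) ⁻¹' T i) c₀ 0 :=
    hT.comap ((trk_left Trk.id).mul ((trk_rho hN hr b).comp (trk_left Trk.id)).inv)
      fun i x n hx => ⟨n + 0, (LN (F i)).mul hx ((LN (F i)).inv (LN_epsH _ _ _ _)), le_rfl⟩
  exact h1.inter h2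

omit hV in
theorem nmemA_V (h1 : NMem F (fun _ => {1}) c₀ 0) :
    NMemA (fun i => MH.split (DV (Q i) (m i))) (fun i => L0 (F i)) c₀ 0 := by
  have := rgrp_V0 hN
  refine NMemA.of_fin fun e => (nmem_step hN (hm.R e.1) e.2 (nmem_N1 hN h1)).congr fun i x => ?_
  refine Iff.trans ?_ (mem_range_jr (Q i) ((m i).R e.1) e.2 x).symm
  exact and_congr_right fun _ => mul_inv_eq_one.trans eq_comm

omit hN hm hV in
theorem redCtl_V (i : K.I) :
    (MH.split (DV (Q i) (m i))).RedCtl (L0 (F i)) (fun _ => 0) (LV (F i) (m i)) :=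
  (MH.split _).supF_redCtl (supOK_V (F i) (m i))

theorem nmem_V (h1 : NMem F (fun _ => {1}) c₀ 0) {T : ∀ i, Set (Q i)} (hT : NMem F T c₀ 0) :
    NMem (fun i => LV (F i) (m i)) (fun i => vN (Q i) (m i) '' (qN (Q i) '' T i)) c₀ 0 := by
  have := rgrp_V0 hN
  refine (hV.nmem_of (nmemA_V hN hm h1) (fun i _ => redCtl_V i)
    (nmem_0 (nmem_N hN h1 hT))).congr fun i x => ?_
  rw [image_image]
  rfl

theorem nmem_Ap [Finite C] [Primcodable C] (h1 : NMem F (fun _ => {1}) c₀ 0) {β : C → Fr}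
    {c : ∀ i, C → Q i} (hv : ∀ i, Valid (m i) β (c i))
    (hβ : URE (K := K) fun _ (w : Fr) => w ∉ (FreeGroup.lift β).range)
    (hH : URE fun i (ω : St × Lam κ) => ω ∉ (m i).H0) :
    NMem (fun i => LV (F i) (m i)) (fun i => Ap (Q i) (m i) β) c₀ 0 := by
  have := rgrp_V0 hN
  have hB := nmem_BN hN h1 hβ hH
  refine hV.nmem_good_zero (nmemA_V hN hm h1) (fun i _ => redCtl_V i) (fun i => (hv i).isGood_V)
    (fun i x hx => ?_) (hV.ure_gsub ?_ Cert.true) (nmem_0 hB) ?_
  · rw [← rV_of_mem (Q i) (m i) β hx]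
    exact LV_rV _ _ _
  · exact URE.image (trk_inl Trk.id) (S := fun i => (BN (Q i) (m i) β : Set (N St κ (Q i))))
      (ure_BN hN hm β)
  · refine (Cert.fin_cases (P := fun (e : J × Bool) i (p : (J × Bool) × V0 St κ (Q i)) n =>
      ¬ (p.2.right ∈ ((m i).R e.1).i e.2 '' ((m i).R e.1).L ∧
        p.2.left * (rho (Q i) ((m i).R e.1) e.2 p.2.left)⁻¹ ∈ BN (Q i) (m i) β) ∧
        Lev (L0 (F i)) c₀ 0 p.2 n)
      (fun e => Cert.comp (nmem_step hN (hm.R e.1) e.2 hB) Trk.id.snd) Trk.id.fst).of_iff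
      fun i p n => ?_
    rw [← (hv i).step_iff p.1.1 p.1.2 p.2]
    simp only [mem_univ, true_and]
    rfl

end Crest.Agent.R185.Hig.VRep

namespace Crest.Agent.R185.Hig
variable {K : Ctx} {St κ J C : Type} [Finite St] [Primcodable St] [Fintype κ] [DecidableEq κ]
  [Primcodable κ] [Finite J] [Primcodable J] [Finite C] [Primcodable C]
  {Q : K.I → Type} [∀ i, Group (Q i)] [Rep K Q] [RGrp K Q] {m : K.I → MIn St κ J}

attribute [local instance] VRep.repOpt VRep.rneOpt

open VRep in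
theorem v_rep' (hm : MEff m) :
    ∃ _ : Rep K fun i => V (Q i) (m i), RGrp K (fun i => V (Q i) (m i)) ∧
      (Trk fun i x => vN (Q i) (m i) (xN (Q i) x)) ∧ (Trk fun i x => com (Q i) (m i) x) ∧
      (Trk fun i a => genV (Q i) (m i) a) ∧ (Trk fun i x => rV (Q i) (m i) x) ∧
      ∀ (F : ∀ i, Filt (Q i)) (c₀ : ℕ), NMem F (fun _ => {1}) c₀ 0 →
        (∀ T : ∀ i, Set (Q i), NMem F T c₀ 0 →
          NMem (fun i => LV (F i) (m i)) (fun i => vN (Q i) (m i) '' (qN (Q i) '' T i)) c₀ 0) ∧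
        ∀ (β : C → Fr) (c : ∀ i, C → Q i), (∀ i, Valid (m i) β (c i)) →
          (URE (K := K) fun _ (w : Fr) => w ∉ (FreeGroup.lift β).range) →
          (URE fun i (ω : St × Lam κ) => ω ∉ (m i).H0) →
          NMem (fun i => LV (F i) (m i)) (fun i => Ap (Q i) (m i) β) c₀ 0 := by
  obtain ⟨rN, gN, hN⟩ := MH.exists_rep_free (K := K) (G := fun i => Fr × Q i)
    (L := fun _ => Option (St × Lam κ))
  have := rgrp_V0 hN
  obtain ⟨rV, gV, hV⟩ := MH.exists_rep (K := K) (L := fun _ => J) (fun i => DV (Q i) (m i))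
    (ure_DV hN hm)
  exact ⟨rV, gV, trk_vN hV (trk_xN hN Trk.id), trk_com hN hm hV, trk_genV hN hV, trk_rV hN hV,
    fun F c₀ h1 => ⟨fun T hT => nmem_V hN hm hV h1 hT,
      fun β c hv hβ hH => nmem_Ap hN hm hV h1 hv hβ hH⟩⟩

end Crest.Agent.R185.Hig
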