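import Crest.Agent.R185.HigKL
import Crest.Agent.R185.HigPres
import Crest.Agent.R185.CubeREAux
import Crest.Agent.R185.HigREAux
/-! Row 185: certificates in the Higman tower. -/
set_option autoImplicit false
open Set

namespace Crest.Agent.R185

section general
variable {K : Ctx} {B Γ E : K.I → Type} [∀ i, Group (B i)] [∀ i, Group (Γ i)] [Rep K B]
  [Rep K Γ] [Rep K E] [RGrp K B] [RGrp K Γ] {S : ∀ i, Split (B i) (Γ i) (E i)}

/-- `RSplit.nmem_of` with arbitrary level predicates. -/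
theorem RSplit.cert_of [RNe K E] (h : RSplit S) {LB : ∀ i, B i → ℕ∞ → Prop}
    {LG : ∀ i, Γ i → ℕ∞ → Prop} (hB : ∀ i g, LB i g ⊤) (hG : ∀ i x, LG i x ⊤)
    (hA : Cert fun i (p : E i × B i) m => p.2 ∉ (S i).A p.1 ∧ LB i p.2 m)
    (hF : ∀ i x (m : ℕ), K.Nice i → LG i x m → ∃ g l, (S i).Red l ∧ (S i).ev g l = x ∧
      LB i g m ∧ ∀ p ∈ l, LB i p.2 m)
    {T : ∀ i, Set (B i)} (hT : Cert fun i g m => g ∉ T i ∧ LB i g m) :
    Cert fun i x m => x ∉ (S i).of '' T i ∧ LG i x m := by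
  have h1 : Cert fun i (l : List (E i × B i)) m => l.IsChain fun p q =>
      q.1 ≠ (S i).bar p.1 ∨ (p.2 ∉ (S i).A q.1 ∧ LB i p.2 m) := by
    refine Cert.isChain (P := fun i _ (p q : E i × B i) m =>
      q.1 ≠ (S i).bar p.1 ∨ (p.2 ∉ (S i).A q.1 ∧ LB i p.2 m)) Trk.id ?_
    exact Cert.or (Cert.ne Trk.id.snd.snd.fst (h.bar.comp Trk.id.snd.fst.fst))
      (Cert.comp hA (Trk.id.snd.snd.fst.pair Trk.id.snd.fst.snd))
  have hred : Cert fun i (l : List (E i × B i)) m => (S i).Red l ∧ ∀ p ∈ l, LB i p.2 m := by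
    refine h1.mono (fun i l hl => ⟨hl.imp fun p q hpq hn => ?_, fun _ _ => hB _ _⟩)
      fun i l m hl => List.IsChain.imp_of_mem_imp (fun p q hp _ hpq => ?_) hl.1
    · exact hpq.elim (fun h2 => h2 hn.1) fun h2 => h2.1 hn.2
    · by_cases h2 : q.1 = (S i).bar p.1
      · exact Or.inr ⟨fun h3 => hpq ⟨h2, h3⟩, hl.2 p hp⟩
      · exact Or.inl h2
  have hQ : Cert fun i (u : B i × List (E i × B i)) m =>
      0 < u.2.length ∨ (u.1 ∉ T i ∧ LB i u.1 m) :=
    Cert.or (Cert.nat_lt (Trk.const 0) Trk.id.snd.length) (Cert.comp hT Trk.id.fst)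
  have hpath : Cert fun i (x : Γ i) m => ∃ u : B i × List (E i × B i), ((S i).ev u.1 u.2 = x ∧
      ((S i).Red u.2 ∧ ∀ p ∈ u.2, LB i p.2 m)) ∧ (0 < u.2.length ∨ (u.1 ∉ T i ∧ LB i u.1 m)) :=
    Cert.exists (((Cert.eq (h.ev Trk.id.snd.fst Trk.id.snd.snd) Trk.id.fst).and
      (Cert.comp hred Trk.id.snd.snd)).and (Cert.comp hQ Trk.id.snd))
  refine hpath.mono' (fun i x hx => ⟨?_, hG _ _⟩) fun i x m hN hx => ?_
  · obtain ⟨⟨g, l⟩, ⟨rfl, h1, -⟩, h2⟩ := hx
    rintro ⟨g', hg', h3⟩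
    obtain ⟨h4, h5⟩ := (S i).eq_nil_of_ev_eq_of h1 h3.symm
    dsimp only at h2 h4 h5
    subst h4 h5
    exact h2.elim (fun h6 => by simp at h6) fun h6 => h6.1 hg'
  · obtain ⟨g, l, h3, h4, h5, h6⟩ := hF i x m hN hx.2
    refine ⟨(g, l), ⟨h4, h3, h6⟩, ?_⟩
    cases l with
    | nil => exact Or.inr ⟨fun hg => hx.1 ⟨g, hg, h4⟩, h5⟩
    | cons p l => exact Or.inl (Nat.succ_pos _)

end general

namespace Hig
variable {K : Ctx} {St κ J C : Type} [Finite St] [Primcodable St] [Fintype κ] [DecidableEq κ] [Primcodable κ]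
  [Finite J] [Primcodable J] [Finite C] [Primcodable C]

section aux
variable {X T : K.I → Type} [Rep K X] [∀ i, Group (T i)] [Rep K T] [RGrp K T]
  {τ : ∀ i, Gen St κ J → T i}

theorem higre_trk_fr (w : Fr) : Trk fun i (_ : X i) => w := by
  obtain ⟨l, rfl⟩ := regrp_mk_surj Bool w
  exact Trk.mk (L := fun _ => Bool) (Trk.const l)

omit [Primcodable κ] in
theorem higre_trk_lgen (a : Bool ⊕ κ) : Trk fun i (_ : X i) => (Rule.lgen a : Lam κ) :=
  (higre_trk_fr (Rule.lgen a).1).pair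
    (Trk.pi fun k => Trk.ofAdd (Trk.const (Multiplicative.toAdd ((Rule.lgen a).2 k))))

theorem higre_trk_cm {f g : ∀ i, X i → T i} (hf : Trk f) (hg : Trk g) :
    Trk fun i x => cm (f i x) (g i x) :=
  ((hf.mul hg).mul hf.inv).mul hg.inv

omit [Finite St] [Finite J] [DecidableEq κ] in
theorem higre_trk_lamT (hτ : Trk τ) {ν : ∀ i, X i → Lam κ} (hν : Trk ν) :
    Trk fun i x => lamT (τ i) (ν i x) := by
  have h1 : Trk fun i (a : Bool) => τ i (gL (.inl a)) :=
    Trk.fin_cases (g := fun a i (_ : Bool) => τ i (gL (.inl a)))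
      (fun a => hτ.comp (Trk.const _)) Trk.id
  have h2 : ∀ l : List κ, Trk fun i x =>
      (l.map fun a => τ i (gL (.inr a)) ^ ((ν i x).2 a).toAdd).prod := by
    intro l
    induction l with
    | nil => exact Trk.one
    | cons a l ih =>
      exact (((hτ.comp (Trk.const _)).zpow (Trk.toAdd (hν.snd.apply a))).mul ih).of_eq
        fun i x => by rw [List.map_cons, List.prod_cons]
  exact (Trk.lift h1 hν.fst).mul (h2 _)

omit [Finite St] [Finite J] [DecidableEq κ] [Fintype κ] in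
theorem higre_trk_bT (hτ : Trk τ) {w : ∀ i, X i → Fr} (hw : Trk w) :
    Trk fun i x => bT (τ i) (w i x) := by
  have h1 : Trk fun i (a : Bool) => τ i (gB a) :=
    Trk.fin_cases (g := fun a i (_ : Bool) => τ i (gB a)) (fun a => hτ.comp (Trk.const _)) Trk.id
  exact Trk.lift h1 hw

omit [Finite J] [DecidableEq κ] in
theorem higre_trk_tT (hτ : Trk τ) {ω : ∀ i, X i → St × Lam κ} (hω : Trk ω) :
    Trk fun i x => tT (τ i) (ω i x) := by
  have h1 : Trk fun i (q : St) => τ i (gS q) :=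
    Trk.fin_cases (g := fun a i (_ : St) => τ i (gS a)) (fun a => hτ.comp (Trk.const _)) Trk.id
  exact ((higre_trk_lamT hτ hω.snd).mul (h1.comp hω.fst)).mul (higre_trk_lamT hτ hω.snd).inv

omit [Finite J] [DecidableEq κ] in
theorem higre_trk_epsT (hτ : Trk τ) {r : K.I → Rule St κ} (hr : REff r) (b : Bool)
    {ν : ∀ i, X i → Lam κ} (hν : Trk ν) : Trk fun i x => epsT (τ i) (r i) b (ν i x) := by
  have h1 : Trk fun i (_ : X i) => ((r i).tw && b) := by
    cases b
    · exact (Trk.const false).of_eq fun i _ => by simp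
    · exact hr.tw.trk.of_eq fun i _ => by simp
  exact (higre_trk_tT hτ ((hr.o b).comp hν)).mul
    (Trk.cond h1 ((higre_trk_bT hτ hν.fst).inv.mul (hτ.comp (Trk.const _))) Trk.one)

omit [Finite St] [Finite J] [DecidableEq κ] [Fintype κ] in
theorem higre_trk_cT (hτ : Trk τ) {w : ∀ i, X i → Fr} (hw : Trk w) :
    Trk fun i x => cT (τ i) (w i x) :=
  (((higre_trk_bT hτ hw).inv.mul (hτ.comp (Trk.const _)).inv).mul (higre_trk_bT hτ hw)).mul
    (hτ.comp (Trk.const _))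

end aux

/-- The relators are computable. -/
theorem trk_relT {T : K.I → Type} [∀ i, Group (T i)] [Rep K T] [RGrp K T]
    {τ : ∀ i, Gen St κ J → T i} (hτ : Trk τ) {m : K.I → MIn St κ J} (hm : MEff m) (β : C → Fr)
    (x : RelIx κ J C) : TrkC fun i => relT (τ i) (m i) β x := by
  refine Trk.trkC ?_
  have hg : ∀ a : Gen St κ J, Trk fun i (_ : ℕ) => τ i a := fun a => hτ.comp (Trk.const a)
  have hcT : ∀ w : Fr, Trk fun i (_ : ℕ) => cT (τ i) w := fun w =>
    higre_trk_cT hτ (higre_trk_fr w)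
  rcases x with p | p | p | p | a | j | p | x
  · exact higre_trk_cm (hg _) (hg _)
  · exact higre_trk_cm (hg _) (hg _)
  · exact higre_trk_cm (hg _) (hcT _)
  · exact higre_trk_cm (hcT _) (hg _)
  · exact (((hg _).mul (hg _)).mul (hg _).inv).mul
      ((higre_trk_bT hτ (higre_trk_fr _)).inv.mul (hg _)).inv
  · exact ((higre_trk_epsT hτ (hm.R j) false Trk.one).mul (hg _)).mul
      ((hg _).mul (higre_trk_epsT hτ (hm.R j) true Trk.one)).inv
  · classical
    have h1 := Trk.ite (X := fun _ => ℕ) (c := fun i _ => Rule.lgen p.2 ∈ ((m i).R p.1).L)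
      (Cert.comp (hm.R p.1).mem_L (higre_trk_lgen p.2))
      (Cert.comp (hm.R p.1).notMem_L (higre_trk_lgen p.2))
      (((higre_trk_lamT hτ (((hm.R p.1).i false).comp (higre_trk_lgen p.2))).mul (hg (gR p.1))).mul
        ((hg (gR p.1)).mul
          (higre_trk_lamT hτ (((hm.R p.1).i true).comp (higre_trk_lgen p.2)))).inv)
      Trk.one
    refine h1.of_eq fun i _ => ?_
    simp only [relT]
  · refine higre_trk_cm ?_ (hg _)
    rcases x with (_ | _) | j
    · exact higre_trk_tT hτ hm.ω0.trk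
    · exact hg _
    · exact hg _

theorem trk_cT {T : K.I → Type} [∀ i, Group (T i)] [Rep K T] [RGrp K T]
    {τ : ∀ i, Gen St κ J → T i} (hτ : Trk τ) : Trk fun i (w : Fr) => cT (τ i) w := by
  exact higre_trk_cT hτ Trk.id

/-- Representation of the finitely presented group. -/
theorem a0_rep {m : K.I → MIn St κ J} (hm : MEff m) (β : C → Fr) :
    ∃ _ : Rep K fun i => A0 (m i) β, RGrp K (fun i => A0 (m i) β) ∧
      Trk fun i => gen0 (m i) β := by
  have h1 : URE (K := K) fun i (x : FreeGroup (Gen St κ J)) =>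
      x ∈ range (relT FreeGroup.of (m i) β) := by
    have h2 : URE (K := K) fun i (x : FreeGroup (Gen St κ J)) =>
        ∃ r : RelIx κ J C, x = relT FreeGroup.of (m i) β r :=
      Cert.exists_fin fun r => trk_relT (T := fun _ => FreeGroup (Gen St κ J))
        (τ := fun _ => FreeGroup.of) (Trk.of Trk.id) hm β r
    exact h2.of_iff fun i x => exists_congr fun r => eq_comm
  obtain ⟨R, hR, hf⟩ := RGrp.ofSurj (K := K) (G := fun _ => FreeGroup (Gen St κ J))
    (Q := fun i => A0 (m i) β) (fun i => PresentedGroup.mk _)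
    (fun i => PresentedGroup.mk_surjective _)
    (URE.of_iff (URE.normalClosure (G := fun _ => FreeGroup (Gen St κ J)) h1)
      fun i x => PresentedGroup.mk_eq_one_iff.symm)
  exact ⟨R, hR, hf.comp (Trk.of Trk.id)⟩

variable {Q : K.I → Type} [∀ i, Group (Q i)] [Rep K Q] [RGrp K Q]
  {m : K.I → MIn St κ J} {β : C → Fr} {c : ∀ i, C → Q i}

/-- Representation of `V` and certificates in terms of the size of the `Q`-parts. -/
theorem v_rep (hm : MEff m) :
    ∃ _ : Rep K fun i => V (Q i) (m i), RGrp K (fun i => V (Q i) (m i)) ∧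
      (Trk fun i x => vN (Q i) (m i) (xN (Q i) x)) ∧ (Trk fun i x => com (Q i) (m i) x) ∧
      (Trk fun i a => genV (Q i) (m i) a) ∧ (Trk fun i x => rV (Q i) (m i) x) ∧
      ∀ (F : ∀ i, Filt (Q i)) (c₀ : ℕ), NMem F (fun _ => {1}) c₀ 0 →
        (∀ T : ∀ i, Set (Q i), NMem F T c₀ 0 →
          NMem (fun i => LV (F i) (m i)) (fun i => vN (Q i) (m i) '' (qN (Q i) '' T i)) c₀ 0) ∧
        ∀ (β : C → Fr) (c : ∀ i, C → Q i), (∀ i, Valid (m i) β (c i)) →
          (URE (K := K) fun _ (w : Fr) => w ∉ (FreeGroup.lift β).range) →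
          (URE fun i (ω : St × Lam κ) => ω ∉ (m i).H0) →
          NMem (fun i => LV (F i) (m i)) (fun i => Ap (Q i) (m i) β) c₀ 0 :=
  v_rep' hm

/-- Non-membership of a word of length `n + 1` is certified by facts of size `n`. -/
theorem hig_cert (hm : MEff m) (hc : Trk c) (hv : ∀ i, Valid (m i) β (c i))
    (hH : URE fun i (ω : St × Lam κ) => ω ∉ (m i).H0) {M c₀ : ℕ} (hM : Shrink β M)
    (hMc : 34 * c₀ < M) (h1 : NMem (fun i => Filt.wl (c i)) (fun _ => {1}) c₀ 0)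
    {T : ∀ i, Subgroup (Q i)} (hT : NMem (fun i => Filt.wl (c i)) (fun i => T i) c₀ 0) :
    Cert fun i (w : List (Gen St κ J × Bool)) n =>
      FreeGroup.lift (genH (hv i)) (FreeGroup.mk w) ∉ (T i).map (iQ (hv i)) ∧
        (w.length : ℕ∞) ≤ n + 1 := by
  obtain ⟨RV, gV, hx, hcom, hgen, hrV, hN⟩ := v_rep (K := K) (Q := Q) (C := C) hm
  obtain ⟨hN1, hN2⟩ := hN (fun i => Filt.wl (c i)) c₀ h1
  have hAp := hN2 β c hv hM.ure_notMem hH
  have hVT := hN1 (fun i => T i) hT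
  have hV1 : NMem (fun i => LV (Filt.wl (c i)) (m i)) (fun _ => {1}) c₀ 0 :=
    (hN1 (fun _ => {1}) h1).congr fun i x => by simp
  have hgA : ∀ b, Trk fun i (a : (Bool ⊕ J) ⊕ C) => genA (m i) β (c i) b a := by
    intro b
    refine Trk.fin_cases (g := fun a i (_ : (Bool ⊕ J) ⊕ C) => genA (m i) β (c i) b a) ?_ Trk.id
    rintro (a | k)
    · exact hcom.comp (Trk.const a)
    · refine hx.comp ((higre_trk_fr (β k)).pair ?_)
      cases b
      · exact Trk.one
      · exact hc.comp (Trk.const k)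
  have hgraph : URE fun i (p : V (Q i) (m i) × V (Q i) (m i)) =>
      ∃ f : FreeGroup ((Bool ⊕ J) ⊕ C), FreeGroup.lift (genA (m i) β (c i) false) f = p.1 ∧
        FreeGroup.lift (genA (m i) β (c i) true) f = p.2 :=
    Cert.exists ((Cert.eq (Trk.lift (hgA false) Trk.id.snd) Trk.id.fst.fst).and
      (Cert.eq (Trk.lift (hgA true) Trk.id.snd) Trk.id.fst.snd))
  obtain ⟨RH, gH, hS⟩ := MH.exists_rep (K := K) (L := fun _ => Unit) (fun i => DH (hv i))
    (Cert.comp hgraph Trk.id.snd)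
  let LB : ∀ i, V (Q i) (m i) → ℕ∞ → Prop := fun i g k =>
    k = ⊤ ∨ ∃ n, (FV (m i) (c i) M).le g n ∧ ((c₀ * ((32 * n + 2) / M) : ℕ) : ℕ∞) ≤ k
  let LG : ∀ i, H (hv i) → ℕ∞ → Prop := fun i x k =>
    k = ⊤ ∨ ∃ n, (Filt.wl (genH (hv i))).le x n ∧ 1 ≤ n ∧ (n : ℕ∞) ≤ k + 1
  have hLB : ∀ i g (k : ℕ), LB i g k →
      ∃ n, (FV (m i) (c i) M).le g n ∧ c₀ * ((32 * n + 2) / M) ≤ k := by
    rintro i g k (h | ⟨n, h2, h3⟩)
    · exact absurd h (ENat.natCast_ne_top k)
    · exact ⟨n, h2, Nat.cast_le.1 h3⟩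
  have hW : ∀ {U : ∀ i, Set (V (Q i) (m i))}, NMem (fun i => LV (Filt.wl (c i)) (m i)) U c₀ 0 →
      Cert fun i g k => g ∉ U i ∧ LB i g k := by
    intro U hU
    refine Cert.mono hU (fun i g hg => ⟨hg.1, Or.inl rfl⟩) fun i g k hg => ⟨hg.1, ?_⟩
    obtain ⟨n, h2, h3⟩ := hLB i g k hg.2
    refine (lev_coe _ _ _ _ _).2 ⟨16 * n / M, h2.2, le_trans ?_ h3⟩
    exact Nat.mul_le_mul_left _ (Nat.div_le_div_right (by omega))
  have hA0 : Cert fun i (g : V (Q i) (m i)) k =>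
      g ∉ (FreeGroup.lift (genA (m i) β (c i) false)).range ∧ LB i g k :=
    (hW hAp).of_iff fun i g k => by rw [(hv i).range_genA, SetLike.mem_coe]
  have hA1 : Cert fun i (g : V (Q i) (m i)) k =>
      g ∉ (FreeGroup.lift (genA (m i) β (c i) true)).range ∧ LB i g k := by
    have h4 : Cert fun i (g : V (Q i) (m i)) k =>
        (rV (Q i) (m i) g ∉ (Ap (Q i) (m i) β : Set _) ∧
          Lev (LV (Filt.wl (c i)) (m i)) c₀ 0 (rV (Q i) (m i) g) k) ∨
        ∃ y : V (Q i) (m i), (∃ f : FreeGroup ((Bool ⊕ J) ⊕ C),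
          FreeGroup.lift (genA (m i) β (c i) false) f = rV (Q i) (m i) g ∧
          FreeGroup.lift (genA (m i) β (c i) true) f = y) ∧
          (y⁻¹ * g ∉ ({1} : Set _) ∧ Lev (LV (Filt.wl (c i)) (m i)) c₀ 0 (y⁻¹ * g) k) :=
      Cert.or (Cert.comp hAp hrV)
        (Cert.exists (Cert.and (Cert.comp hgraph ((hrV.comp Trk.id.fst).pair Trk.id.snd))
          (Cert.comp hV1 (Trk.id.snd.inv.mul Trk.id.fst))))
    refine h4.mono (fun i g hg => ⟨?_, Or.inl rfl⟩) fun i g k hg => ?_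
    · rintro ⟨f₀, rfl⟩
      rcases hg with hg | ⟨y, ⟨f, h5, rfl⟩, h6, -⟩
      · refine hg.1 ?_
        rw [rV_genA, SetLike.mem_coe, ← (hv i).range_genA]
        exact ⟨f₀, rfl⟩
      · rw [rV_genA] at h5
        have h7 : f⁻¹ * f₀ ∈ (FreeGroup.lift (genA (m i) β (c i) false)).ker := by
          rw [MonoidHom.mem_ker, map_mul, map_inv, h5, inv_mul_cancel]
        rw [(hv i).ker_eq, MonoidHom.mem_ker, map_mul, map_inv] at h7
        exact h6 h7
    · obtain ⟨n, h2, h3⟩ := hLB i g k hg.2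
      by_cases h8 : rV (Q i) (m i) g ∈ Ap (Q i) (m i) β
      · rw [← (hv i).range_genA] at h8
        obtain ⟨f, hf⟩ := h8
        refine Or.inr ⟨_, ⟨f, hf, rfl⟩, fun h9 => hg.1 ⟨f, inv_mul_eq_one.1 h9⟩, ?_⟩
        have h10 := key (hv i) hM f (n := n) (hf ▸ h2.1)
        refine (lev_coe _ _ _ _ _).2 ⟨(16 * n + 2) / M + 16 * n / M,
          (LV _ _).mul ((LV _ _).inv h10) h2.2, le_trans ?_ h3⟩
        refine Nat.mul_le_mul_left _ (Nat.div_add_div_le_add_div.trans (le_of_eq ?_))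
        congr 1
        ring
      · exact Or.inl ⟨h8, (lev_coe _ _ _ _ _).2 ⟨0, LV_rV _ _ _, by simp⟩⟩
  have hA : Cert fun i (p : (Unit × Bool) × V (Q i) (m i)) k =>
      p.2 ∉ (MH.split (DH (hv i))).A p.1 ∧ LB i p.2 k := by
    refine Cert.fin_cases (P := fun e i (p : (Unit × Bool) × V (Q i) (m i)) k =>
      p.2 ∉ (MH.split (DH (hv i))).A e ∧ LB i p.2 k) ?_ Trk.id.fst
    rintro ⟨j, _ | _⟩
    · exact Cert.comp hA0 Trk.id.snd
    · exact Cert.comp hA1 Trk.id.snd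
  have hmain := hS.cert_of (LB := LB) (LG := LG) (fun _ _ => Or.inl rfl) (fun _ _ => Or.inl rfl)
    hA (fun i x k _ hx => by
      rcases hx with h | ⟨n, h2, h3, h4⟩
      · exact absurd h (ENat.natCast_ne_top k)
      have h5 : n ≤ k + 1 := by exact_mod_cast h4
      have h6 : c₀ * ((32 * n + 2) / M) ≤ k := by
        have h7 : (32 * n + 2) / M * M ≤ 32 * n + 2 := Nat.div_mul_le_self _ _
        have h8 : c₀ * ((32 * n + 2) / M) * M < n * M := by
          calc c₀ * ((32 * n + 2) / M) * M = c₀ * ((32 * n + 2) / M * M) := by ring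
            _ ≤ c₀ * (34 * n) := Nat.mul_le_mul_left _ (by omega)
            _ = n * (34 * c₀) := by ring
            _ < n * M := Nat.mul_lt_mul_of_pos_left hMc h3
        have := Nat.lt_of_mul_lt_mul_right h8
        omega
      obtain ⟨g, l, h7, h8, h9, h10⟩ := redCtl_H (hv i) hM x n h2
      exact ⟨g, l, h7, h8, Or.inr ⟨n, h9, Nat.cast_le.2 h6⟩,
        fun p hp => Or.inr ⟨n, (h10 p hp).1, Nat.cast_le.2 h6⟩⟩) (hW hVT)
  have hgH : Trk fun i (a : Gen St κ J) => genH (hv i) a := by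
    refine Trk.fin_cases (g := fun a i (_ : Gen St κ J) => genH (hv i) a) (fun a => ?_) Trk.id
    by_cases ha : a = gK
    · subst ha
      exact hS.mh_t (Trk.const ())
    · exact (hS.mh_of (hgen.comp (Trk.const a))).of_eq fun i _ => (genH_of_ne (hv i) ha).symm
  have e : ∀ i (x : H (hv i)), x ∈ (MH.split (DH (hv i))).of ''
      (vN (Q i) (m i) '' (qN (Q i) '' (T i : Set (Q i)))) ↔ x ∈ (T i).map (iQ (hv i)) := by
    intro i x
    rw [image_image, image_image]
    rfl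
  refine (Cert.comp hmain (Trk.lift hgH (Trk.mk Trk.id))).mono
    (fun i w hw => ⟨fun h => hw.1 ((e i _).2 h), by simp⟩)
    fun i w k hw => ⟨fun h => hw.1 ((e i _).1 h), Or.inr ⟨w.length, ⟨w, le_rfl, rfl⟩, ?_, hw.2⟩⟩
  cases w with
  | nil =>
    refine absurd ?_ hw.1
    rw [← FreeGroup.one_eq_mk, map_one]
    exact one_mem _
  | cons a w => exact Nat.succ_pos _

end Hig
end Crest.Agent.R185
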