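import Crest.Agent.R185.REGrp
/-! Row 185: a four-generated group with r.e. word problem containing all finitely presented
groups. -/
set_option autoImplicit false
open Set

namespace Crest.Agent.R185

namespace UnivGrp

/-- Generators: a finite list of relators and the number of a generator. -/
abbrev A : Type := List (List (ℕ × Bool)) × ℕ

/-- The relators of all finite presentations, on disjoint sets of generators. -/
def rels : Set (FreeGroup A) :=
  {x | ∃ q : List (List (ℕ × Bool)) × List (ℕ × Bool),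
    q.2 ∈ q.1 ∧ FreeGroup.mk (q.2.map fun p => (((q.1, p.1) : A), p.2)) = x}

/-- The free product of all finitely presented groups. -/
abbrev G1 : Type := PresentedGroup rels

theorem exists_emb_G1 (H : Type) [Group H] (hH : Group.IsFinitelyPresented H) :
    ∃ f : H →* G1, Function.Injective f := by
  classical
  obtain ⟨n, s, hs, ⟨e⟩⟩ := Group.IsFinitelyPresented.exists_mulEquiv_presentedGroup (G := H)
  let w : FreeGroup (Fin n) → List (ℕ × Bool) := fun x => x.toWord.map fun p => (p.1.val, p.2)
  let π : List (List (ℕ × Bool)) := hs.toFinset.toList.map w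
  have hw : ∀ (π' : List (List (ℕ × Bool))) (x : FreeGroup (Fin n)),
      FreeGroup.mk ((w x).map fun p => (((π', p.1) : A), p.2)) =
        FreeGroup.map (fun a : Fin n => ((π', a.val) : A)) x := by
    intro π' x
    conv_rhs => rw [← FreeGroup.mk_toWord (x := x), FreeGroup.map.mk]
    simp only [w, List.map_map]
    rfl
  let f0 : Fin n → G1 := fun a => PresentedGroup.of (π, a.val)
  have hf0 : ∀ x ∈ s, FreeGroup.lift f0 x = 1 := by
    intro x hx
    have h1 : FreeGroup.lift f0 =
        (PresentedGroup.mk rels).comp (FreeGroup.map fun a : Fin n => ((π, a.val) : A)) := by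
      ext a
      simp only [FreeGroup.lift_apply_of, MonoidHom.comp_apply, FreeGroup.map.of]
      rfl
    rw [h1, MonoidHom.comp_apply]
    refine PresentedGroup.one_of_mem ⟨(π, w x), ?_, hw π x⟩
    exact List.mem_map.2 ⟨x, by simpa using hx, rfl⟩
  let g0 : A → PresentedGroup s := fun a =>
    if h : a.1 = π ∧ a.2 < n then PresentedGroup.of ⟨a.2, h.2⟩ else 1
  have hg0 : ∀ x ∈ rels, FreeGroup.lift g0 x = 1 := by
    rintro _ ⟨⟨π', r⟩, hr, rfl⟩
    dsimp only at hr ⊢
    by_cases hπ : π' = π
    · subst hπ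
      obtain ⟨x, hx, rfl⟩ := List.mem_map.1 hr
      rw [hw]
      have h1 : (FreeGroup.lift g0).comp (FreeGroup.map fun a : Fin n => ((π, a.val) : A)) =
          PresentedGroup.mk s := by
        ext a
        simp only [FreeGroup.lift_apply_of, MonoidHom.comp_apply, FreeGroup.map.of, g0, true_and,
          a.2, dif_pos]
        rfl
      rw [← MonoidHom.comp_apply, h1]
      exact PresentedGroup.one_of_mem (by simpa using hx)
    · rw [FreeGroup.lift_mk]
      refine List.prod_eq_one fun y hy => ?_
      simp only [List.map_map, List.mem_map, Function.comp] at hy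
      obtain ⟨p, -, rfl⟩ := hy
      have : g0 (π', p.1) = 1 := dif_neg fun h => hπ h.1
      rw [this]
      cases p.2 <;> simp
  have hfg : (PresentedGroup.toGroup hg0).comp (PresentedGroup.toGroup hf0) = MonoidHom.id _ := by
    ext a
    simp only [MonoidHom.comp_apply, PresentedGroup.toGroup.of, f0, g0, true_and, a.2, dif_pos,
      MonoidHom.id_apply]
  have hinj : Function.Injective (PresentedGroup.toGroup hf0) :=
    Function.LeftInverse.injective (g := PresentedGroup.toGroup hg0) fun x => by
      rw [← MonoidHom.comp_apply, hfg]; rfl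
  exact ⟨(PresentedGroup.toGroup hf0).comp e.toMonoidHom, hinj.comp e.injective⟩

/-- Enumeration of the generators. -/
def en (i : ℤ) : A := (Encodable.decode (α := A) i.toNat).getD ([], 0)

theorem en_surj (a : A) : ∃ i, en i = a := ⟨(Encodable.encode a : ℕ), by simp [en]⟩

theorem en_primrec : Primrec en :=
  Primrec.option_getD.comp (Primrec.decode.comp Lib.Computability.int_toNat) (Primrec.const _)

/-- `G1 * F(ℤ)`. -/
abbrev E : Type := MH (HData.free G1 ℤ)

/-- The two free families. -/
def lt (j : Bool) (i : ℤ) : E :=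
  cond j (MH.of _ (PresentedGroup.of (en i)) * MH.t _ i) (MH.t _ i)

/-- The retraction killing `G1`. -/
def rho : E →* FreeGroup ℤ := MH.liftF 1 FreeGroup.of

theorem rho_lt (j : Bool) (i : ℤ) : rho (lt j i) = FreeGroup.of i := by
  cases j <;> simp [rho, lt]

theorem lift_lt_injective (j : Bool) (c : ℤ) :
    Function.Injective (FreeGroup.lift fun n : ℤ => lt j (n + c)) := by
  have h : rho.comp (FreeGroup.lift fun n : ℤ => lt j (n + c)) = FreeGroup.map fun n => n + c := by
    ext a
    simp only [MonoidHom.comp_apply, FreeGroup.lift_apply_of, rho_lt, FreeGroup.map.of]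
  have h2 : Function.Injective (rho.comp (FreeGroup.lift fun n : ℤ => lt j (n + c))) := by
    rw [h]; exact FreeGroup.map_injective (add_left_injective c)
  exact Function.Injective.of_comp (f := rho) h2

/-- The two shifts. -/
def HD : HData E Bool where
  D _ := FreeGroup ℤ
  i j b := FreeGroup.lift fun n : ℤ => lt j (n + cond b 1 0)
  ker_eq j := by
    rw [(MonoidHom.ker_eq_bot_iff _).2 (lift_lt_injective j _),
      (MonoidHom.ker_eq_bot_iff _).2 (lift_lt_injective j _)]

/-- The generators. -/
def gen (p : Bool × Bool) : MH HD := cond p.1 (MH.t HD p.2) (MH.of HD (lt p.2 0))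

theorem shift (j : Bool) (n : ℤ) :
    MH.of HD (lt j n) * MH.t HD j = MH.t HD j * MH.of HD (lt j (n + 1)) := by
  have h := MH.rel HD j (FreeGroup.of n)
  have h0 : HD.i j false (FreeGroup.of n) = lt j (n + 0) :=
    FreeGroup.lift_apply_of (f := fun n : ℤ => lt j (n + 0))
  have h1 : HD.i j true (FreeGroup.of n) = lt j (n + 1) :=
    FreeGroup.lift_apply_of (f := fun n : ℤ => lt j (n + 1))
  rwa [h0, h1, add_zero] at h

theorem gen_closure : Subgroup.closure (range gen) = ⊤ := by
  set S := Subgroup.closure (range gen)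
  have ht : ∀ j, MH.t HD j ∈ S := fun j => Subgroup.subset_closure ⟨(true, j), rfl⟩
  have hl : ∀ j n, MH.of HD (lt j n) ∈ S := by
    intro j n
    induction n using Int.induction_on with
    | zero => exact Subgroup.subset_closure ⟨(false, j), rfl⟩
    | succ n ih =>
      have : MH.of HD (lt j (n + 1)) = (MH.t HD j)⁻¹ * MH.of HD (lt j n) * MH.t HD j := by
        rw [mul_assoc, shift, inv_mul_cancel_left]
      rw [this]
      exact mul_mem (mul_mem (inv_mem (ht j)) ih) (ht j)
    | pred n ih =>
      have : MH.of HD (lt j (-n - 1)) = MH.t HD j * MH.of HD (lt j (-n)) * (MH.t HD j)⁻¹ := by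
        rw [eq_mul_inv_iff_mul_eq, shift, sub_add_cancel]
      rw [this]
      exact mul_mem (mul_mem (ht j) ih) (inv_mem (ht j))
  have hE : ∀ x : E, MH.of HD x ∈ S := by
    have h1 : Subgroup.closure (range (MH.of (HData.free G1 ℤ)) ∪ range (MH.t (HData.free G1 ℤ))) ≤
        S.comap (MH.of HD) := by
      rw [Subgroup.closure_le]
      rintro _ (⟨g, rfl⟩ | ⟨n, rfl⟩)
      · refine PresentedGroup.generated_by rels ((S.comap (MH.of HD)).comap (MH.of _)) ?_ g
        intro a
        obtain ⟨i, rfl⟩ := en_surj a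
        have : MH.of (HData.free G1 ℤ) (PresentedGroup.of (en i)) = lt true i * (lt false i)⁻¹ := by
          simp [lt]
        rw [Subgroup.mem_comap, Subgroup.mem_comap, this, map_mul, map_inv]
        exact mul_mem (hl _ _) (inv_mem (hl _ _))
      · exact hl false n
    intro x
    exact h1 (by rw [MH.closure_eq_top]; trivial)
  rw [eq_top_iff, ← MH.closure_eq_top HD, Subgroup.closure_le]
  rintro _ (⟨x, rfl⟩ | ⟨j, rfl⟩)
  · exact hE x
  · exact ht j

theorem re_wp :
    REPred fun w : List ((Bool × Bool) × Bool) => FreeGroup.lift gen (FreeGroup.mk w) = 1 := by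
  have h1 : URE (K := ctx0) fun _ (x : FreeGroup A) => x ∈ rels := by
    refine Cert.exists (K := ctx0)
      (P := fun _ (x : FreeGroup A) (q : List (List (ℕ × Bool)) × List (ℕ × Bool)) _ =>
        q.2 ∈ q.1 ∧ FreeGroup.mk (q.2.map fun p => (((q.1, p.1) : A), p.2)) = x)
      (Cert.and (Cert.mem (Trk.snd (Trk.snd Trk.id)) (Trk.fst (Trk.snd Trk.id)))
        (Cert.eq (Trk.mk ?_) (Trk.fst Trk.id)))
    exact Trk.map (g := fun _ (x : FreeGroup A × List (List (ℕ × Bool)) × List (ℕ × Bool))
      (p : ℕ × Bool) => (((x.2.1, p.1) : A), p.2)) (Trk.snd (Trk.snd Trk.id))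
      (((Trk.fst (Trk.snd (Trk.fst Trk.id))).pair (Trk.fst (Trk.snd Trk.id))).pair
        (Trk.snd (Trk.snd Trk.id)))
  obtain ⟨R1, hR1, hf1⟩ := RGrp.ofSurj (K := ctx0) (G := fun _ => FreeGroup A) (Q := fun _ => G1)
    (fun _ => PresentedGroup.mk rels) (fun _ => PresentedGroup.mk_surjective rels)
    (URE.of_iff (URE.normalClosure (G := fun _ => FreeGroup A) h1)
      fun _ _ => PresentedGroup.mk_eq_one_iff.symm)
  obtain ⟨R2, hR2, hS2⟩ := MH.exists_rep_free (K := ctx0) (G := fun _ => G1) (L := fun _ => ℤ)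
  have hlt : ∀ j, Trk (K := ctx0) fun _ (n : ℤ) => lt j n := by
    have h2 : Trk (K := ctx0) fun _ (n : ℤ) => MH.t (HData.free G1 ℤ) n := hS2.mh_t Trk.id
    have h3 : Trk (K := ctx0) fun _ (n : ℤ) => (PresentedGroup.of (en n) : G1) :=
      hf1.comp (Trk.of (Trk.primrec en_primrec Trk.id))
    rintro (_ | _)
    · exact h2
    · exact Trk.mul (hS2.mh_of h3) h2
  have hlift : ∀ j (c : ℤ), Trk (K := ctx0) fun _ (d : FreeGroup ℤ) =>
      FreeGroup.lift (fun n : ℤ => lt j (n + c)) d := by
    intro j c
    refine Trk.lift (K := ctx0) (G := fun _ => E) (s := fun _ (n : ℤ) => lt j (n + c)) ?_ Trk.id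
    exact (hlt j).comp (Trk.primrec (g := fun n : ℤ => n + c)
      (Lib.Computability.int_add.comp Primrec.id (Primrec.const c)) Trk.id)
  have h4 : URE (K := ctx0) fun _ (p : Bool × E × E) =>
      ∃ d, HD.i p.1 false d = p.2.1 ∧ HD.i p.1 true d = p.2.2 := by
    refine Cert.fin_cases (K := ctx0) (P := fun (j : Bool) _ (p : Bool × E × E) _ =>
      ∃ d, HD.i j false d = p.2.1 ∧ HD.i j true d = p.2.2) (fun j => ?_) (Trk.fst Trk.id)
    exact Cert.exists (K := ctx0) (P := fun _ (p : Bool × E × E) (d : FreeGroup ℤ) _ =>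
      HD.i j false d = p.2.1 ∧ HD.i j true d = p.2.2)
      (Cert.and (Cert.eq ((hlift j 0).comp (Trk.snd Trk.id)) (Trk.fst (Trk.snd (Trk.fst Trk.id))))
        (Cert.eq ((hlift j 1).comp (Trk.snd Trk.id)) (Trk.snd (Trk.snd (Trk.fst Trk.id)))))
  obtain ⟨R3, hR3, hS3⟩ := MH.exists_rep (K := ctx0) (G := fun _ => E) (L := fun _ => Bool)
    (fun _ => HD) h4
  have h5 : Trk (K := ctx0) fun _ (p : Bool × Bool) => gen p := by
    refine Trk.cond (Trk.fst Trk.id) (hS3.mh_t (Trk.snd Trk.id)) (hS3.mh_of ?_)
    exact Trk.fin_cases (K := ctx0) (g := fun (j : Bool) _ (_ : Bool × Bool) => lt j 0)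
      (fun j => (hlt j).comp (Trk.const 0)) (Trk.snd Trk.id)
  have h6 : URE (K := ctx0) fun _ (w : List ((Bool × Bool) × Bool)) =>
      FreeGroup.lift gen (FreeGroup.mk w) = 1 :=
    Cert.eq (Trk.lift (K := ctx0) (G := fun _ => MH HD) h5 (Trk.mk Trk.id)) Trk.one
  obtain ⟨p, hp, h7⟩ := URE.exists_re (K := ctx0) (fun _ _ _ h => h) (fun _ => trivial) h6
  exact (re_comp hp (f := fun w => ((0 : ℕ), w))
    ((Computable.const 0).pair Computable.id)).of_eq fun w => h7 (0 : ℕ) w

end UnivGrp

/-- A finitely generated group with r.e. word problem containing all finitely presented groups. -/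
theorem exists_universal_group' :
    ∃ (G : Type) (_ : Group G) (sG : Bool × Bool → G), Subgroup.closure (range sG) = ⊤ ∧
      (REPred fun w : List ((Bool × Bool) × Bool) => FreeGroup.lift sG (FreeGroup.mk w) = 1) ∧
      ∀ (H : Type) [Group H], Group.IsFinitelyPresented H →
        ∃ f : H →* G, Function.Injective f := by
  refine ⟨MH UnivGrp.HD, inferInstance, UnivGrp.gen, UnivGrp.gen_closure, UnivGrp.re_wp, ?_⟩
  intro H _ hH
  obtain ⟨f, hf⟩ := UnivGrp.exists_emb_G1 H hH
  exact ⟨(MH.of _).comp ((MH.of (HData.free UnivGrp.G1 ℤ)).comp f),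
    (MH.of_injective _).comp ((MH.of_injective _).comp hf)⟩

end Crest.Agent.R185
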