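import Crest.Agent.R185.REGrp
import Crest.Agent.R185.UnivGrp
/-! Row 185: Kleene's recursion theorem, enumeration of label lists, and a universal group. -/
set_option autoImplicit false
open Set

namespace Crest.Agent.R185
open Crest.Agent.Lib.Computability

theorem exists_universal (α : Type) [Primcodable α] :
    ∃ U : ℕ × α → Prop, REPred U ∧
      ∀ R : ℕ × α → Prop, REPred R → ∃ e, ∀ a, U (e, a) ↔ R (e, a) := by
  refine ⟨fun x => (Nat.Partrec.Code.eval (Denumerable.ofNat Nat.Partrec.Code x.1)
    (Encodable.encode x.2)).Dom, ?_, fun R hR => ?_⟩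
  · exact Partrec.dom_re (Nat.Partrec.Code.eval_part.comp
      ((Computable.ofNat _).comp Computable.fst) (Computable.encode.comp Computable.snd))
  · have h1 : Partrec₂ fun (c : Nat.Partrec.Code) (n : ℕ) =>
        ((Encodable.decode (α := α) n : Option α) : Part α).bind fun a =>
          (Part.assert (R (Encodable.encode c, a)) fun _ => Part.some ()).map fun _ => (0 : ℕ) := by
      refine Partrec.bind (Computable.ofOption (Computable.decode.comp Computable.snd)) ?_
      refine Partrec.map (g := fun _ _ => (0 : ℕ)) ?_ (Computable.const _)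
      exact Partrec.comp hR ((Computable.encode.comp (Computable.fst.comp Computable.fst)).pair
        Computable.snd)
    obtain ⟨c, hc⟩ := Nat.Partrec.Code.fixed_point₂ h1
    refine ⟨Encodable.encode c, fun a => ?_⟩
    simp only [Denumerable.ofNat_encode, hc, Encodable.encodek]
    simp [Part.assert]

theorem exists_lab {α : Type} [Primcodable α] {p : ℕ × List α → Prop} (hp : REPred p) (k : ℕ) :
    ∃ g : ℕ × ℕ → List (List α), Computable g ∧ (∀ x, Even (g x).length) ∧
      (∀ e N, (g (e, N)).length ≤ N ∧ (g (e, N) ≠ [] → k ≤ N) ∧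
        ∀ w ∈ g (e, N), w.length ≤ N ∧ p (e, w)) ∧
      ∀ e (L : List (List α)), Even L.length → (∀ w ∈ L, p (e, w)) → ∃ N, g (e, N) = L := by
  obtain ⟨c, hc, hm, hc'⟩ := re_normal hp
  let dec : ℕ → List (List α) := fun N => (Encodable.decode (Nat.unpair N).1).getD []
  have hdec : Primrec dec := Primrec.option_getD.comp
    (Primrec.decode.comp (Primrec.fst.comp Primrec.unpair)) (Primrec.const [])
  let ok : ℕ × ℕ → Bool := fun x =>
    (eqB ((dec x.2).length % 2) 0 && (leN (dec x.2).length x.2 && leN k x.2)) &&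
      (dec x.2).foldr (fun w s => (leN w.length x.2 && c (x.1, w) x.2) && s) true
  have hfold : ∀ (e N : ℕ) (l : List (List α)),
      l.foldr (fun w s => (leN w.length N && c (e, w) N) && s) true = true ↔
        ∀ w ∈ l, w.length ≤ N ∧ c (e, w) N = true := by
    intro e N l
    induction l with
    | nil => simp
    | cons w l ih => simp only [List.foldr_cons, Bool.and_eq_true, ih, List.forall_mem_cons, leN_iff]
  have hok : Primrec ok := by
    have h1 : Primrec fun x : ℕ × ℕ => dec x.2 := hdec.comp Primrec.snd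
    refine fp_and (fp_and (fp_eqB (fp_nat_mod (fp_length h1) (fp_const 2)) (fp_const 0))
      (fp_and (fp_leN (fp_length h1) Primrec.snd) (fp_leN (fp_const k) Primrec.snd))) ?_
    refine fp_foldr h1 (fp_const true) (fp_and (fp_and (by fun_prop) ?_) (by fun_prop))
    exact hc.comp (g := fun y : (ℕ × ℕ) × List α × Bool => ((y.1.1, y.2.1), y.1.2)) (by fun_prop)
  have hok' : ∀ e N, ok (e, N) = true ↔ (Even (dec N).length ∧ (dec N).length ≤ N ∧ k ≤ N) ∧
      ∀ w ∈ dec N, w.length ≤ N ∧ c (e, w) N = true := by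
    intro e N
    simp only [ok, Bool.and_eq_true, eqB_iff, leN_iff, hfold, Nat.even_iff]
  refine ⟨fun x => bif ok x then dec x.2 else [],
    (fp_cond hok (hdec.comp Primrec.snd) (fp_const [])).to_comp, ?_, ?_, ?_⟩
  · rintro ⟨e, N⟩
    cases h : ok (e, N)
    · simp [h]
    · simpa [h] using ((hok' e N).1 h).1.1
  · intro e N
    cases h : ok (e, N)
    · simp [h]
    · obtain ⟨⟨-, h1, h2⟩, h3⟩ := (hok' e N).1 h
      simp only [h, cond_true]
      exact ⟨h1, fun _ => h2, fun w hw => ⟨(h3 w hw).1, (hc' _).2 ⟨N, (h3 w hw).2⟩⟩⟩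
  · intro e L hL hw
    have key : ∃ t, ∀ w ∈ L, w.length ≤ t ∧ c (e, w) t = true := by
      clear hL
      induction L with
      | nil => exact ⟨0, by simp⟩
      | cons w L ih =>
        rw [List.forall_mem_cons] at hw
        obtain ⟨t, ht⟩ := ih hw.2
        obtain ⟨s, hs⟩ := (hc' _).1 hw.1
        refine ⟨t + s + w.length, List.forall_mem_cons.2 ⟨⟨by omega, hm _ _ _ (by omega) hs⟩,
          fun v hv => ⟨(ht v hv).1.trans (by omega), hm _ _ _ (by omega) (ht v hv).2⟩⟩⟩
    obtain ⟨t, ht⟩ := key
    have hN : t + L.length + k ≤ Nat.pair (Encodable.encode L) (t + L.length + k) :=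
      Nat.right_le_pair _ _
    have hd : dec (Nat.pair (Encodable.encode L) (t + L.length + k)) = L := by
      simp [dec]
    refine ⟨Nat.pair (Encodable.encode L) (t + L.length + k), ?_⟩
    have h : ok (e, Nat.pair (Encodable.encode L) (t + L.length + k)) = true := by
      rw [hok', hd]
      exact ⟨⟨hL, by omega, by omega⟩, fun w hw' =>
        ⟨(ht w hw').1.trans (by omega), hm _ _ _ (by omega) (ht w hw').2⟩⟩
    simp only [h, cond_true, hd]

/-- A group given by generators with r.e. word problem is represented. -/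
theorem rep_of_re (K : Ctx) {G AG : Type} [Group G] [Primcodable AG] (sG : AG → G)
    (hgen : Subgroup.closure (range sG) = ⊤)
    (hre : REPred fun w : List (AG × Bool) => FreeGroup.lift sG (FreeGroup.mk w) = 1) :
    ∃ _ : Rep K fun _ => G, RGrp K (fun _ => G) ∧ (Trk (K := K) fun _ => sG) ∧
      ((REPred fun w : List (AG × Bool) => FreeGroup.lift sG (FreeGroup.mk w) ≠ 1) →
        URE (K := K) fun _ (g : G) => g ≠ 1) := by
  have hs : Function.Surjective (FreeGroup.lift sG) := by
    rw [← MonoidHom.range_eq_top, FreeGroup.range_lift_eq_closure, hgen]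
  have gen : ∀ P : G → Prop, (REPred fun w : List (AG × Bool) =>
      P (FreeGroup.lift sG (FreeGroup.mk w))) →
      URE (K := K) fun _ (x : FreeGroup AG) => P (FreeGroup.lift sG x) := by
    intro P hP
    have h1 : URE (K := K) fun _ (q : FreeGroup AG × List (AG × Bool)) =>
        P (FreeGroup.lift sG (FreeGroup.mk q.2)) ∧ FreeGroup.mk q.2 = q.1 :=
      Cert.and (Cert.re (α := List (AG × Bool)) hP (Trk.snd Trk.id))
        (Cert.eq (Trk.mk (L := fun _ => AG) (Trk.snd Trk.id)) (Trk.fst Trk.id))
    refine URE.of_iff (Cert.exists (P := fun _ (x : FreeGroup AG) (w : List (AG × Bool)) _ =>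
      P (FreeGroup.lift sG (FreeGroup.mk w)) ∧ FreeGroup.mk w = x) h1) fun i x => ⟨?_, fun h => ?_⟩
    · rintro ⟨w, h, rfl⟩
      exact h
    · obtain ⟨w, rfl⟩ := regrp_mk_surj _ x
      exact ⟨w, h, rfl⟩
  obtain ⟨inst, h1, h2⟩ := RGrp.ofSurj (K := K) (G := fun _ => FreeGroup AG) (Q := fun _ => G)
    (fun _ => FreeGroup.lift sG) (fun _ => hs) (gen (· = 1) hre)
  refine ⟨inst, h1, (h2.comp (Trk.of (L := fun _ => AG) Trk.id)).of_eq fun i a => by simp,
    fun hne => ?_⟩
  have h3 : URE (K := K) fun _ (q : G × FreeGroup AG) =>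
      FreeGroup.lift sG q.2 ≠ 1 ∧ FreeGroup.lift sG q.2 = q.1 :=
    Cert.and (Cert.comp (gen (· ≠ 1) hne) (Trk.snd Trk.id))
      (Cert.eq (h2.comp (Trk.snd Trk.id)) (Trk.fst Trk.id))
  refine URE.of_iff (Cert.exists (P := fun _ (g : G) (x : FreeGroup AG) _ =>
    FreeGroup.lift sG x ≠ 1 ∧ FreeGroup.lift sG x = g) h3) fun i g => ⟨?_, fun h => ?_⟩
  · rintro ⟨x, h, rfl⟩
    exact h
  · obtain ⟨x, rfl⟩ := hs g
    exact ⟨x, h, rfl⟩

/-- A finitely generated group with r.e. word problem containing all finitely presented groups. -/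
theorem exists_universal_group :
    ∃ (G : Type) (_ : Group G) (sG : Bool × Bool → G), Subgroup.closure (range sG) = ⊤ ∧
      (REPred fun w : List ((Bool × Bool) × Bool) => FreeGroup.lift sG (FreeGroup.mk w) = 1) ∧
      ∀ (H : Type) [Group H], Group.IsFinitelyPresented H →
        ∃ f : H →* G, Function.Injective f :=
  exists_universal_group'

end Crest.Agent.R185
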