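import Crest.Agent.R185.FixAlg
import Crest.Agent.R185.HigRE
import Crest.Agent.R185.Univ
/-! Row 185: auxiliary lemmas for `FixRE` (part 1). -/
set_option autoImplicit false
set_option linter.unusedSectionVars false
open Set

namespace Crest.Agent.R185

section gen
variable {K : Ctx} {X Y : K.I → Type} [Rep K X] [Rep K Y]

theorem fre_trk_word {A : Type} [Primcodable A] (w : FreeGroup A) :
    Trk fun i (_ : X i) => w := by
  obtain ⟨l, rfl⟩ := regrp_mk_surj A w
  exact Trk.mk (L := fun _ => A) (Trk.const l)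

theorem fre_trk_hom {A B : Type} [Finite A] [Primcodable A] [Primcodable B]
    (φ : FreeGroup A →* FreeGroup B) : Trk (K := K) fun _ (x : FreeGroup A) => φ x := by
  have h1 : Trk (K := K) fun _ (a : A) => φ (FreeGroup.of a) :=
    Trk.fin_cases (g := fun a _ (_ : A) => φ (FreeGroup.of a)) (fun a => fre_trk_word _) Trk.id
  exact (Trk.lift (G := fun _ => FreeGroup B) (L := fun _ => A) h1 Trk.id).of_eq fun i x =>
    (FreeGroup.lift_unique φ fun _ => rfl).symm

theorem fre_trk_iter {φ : ∀ i, Y i → Y i} (hφ : Trk φ) {n : ∀ i, X i → ℕ} {f : ∀ i, X i → Y i}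
    (hn : Trk n) (hf : Trk f) : Trk fun i x => (φ i)^[n i x] (f i x) :=
  (Trk.foldr (g := fun i _ (_ : ℕ) b => φ i b) hn.range hf (hφ.comp Trk.id.snd.snd)).of_eq
    fun i x => by rw [List.foldr_const, List.length_range]

end gen

namespace Dat
open Hig
variable {St κ J AG G : Type} [Finite St] [Primcodable St] [Fintype κ] [DecidableEq κ]
  [Primcodable κ] [Finite J] [Primcodable J] [Finite AG] [Primcodable AG] [Group G]
  (d : Dat St κ J AG) {sG : AG → G}

section eff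
variable {K : Ctx} [Rep K fun i => d.P (K.par i)] [RGrp K fun i => d.P (K.par i)]
  (hs : Trk fun i => gen0 (d.m (K.par i)) d.β)
include hs

theorem fre_trk_ev : Trk fun i (w : FreeGroup (Gen St κ J)) => d.ev (K.par i) w :=
  Trk.lift (L := fun _ => Gen St κ J) hs Trk.id

theorem fre_qeff [Rep K fun _ => G] [RGrp K fun _ => G] (hsG : Trk (K := K) fun _ => sG)
    (hG : Subgroup.closure (range sG) = ⊤) (hlab : Computable d.lab) :
    QEff (fun i => d.Q (K.par i)) sG := by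
  have hev := d.fre_trk_ev hs
  refine ⟨hs, fun i => closure_gen0 _ _, hsG, hG, ?_, ?_, ?_⟩
  · refine URE.closure
      (S := fun i => {x | ∃ (n : ℕ) (k : Fin 6), d.ev (K.par i) (d.αw^[n] (d.yw k)) = x}) ?_
    exact Cert.exists (P := fun i (x : d.P (K.par i)) (n : ℕ) _ =>
      ∃ k : Fin 6, d.ev (K.par i) (d.αw^[n] (d.yw k)) = x)
      (Cert.exists_fin fun k => Cert.eq (hev.comp (fre_trk_iter
        (φ := fun _ (x : FreeGroup (Gen St κ J)) => d.αw x) (fre_trk_hom d.αw) Trk.id.snd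
        (fre_trk_word _))) Trk.id.fst)
  · exact Trk.trkC (hev.comp (fre_trk_word _))
  · have h1 : Trk (K := K) fun i (N : ℕ) => d.lab (K.par i, N) :=
      Trk.computable hlab (Trk.par.pair Trk.id)
    exact Trk.map (Y := fun _ => List (Gen St κ J × Bool))
      (g := fun i _ w => d.ev (K.par i) (FreeGroup.mk w)) h1
      (hev.comp (Trk.mk (L := fun _ => Gen St κ J) Trk.id.snd))

theorem fre_nmem (h : Cert fun i (φ : Bool × List (Gen St κ J × Bool)) n =>
      d.ev (K.par i) (FreeGroup.mk φ.2) ∉ cond φ.1 (d.D (K.par i)) ⊥ ∧ (φ.2.length : ℕ∞) ≤ n)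
    (b : Bool) : NMem (fun i => Filt.wl (d.Q (K.par i)).s)
      (fun i => (cond b (d.D (K.par i)) ⊥ : Subgroup _)) 1 0 := by
  have hev := d.fre_trk_ev hs
  have h1 : Cert fun i (x : d.P (K.par i)) m => ∃ w : List (Gen St κ J × Bool),
      d.ev (K.par i) (FreeGroup.mk w) = x ∧
      (d.ev (K.par i) (FreeGroup.mk w) ∉ cond b (d.D (K.par i)) ⊥ ∧ (w.length : ℕ∞) ≤ m) :=
    Cert.exists ((Cert.eq (hev.comp (Trk.mk (L := fun _ => Gen St κ J) Trk.id.snd)) Trk.id.fst).and
      (Cert.comp h ((Trk.const b).pair Trk.id.snd)))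
  refine h1.mono ?_ ?_
  · rintro i x ⟨w, rfl, h2, -⟩
    exact ⟨h2, lev_top _ _ _ _⟩
  · rintro i x m ⟨h2, h3⟩
    obtain ⟨n, ⟨w, hw, rfl⟩, h4⟩ := (lev_coe _ _ _ _ _).1 h3
    exact ⟨w, rfl, h2, Nat.cast_le.2 (by omega)⟩

end eff

theorem fre_wl_c (e : ℕ) {x : d.Qp sG e} {n : ℕ} (h : (Filt.wl (d.c sG e)).le x n) :
    (Filt.wl ((d.Q e).genQ sG)).le x.1 n := by
  have := Cube.wl_map (d.c sG e) (Filt.wl ((d.Q e).genQ sG)) (Subgroup.subtype _) 1 (fun a => ?_) h
  · rwa [one_mul] at this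
  · cases a with
    | none => exact Filt.one' _ _
    | some a => exact Cube.wl_gen _ a

theorem fre_qp_rep (hG : Subgroup.closure (range sG) = ⊤)
    (hre : REPred fun w : List (AG × Bool) => FreeGroup.lift sG (FreeGroup.mk w) = 1)
    (K : Ctx) (hm : MEff fun i => d.m (K.par i)) (hlab : Computable d.lab) :
    ∃ _ : Rep K fun i => d.Qp sG (K.par i), RGrp K (fun i => d.Qp sG (K.par i)) ∧
      (Trk fun i => d.c sG (K.par i)) ∧
      ((∀ i, (d.Q (K.par i)).Size 0) → (∀ i, K.Nice i → (d.Q (K.par i)).Good) →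
        (REPred fun w : List (AG × Bool) => FreeGroup.lift sG (FreeGroup.mk w) ≠ 1) →
        (Cert fun i (φ : Bool × List (Gen St κ J × Bool)) n =>
          d.ev (K.par i) (FreeGroup.mk φ.2) ∉ cond φ.1 (d.D (K.par i)) ⊥ ∧
            (φ.2.length : ℕ∞) ≤ n) →
        NMem (fun i => Filt.wl (d.c sG (K.par i))) (fun _ => {1}) c0 0 ∧
          NMem (fun i => Filt.wl (d.c sG (K.par i))) (fun i => d.Dp sG (K.par i)) c0 0) := by
  obtain ⟨rG, gG, hsG, hne⟩ := rep_of_re K sG hG hre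
  obtain ⟨rP, gP, hs⟩ := a0_rep hm d.β
  obtain ⟨rQ, gQ, hgen, hn⟩ := q_rep (fun i => d.Q (K.par i)) sG (d.fre_qeff hs hsG hG hlab)
  obtain ⟨rS, gS, hf⟩ := RGrp.ofInj (K := K) (G := fun i => (d.Q (K.par i)).Qh G)
    (Q := fun i => d.Qp sG (K.par i)) (fun i => Subgroup.subtype _)
    (fun i => Subtype.val_injective)
    (URE.of_iff (URE.closure (URE.range hgen)) fun i x => by rw [Subgroup.range_subtype]; rfl)
  refine ⟨rS, gS, ?_, fun hsz hgood hco hc => ?_⟩
  · refine Trk.of_inj_comp hf (fun i => Subtype.val_injective) ?_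
    refine Trk.fin_cases
      (g := fun a i (_ : CC St κ J AG) => (d.c sG (K.par i) a : (d.Q (K.par i)).Qh G))
      (fun a => ?_) Trk.id
    cases a with
    | none => exact Trk.one
    | some a => exact hgen.comp (Trk.const a)
  · obtain ⟨h1, h2⟩ := hn 0 1 0 ⟨hsz, hgood⟩
      ((d.fre_nmem hs hc false).congr fun i x => Subgroup.mem_bot) (d.fre_nmem hs hc true) (hne hco)
    have key : ∀ T : ∀ i, Set ((d.Q (K.par i)).Qh G), (∀ i, 1 ∈ T i) →
        NMem (fun i => Filt.wl ((d.Q (K.par i)).genQ sG)) T (cQ 0 1) (dQ 0 1 0) →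
        NMem (fun i => Filt.wl (d.c sG (K.par i)))
          (fun i => (fun x : d.Qp sG (K.par i) => x.1) ⁻¹' T i) c0 0 := by
      intro T hT h
      refine (h.comap (F' := fun i => Filt.wl (d.c sG (K.par i))) hf (c' := cQ 0 1)
        (d' := dQ 0 1 0) fun i x n hx => ⟨n, d.fre_wl_c _ hx, le_rfl⟩).mono fun i x n hx hx' => ?_
      refine ⟨n, hx', ?_⟩
      rcases Nat.eq_zero_or_pos n with rfl | hn
      · rw [Cube.wl_zero hx'] at hx
        exact absurd (hT i) hx
      · rw [c0, add_mul, add_zero]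
        exact Nat.add_le_add_left (Nat.le_mul_of_pos_right _ hn) _
    exact ⟨(key (fun _ => {1}) (fun i => rfl) h1).congr fun i x => OneMemClass.coe_eq_one,
      key _ (fun i => Subgroup.one_mem _) h2⟩

theorem fre_exists_rel (hG : Subgroup.closure (range sG) = ⊤)
    (hre : REPred fun w : List (AG × Bool) => FreeGroup.lift sG (FreeGroup.mk w) = 1)
    (hm : ∀ K : Ctx, MEff fun i => d.m (K.par i)) (hlab : Computable d.lab) :
    ∃ rel, Computable rel ∧ d.IsRel sG rel := by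
  obtain ⟨rG, gG, hsG, -⟩ := rep_of_re ctx0 sG hG hre
  obtain ⟨rP, gP, hs⟩ := a0_rep (hm ctx0) d.β
  obtain ⟨rQ, gQ, hgen, -⟩ := q_rep (fun i => d.Q (ctx0.par i)) sG (d.fre_qeff hs hsG hG hlab)
  have h1 : URE (K := ctx0) fun i (w : List (GenQ (Gen St κ J) AG × Bool)) =>
      FreeGroup.lift ((d.Q (ctx0.par i)).genQ sG) (FreeGroup.mk w) = 1 :=
    Cert.eq (Trk.lift (L := fun _ => GenQ (Gen St κ J) AG) hgen (Trk.mk Trk.id)) Trk.one
  obtain ⟨p, hp, h2⟩ := URE.exists_re (K := ctx0) (fun _ _ _ h => h) (fun _ => trivial) h1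
  obtain ⟨g, hg, h3, h4, h5⟩ := exists_enum hp []
  refine ⟨g, hg, h3, fun e j => ?_, fun e w hw => h5 e w ((h2 e w).2 hw)⟩
  rcases h4 e j with h | h
  · rw [h, ← FreeGroup.one_eq_mk, map_one]
  · exact (h2 e _).1 h

theorem fre_trk_sw {rel : ℕ × ℕ → List (GenQ (Gen St κ J) AG × Bool)} (h : Computable rel)
    (K : Ctx) : Trk fun i (j : ℕ) => FreeGroup.lift d.β (sw rel (K.par i) j) := by
  have h1 : Trk (K := K) fun i (j : ℕ) => rel (K.par i, j) :=
    Trk.computable h (Trk.par.pair Trk.id)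
  exact (fre_trk_hom (FreeGroup.lift d.β)).comp
    (Trk.mul (G := fun _ => FreeGroup (CC St κ J AG))
      ((fre_trk_hom (FreeGroup.map some)).comp (Trk.mk (L := fun _ => GenQ (Gen St κ J) AG) h1))
      (Trk.pow (fre_trk_word _) (Trk.primrec Primrec.succ Trk.id)))

theorem fre_re_acc {rel : ℕ × ℕ → List (GenQ (Gen St κ J) AG × Bool)} (h : Computable rel) :
    REPred fun x : ℕ × List (Bool × Bool) => FreeGroup.mk x.2 ∈ d.Acc rel x.1 := by
  have h1 : URE (K := ctx0) fun i (u : List (Bool × Bool)) =>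
      FreeGroup.mk u ∈ d.Acc rel (ctx0.par i) :=
    Cert.comp (URE.range (d.fre_trk_sw h ctx0)) (Trk.mk (L := fun _ => Bool) Trk.id)
  obtain ⟨p, hp, h2⟩ := URE.exists_re (K := ctx0) (fun _ _ _ h => h) (fun _ => trivial) h1
  exact hp.of_eq fun x => h2 x.1 x.2

theorem fre_sw_len {rel : ℕ × ℕ → List (GenQ (Gen St κ J) AG × Bool)} {e j n : ℕ}
    (h : (Filt.wl (FreeGroup.of : CC St κ J AG → _)).le (sw rel e j) n) : j < n := by
  let ψ : FreeGroup (CC St κ J AG) →* FreeGroup Unit :=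
    FreeGroup.lift fun c => c.elim (FreeGroup.of ()) fun _ => 1
  have h1 := Cube.wl_map _ (Filt.wl (FreeGroup.of : Unit → _)) ψ 1 (fun a => ?_) h
  · have e1 : ψ.comp (FreeGroup.map some) = 1 := by
      ext a
      simp [ψ]
    have e2 : ψ (sw rel e j) = FreeGroup.of () ^ (j + 1) := by
      rw [sw, map_mul, map_pow, ← MonoidHom.comp_apply, e1, MonoidHom.one_apply, one_mul,
        FreeGroup.lift_apply_of]
      rfl
    rw [e2, beta_wl, FreeGroup.norm_of_pow] at h1
    omega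
  · rw [FreeGroup.lift_apply_of]
    cases a with
    | none => exact Cube.wl_gen _ ()
    | some a => exact Filt.one' _ _

theorem fre_ure_not_acc {rel : ℕ × ℕ → List (GenQ (Gen St κ J) AG × Bool)} (h : Computable rel)
    {M : ℕ} (hM : Shrink d.β M) (K : Ctx) : URE fun i (w : Fr) => w ∉ d.Acc rel (K.par i) := by
  have h1 : URE fun i (p : Fr × List (Bool × Bool)) => FreeGroup.mk p.2 = p.1 ∧
      ∀ j < p.2.length, FreeGroup.lift d.β (sw rel (K.par i) j) ≠ p.1 :=
    (Cert.eq (Trk.mk (L := fun _ => Bool) Trk.id.snd) Trk.id.fst).and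
      (Cert.forall_lt (P := fun i (p : Fr × List (Bool × Bool)) j _ =>
        FreeGroup.lift d.β (sw rel (K.par i) j) ≠ p.1) Trk.id.snd.length
        (Cert.ne ((d.fre_trk_sw h K).comp Trk.id.snd) Trk.id.fst.fst))
  refine URE.of_iff (Cert.exists (P := fun i (w : Fr) (u : List (Bool × Bool)) _ =>
    FreeGroup.mk u = w ∧ ∀ j < u.length, FreeGroup.lift d.β (sw rel (K.par i) j) ≠ w) h1)
    fun i w => ⟨?_, fun hw => ⟨w.toWord, FreeGroup.mk_toWord, fun j _ hj => hw ⟨j, hj⟩⟩⟩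
  rintro ⟨u, rfl, hu⟩ ⟨j, hj⟩
  refine hu j ?_ hj
  have h2 : FFr.le (FreeGroup.lift d.β (sw rel (K.par i) j)) u.length :=
    ⟨u, le_rfl, by rw [FreeGroup.lift_of_apply]; exact hj.symm⟩
  exact (fre_sw_len (hM _ _ h2)).trans_le (Nat.div_le_self _ _)

end Dat
end Crest.Agent.R185
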