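import Crest.Agent.R185.Rule
/-! Row 185: the reversible machine with history and mirror phase (construction and analysis). -/
set_option autoImplicit false
open Set Relation

noncomputable section
namespace Crest.Agent.R185
namespace Mach

/-! ### backward deterministic relations -/

theorem back_rtg {Ω : Type} {F : Ω → Ω → Prop} (hF : ∀ a b c, F a c → F b c → a = b)
    {s ω ω₀ : Ω} (hs : ∀ a, ¬ F a s) (h : ReflTransGen F s ω) (h₀ : ReflTransGen F ω₀ ω) :
    ReflTransGen F s ω₀ := by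
  have U : Relator.RightUnique (Function.swap F) := fun _ _ _ h1 h2 => hF _ _ _ h1 h2
  rcases ReflTransGen.total_of_right_unique U (reflTransGen_swap.2 h) (reflTransGen_swap.2 h₀) with
    h1 | h1
  · have h2 : ReflTransGen F ω₀ s := reflTransGen_swap.1 h1
    rcases h2.cases_tail with rfl | ⟨c, -, hc⟩
    · exact .refl
    · exact absurd hc (hs c)
  · exact reflTransGen_swap.1 h1

theorem src_unique {Ω : Type} {F : Ω → Ω → Prop} (hF : ∀ a b c, F a c → F b c → a = b)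
    {s s' ω : Ω} (hs : ∀ a, ¬ F a s) (hs' : ∀ a, ¬ F a s') (h : ReflTransGen F s ω)
    (h' : ReflTransGen F s' ω) : s = s' := by
  rcases (back_rtg hF hs h h').cases_tail with h1 | ⟨c, -, hc⟩
  · exact h1.symm
  · exact absurd hc (hs' c)

variable {s k j : ℕ}

abbrev St (s : ℕ) := Option (Bool × Fin s)
abbrev Kp (k : ℕ) := Option (Fin k)
abbrev Jx (j : ℕ) := (Bool × Fin j) ⊕ Bool ⊕ Option Bool

/-- A copy of a base rule that records its name in the history register. -/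
def copyR (j : ℕ) (b : Bool) (n : ℕ) (r : Rule (Fin s) (Fin k)) : Rule (St s) (Kp k) where
  q β := some (b, r.q β)
  tst := r.tst
  xb := r.xb
  a β c := c.elim (bif β then (n : ℤ) + 1 else 0) (r.a β)
  μ β c := c.elim (bif β then (j : ℤ) + 1 else 1) (r.μ β)
  tw := false
  μ_zero c := by
    cases c with
    | none =>
      have : (j : ℤ) + 1 ≠ 0 := by omega
      simp [this]
    | some c => exact r.μ_zero c
  xb_norm := r.xb_norm

/-- A rule testing all registers exactly. -/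
def fixR (q : Bool → St s) (x : Option Bool) (tw : Bool) (v : Fin k → ℤ) : Rule (St s) (Kp k) where
  q := q
  tst := false
  xb β := bif β then x.elim 1 FreeGroup.of else 1
  a _ c := c.elim 0 v
  μ _ _ := 0
  tw := tw
  μ_zero _ := Iff.rfl
  xb_norm β := by
    cases β <;> cases x <;> simp

/-- The identity on registers and words, changing the phase. -/
def linkR (k : ℕ) (qacc : Fin s) : Rule (St s) (Kp k) where
  q β := some (β, qacc)
  tst := false
  xb _ := 1
  a _ _ := 0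
  μ _ _ := 1
  tw := false
  μ_zero _ := Iff.rfl
  xb_norm _ := by simp

def emb (b : Bool) (d : (Fin s × Lam (Fin k)) × ℤ) : St s × Lam (Kp k) :=
  (some (b, d.1.1), (d.1.2.1, fun c => c.elim (Multiplicative.ofAdd d.2) d.1.2.2))

def regs (v : Fin k → ℤ) : Kp k → Multiplicative ℤ := fun c => Multiplicative.ofAdd (c.elim 0 v)

def hist (ω : St s × Lam (Kp k)) : ℤ := (ω.2.2 none).toAdd

theorem emb_inj {b b' : Bool} {d d' : (Fin s × Lam (Fin k)) × ℤ} (h : emb b d = emb b' d') :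
    b = b' ∧ d = d' := by
  obtain ⟨⟨q, w, n⟩, h₀⟩ := d
  obtain ⟨⟨q', w', n'⟩, h₀'⟩ := d'
  simp only [emb, Prod.mk.injEq, Option.some.injEq] at h
  obtain ⟨⟨rfl, rfl⟩, rfl, h4⟩ := h
  have h5 := congrFun h4 none
  have h6 : n = n' := funext fun c => congrFun h4 (some c)
  simp only [Option.elim_none, EmbeddingLike.apply_eq_iff_eq] at h5
  subst h5 h6
  exact ⟨rfl, rfl⟩

@[simp] theorem hist_emb (b : Bool) (d : (Fin s × Lam (Fin k)) × ℤ) : hist (emb b d) = d.2 := rfl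

theorem copy_o (b : Bool) (n : ℕ) (r : Rule (Fin s) (Fin k)) (β : Bool) (ν : Lam (Kp k)) :
    (copyR j b n r).o β ν = emb b (r.o β (ν.1, fun c => ν.2 (some c)),
      bif β then (n : ℤ) + 1 + ((j : ℤ) + 1) * (ν.2 none).toAdd else (ν.2 none).toAdd) := by
  refine Prod.ext rfl (Prod.ext rfl ?_)
  funext c
  cases c with
  | none =>
    apply Multiplicative.toAdd.injective
    cases β
    · simp [copyR, Rule.o, Rule.i, Rule.base, emb]
    · simp only [copyR, Rule.o, Rule.i, Rule.base, emb, MonoidHom.coe_mk, OneHom.coe_mk,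
        Prod.snd_mul, Pi.mul_apply, Option.elim_none, cond_true, toAdd_mul, toAdd_zpow,
        toAdd_ofAdd, smul_eq_mul]
      ring
  | some c => rfl

theorem copy_step (b : Bool) (n : ℕ) (r : Rule (Fin s) (Fin k)) (ω ω' : St s × Lam (Kp k)) :
    (copyR j b n r).Step ω ω' ↔ ∃ x y h, r.Step x y ∧ ω = emb b (x, h) ∧
      ω' = emb b (y, (n : ℤ) + 1 + ((j : ℤ) + 1) * h) := by
  constructor
  · rintro ⟨ν, hν, rfl, rfl⟩
    refine ⟨_, _, _, ⟨(ν.1, fun c => ν.2 (some c)), ⟨hν.1, fun c hc => hν.2 (some c) hc⟩, rfl, rfl⟩,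
      copy_o b n r false ν, copy_o b n r true ν⟩
  · rintro ⟨x, y, h, ⟨ν, hν, rfl, rfl⟩, rfl, rfl⟩
    refine ⟨(ν.1, fun c => c.elim (Multiplicative.ofAdd h) ν.2), ⟨hν.1, fun c hc => ?_⟩, ?_, ?_⟩
    · cases c with
      | none => simp [copyR] at hc
      | some c => exact hν.2 c hc
    · rw [copy_o]; rfl
    · rw [copy_o]; rfl

theorem fix_o (q : Bool → St s) (x : Option Bool) (tw : Bool) (v : Fin k → ℤ) (β : Bool)
    (ν : Lam (Kp k)) :
    (fixR q x tw v).o β ν = (q β, (ν.1 * (bif β then x.elim 1 FreeGroup.of else 1), regs v)) := by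
  refine Prod.ext rfl (Prod.ext rfl ?_)
  funext c
  simp [fixR, Rule.o, Rule.i, Rule.base, regs]

theorem fix_mem_L (q : Bool → St s) (x : Option Bool) (tw : Bool) (v : Fin k → ℤ) (w : Fr) :
    ((w, 1) : Lam (Kp k)) ∈ (fixR q x tw v).L :=
  ⟨fun h => by simp [fixR] at h, fun _ _ => rfl⟩

theorem fix_step (q : Bool → St s) (x : Option Bool) (tw : Bool) (v : Fin k → ℤ)
    (ω ω' : St s × Lam (Kp k)) :
    (fixR q x tw v).Step ω ω' ↔ ∃ w : Fr, ω = (q false, (w, regs v)) ∧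
      ω' = (q true, (w * x.elim 1 FreeGroup.of, regs v)) := by
  constructor
  · rintro ⟨ν, -, rfl, rfl⟩
    exact ⟨ν.1, by simp [fix_o], by simp [fix_o]⟩
  · rintro ⟨w, rfl, rfl⟩
    exact ⟨(w, 1), fix_mem_L q x tw v w, by simp [fix_o], by simp [fix_o]⟩

theorem fix_mem (q : Bool → St s) (tw : Bool) (v : Fin k → ℤ) (β : Bool)
    (ω : St s × Lam (Kp k)) :
    ω ∈ (fixR q none tw v).o β '' (fixR q none tw v).L ↔ ∃ w : Fr, ω = (q β, (w, regs v)) := by
  constructor
  · rintro ⟨ν, -, rfl⟩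
    exact ⟨ν.1, by cases β <;> simp [fix_o]⟩
  · rintro ⟨w, rfl⟩
    exact ⟨(w, 1), fix_mem_L q none tw v w, by cases β <;> simp [fix_o]⟩

theorem link_step (qacc : Fin s) (ω ω' : St s × Lam (Kp k)) :
    (linkR k qacc).Step ω ω' ↔ ∃ x h, ω = emb false ((qacc, x), h) ∧ ω' = emb true ((qacc, x), h) := by
  have key : ∀ β (ν : Lam (Kp k)), (linkR k qacc).o β ν =
      emb β ((qacc, (ν.1, fun c => ν.2 (some c))), (ν.2 none).toAdd) := by
    intro β ν
    refine Prod.ext rfl (Prod.ext (by simp [linkR, Rule.o, Rule.i, Rule.base, emb]) ?_)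
    funext c
    cases c <;> simp [linkR, Rule.o, Rule.i, Rule.base, emb]
  constructor
  · rintro ⟨ν, -, rfl, rfl⟩
    exact ⟨_, _, key false ν, key true ν⟩
  · rintro ⟨x, h, rfl, rfl⟩
    refine ⟨(x.1, fun c => c.elim (Multiplicative.ofAdd h) x.2),
      ⟨fun h => by simp [linkR] at h, fun c hc => by simp [linkR] at hc⟩, ?_, ?_⟩
    · rw [key]; rfl
    · rw [key]; rfl

variable (R : Fin j → Rule (Fin s) (Fin k)) (qin qacc : Fin s) (v : Fin k → ℤ)

def entR (b : Bool) : Rule (St s) (Kp k) :=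
  fixR (fun β => bif b && β then none else some (b, qin)) none (!b) v

def rules : Jx j → Rule (St s) (Kp k)
  | .inl p => copyR j p.1 p.2 (R p.2)
  | .inr (.inl b) => entR qin v b
  | .inr (.inr none) => linkR k qacc
  | .inr (.inr (some x)) => fixR (fun _ => none) (some x) false v

def root (s : ℕ) (v : Fin k → ℤ) (w : Fr) : St s × Lam (Kp k) := (none, (w, regs v))

def mach : MIn (St s) (Kp k) (Jx j) where
  R := rules R qin qacc v
  ω0 := root s v 1

/-- entry configurations of the base machine with empty history -/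
def E0 (w : Fr) : (Fin s × Lam (Fin k)) × ℤ := ((qin, (w, fun c => Multiplicative.ofAdd (v c))), 0)

theorem emb_E0 (b : Bool) (w : Fr) : emb b (E0 qin v w) = (some (b, qin), (w, regs v)) := by
  refine Prod.ext rfl (Prod.ext rfl ?_)
  funext c
  cases c <;> rfl

def BS (x y : Fin s × Lam (Fin k)) : Prop := ∃ r, (R r).Step x y

def FD (d d' : (Fin s × Lam (Fin k)) × ℤ) : Prop :=
  ∃ r : Fin j, (R r).Step d.1 d'.1 ∧ d'.2 = ((r : ℕ) : ℤ) + 1 + ((j : ℤ) + 1) * d.2

def F (ω ω' : St s × Lam (Kp k)) : Prop := ∃ p : Bool × Fin j, (copyR j p.1 p.2 (R p.2)).Step ω ω'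

def Acc (w : Fr) : Prop :=
  ∃ x, ReflTransGen (BS R) (qin, (w, fun c => Multiplicative.ofAdd (v c))) (qacc, x)

variable {R qin qacc v}

theorem F_iff {ω ω' : St s × Lam (Kp k)} :
    F R ω ω' ↔ ∃ b d d', FD R d d' ∧ ω = emb b d ∧ ω' = emb b d' := by
  constructor
  · rintro ⟨⟨b, r⟩, h⟩
    obtain ⟨x, y, h, h1, rfl, rfl⟩ := (copy_step _ _ _ _ _).1 h
    exact ⟨b, _, _, ⟨r, h1, rfl⟩, rfl, rfl⟩
  · rintro ⟨b, ⟨x, h⟩, ⟨y, h'⟩, ⟨r, h1, h2⟩, rfl, rfl⟩
    dsimp only at h1 h2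
    subst h2
    exact ⟨(b, r), (copy_step _ _ _ _ _).2 ⟨x, y, h, h1, rfl, rfl⟩⟩

theorem FD_back {a b c : (Fin s × Lam (Fin k)) × ℤ} (h : FD R a c) (h' : FD R b c) : a = b := by
  obtain ⟨r, ⟨ν, hν, h1, h2⟩, h3⟩ := h
  obtain ⟨r', ⟨ν', hν', h1', h2'⟩, h3'⟩ := h'
  have hr := r.2
  have hr' := r'.2
  have e : ((r : ℕ) : ℤ) - (r' : ℕ) = ((j : ℤ) + 1) * (b.2 - a.2) := by linarith
  have hab : a.2 = b.2 := by
    by_contra hne
    rcases lt_or_gt_of_ne hne with hlt | hlt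
    · have : ((j : ℤ) + 1) * 1 ≤ ((j : ℤ) + 1) * (b.2 - a.2) :=
        mul_le_mul_of_nonneg_left (by omega) (by omega)
      omega
    · have : ((j : ℤ) + 1) * (b.2 - a.2) ≤ ((j : ℤ) + 1) * (-1) :=
        mul_le_mul_of_nonneg_left (by omega) (by omega)
      omega
  have hrr : r = r' := by
    rw [hab, sub_self, mul_zero] at e
    exact Fin.ext (by omega)
  subst hrr
  have hν2 : ν = ν' := (R r).o_injOn true hν hν' (h2.symm.trans h2')
  subst hν2
  exact Prod.ext (h1.trans h1'.symm) hab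

theorem FD_hist {a c : (Fin s × Lam (Fin k)) × ℤ} (h : FD R a c) :
    (0 ≤ a.2 → 0 < c.2) ∧ (0 ≤ c.2 → 0 ≤ a.2 ∧ a.2 < c.2) := by
  obtain ⟨r, -, h3⟩ := h
  have hr := r.2
  have h0 : 0 ≤ a.2 → 1 * a.2 ≤ ((j : ℤ) + 1) * a.2 := fun h =>
    mul_le_mul_of_nonneg_right (by omega) h
  refine ⟨fun h => by have := h0 h; omega, fun h => ?_⟩
  have h1 : 0 ≤ a.2 := by
    by_contra hlt
    have : ((j : ℤ) + 1) * a.2 ≤ ((j : ℤ) + 1) * (-1) :=
      mul_le_mul_of_nonneg_left (by omega) (by omega)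
    omega
  have := h0 h1
  exact ⟨h1, by omega⟩

theorem F_back (a b c : St s × Lam (Kp k)) (h : F R a c) (h' : F R b c) : a = b := by
  obtain ⟨β, d, d', h1, rfl, rfl⟩ := F_iff.1 h
  obtain ⟨β', e, e', h2, rfl, h3⟩ := F_iff.1 h'
  obtain ⟨rfl, rfl⟩ := emb_inj h3
  rw [FD_back h1 h2]

theorem F_hist {a c : St s × Lam (Kp k)} (h : F R a c) :
    (0 ≤ hist a → 0 < hist c) ∧ (0 ≤ hist c → 0 ≤ hist a ∧ hist a < hist c) := by
  obtain ⟨β, d, d', h1, rfl, rfl⟩ := F_iff.1 h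
  exact FD_hist h1

theorem not_F_of_hist {c : St s × Lam (Kp k)} (hc : hist c = 0) (a : St s × Lam (Kp k)) :
    ¬ F R a c := fun h => by
  have := (F_hist h).2 hc.ge
  omega

theorem rtg_F_iff {b : Bool} {d : (Fin s × Lam (Fin k)) × ℤ} {ω : St s × Lam (Kp k)} :
    ReflTransGen (F R) (emb b d) ω ↔ ∃ d', ω = emb b d' ∧ ReflTransGen (FD R) d d' := by
  constructor
  · intro h
    induction h with
    | refl => exact ⟨d, rfl, .refl⟩
    | tail _ h2 ih =>
      obtain ⟨d', rfl, h3⟩ := ih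
      obtain ⟨β, e, e', h4, h5, rfl⟩ := F_iff.1 h2
      obtain ⟨rfl, rfl⟩ := emb_inj h5
      exact ⟨e', rfl, h3.tail h4⟩
  · rintro ⟨d', rfl, h⟩
    induction h with
    | refl => exact .refl
    | tail _ h2 ih => exact ih.tail (F_iff.2 ⟨b, _, _, h2, rfl, rfl⟩)

theorem rtg_root {w : Fr} {ω : St s × Lam (Kp k)} (h : ReflTransGen (F R) (root s v w) ω) :
    ω = root s v w := by
  rcases h.cases_head with h | ⟨c, hc, -⟩
  · exact h.symm
  · obtain ⟨β, d, d', -, h1, -⟩ := F_iff.1 hc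
    simp [root, emb] at h1

theorem rtg_BS_of_FD {d d' : (Fin s × Lam (Fin k)) × ℤ} (h : ReflTransGen (FD R) d d') :
    ReflTransGen (BS R) d.1 d'.1 := by
  induction h with
  | refl => exact .refl
  | tail _ h2 ih => obtain ⟨r, h3, -⟩ := h2; exact ih.tail ⟨r, h3⟩

theorem rtg_FD_of_BS {x y : Fin s × Lam (Fin k)} (h₀ : ℤ) (h : ReflTransGen (BS R) x y) :
    ∃ h', ReflTransGen (FD R) (x, h₀) (y, h') := by
  induction h with
  | refl => exact ⟨h₀, .refl⟩
  | tail _ h2 ih =>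
    obtain ⟨h', h3⟩ := ih
    obtain ⟨r, h4⟩ := h2
    exact ⟨_, h3.tail ⟨r, h4, rfl⟩⟩

variable (R qin qacc v)

/-- the good sources -/
def Src (ω : St s × Lam (Kp k)) : Prop :=
  ∃ w, ω = root s v w ∨ ω = emb true (E0 qin v w) ∨ (ω = emb false (E0 qin v w) ∧ Acc R qin qacc v w)

/-- The description of the component of the base configuration. -/
def G (ω : St s × Lam (Kp k)) : Prop := ∃ a, Src R qin qacc v a ∧ ReflTransGen (F R) a ω

variable {R qin qacc v}

theorem Src.hist {ω : St s × Lam (Kp k)} (h : Src R qin qacc v ω) : hist ω = 0 := by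
  obtain ⟨w, rfl | rfl | ⟨rfl, -⟩⟩ := h <;> rfl

theorem G_emb {b : Bool} {d : (Fin s × Lam (Fin k)) × ℤ} :
    G R qin qacc v (emb b d) ↔
      ∃ w, ReflTransGen (FD R) (E0 qin v w) d ∧ (b = true ∨ Acc R qin qacc v w) := by
  constructor
  · rintro ⟨a, ⟨w, rfl | rfl | ⟨rfl, ha⟩⟩, h⟩
    · have := rtg_root h
      simp [root, emb] at this
    · obtain ⟨d', h1, h2⟩ := rtg_F_iff.1 h
      obtain ⟨rfl, rfl⟩ := emb_inj h1
      exact ⟨w, h2, .inl rfl⟩
    · obtain ⟨d', h1, h2⟩ := rtg_F_iff.1 h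
      obtain ⟨rfl, rfl⟩ := emb_inj h1
      exact ⟨w, h2, .inr ha⟩
  · rintro ⟨w, h, hb⟩
    refine ⟨emb b (E0 qin v w), ⟨w, ?_⟩, rtg_F_iff.2 ⟨d, rfl, h⟩⟩
    cases b
    · exact .inr (.inr ⟨rfl, hb.resolve_left (by simp)⟩)
    · exact .inr (.inl rfl)

theorem G_step (r : Jx j) {ω ω' : St s × Lam (Kp k)} (h : (rules R qin qacc v r).Step ω ω') :
    G R qin qacc v ω ↔ G R qin qacc v ω' := by
  rcases r with p | b | _ | x
  · have hF : F R ω ω' := ⟨p, h⟩
    constructor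
    · rintro ⟨a, ha, h1⟩
      exact ⟨a, ha, h1.tail hF⟩
    · rintro ⟨a, ha, h1⟩
      rcases h1.cases_tail with h2 | ⟨c, h2, h3⟩
      · exact absurd hF (not_F_of_hist (h2 ▸ ha.hist) ω)
      · exact ⟨a, ha, F_back _ _ _ h3 hF ▸ h2⟩
  · obtain ⟨w, rfl, rfl⟩ := (fix_step _ _ _ _ _ _).1 h
    cases b
    · simp
    · refine iff_of_true ⟨_, ⟨w, .inr (.inl ?_)⟩, .refl⟩ ⟨_, ⟨w, .inl ?_⟩, .refl⟩
      · rw [emb_E0]; rfl
      · simp [root]
  · obtain ⟨x, h, rfl, rfl⟩ := (link_step _ _ _).1 h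
    rw [G_emb, G_emb]
    constructor
    · rintro ⟨w, h1, -⟩
      exact ⟨w, h1, .inl rfl⟩
    · rintro ⟨w, h1, -⟩
      exact ⟨w, h1, .inr ⟨x, rtg_BS_of_FD h1⟩⟩
  · obtain ⟨w, rfl, rfl⟩ := (fix_step _ _ _ _ _ _).1 h
    exact iff_of_true ⟨_, ⟨w, .inl rfl⟩, .refl⟩ ⟨_, ⟨_, .inl rfl⟩, .refl⟩

theorem H0_step (r : Jx j) {ω ω' : St s × Lam (Kp k)} (h : (rules R qin qacc v r).Step ω ω') :
    ω ∈ (mach R qin qacc v).H0 ↔ ω' ∈ (mach R qin qacc v).H0 :=
  ⟨fun h1 => EqvGen.trans _ _ _ h1 (.rel _ _ ⟨r, h⟩),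
    fun h1 => EqvGen.trans _ _ _ h1 (.symm _ _ (.rel _ _ ⟨r, h⟩))⟩

theorem H0_rtg {ω ω' : St s × Lam (Kp k)} (h : ReflTransGen (F R) ω ω') :
    ω ∈ (mach R qin qacc v).H0 ↔ ω' ∈ (mach R qin qacc v).H0 := by
  induction h with
  | refl => exact Iff.rfl
  | tail _ h2 ih => obtain ⟨p, h3⟩ := h2; exact ih.trans (H0_step (.inl p) h3)

theorem root_mem (w : Fr) : root s v w ∈ (mach R qin qacc v).H0 := by
  have key : ∀ (w : Fr) (x : Bool), root s v w ∈ (mach R qin qacc v).H0 ↔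
      root s v (w * FreeGroup.of x) ∈ (mach R qin qacc v).H0 := fun w x =>
    H0_step (.inr (.inr (some x))) ((fix_step _ _ _ _ _ _).2 ⟨w, rfl, rfl⟩)
  have key2 : ∀ u w : Fr, root s v w ∈ (mach R qin qacc v).H0 ↔
      root s v (w * u) ∈ (mach R qin qacc v).H0 := by
    intro u
    induction u using FreeGroup.induction_on with
    | C1 => simp
    | of x => exact fun w => key w x
    | inv_of x _ =>
      intro w
      have := key (w * (FreeGroup.of x)⁻¹) x
      rw [inv_mul_cancel_right] at this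
      exact this.symm
    | mul x y hx hy => intro w; rw [← mul_assoc]; exact (hx w).trans (hy _)
  have := (key2 w 1).1 (EqvGen.refl _)
  rwa [one_mul] at this

theorem mir_mem (w : Fr) : emb true (E0 qin v w) ∈ (mach R qin qacc v).H0 := by
  refine (H0_step (.inr (.inl true)) ((fix_step _ _ _ _ _ _).2 ⟨w, ?_, ?_⟩)).2 (root_mem w)
  · rw [emb_E0]; rfl
  · simp [root]

theorem mem_H0_iff (ω : St s × Lam (Kp k)) : ω ∈ (mach R qin qacc v).H0 ↔ G R qin qacc v ω := by
  constructor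
  · intro h
    have key : ∀ a b, EqvGen (fun x y => ∃ r, ((mach R qin qacc v).R r).Step x y) a b →
        (G R qin qacc v a ↔ G R qin qacc v b) := by
      intro a b h
      induction h with
      | rel x y h => obtain ⟨r, h⟩ := h; exact G_step r h
      | refl => exact Iff.rfl
      | symm _ _ _ ih => exact ih.symm
      | trans _ _ _ _ _ ih ih' => exact ih.trans ih'
    exact (key _ _ h).1 ⟨_, ⟨1, .inl rfl⟩, .refl⟩
  · rintro ⟨a, ⟨w, rfl | rfl | ⟨rfl, x, hx⟩⟩, h⟩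
    · exact (H0_rtg h).1 (root_mem w)
    · exact (H0_rtg h).1 (mir_mem w)
    · obtain ⟨h', h1⟩ := rtg_FD_of_BS 0 hx
      refine (H0_rtg h).1 ((H0_rtg (rtg_F_iff.2 ⟨_, rfl, h1⟩)).2 ?_)
      refine (H0_step (.inr (.inr none)) ((link_step _ _ _).2 ⟨x, h', rfl, rfl⟩)).2 ?_
      exact (H0_rtg (rtg_F_iff.2 ⟨_, rfl, h1⟩)).1 (mir_mem w)

theorem ent_o (ν : Lam (Kp k)) (β : Bool) :
    (entR qin v false).o β ν = emb false (E0 qin v ν.1) := by
  rw [entR, fix_o, emb_E0]
  cases β <;> simp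

theorem G_ent (w : Fr) : G R qin qacc v (emb false (E0 qin v w)) ↔ Acc R qin qacc v w := by
  rw [G_emb]
  constructor
  · rintro ⟨w', h, hb⟩
    rcases h.cases_tail with h1 | ⟨c, -, hc⟩
    · have : w = w' := congrArg (fun d => d.1.2.1) h1
      exact this ▸ hb.resolve_left (by simp)
    · have := (FD_hist hc).2 le_rfl
      have h0 : (E0 qin v w).2 = 0 := rfl
      omega
  · exact fun h => ⟨w, .refl, .inr h⟩

variable (R qin v) in
/-- No predecessor, and neither an entry nor a root configuration. -/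
def Stuck (ω : St s × Lam (Kp k)) : Prop :=
  (∀ p : Bool × Fin j, ω ∉ (copyR j p.1 p.2 (R p.2)).o true '' (copyR j p.1 p.2 (R p.2)).L) ∧
    ∀ p : Bool × Bool, ω ∉ (entR qin v p.1).o p.2 '' (entR qin v p.1).L

theorem pred_iff (ω : St s × Lam (Kp k)) : (∃ a, F R a ω) ↔
    ∃ p : Bool × Fin j, ω ∈ (copyR j p.1 p.2 (R p.2)).o true '' (copyR j p.1 p.2 (R p.2)).L := by
  constructor
  · rintro ⟨a, p, ν, hν, -, rfl⟩
    exact ⟨p, ν, hν, rfl⟩
  · rintro ⟨p, ν, hν, rfl⟩
    exact ⟨_, p, ν, hν, rfl, rfl⟩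

theorem ent_iff (ω : St s × Lam (Kp k)) :
    (∃ p : Bool × Bool, ω ∈ (entR qin v p.1).o p.2 '' (entR qin v p.1).L) ↔
      ∃ w, ω = root s v w ∨ ω = emb true (E0 qin v w) ∨ ω = emb false (E0 qin v w) := by
  simp only [entR, fix_mem, emb_E0]
  constructor
  · rintro ⟨⟨b, β⟩, w, rfl⟩
    refine ⟨w, ?_⟩
    cases b <;> cases β <;> simp [root]
  · rintro ⟨w, rfl | rfl | rfl⟩
    · exact ⟨(true, true), w, rfl⟩
    · exact ⟨(true, false), w, rfl⟩
    · exact ⟨(false, false), w, rfl⟩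

theorem not_G_iff (ω : St s × Lam (Kp k)) : ¬ G R qin qacc v ω ↔
    (∃ a, ReflTransGen (F R) a ω ∧ (hist a < 0 ∨ Stuck R qin v a)) ∨
      ∃ ν : Lam (Kp k), ReflTransGen (F R) ((entR qin v false).o false ν) ω ∧
        ¬ Acc R qin qacc v ν.1 := by
  constructor
  · intro hG
    have key : ∀ n : ℕ, ∀ ω : St s × Lam (Kp k), (hist ω).toNat = n →
        ∃ a, ReflTransGen (F R) a ω ∧ (hist a < 0 ∨ ¬ ∃ c, F R c a) := by
      intro n
      induction n using Nat.strong_induction_on with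
      | _ n ih =>
        intro ω hn
        by_cases h0 : hist ω < 0
        · exact ⟨ω, .refl, .inl h0⟩
        by_cases h1 : ∃ c, F R c ω
        · obtain ⟨c, hc⟩ := h1
          have h2 := (F_hist hc).2 (not_lt.1 h0)
          obtain ⟨a, ha, ha'⟩ := ih (hist c).toNat (by omega) c rfl
          exact ⟨a, ha.tail hc, ha'⟩
        · exact ⟨ω, .refl, .inr h1⟩
    obtain ⟨a, ha, h | h⟩ := key _ ω rfl
    · exact .inl ⟨a, ha, .inl h⟩
    by_cases h2 : ∃ p : Bool × Bool, a ∈ (entR qin v p.1).o p.2 '' (entR qin v p.1).L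
    · obtain ⟨w, rfl | rfl | rfl⟩ := (ent_iff a).1 h2
      · exact absurd ⟨_, ⟨w, .inl rfl⟩, ha⟩ hG
      · exact absurd ⟨_, ⟨w, .inr (.inl rfl)⟩, ha⟩ hG
      · refine .inr ⟨(w, 1), by rwa [ent_o], fun hw => hG ⟨_, ⟨w, .inr (.inr ⟨rfl, hw⟩)⟩, ha⟩⟩
    · rw [pred_iff] at h
      exact .inl ⟨a, ha, .inr ⟨fun p hp => h ⟨p, hp⟩, fun p hp => h2 ⟨p, hp⟩⟩⟩
  · rintro (⟨a, ha, h⟩ | ⟨ν, hν, h⟩) ⟨c, hc, hc'⟩
    · have h1 := back_rtg F_back (not_F_of_hist hc.hist) hc' ha
      rcases h with h | h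
      · have h2 : 0 ≤ hist a := by
          clear h ha
          induction h1 with
          | refl => exact hc.hist.ge
          | tail _ h3 ih => exact ((F_hist h3).1 ih).le
        omega
      · rcases h1.cases_tail with rfl | ⟨b, -, hb⟩
        · obtain ⟨w, hw⟩ := hc
          obtain ⟨p, hp⟩ := (ent_iff (qin := qin) (v := v) a).2
            ⟨w, hw.imp_right (Or.imp_right And.left)⟩
          exact h.2 p hp
        · obtain ⟨p, hp⟩ := (pred_iff a).1 ⟨b, hb⟩
          exact h.1 p hp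
    · rw [ent_o] at hν
      have h1 := src_unique F_back (not_F_of_hist hc.hist) (not_F_of_hist rfl) hc' hν
      exact h ((G_ent ν.1).1 ⟨c, hc, h1 ▸ .refl⟩)

/-! ### effectivity -/

section eff
variable {K : Ctx}

theorem trk_fr {X : K.I → Type} [Rep K X] (w : Fr) : Trk fun i (_ : X i) => w :=
  (Trk.mk (L := fun _ => Bool) (Trk.const (α := List (Bool × Bool)) w.toWord)).of_eq
    fun _ _ => FreeGroup.mk_toWord

theorem reff_of {S κ : Type} [Primcodable S] [Fintype κ] (r : ℕ → Rule S κ)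
    (hq : ∀ e, (r e).q = (r 0).q) (htst : ∀ e, (r e).tst = (r 0).tst)
    (htw : ∀ e, (r e).tw = (r 0).tw) (hxb : ∀ e, (r e).xb = (r 0).xb)
    (hμ : ∀ e, (r e).μ = (r 0).μ) (ha : ∀ b c, Computable fun e => (r e).a b c) :
    REff fun i : K.I => r (K.par i) where
  q b := by simp only [hq]; exact TrkC.const _
  tst := by simp only [htst]; exact TrkC.const _
  tw := by simp only [htw]; exact TrkC.const _
  μ b c := by simp only [hμ]; exact TrkC.const _
  base b := by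
    refine Trk.trkC ?_
    simp only [Rule.base, hxb]
    exact (trk_fr _).pair (Trk.pi fun c => Trk.ofAdd (Trk.computable (ha b c) Trk.par))

variable (R qin qacc) {V : ℕ → Fin k → ℤ} (hV : ∀ c, Computable fun e => V e c)
include hV

theorem reff_fix (q : Bool → St s) (x : Option Bool) (tw : Bool) :
    REff fun i : K.I => fixR q x tw (V (K.par i)) :=
  reff_of (fun e => fixR q x tw (V e)) (fun _ => rfl) (fun _ => rfl) (fun _ => rfl) (fun _ => rfl)
    (fun _ => rfl) fun _ c => by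
      cases c with
      | none => exact Computable.const _
      | some c => exact hV c

omit hV in
theorem reff_const (r : Rule (St s) (Kp k)) : REff fun _ : K.I => r :=
  reff_of (fun _ => r) (fun _ => rfl) (fun _ => rfl) (fun _ => rfl) (fun _ => rfl)
    (fun _ => rfl) fun _ _ => Computable.const _

theorem meff : MEff fun i : K.I => mach R qin qacc (V (K.par i)) where
  R r := by
    rcases r with p | b | _ | x
    · exact reff_const _
    · exact reff_fix hV _ _ _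
    · exact reff_const _
    · exact reff_fix hV _ _ _
  ω0 := by
    refine Trk.trkC ((Trk.const _).pair ((trk_fr _).pair (Trk.pi fun c => Trk.ofAdd ?_)))
    cases c with
    | none => exact Trk.const _
    | some c => exact Trk.computable (hV c) Trk.par

theorem ure_not_G (h : URE fun i (w : Fr) => ¬ Acc R qin qacc (V (K.par i)) w) :
    URE fun i (ω : St s × Lam (Kp k)) => ¬ G R qin qacc (V (K.par i)) ω := by
  have hF : URE fun (_ : K.I) (p : (St s × Lam (Kp k)) × (St s × Lam (Kp k))) => F R p.1 p.2 :=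
    Cert.exists_fin fun p : Bool × Fin j => (reff_const (copyR j p.1 p.2 (R p.2))).step
  have hR := URE.rtg (X := fun _ : K.I => St s × Lam (Kp k)) (r := fun _ => F R) hF
  have hS : URE fun (i : K.I) (ω : St s × Lam (Kp k)) => Stuck R qin (V (K.par i)) ω :=
    Cert.and (Cert.forall_fin fun p : Bool × Fin j =>
        (reff_const (copyR j p.1 p.2 (R p.2))).notMem_o true)
      (Cert.forall_fin fun p : Bool × Bool => (reff_fix hV _ _ _).notMem_o p.2)
  have hh : URE fun (_ : K.I) (ω : St s × Lam (Kp k)) => hist ω < 0 :=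
    Cert.int_lt (Trk.toAdd (Trk.apply (Trk.snd (Trk.snd Trk.id)) none)) (Trk.const 0)
  have h1 : URE fun (i : K.I) (ω : St s × Lam (Kp k)) =>
      ∃ a, ReflTransGen (F R) a ω ∧ (hist a < 0 ∨ Stuck R qin (V (K.par i)) a) :=
    Cert.exists (P := fun (i : K.I) (ω : St s × Lam (Kp k)) (a : St s × Lam (Kp k)) _ =>
      ReflTransGen (F R) a ω ∧ (hist a < 0 ∨ Stuck R qin (V (K.par i)) a))
      (Cert.and (Cert.comp hR ((Trk.snd Trk.id).pair (Trk.fst Trk.id)))
        (Cert.comp (Cert.or hh hS) (Trk.snd Trk.id)))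
  have ho : Trk fun (i : K.I) (ν : Lam (Kp k)) => (entR qin (V (K.par i)) false).o false ν :=
    (reff_fix hV _ _ _).o false
  have h2 : URE fun (i : K.I) (ω : St s × Lam (Kp k)) =>
      ∃ ν : Lam (Kp k), ReflTransGen (F R) ((entR qin (V (K.par i)) false).o false ν) ω ∧
        ¬ Acc R qin qacc (V (K.par i)) ν.1 :=
    Cert.exists (P := fun (i : K.I) (ω : St s × Lam (Kp k)) (ν : Lam (Kp k)) _ =>
      ReflTransGen (F R) ((entR qin (V (K.par i)) false).o false ν) ω ∧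
        ¬ Acc R qin qacc (V (K.par i)) ν.1)
      (Cert.and (Cert.comp hR ((ho.comp (Trk.snd Trk.id)).pair (Trk.fst Trk.id)))
        (Cert.comp h (Trk.fst (Trk.snd Trk.id))))
  exact (Cert.or h1 h2).of_iff fun i ω _ => (not_G_iff ω).symm

end eff

end Mach
end Crest.Agent.R185
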