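import Crest.Agent.R185.MachBase
import Crest.Agent.R185.MachineAux
/-! Row 185: the reversible machine with history and mirror phase. -/
set_option autoImplicit false
open Set

namespace Crest.Agent.R185

theorem exists_machine (W : ℕ × List (Bool × Bool) → Prop) (hW : REPred W) :
    ∃ (St κ J : Type) (_ : Finite St) (_ : Primcodable St) (_ : Fintype κ) (_ : DecidableEq κ)
      (_ : Primcodable κ) (_ : Finite J) (_ : Primcodable J) (m : ℕ → MIn St κ J) (r₀ : J),
      (∀ e r, ((m e).R r).tw = true ↔ r = r₀) ∧ (∀ e, ((m e).R r₀).tst = false) ∧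
      (∀ e ν, ((m e).R r₀).o false ν = ((m e).R r₀).o true ν) ∧
      (∀ e, ∀ ν ∈ ((m e).R r₀).L,
        ((m e).R r₀).o false ν ∈ (m e).H0 ↔ ∃ u, FreeGroup.mk u = ν.1 ∧ W (e, u)) ∧
      ∀ K : Ctx, MEff (fun i => m (K.par i)) ∧
        ((URE fun i (w : Fr) => ¬ ∃ u, FreeGroup.mk u = w ∧ W (K.par i, u)) →
          URE fun i (ω : St × Lam κ) => ω ∉ (m (K.par i)).H0) := by
  classical
  obtain ⟨s, k, j, R, qin, qacc, v, hv, -, hacc⟩ := exists_base W hW
  refine ⟨Mach.St s, Mach.Kp k, Mach.Jx j, inferInstance, inferInstance, inferInstance,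
    inferInstance, inferInstance, inferInstance, inferInstance,
    fun e => Mach.mach R qin qacc (v e), .inr (.inl false), ?_, fun _ => rfl, ?_, ?_, ?_⟩
  · intro e r
    rcases r with p | b | _ | x
    · simp [Mach.mach, Mach.rules, Mach.copyR]
    · cases b <;> simp [Mach.mach, Mach.rules, Mach.entR, Mach.fixR]
    · simp [Mach.mach, Mach.rules, Mach.linkR]
    · simp [Mach.mach, Mach.rules, Mach.fixR]
  · intro e ν
    exact (Mach.ent_o ν false).trans (Mach.ent_o ν true).symm
  · intro e ν _
    rw [Mach.mem_H0_iff, ← hacc e ν.1]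
    have h := Mach.ent_o (qin := qin) (v := v e) ν false
    have h2 := Mach.G_ent (R := R) (qin := qin) (qacc := qacc) (v := v e) ν.1
    rw [← h] at h2
    exact h2
  · intro K
    refine ⟨Mach.meff R qin qacc hv, fun h => ?_⟩
    refine URE.of_iff (Mach.ure_not_G R qin qacc hv (URE.of_iff h fun i w => ?_)) fun i ω => ?_
    · exact not_congr (hacc _ w).symm
    · exact not_congr (Mach.mem_H0_iff ω).symm

end Crest.Agent.R185
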