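import Crest.Agent.R185.FixAlg
import Crest.Agent.R185.HigRE
import Crest.Agent.R185.Univ
import Crest.Agent.R185.Machine
import Crest.Agent.R185.FixREAux2
/-! Row 185: effectivity of the self-referential family. -/
set_option autoImplicit false
open Set

namespace Crest.Agent.R185.Dat
open Hig
variable {St κ J AG G : Type} [Finite St] [Primcodable St] [Fintype κ] [DecidableEq κ]
  [Primcodable κ] [Finite J] [Primcodable J] [Finite AG] [Primcodable AG] [Group G]
  (d : Dat St κ J AG) {sG : AG → G} (hG : Subgroup.closure (range sG) = ⊤)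
  (hre : REPred fun w : List (AG × Bool) => FreeGroup.lift sG (FreeGroup.mk w) = 1)

include hG hre in
theorem qp_rep (K : Ctx) (hm : MEff fun i => d.m (K.par i)) (hlab : Computable d.lab) :
    ∃ _ : Rep K fun i => d.Qp sG (K.par i), RGrp K (fun i => d.Qp sG (K.par i)) ∧
      (Trk fun i => d.c sG (K.par i)) ∧
      ((∀ i, (d.Q (K.par i)).Size 0) → (∀ i, K.Nice i → (d.Q (K.par i)).Good) →
        (REPred fun w : List (AG × Bool) => FreeGroup.lift sG (FreeGroup.mk w) ≠ 1) →
        (Cert fun i (φ : Bool × List (Gen St κ J × Bool)) n =>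
          d.ev (K.par i) (FreeGroup.mk φ.2) ∉ cond φ.1 (d.D (K.par i)) ⊥ ∧
            (φ.2.length : ℕ∞) ≤ n) →
        NMem (fun i => Filt.wl (d.c sG (K.par i))) (fun _ => {1}) c0 0 ∧
          NMem (fun i => Filt.wl (d.c sG (K.par i))) (fun i => d.Dp sG (K.par i)) c0 0) := by
  exact d.fre_qp_rep hG hre K hm hlab

include hG hre in
theorem exists_rel (hm : ∀ K : Ctx, MEff fun i => d.m (K.par i)) (hlab : Computable d.lab) :
    ∃ rel, Computable rel ∧ d.IsRel sG rel := by
  exact d.fre_exists_rel hG hre hm hlab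

theorem re_acc {rel : ℕ × ℕ → List (GenQ (Gen St κ J) AG × Bool)} (h : Computable rel) :
    REPred fun x : ℕ × List (Bool × Bool) => FreeGroup.mk x.2 ∈ d.Acc rel x.1 := by
  exact d.fre_re_acc h

theorem ure_not_acc {rel : ℕ × ℕ → List (GenQ (Gen St κ J) AG × Bool)} (h : Computable rel)
    {M : ℕ} (hM : Shrink d.β M) (K : Ctx) : URE fun i (w : Fr) => w ∉ d.Acc rel (K.par i) := by
  exact d.fre_ure_not_acc h hM K

include hG hre in
/-- Non-membership in `D e` is r.e. at good parameters. -/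
theorem Setup.exists_p {rel : ℕ × ℕ → List (GenQ (Gen St κ J) AG × Bool)} {r₀ : J} {M : ℕ}
    {Good : ℕ → Prop} (h : d.Setup sG rel r₀ M Good)
    (hco : REPred fun w : List (AG × Bool) => FreeGroup.lift sG (FreeGroup.mk w) ≠ 1) :
    ∃ p : ℕ × List (Gen St κ J × Bool) → Prop, REPred p ∧ ∀ e, Good e →
      (∀ w, p (e, w) → d.ev e (FreeGroup.mk w) ∉ d.D e) ∧
      ((d.Q e).Good → ∀ w, d.ev e (FreeGroup.mk w) ∉ d.D e → p (e, w)) := by
  classical
  let dec : ℕ → Bool × List (Gen St κ J × Bool) := fun φ =>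
    (Encodable.decode φ).getD (false, [])
  have hdec : Primrec dec := Primrec.option_getD.comp Primrec.decode (Primrec.const _)
  have dec_enc : ∀ a, dec (Encodable.encode a) = a := fun a => by
    simp only [dec, Encodable.encodek, Option.getD_some]
  let Tr' : ℕ → Bool × List (Gen St κ J × Bool) → Prop := fun e φ =>
    d.ev e (FreeGroup.mk φ.2) ∉ cond φ.1 (d.D e) ⊥
  let K : Ctx :=
    { I := {e // Good e}
      par := Subtype.val
      Or := fun i m φ => Tr' i.1 (dec φ) ∧ (dec φ).2.length ≤ m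
      mono := fun _ _ _ _ h1 h2 => ⟨h1.1, h1.2.trans h2⟩
      Nice := fun i => (d.Q i.1).Good }
  have hgood : ∀ i : K.I, Good (K.par i) := fun i => i.2
  obtain ⟨R, hR, hc, hN⟩ := d.qp_rep hG hre K (h.eff K) h.lab
  have horc : Cert (K := K) fun i (φ : Bool × List (Gen St κ J × Bool)) n =>
      d.ev (K.par i) (FreeGroup.mk φ.2) ∉ cond φ.1 (d.D (K.par i)) ⊥ ∧
        (φ.2.length : ℕ∞) ≤ n := by
    refine (Cert.oracle (K := K) (f := fun _ (φ : Bool × List (Gen St κ J × Bool)) =>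
      Encodable.encode φ) (Trk.primrec Primrec.encode Trk.id)).mono ?_ ?_
    · rintro i φ ⟨m₀, -, h1, -⟩
      rw [dec_enc] at h1
      exact ⟨h1, le_top⟩
    · rintro i φ m ⟨h1, h2⟩
      refine ⟨m, le_rfl, ?_, ?_⟩
      · rw [dec_enc]; exact h1
      · rw [dec_enc]; exact_mod_cast h2
  obtain ⟨hN1, hN2⟩ := hN (fun i => h.size _) (fun i hi => hi) hco horc
  have hv : ∀ i : K.I, Valid (d.m (K.par i)) d.β (d.c sG (K.par i)) := fun i =>
    valid h.isRel h.inj (h.spec _ (hgood i))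
  have hf : ∀ i : K.I, Full (d.m (K.par i)) d.β (d.c sG (K.par i)) := fun i =>
    full h.isRel (h.spec _ (hgood i))
  have hb : NMem (fun i => Filt.wl (d.c sG (K.par i)))
      (fun i => ((⊥ : Subgroup (d.Qp sG (K.par i))) : Set (d.Qp sG (K.par i)))) c0 0 :=
    Cert.of_iff hN1 fun i x m => by simp
  have c1 := hig_cert (h.eff K) hc hv (h.co K hgood) h.shrink h.big hN1 hb
  have c2 := hig_cert (h.eff K) hc hv (h.co K hgood) h.shrink h.big hN1 hN2
  have c3 : ∀ b : Bool, Cert (K := K) fun i (w : List (Gen St κ J × Bool)) n =>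
      Tr' (K.par i) (b, w) ∧ (w.length : ℕ∞) ≤ n + 1 := by
    intro b
    cases b
    · refine c1.of_iff fun i w n => and_congr_left' (not_congr ?_)
      obtain ⟨E, hE⟩ := exists_emb (hv i) (hf i)
      rw [hE, Subgroup.map_bot]
      rfl
    · refine c2.of_iff fun i w n => and_congr_left' (not_congr ?_)
      obtain ⟨E, hE⟩ := exists_emb (hv i) (hf i)
      rw [hE, E.map_Dp hG]
      rfl
  have hd : Trk (K := K) fun _ (φ : ℕ) => dec φ := Trk.primrec hdec Trk.id
  have c4 : Cert (K := K) fun i (φ : ℕ) n =>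
      Tr' (K.par i) (dec φ) ∧ (((dec φ).2.length : ℕ) : ℕ∞) ≤ n + 1 :=
    Cert.fin_cases (P := fun b i (φ : ℕ) n =>
      Tr' (K.par i) (b, (dec φ).2) ∧ (((dec φ).2.length : ℕ) : ℕ∞) ≤ n + 1)
      (fun b => Cert.comp (c3 b) hd.snd) hd.fst
  obtain ⟨p₁, hp₁, hs, hcm⟩ := Cert.bootstrap (K := K) (fun i φ => Tr' (K.par i) (dec φ))
    (fun φ => (dec φ).2.length) (fun _ _ _ => Iff.rfl) (by
      intro i φ ht
      rcases hl : (dec φ).2 with _ | ⟨a, l⟩
      · refine absurd ?_ ht
        rw [hl, ← FreeGroup.one_eq_mk, map_one]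
        exact Subgroup.one_mem _
      · simp) c4
  refine ⟨fun x => p₁ (x.1, Encodable.encode (true, x.2)), re_comp hp₁ (Primrec.to_comp
    (Primrec.fst.pair (Primrec.encode.comp ((Primrec.const true).pair Primrec.snd)))),
    fun e he => ⟨fun w hw => ?_, fun hQ w hw => ?_⟩⟩
  · have h1 := hs ⟨e, he⟩ _ hw
    rw [dec_enc] at h1
    exact h1
  · refine hcm ⟨e, he⟩ _ hQ ?_
    rw [dec_enc]
    exact hw

end Crest.Agent.R185.Dat
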