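import Crest.Agent.R185.SC
/-! Row 185: extension over the skeleta of a fine cubical grid. -/
set_option autoImplicit false
open Set Filter Topology Metric
open scoped Pointwise

namespace Crest.Agent.R185

namespace Grid

variable {j : ℕ}

/-- Integer part of the grid position. -/
noncomputable def zf (η : ℝ) (x : Fin j → ℝ) : Fin j → ℤ := fun i => ⌊x i / η⌋

open Classical in
/-- The set of non-integral grid coordinates. -/
noncomputable def If (η : ℝ) (x : Fin j → ℝ) : Finset (Fin j) :=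
  Finset.univ.filter fun i => x i / η ∉ Set.range ((↑) : ℤ → ℝ)

/-- The open cell containing `x`. -/
noncomputable def key (η : ℝ) (x : Fin j → ℝ) : (Fin j → ℤ) × Finset (Fin j) := (zf η x, If η x)

/-- Closed cell. -/
def cl (η : ℝ) (c : (Fin j → ℤ) × Finset (Fin j)) : Set (Fin j → ℝ) :=
  {x | ∀ i, (i ∈ c.2 → (c.1 i : ℝ) ≤ x i / η ∧ x i / η ≤ c.1 i + 1) ∧ (i ∉ c.2 → x i / η = c.1 i)}

theorem mem_If {η : ℝ} {x : Fin j → ℝ} {i : Fin j} :
    i ∈ If η x ↔ x i / η ∉ Set.range ((↑) : ℤ → ℝ) := by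
  simp [If]

theorem isClosed_cl (η : ℝ) (c : (Fin j → ℤ) × Finset (Fin j)) : IsClosed (cl η c) := by
  unfold cl
  rw [setOf_forall]
  refine isClosed_iInter fun i => ?_
  have hc : Continuous fun x : Fin j → ℝ => x i / η := by fun_prop
  by_cases hi : i ∈ c.2
  · simp only [hi, true_imp_iff, not_true, false_imp_iff, and_true]
    exact (isClosed_le continuous_const hc).inter (isClosed_le hc continuous_const)
  · simp only [hi, false_imp_iff, not_false_iff, true_imp_iff, true_and]
    exact isClosed_eq hc continuous_const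

theorem mem_cl_key (η : ℝ) (x : Fin j → ℝ) : x ∈ cl η (key η x) := by
  intro i
  refine ⟨fun _ => ⟨Int.floor_le _, (Int.lt_floor_add_one _).le⟩, fun hi => ?_⟩
  have : x i / η ∈ Set.range ((↑) : ℤ → ℝ) := by
    by_contra h; exact hi (mem_If.2 h)
  obtain ⟨n, hn⟩ := this
  change x i / η = (⌊x i / η⌋ : ℤ)
  rw [← hn, Int.floor_intCast]

theorem mem_top (η : ℝ) (x : Fin j → ℝ) : x ∈ cl η (zf η x, Finset.univ) := fun i =>
  ⟨fun _ => ⟨Int.floor_le _, (Int.lt_floor_add_one _).le⟩, fun h => (h (Finset.mem_univ _)).elim⟩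

theorem cl_key_subset {η : ℝ} {x : Fin j → ℝ} {w : Fin j → ℤ} (hx : x ∈ cl η (w, Finset.univ)) :
    cl η (key η x) ⊆ cl η (w, Finset.univ) := by
  intro y hy i
  refine ⟨fun _ => ?_, fun h => (h (Finset.mem_univ _)).elim⟩
  have h1 := (hx i).1 (Finset.mem_univ _)
  by_cases hi : i ∈ If η x
  · have h2 := (hy i).1 hi
    have h3 := mem_If.1 hi
    have h4 : x i / η < (w i : ℝ) + 1 := by
      refine lt_of_le_of_ne h1.2 fun h => h3 ⟨w i + 1, ?_⟩
      rw [h]; simp
    have h5 : ⌊x i / η⌋ = w i := Int.floor_eq_iff.2 ⟨h1.1, h4⟩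
    change ((⌊x i / η⌋ : ℤ) : ℝ) ≤ _ ∧ _ ≤ ((⌊x i / η⌋ : ℤ) : ℝ) + 1 at h2
    rw [h5] at h2
    exact h2
  · have h2 := (hy i).2 hi
    have h3 := (mem_cl_key η x i).2 hi
    rw [h2, ← h3]
    exact h1

theorem dist_le_of_mem_cl {η : ℝ} (hη : 0 < η) {c : (Fin j → ℤ) × Finset (Fin j)}
    {x y : Fin j → ℝ} (hx : x ∈ cl η c) (hy : y ∈ cl η c) : dist x y ≤ η := by
  rw [dist_pi_le_iff hη.le]
  intro i
  have key : |x i / η - y i / η| ≤ 1 := by
    by_cases hi : i ∈ c.2
    · have h1 := (hx i).1 hi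
      have h2 := (hy i).1 hi
      rw [abs_le]; constructor <;> linarith [h1.1, h1.2, h2.1, h2.2]
    · rw [(hx i).2 hi, (hy i).2 hi]; simp
  rw [← sub_div, abs_div, abs_of_pos hη, div_le_one hη] at key
  exact key

theorem finite_zf {η : ℝ} (hη : 0 < η) (r : ℝ) :
    (zf η '' closedBall (0 : Fin j → ℝ) r).Finite := by
  refine (Set.Finite.pi' fun _ : Fin j => finite_Icc ⌊-r / η⌋ ⌊r / η⌋).subset ?_
  rintro _ ⟨x, hx, rfl⟩ i
  have h1 : |x i| ≤ r := by
    have := norm_le_pi_norm x i
    rw [mem_closedBall_zero_iff] at hx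
    exact this.trans hx
  rw [abs_le] at h1
  exact ⟨Int.floor_le_floor (div_le_div_of_nonneg_right h1.1 hη.le),
    Int.floor_le_floor (div_le_div_of_nonneg_right h1.2 hη.le)⟩

theorem finite_key {η : ℝ} (hη : 0 < η) (r : ℝ) :
    (key η '' closedBall (0 : Fin j → ℝ) r).Finite := by
  refine ((finite_zf hη r).prod (finite_univ (α := Finset (Fin j)))).subset ?_
  rintro _ ⟨x, hx, rfl⟩
  exact ⟨⟨x, hx, rfl⟩, mem_univ _⟩

theorem isClosed_dim (η : ℝ) (k : ℕ) : IsClosed {x : Fin j → ℝ | (If η x).card ≤ k} := by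
  have : {x : Fin j → ℝ | (If η x).card ≤ k} =
      ⋃ I ∈ {I : Finset (Fin j) | I.card ≤ k}, ⋂ i ∈ (Iᶜ : Finset (Fin j)),
        (fun x : Fin j → ℝ => x i / η) ⁻¹' Set.range ((↑) : ℤ → ℝ) := by
    ext x
    simp only [mem_setOf_eq, mem_iUnion, mem_iInter, mem_preimage, Finset.mem_compl]
    constructor
    · intro h
      refine ⟨_, h, fun i hi => ?_⟩
      by_contra h'; exact hi (mem_If.2 h')
    · rintro ⟨I, hI, h⟩
      refine le_trans (Finset.card_le_card fun i hi => ?_) hI
      by_contra h'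
      exact mem_If.1 hi (h i h')
  rw [this]
  refine (toFinite _).isClosed_biUnion fun I _ => isClosed_biInter fun i _ => ?_
  exact Int.isClosedEmbedding_coe_real.isClosed_range.preimage (by fun_prop)

/-- Affine parametrisation of a cell. -/
theorem exists_param {η : ℝ} (hη : 0 < η) {k : ℕ} (c : (Fin j → ℤ) × Finset (Fin j))
    (hc : c.2.card = k + 1) :
    ∃ (u : (Fin (k + 1) → ℝ) → (Fin j → ℝ)) (v : (Fin j → ℝ) → (Fin (k + 1) → ℝ)),
      Continuous u ∧ Continuous v ∧ (∀ y, v (u y) = y) ∧ u '' closedBall 0 1 = cl η c ∧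
      (∀ x ∈ u '' sphere 0 1, (If η x).card ≤ k) ∧
      ∀ x ∈ cl η c, x ∉ u '' sphere 0 1 → key η x = c := by
  classical
  obtain ⟨z, I⟩ := c
  let e : I ≃ Fin (k + 1) := Finset.equivFinOfCardEq hc
  let u : (Fin (k + 1) → ℝ) → (Fin j → ℝ) := fun y i =>
    if h : i ∈ I then η * (z i + (1 + y (e ⟨i, h⟩)) / 2) else η * z i
  let v : (Fin j → ℝ) → (Fin (k + 1) → ℝ) := fun x a =>
    2 * (x (e.symm a) / η - z (e.symm a)) - 1
  have hu1 : ∀ y i (h : i ∈ I), u y i / η = z i + (1 + y (e ⟨i, h⟩)) / 2 := by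
    intro y i h
    simp only [u, dif_pos h]; field_simp
  have hu2 : ∀ y i, i ∉ I → u y i / η = z i := by
    intro y i h
    simp only [u, dif_neg h]; field_simp
  have hvu : ∀ y, v (u y) = y := by
    intro y; funext a
    simp only [v]
    rw [hu1 y _ (e.symm a).2]
    simp only [Subtype.coe_eta, Equiv.apply_symm_apply]
    ring
  have huv : ∀ x ∈ cl η (z, I), u (v x) = x := by
    intro x hx; funext i
    by_cases h : i ∈ I
    · simp only [u, v, dif_pos h, Equiv.symm_apply_apply]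
      field_simp; ring
    · have := (hx i).2 h
      simp only [u, dif_neg h]
      change x i / η = z i at this
      rw [← this]; field_simp
  have hv : ∀ x ∈ cl η (z, I), v x ∈ closedBall (0 : Fin (k + 1) → ℝ) 1 := by
    intro x hx
    rw [mem_closedBall_zero_iff, pi_norm_le_iff_of_nonneg zero_le_one]
    intro a
    have := (hx (e.symm a)).1 (e.symm a).2
    simp only [v, Real.norm_eq_abs, abs_le]
    constructor <;> linarith [this.1, this.2]
  have hub : ∀ y ∈ closedBall (0 : Fin (k + 1) → ℝ) 1, u y ∈ cl η (z, I) := by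
    intro y hy i
    refine ⟨fun h => ?_, fun h => hu2 y i h⟩
    rw [hu1 y i h]
    have h1 : |y (e ⟨i, h⟩)| ≤ 1 :=
      (norm_le_pi_norm y _).trans (mem_closedBall_zero_iff.1 hy)
    rw [abs_le] at h1
    constructor <;> linarith [h1.1, h1.2]
  refine ⟨u, v, ?_, ?_, hvu, ?_, ?_, ?_⟩
  · refine continuous_pi fun i => ?_
    by_cases h : i ∈ I
    · simp only [u, dif_pos h]; fun_prop
    · simp only [u, dif_neg h]; fun_prop
  · refine continuous_pi fun a => ?_
    simp only [v]; fun_prop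
  · refine Subset.antisymm ?_ fun x hx => ⟨v x, hv x hx, huv x hx⟩
    rintro _ ⟨y, hy, rfl⟩; exact hub y hy
  · rintro _ ⟨y, hy, rfl⟩
    rw [mem_sphere_zero_iff_norm] at hy
    obtain ⟨a, ha⟩ : ∃ a, |y a| = 1 := by
      by_contra h
      push_neg at h
      have : ‖y‖ < 1 := by
        rw [pi_norm_lt_iff zero_lt_one]
        intro a
        exact lt_of_le_of_ne ((norm_le_pi_norm y a).trans hy.le) (h a)
      exact this.ne hy
    have hsub : If η (u y) ⊆ I.erase (e.symm a) := by
      intro i hi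
      rw [mem_If] at hi
      have hI : i ∈ I := by
        by_contra h; exact hi ⟨z i, (hu2 y i h).symm⟩
      refine Finset.mem_erase.2 ⟨fun h => hi ?_, hI⟩
      rw [hu1 y i hI]
      have : e ⟨i, hI⟩ = a := by
        have : (⟨i, hI⟩ : I) = e.symm a := Subtype.ext h
        rw [this, Equiv.apply_symm_apply]
      rw [this]
      rcases abs_eq (zero_le_one) |>.1 ha with h1 | h1
      · exact ⟨z i + 1, by rw [h1]; push_cast; ring⟩
      · exact ⟨z i, by rw [h1]; ring⟩
    have := Finset.card_le_card hsub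
    rw [Finset.card_erase_of_mem (e.symm a).2] at this
    change I.card = k + 1 at hc
    omega
  · intro x hx hs
    have hlt : ‖v x‖ < 1 := by
      refine lt_of_le_of_ne (mem_closedBall_zero_iff.1 (hv x hx)) fun h => hs ?_
      exact ⟨v x, mem_sphere_zero_iff_norm.2 h, huv x hx⟩
    have hst : ∀ i ∈ I, (z i : ℝ) < x i / η ∧ x i / η < z i + 1 := by
      intro i hi
      have h1 := (norm_le_pi_norm (v x) (e ⟨i, hi⟩)).trans_lt hlt
      simp only [v, Equiv.symm_apply_apply, Real.norm_eq_abs, abs_lt] at h1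
      constructor <;> linarith [h1.1, h1.2]
    refine Prod.ext ?_ ?_
    · funext i
      change ⌊x i / η⌋ = z i
      by_cases h : i ∈ I
      · exact Int.floor_eq_iff.2 ⟨(hst i h).1.le, (hst i h).2⟩
      · have := (hx i).2 h
        change x i / η = z i at this
        rw [this, Int.floor_intCast]
    · ext i
      change i ∈ If η x ↔ i ∈ I
      rw [mem_If]
      constructor
      · intro h
        by_contra h'
        exact h ⟨z i, ((hx i).2 h').symm⟩
      · rintro h ⟨n, hn⟩
        have h1 := hst i h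
        rw [← hn] at h1
        have h2 : z i < n := by exact_mod_cast h1.1
        have h3 : n < z i + 1 := by exact_mod_cast h1.2
        omega

end Grid

open Grid in
/-- Abstract skeleton-by-skeleton extension over a fine cubical grid of `ℝ^j`.
`Good k C F` says that `F` is an admissible function on `C` at stage `k`. -/
theorem grid_ext {j : ℕ} {Z : Type*} (Good : ℕ → Set (Fin j → ℝ) → ((Fin j → ℝ) → Z) → Prop)
    (ρ : Z → Z) {K₀ K U : Set (Fin j → ℝ)} (hK₀ : IsCompact K₀) (hK : IsCompact K)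
    (hU : IsOpen U) (hKU : K₀ ⊆ U) {r δ : ℝ} (hδ : 0 < δ) (hr : K₀ ∪ K ⊆ ball 0 r)
    (mono : ∀ k C C' F, Good k C F → C' ⊆ C → Good k C' F)
    (congr : ∀ k C F F', Good k C F → EqOn F' F C → Good k C F')
    (union : ∀ k C C' F, IsClosed C → IsClosed C' → Good k C F → Good k C' F → Good k (C ∪ C') F)
    (step : ∀ k < j, ∀ C F, Good k C F → Good (k + 1) C (ρ ∘ F))
    (vertex : ∀ x ∈ closedBall (0 : Fin j → ℝ) r, ∃ z, Good 0 {x} (fun _ => z))
    (cell : ∀ k < j, ∀ (u : (Fin (k + 1) → ℝ) → (Fin j → ℝ)) (v : (Fin j → ℝ) → (Fin (k + 1) → ℝ)),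
      Continuous u → Continuous v → (∀ y, v (u y) = y) → u '' closedBall 0 1 ⊆ closedBall 0 r →
      (∀ y ∈ closedBall (0 : Fin (k + 1) → ℝ) 1, ∀ y' ∈ closedBall (0 : Fin (k + 1) → ℝ) 1,
        dist (u y) (u y') ≤ δ) →
      ∀ F, Good k (u '' sphere 0 1) F →
        ∃ F', Good (k + 1) (u '' closedBall 0 1) F' ∧ EqOn F' (ρ ∘ F) (u '' sphere 0 1))
    {F₀ : (Fin j → ℝ) → Z} (h₀ : Good 0 U F₀) :
    ∃ F, Good j K F ∧ EqOn F (ρ^[j] ∘ F₀) K₀ := by
  classical
  have : Nonempty Z := ⟨F₀ 0⟩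
  obtain ⟨ε₁, hε₁, h₁⟩ := hK₀.exists_cthickening_subset_open hU hKU
  obtain ⟨ε₂, hε₂, h₂⟩ := (hK₀.union hK).exists_cthickening_subset_open isOpen_ball hr
  set η := min δ (min ε₁ ε₂) with hηdef
  have hη : 0 < η := lt_min hδ (lt_min hε₁ hε₂)
  have hηδ : η ≤ δ := min_le_left _ _
  have hη₁ : η ≤ ε₁ := (min_le_right _ _).trans (min_le_left _ _)
  have hη₂ : η ≤ ε₂ := (min_le_right _ _).trans (min_le_right _ _)
  -- neighbourhoods made of top cells
  let N : Set (Fin j → ℝ) → Set (Fin j → ℝ) := fun A => ⋃ w ∈ zf η '' A, cl η (w, Finset.univ)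
  have hN1 : ∀ A, A ⊆ N A := fun A x hx => mem_biUnion ⟨x, hx, rfl⟩ (mem_top η x)
  have hN2 : ∀ A, A ⊆ ball 0 r → IsClosed (N A) := fun A hA =>
    ((finite_zf hη r).subset (image_mono (hA.trans ball_subset_closedBall))).isClosed_biUnion
      fun w _ => isClosed_cl _ _
  have hN3 : ∀ A ε, η ≤ ε → N A ⊆ cthickening ε A := by
    intro A ε hε y hy
    obtain ⟨_, ⟨x, hx, rfl⟩, hy⟩ := mem_iUnion₂.1 hy
    exact mem_cthickening_of_dist_le y x ε A hx
      ((dist_le_of_mem_cl hη hy (mem_top η x)).trans hε)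
  have hN4 : ∀ A, ∀ x ∈ N A, cl η (key η x) ⊆ N A := by
    intro A x hx
    obtain ⟨w, hw, hx⟩ := mem_iUnion₂.1 hx
    exact (cl_key_subset hx).trans (subset_biUnion_of_mem (u := fun w => cl η (w, Finset.univ)) hw)
  set P := N K₀ with hP
  set R := N (K₀ ∪ K) with hR
  have hPc : IsClosed P := hN2 _ (subset_union_left.trans hr)
  have hRc : IsClosed R := hN2 _ hr
  have hPU : P ⊆ U := (hN3 _ _ hη₁).trans h₁
  have hRr : R ⊆ closedBall 0 r := ((hN3 _ _ hη₂).trans h₂).trans ball_subset_closedBall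
  let A : ℕ → Set (Fin j → ℝ) := fun k => P ∪ (R ∩ {x | (If η x).card ≤ k})
  have hAc : ∀ k, IsClosed (A k) := fun k => hPc.union (hRc.inter (isClosed_dim η k))
  have fin_union : ∀ {ι : Type} (k : ℕ) (C : Set (Fin j → ℝ)) (F : (Fin j → ℝ) → Z) (s : Set ι)
      (f : ι → Set (Fin j → ℝ)), s.Finite → IsClosed C → Good k C F →
      (∀ c ∈ s, IsClosed (f c) ∧ Good k (f c) F) → Good k (C ∪ ⋃ c ∈ s, f c) F := by
    intro ι k C F s f hs hC hG h
    induction s, hs using Set.Finite.induction_on with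
    | empty => simpa using hG
    | @insert a s _ hs ih =>
      rw [biUnion_insert, union_comm (f a), ← union_assoc]
      refine union _ _ _ _ (hC.union (hs.isClosed_biUnion fun c hc =>
        (h c (mem_insert_of_mem _ hc)).1)) (h a (mem_insert _ _)).1
        (ih fun c hc => h c (mem_insert_of_mem _ hc)) (h a (mem_insert _ _)).2
  have main : ∀ k ≤ j, ∃ F, Good k (A k) F ∧ EqOn F (ρ^[k] ∘ F₀) P := by
    intro k
    induction k with
    | zero =>
      intro _
      choose! zv hzv using vertex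
      let F : (Fin j → ℝ) → Z := fun x => if x ∈ P then F₀ x else zv x
      have hFP : EqOn F F₀ P := fun x hx => if_pos hx
      refine ⟨F, ?_, hFP⟩
      let s : Set (Fin j → ℝ) := (R ∩ {x | (If η x).card ≤ 0}) \ P
      have hs : s.Finite := by
        refine Set.Finite.of_finite_image (f := zf η) ((finite_zf hη r).subset
          (image_mono fun x hx => hRr hx.1.1)) ?_
        intro x hx y hy hxy
        funext i
        have hx0 : If η x = ∅ := Finset.card_eq_zero.1 (Nat.le_zero.1 hx.1.2)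
        have hy0 : If η y = ∅ := Finset.card_eq_zero.1 (Nat.le_zero.1 hy.1.2)
        have h1 := (mem_cl_key η x i).2 (by change i ∉ If η x; simp [hx0])
        have h2 := (mem_cl_key η y i).2 (by change i ∉ If η y; simp [hy0])
        change x i / η = zf η x i at h1
        change y i / η = zf η y i at h2
        rw [hxy, ← h2] at h1
        exact (div_left_inj' hη.ne').1 h1
      have := fin_union 0 P F s (fun x => {x}) hs hPc
        (congr _ _ _ _ (mono _ _ _ _ h₀ hPU) hFP) (fun x hx => ⟨isClosed_singleton, by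
          refine congr _ _ _ _ (hzv x (hRr hx.1.1)) ?_
          rintro _ rfl
          exact if_neg hx.2⟩)
      refine mono _ _ _ _ this ?_
      intro x hx
      by_cases hxP : x ∈ P
      · exact Or.inl hxP
      · exact Or.inr (mem_biUnion (x := x) ⟨hx.resolve_left hxP, hxP⟩ rfl)
    | succ k ih =>
      intro hk
      have hk' : k < j := hk
      obtain ⟨F, hF, hFP⟩ := ih hk'.le
      let s : Set ((Fin j → ℤ) × Finset (Fin j)) := key η '' (A (k + 1) \ A k)
      have hsR : ∀ x ∈ A (k + 1) \ A k, x ∈ R ∧ x ∉ P ∧ (If η x).card = k + 1 := by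
        intro x hx
        have hxP : x ∉ P := fun h => hx.2 (Or.inl h)
        have h1 := hx.1.resolve_left hxP
        refine ⟨h1.1, hxP, ?_⟩
        have h2 : ¬ (If η x).card ≤ k := fun h => hx.2 (Or.inr ⟨h1.1, h⟩)
        have h3 : (If η x).card ≤ k + 1 := h1.2
        omega
      have hs : s.Finite := (finite_key hη r).subset (image_mono fun x hx => hRr (hsR x hx).1)
      have hex : ∀ c ∈ s, ∃ F', Good (k + 1) (cl η c) F' ∧
          ∀ x ∈ cl η c, (x ∈ A k → F' x = ρ (F x)) ∧ (x ∉ A k → key η x = c) := by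
        rintro _ ⟨x₀, hx₀, rfl⟩
        obtain ⟨hxR, hxP, hxk⟩ := hsR x₀ hx₀
        obtain ⟨u, v, hu, hv, hvu, hub, hus, hint⟩ := exists_param hη (key η x₀) hxk
        have hcR : cl η (key η x₀) ⊆ R := hN4 _ _ hxR
        have hsA : u '' sphere 0 1 ⊆ A k := fun x hx =>
          Or.inr ⟨hcR (hub ▸ image_mono sphere_subset_closedBall hx), hus x hx⟩
        obtain ⟨F', hF', hFF'⟩ := cell k hk' u v hu hv hvu (hub ▸ hcR.trans hRr)
          (fun y hy y' hy' => (dist_le_of_mem_cl hη (hub ▸ mem_image_of_mem u hy)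
            (hub ▸ mem_image_of_mem u hy')).trans hηδ) F (mono _ _ _ _ hF hsA)
        refine ⟨F', hub ▸ hF', fun x hx => ⟨fun hxA => ?_, fun hxA =>
          hint x hx fun h => hxA (hsA h)⟩⟩
        by_cases hxs : x ∈ u '' sphere 0 1
        · exact hFF' hxs
        · exfalso
          have hkey := hint x hx hxs
          rcases hxA with h | h
          · exact hxP (hN4 _ _ h (hkey ▸ mem_cl_key η x₀))
          · have h1 : (If η x).card ≤ k := h.2
            have h2 : If η x = If η x₀ := congrArg Prod.snd hkey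
            rw [h2] at h1
            omega
      choose! G hG hG' using hex
      let F' : (Fin j → ℝ) → Z := fun x => if x ∈ A k then ρ (F x) else G (key η x) x
      have hF'A : EqOn F' (ρ ∘ F) (A k) := fun x hx => if_pos hx
      refine ⟨F', ?_, fun x hx => ?_⟩
      · have := fin_union (k + 1) (A k) F' s (cl η) hs (hAc k)
          (congr _ _ _ _ (step k hk' _ _ hF) hF'A) (fun c hc => ⟨isClosed_cl _ _, by
            refine congr _ _ _ _ (hG c hc) fun x hx => ?_
            by_cases hxA : x ∈ A k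
            · rw [hF'A hxA, (hG' c hc x hx).1 hxA]; rfl
            · simp only [F', if_neg hxA, (hG' c hc x hx).2 hxA]⟩)
        refine mono _ _ _ _ this fun x hx => ?_
        by_cases hxA : x ∈ A k
        · exact Or.inl hxA
        · exact Or.inr (mem_biUnion (mem_image_of_mem _ ⟨hx, hxA⟩) (mem_cl_key η x))
      · rw [hF'A (Or.inl hx), Function.iterate_succ']
        simp only [Function.comp_apply]
        rw [hFP hx]; rfl
  obtain ⟨F, hF, hFP⟩ := main j le_rfl
  refine ⟨F, mono _ _ _ _ hF fun x hx => Or.inr ⟨hN1 _ (Or.inr hx), ?_⟩,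
    fun x hx => hFP (hN1 _ hx)⟩
  exact (Finset.card_le_univ _).trans (by simp)

end Crest.Agent.R185
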