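import Crest.Agent.R185.HigDef
/-! Row 185: algebra of the Higman tower. -/
set_option autoImplicit false
open Set

noncomputable section
namespace Crest.Agent.R185.Hig
variable {St κ J C : Type} (Q : Type) [Group Q]

section rule
variable (r : Rule St κ)

theorem rho_x (b : Bool) (x : Fr × Q) : rho Q r b (xN Q x) = 1 := by
  rw [rho, MonoidHom.comp_apply, sg_x, map_one]

theorem rho_d (b : Bool) : rho Q r b (dN Q) = 1 := by
  rw [rho, MonoidHom.comp_apply, sg_d, map_one]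

theorem rho_t (b : Bool) {ν : Lam κ} (h : ν ∈ r.L) : rho Q r b (tN Q (r.o b ν)) = eps Q r b ν := by
  rw [rho, MonoidHom.comp_apply, sg_t Q r b ⟨ν, h⟩, epsH, FreeGroup.lift_apply_of]

theorem rho_t_of_not (b : Bool) {ω : St × Lam κ} (h : ω ∉ r.o b '' r.L) :
    rho Q r b (tN Q ω) = 1 := by
  rw [rho, MonoidHom.comp_apply, sg_t_of_not Q r b h, map_one]

theorem rho_epsH (b : Bool) (w : FreeGroup r.L) : rho Q r b (epsH Q r b w) = epsH Q r b w := by
  rw [rho, MonoidHom.comp_apply, sg_epsH]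

theorem sg_actE (b : Bool) (μ : r.L) (x : N St κ Q) :
    sg Q r b (actE Q (r.i b μ) x) = actD r μ (sg Q r b x) := by
  have h : (sg Q r b).comp (actE Q (r.i b μ)) = (actD r μ).toMonoidHom.comp (sg Q r b) := by
    refine N_ext (fun x => ?_) (fun ω => ?_) ?_
    · simp [sg_x]
    · simp only [MonoidHom.comp_apply, actE_t, MulEquiv.coe_toMonoidHom]
      by_cases h : ω ∈ r.o b '' r.L
      · obtain ⟨ν, hν, rfl⟩ := h
        have e : ((r.o b ν).1, r.i b μ * (r.o b ν).2) = r.o b (μ * ⟨ν, hν⟩ : r.L) := by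
          simp [Rule.o, mul_assoc]
        rw [e, sg_t, sg_t Q r b ⟨ν, hν⟩]
        simp [actD]
      · rw [sg_t_of_not Q r b h, sg_t_of_not Q r b, map_one]
        rintro ⟨ν, hν, e⟩
        refine h ⟨(μ : Lam κ)⁻¹ * ν, mul_mem (inv_mem μ.2) hν, Prod.ext (congrArg Prod.fst e :) ?_⟩
        have e2 : r.i b ν * r.base b = r.i b μ * ω.2 := congrArg Prod.snd e
        change r.i b ((μ : Lam κ)⁻¹ * ν) * r.base b = ω.2
        rw [map_mul, mul_assoc, e2, map_inv, inv_mul_cancel_left]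
    · have h : sg Q r b (bN Q (r.i b μ).1) = 1 := sg_x Q r b _
      simp [sg_d, h]
  exact DFunLike.congr_fun h x

theorem ha_epsH_actD (b : Bool) (μ : r.L) (w : FreeGroup r.L) :
    epsH Q r b (actD r μ w) = actE Q (r.i b μ) (epsH Q r b w) := by
  have h : (epsH Q r b).comp (actD r μ).toMonoidHom = (actE Q (r.i b μ)).comp (epsH Q r b) := by
    ext ν
    simp [epsH, actD, actE_eps]
  exact DFunLike.congr_fun h w

theorem rho_actE (b : Bool) {μ : Lam κ} (h : μ ∈ r.L) (x : N St κ Q) :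
    rho Q r b (actE Q (r.i b μ) x) = actE Q (r.i b μ) (rho Q r b x) := by
  rw [rho, MonoidHom.comp_apply, MonoidHom.comp_apply, sg_actE Q r b ⟨μ, h⟩, ha_epsH_actD]

theorem mem_range_jr (b : Bool) (x : V0 St κ Q) :
    x ∈ (jr Q r b).range ↔ x.right ∈ r.i b '' r.L ∧ rho Q r b x.left = x.left := by
  constructor
  · rintro ⟨d, rfl⟩
    exact ⟨⟨d.right, d.right.2, rfl⟩, rho_epsH Q r b d.left⟩
  · rintro ⟨⟨μ, hμ, e⟩, h⟩
    exact ⟨⟨sg Q r b x.left, ⟨μ, hμ⟩⟩, SemidirectProduct.ext h e⟩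

end rule

variable (m : MIn St κ J) (β : C → Fr)

theorem vN_injective : Function.Injective (vN Q m) := by
  exact (MH.of_injective _).comp SemidirectProduct.inl_injective

theorem isGood_N : (MH.split (DN St κ Q)).IsGood (XB Q β) (LB m) := by
  refine ⟨fun e he => he, fun e _ a _ ha => ?_⟩
  rw [MH.free_A, Subgroup.mem_bot] at ha
  rw [ha, Split.φ_one]
  exact one_mem _

theorem t_mem_BN {ω : St × Lam κ} (h : ω ∈ m.H0) : tN Q ω ∈ BN Q m β := by
  refine Subgroup.subset_closure (Or.inr ⟨(some ω, false), fun ω' e => ?_, rfl⟩)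
  obtain rfl : ω = ω' := Option.some.inj e
  exact h

theorem d_mem_BN : dN Q ∈ BN Q m β := by
  exact Subgroup.subset_closure (Or.inr ⟨(none, false), fun _ e => absurd e (by simp), rfl⟩)

theorem b_mem_BN (f : FreeGroup C) : bN Q (FreeGroup.lift β f) ∈ BN Q m β := by
  exact Subgroup.subset_closure (Or.inl ⟨_, ⟨_, ⟨f, rfl⟩, rfl⟩, rfl⟩)

theorem ha_BN_le {K : Subgroup (N St κ Q)} (h1 : ∀ f, bN Q (FreeGroup.lift β f) ∈ K)
    (h2 : ∀ ω ∈ m.H0, tN Q ω ∈ K) (h3 : dN Q ∈ K) : BN Q m β ≤ K := by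
  rw [BN, PreSplit.gsub, Subgroup.closure_le]
  rintro _ (⟨_, ⟨_, ⟨f, rfl⟩, rfl⟩, rfl⟩ | ⟨⟨l, b⟩, he, rfl⟩)
  · exact h1 f
  · have h : MH.t (DN St κ Q) l ∈ K := by
      cases l with
      | none => exact h3
      | some ω => exact h2 ω (he ω rfl)
    cases b
    · exact h
    · exact inv_mem h

theorem ha_Ap_le {K : Subgroup (V Q m)} (h1 : ∀ x ∈ BN Q m β, vN Q m x ∈ K)
    (h2 : ∀ j, MH.t (DV Q m) j ∈ K) : Ap Q m β ≤ K := by
  rw [Ap, PreSplit.gsub, Subgroup.closure_le]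
  rintro _ (⟨_, ⟨x, hx, rfl⟩, rfl⟩ | ⟨⟨j, b⟩, -, rfl⟩)
  · exact h1 x hx
  · cases b
    · exact h2 j
    · exact inv_mem (h2 j)

theorem ha_vN_mem {x : N St κ Q} (h : x ∈ BN Q m β) : vN Q m x ∈ Ap Q m β :=
  Subgroup.subset_closure (Or.inl ⟨_, ⟨x, h, rfl⟩, rfl⟩)

theorem ha_t_mem (j : J) : MH.t (DV Q m) j ∈ Ap Q m β :=
  Subgroup.subset_closure (Or.inr ⟨(j, false), mem_univ _, rfl⟩)

theorem ha_rV_vN (x : N St κ Q) : rV Q m (vN Q m x) = vN Q m (rN Q x) :=
  (rV_of Q m _).trans (congrArg (MH.of (DV Q m)) (SemidirectProduct.ext rfl rfl))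

theorem rN_of_mem {x : N St κ Q} (h : x ∈ BN Q m β) : rN Q x = x := by
  exact ha_BN_le Q m β (K := (rN Q).eqLocus (MonoidHom.id _)) (fun f => rN_b Q _)
    (fun ω _ => rN_t Q ω) (rN_d Q) h

theorem rV_of_mem {x : V Q m} (h : x ∈ Ap Q m β) : rV Q m x = x := by
  refine ha_Ap_le Q m β (K := (rV Q m).eqLocus (MonoidHom.id _)) (fun x hx => ?_) (rV_t Q m) h
  change rV Q m (vN Q m x) = vN Q m x
  rw [ha_rV_vN, rN_of_mem Q m β hx]

theorem rV_rV (x : V Q m) : rV Q m (rV Q m x) = rV Q m x := by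
  have h1 : (rN Q).comp (rN Q) = (rN Q : N St κ Q →* N St κ Q) :=
    N_ext (by simp) (by simp) (by simp)
  have h2 : (rV Q m).comp (rV Q m) = rV Q m := by
    refine MH.hom_ext (fun y => ?_) (by simp)
    simp only [MonoidHom.comp_apply, rV_of]
    exact congrArg (MH.of (DV Q m)) (SemidirectProduct.ext (DFunLike.congr_fun h1 y.left) rfl)
  exact DFunLike.congr_fun h2 x

variable {Q m β} {c : C → Q}

theorem rV_genA (b : Bool) (f : FreeGroup ((Bool ⊕ J) ⊕ C)) :
    rV Q m (FreeGroup.lift (genA m β c b) f) = FreeGroup.lift (genA m β c false) f := by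
  have h : (rV Q m).comp (FreeGroup.lift (genA m β c b)) = FreeGroup.lift (genA m β c false) := by
    ext a
    simp only [MonoidHom.comp_apply, FreeGroup.lift_apply_of]
    rcases a with ((_ | _) | j) | i
    · exact (ha_rV_vN Q m _).trans (congrArg _ (rN_t Q _))
    · exact (ha_rV_vN Q m _).trans (congrArg _ (rN_d Q))
    · exact rV_t Q m j
    · exact (ha_rV_vN Q m _).trans (congrArg _ (rN_x Q _))
  exact DFunLike.congr_fun h f

variable (hv : Valid m β c)
include hv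

theorem Valid.ha_tw {K : Subgroup (N St κ Q)}
    (h1 : ∀ f, FreeGroup.lift c f = 1 → bN Q (FreeGroup.lift β f) ∈ K) (h3 : dN Q ∈ K) (j : J)
    (b' : Bool) {ν : Lam κ} (h : ν ∈ (m.R j).L) (h0 : (m.R j).o false ν ∈ m.H0) :
    cond ((m.R j).tw && b') ((bN Q ν.1)⁻¹ * dN Q) 1 ∈ K := by
  cases ht : (m.R j).tw
  · exact one_mem _
  · cases b'
    · exact one_mem _
    · obtain ⟨f, e1, e2⟩ := hv.acc j ht ν h h0
      exact mul_mem (inv_mem (e1 ▸ h1 f e2)) h3

theorem Valid.ha_eps {K : Subgroup (N St κ Q)}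
    (h1 : ∀ f, FreeGroup.lift c f = 1 → bN Q (FreeGroup.lift β f) ∈ K)
    (h2 : ∀ ω ∈ m.H0, tN Q ω ∈ K) (h3 : dN Q ∈ K) (j : J) (b b' : Bool) {ν : Lam κ}
    (h : ν ∈ (m.R j).L) (h0 : (m.R j).o b ν ∈ m.H0) : eps Q (m.R j) b' ν ∈ K := by
  have h4 : ∀ b', (m.R j).o b' ν ∈ m.H0 := fun b' => by
    have := (m.o_mem_H0_iff j h b).2 h0
    cases b <;> cases b' <;> assumption
  exact mul_mem (h2 _ (h4 b')) (hv.ha_tw h1 h3 j b' h (h4 false))

theorem Valid.ha_epsH {K : Subgroup (N St κ Q)}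
    (h1 : ∀ f, FreeGroup.lift c f = 1 → bN Q (FreeGroup.lift β f) ∈ K)
    (h2 : ∀ ω ∈ m.H0, tN Q ω ∈ K) (h3 : dN Q ∈ K) (j : J) (b b' : Bool) {x : N St κ Q}
    (h : x ∈ BN Q m β) : epsH Q (m.R j) b' (sg Q (m.R j) b x) ∈ K := by
  refine ha_BN_le Q m β (K := K.comap ((epsH Q (m.R j) b').comp (sg Q (m.R j) b))) (fun f => ?_)
    (fun ω hω => ?_) ?_ h
  · have e : sg Q (m.R j) b (bN Q (FreeGroup.lift β f)) = 1 := sg_x Q _ b _
    rw [Subgroup.mem_comap, MonoidHom.comp_apply, e, map_one]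
    exact one_mem _
  · rw [Subgroup.mem_comap, MonoidHom.comp_apply]
    by_cases e : ω ∈ (m.R j).o b '' (m.R j).L
    · obtain ⟨ν, hν, rfl⟩ := e
      rw [sg_t Q _ b ⟨ν, hν⟩, epsH, FreeGroup.lift_apply_of]
      exact hv.ha_eps h1 h2 h3 j b b' hν hω
    · rw [sg_t_of_not Q _ b e, map_one]
      exact one_mem _
  · rw [Subgroup.mem_comap, MonoidHom.comp_apply, sg_d, map_one]
    exact one_mem _

theorem Valid.eps_mem (j : J) (b b' : Bool) {ν : Lam κ} (h : ν ∈ (m.R j).L)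
    (h0 : (m.R j).o b ν ∈ m.H0) : eps Q (m.R j) b' ν ∈ BN Q m β := by
  exact hv.ha_eps (fun f _ => b_mem_BN Q m β f) (fun _ => t_mem_BN Q m β) (d_mem_BN Q m β) j b b' h h0

theorem Valid.epsH_sg_mem (j : J) (b b' : Bool) {x : N St κ Q} (h : x ∈ BN Q m β) :
    epsH Q (m.R j) b' (sg Q (m.R j) b x) ∈ BN Q m β := by
  exact hv.ha_epsH (fun f _ => b_mem_BN Q m β f) (fun _ => t_mem_BN Q m β) (d_mem_BN Q m β) j b b' h

omit hv in
theorem ha_phi (j : J) (b : Bool) {x : N St κ Q}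
    (h : (SemidirectProduct.inl x : V0 St κ Q) ∈ (MH.split (DV Q m)).A (j, b)) :
    epsH Q (m.R j) b (sg Q (m.R j) b x) = x ∧
      (MH.split (DV Q m)).φ (j, b) (SemidirectProduct.inl x) =
        SemidirectProduct.inl (epsH Q (m.R j) (!b) (sg Q (m.R j) b x)) := by
  have h1 : epsH Q (m.R j) b (sg Q (m.R j) b x) = x := ((mem_range_jr Q (m.R j) b _).1 h).2
  have h2 : ∀ b' w, (DV Q m).i j b' (SemidirectProduct.inl w : Dr (m.R j)) =
      SemidirectProduct.inl (epsH Q (m.R j) b' w) := fun b' w =>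
    SemidirectProduct.ext rfl (map_one ((m.R j).i b'))
  refine ⟨h1, ?_⟩
  have h3 := MH.split_φ (DV Q m) j b (SemidirectProduct.inl (sg Q (m.R j) b x) : Dr (m.R j))
  rwa [h2, h2, h1] at h3

theorem Valid.isGood_V : (MH.split (DV Q m)).IsGood (B0 Q m β) univ := by
  refine ⟨fun _ _ => mem_univ _, ?_⟩
  rintro ⟨j, b⟩ - _ ⟨x, hx, rfl⟩ ha
  rw [(ha_phi j b ha).2]
  exact ⟨_, hv.epsH_sg_mem j b (!b) hx, rfl⟩

/-- The first step of a path is accepted. -/
theorem Valid.step_iff (j : J) (b : Bool) (g : V0 St κ Q) :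
    (∃ a ∈ (jr Q (m.R j) b).range, g * a⁻¹ ∈ B0 Q m β) ↔
      g.right ∈ (m.R j).i b '' (m.R j).L ∧ g.left * (rho Q (m.R j) b g.left)⁻¹ ∈ BN Q m β := by
  constructor
  · rintro ⟨a, ha, y, hy, e⟩
    obtain rfl : g = SemidirectProduct.inl y * a := by rw [e, inv_mul_cancel_right]
    obtain ⟨h1, h2⟩ := (mem_range_jr Q _ b a).1 ha
    refine ⟨by simpa using h1, ?_⟩
    have e2 : (SemidirectProduct.inl y * a).left = y * a.left := by simp
    rw [e2, map_mul, h2, mul_inv_rev, mul_assoc, mul_inv_cancel_left]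
    exact mul_mem hy (inv_mem (hv.epsH_sg_mem j b b hy))
  · rintro ⟨h1, h2⟩
    refine ⟨⟨rho Q (m.R j) b g.left, g.right⟩, (mem_range_jr Q _ b _).2 ⟨h1, rho_epsH Q _ b _⟩,
      _, h2, ?_⟩
    rw [eq_mul_inv_iff_mul_eq]
    exact SemidirectProduct.ext (by simp) (by simp)

theorem Valid.range_genA : (FreeGroup.lift (genA m β c false)).range = Ap Q m β := by
  apply le_antisymm
  · rw [FreeGroup.range_lift_eq_closure, Subgroup.closure_le]
    rintro _ ⟨((_ | _) | j) | i, rfl⟩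
    · exact ha_vN_mem Q m β (t_mem_BN Q m β (Relation.EqvGen.refl _))
    · exact ha_vN_mem Q m β (d_mem_BN Q m β)
    · exact ha_t_mem Q m β j
    · have h := b_mem_BN Q m β (FreeGroup.of i)
      rw [FreeGroup.lift_apply_of] at h
      exact ha_vN_mem Q m β h
  · set K := (FreeGroup.lift (genA m β c false)).range
    have hg : ∀ a, genA m β c false a ∈ K := fun a => ⟨FreeGroup.of a, FreeGroup.lift_apply_of⟩
    have hj : ∀ j, MH.t (DV Q m) j ∈ K := fun j => hg (.inl (.inr j))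
    have hd : dN Q ∈ K.comap (vN Q m) := hg (.inl (.inl true))
    have hb : ∀ f, bN Q (FreeGroup.lift β f) ∈ K.comap (vN Q m) := fun f => by
      induction f using FreeGroup.induction_on with
      | C1 => simp only [map_one]; exact one_mem _
      | of i => rw [FreeGroup.lift_apply_of]; exact hg (.inr i)
      | inv_of i h => simp only [map_inv]; exact inv_mem h
      | mul x y hx hy => simp only [map_mul]; exact mul_mem hx hy
    have ht : ∀ x y, Relation.EqvGen (fun x y => ∃ r, (m.R r).Step x y) x y → x ∈ m.H0 →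
        (vN Q m (tN Q x) ∈ K ↔ vN Q m (tN Q y) ∈ K) := by
      intro x y h
      induction h with
      | rel x y h =>
        obtain ⟨j, ν, hν, rfl, rfl⟩ := h
        intro h0
        have h1 := MH.rel (DV Q m) j (SemidirectProduct.inl (FreeGroup.of ⟨ν, hν⟩) : Dr (m.R j))
        have h2 : ∀ b', MH.of (DV Q m) ((DV Q m).i j b'
            (SemidirectProduct.inl (FreeGroup.of ⟨ν, hν⟩) : Dr (m.R j))) =
            vN Q m (eps Q (m.R j) b' ν) := fun b' =>
          congrArg (MH.of (DV Q m)) (SemidirectProduct.ext FreeGroup.lift_apply_of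
            (map_one ((m.R j).i b')))
        rw [h2, h2, eps, eps, map_mul, map_mul] at h1
        have h3 := fun b' => hv.ha_tw (fun f _ => hb f) hd j b' hν h0
        rw [← K.mul_mem_cancel_right (h3 false), ← K.mul_mem_cancel_right (hj j), h1,
          K.mul_mem_cancel_left (hj j), K.mul_mem_cancel_right (h3 true)]
      | refl x => exact fun _ => Iff.rfl
      | symm x y h ih => exact fun hy => (ih (.trans _ _ _ hy (.symm _ _ h))).symm
      | trans x y z h h' ih ih' => exact fun hx => (ih hx).trans (ih' (.trans _ _ _ hx h))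
    exact ha_Ap_le Q m β (ha_BN_le Q m β (K := K.comap (vN Q m)) hb
      (fun ω hω => (ht _ _ hω (.refl _)).1 (hg (.inl (.inl false)))) hd) hj

theorem Valid.ha_psiN : ∃ ψN : BN Q m β →* N St κ Q,
    (∀ f h, ψN ⟨xN Q (FreeGroup.lift β f, 1), h⟩ =
      xN Q (FreeGroup.lift β f, FreeGroup.lift c f)) ∧ ∀ l h, ψN ⟨MH.t _ l, h⟩ = MH.t _ l := by
  let g : FreeGroup C →* Fr × Q := (MonoidHom.inl _ _).comp (FreeGroup.lift β)
  have hg : Function.Injective g := fun x y e => hv.inj (congrArg Prod.fst e)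
  have hX : XB Q β ≤ g.range := (MonoidHom.range_comp _ _).ge
  let fX : XB Q β →* N St κ Q :=
    (((xN Q).comp ((FreeGroup.lift β).prod (FreeGroup.lift c))).comp
      (MonoidHom.ofInjective hg).symm.toMonoidHom).comp (Subgroup.inclusion hX)
  obtain ⟨ψ, h1, h2⟩ := Split.good_lift (isGood_N Q m β) fX (MH.split (DN St κ Q)).t
    (fun e _ => (MH.split (DN St κ Q)).t_bar e) (by
      rintro e he ⟨a, ha'⟩ ha
      rw [MH.free_A, Subgroup.mem_bot] at ha
      obtain rfl : a = 1 := ha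
      simp only [Split.φ_one]
      have e : ∀ h, fX ⟨1, h⟩ = 1 := fun _ => map_one fX
      rw [e, one_mul, mul_one])
  refine ⟨ψ, fun f _ => (h1 ⟨g f, _, ⟨f, rfl⟩, rfl⟩).trans ?_, fun l h => h2 (l, false) ?_⟩
  · exact congrArg (fun y => xN Q (FreeGroup.lift β y, FreeGroup.lift c y))
      ((MonoidHom.ofInjective hg).symm_apply_apply f)
  · refine (Split.good_first (isGood_N Q m β) (g := 1) (p := ((l, false), 1)) (l := [])
      (PreSplit.red_singleton _ _) ?_).1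
    simpa [BN] using h

theorem Valid.exists_psi : ∃ (ψN : BN Q m β →* N St κ Q) (ψ : Ap Q m β →* V Q m),
    (∀ f h, ψN ⟨xN Q (FreeGroup.lift β f, 1), h⟩ =
      xN Q (FreeGroup.lift β f, FreeGroup.lift c f)) ∧
    (∀ l h, ψN ⟨MH.t _ l, h⟩ = MH.t _ l) ∧
    (∀ (x : BN Q m β) h, ψ ⟨vN Q m x, h⟩ = vN Q m (ψN x)) ∧
    (∀ j h, ψ ⟨MH.t _ j, h⟩ = MH.t _ j) ∧
    (∀ x : BN Q m β, rN Q (ψN x) = x) ∧
    ∀ f h, ψ ⟨FreeGroup.lift (genA m β c false) f, h⟩ = FreeGroup.lift (genA m β c true) f := by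
  obtain ⟨ψN, h1, h2⟩ := hv.ha_psiN
  let Fx : Subgroup (N St κ Q) := (ψN.eqLocus (BN Q m β).subtype).map (BN Q m β).subtype
  have hF : ∀ {j b b' x} (_ : x ∈ BN Q m β) h,
      ψN ⟨epsH Q (m.R j) b' (sg Q (m.R j) b x), h⟩ = epsH Q (m.R j) b' (sg Q (m.R j) b x) := by
    intro j b b' x hx h
    obtain ⟨y, hy, e⟩ := hv.ha_epsH (K := Fx)
      (fun f hf => ⟨⟨_, b_mem_BN Q m β f⟩, (h1 f _).trans (by rw [hf]; rfl), rfl⟩)
      (fun ω hω => ⟨⟨_, t_mem_BN Q m β hω⟩, h2 _ _, rfl⟩) ⟨⟨_, d_mem_BN Q m β⟩, h2 _ _, rfl⟩ j b b' hx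
    obtain rfl : y = ⟨_, h⟩ := Subtype.ext e
    exact hy
  let ι := (BN Q m β).equivMapOfInjective _
    (SemidirectProduct.inl_injective (φ := act St κ Q))
  let f0 : B0 Q m β →* V Q m := ((vN Q m).comp ψN).comp ι.symm.toMonoidHom
  have hf0 : ∀ (x : BN Q m β) h, f0 ⟨SemidirectProduct.inl x.1, h⟩ = vN Q m (ψN x) := fun x h =>
    congrArg (fun y => vN Q m (ψN y)) (ι.symm_apply_apply x)
  obtain ⟨ψ, h3, h4⟩ := Split.good_lift hv.isGood_V f0 (MH.split (DV Q m)).t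
    (fun e _ => (MH.split (DV Q m)).t_bar e) (by
      rintro ⟨j, b⟩ he ⟨_, x, hx, rfl⟩ ha
      obtain ⟨e1, e2⟩ := ha_phi j b ha
      have e3 : ψN ⟨x, hx⟩ = x := by
        have := hF (j := j) (b := b) (b' := b) hx (hv.epsH_sg_mem j b b hx)
        simpa only [e1] using this
      have e4 := (MH.split (DV Q m)).conj (j, b) _ ha
      simp only [e2] at e4 ⊢
      rw [hf0 ⟨x, hx⟩, hf0 ⟨_, hv.epsH_sg_mem j b (!b) hx⟩, hF hx, e3]
      exact e4)
  have h5 : ∀ (x : BN Q m β) h, ψ ⟨vN Q m x, h⟩ = vN Q m (ψN x) := fun x _ =>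
    (h3 ⟨SemidirectProduct.inl x.1, x.1, x.2, rfl⟩).trans (hf0 x _)
  have h6 : ∀ j h, ψ ⟨MH.t _ j, h⟩ = MH.t _ j := fun j _ => h4 (j, false) (mem_univ _)
  refine ⟨ψN, ψ, h1, h2, h5, h6, fun x => ?_, fun f h => ?_⟩
  · obtain ⟨y, hy, e⟩ := ha_BN_le Q m β
      (K := (((rN Q).comp ψN).eqLocus (BN Q m β).subtype).map (BN Q m β).subtype)
      (fun f => ⟨⟨_, b_mem_BN Q m β f⟩, (congrArg (rN Q) (h1 f _)).trans (rN_x Q _), rfl⟩)
      (fun ω hω => ⟨⟨_, t_mem_BN Q m β hω⟩, (congrArg (rN Q) (h2 _ _)).trans (rN_t Q _), rfl⟩)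
      ⟨⟨_, d_mem_BN Q m β⟩, (congrArg (rN Q) (h2 _ _)).trans (rN_d Q), rfl⟩ x.2
    obtain rfl : y = x := Subtype.ext e
    exact hy
  · have hm : ∀ f, FreeGroup.lift (genA m β c false) f ∈ Ap Q m β := fun f =>
      hv.range_genA.le ⟨f, rfl⟩
    have e : ψ.comp ((FreeGroup.lift (genA m β c false)).codRestrict _ hm) =
        FreeGroup.lift (genA m β c true) := by
      ext a
      have e1 : (FreeGroup.lift (genA m β c false)).codRestrict _ hm (FreeGroup.of a) =
          ⟨genA m β c false a, FreeGroup.lift_apply_of (f := genA m β c false) ▸ hm _⟩ :=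
        Subtype.ext FreeGroup.lift_apply_of
      refine ((congrArg ψ e1).trans ?_).trans (FreeGroup.lift_apply_of (f := genA m β c true)).symm
      rcases a with ((_ | _) | j) | i
      · exact (h5 ⟨_, t_mem_BN Q m β (.refl _)⟩ _).trans (congrArg _ (h2 _ _))
      · exact (h5 ⟨_, d_mem_BN Q m β⟩ _).trans (congrArg _ (h2 _ _))
      · exact h6 j _
      · have e2 := h1 (FreeGroup.of i) (b_mem_BN Q m β _)
        have e3 := b_mem_BN Q m β (FreeGroup.of i)
        simp only [FreeGroup.lift_apply_of] at e2 e3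
        exact (h5 ⟨_, e3⟩ _).trans (congrArg _ e2)
    exact DFunLike.congr_fun e f

theorem Valid.ker_eq :
    (FreeGroup.lift (genA m β c false)).ker = (FreeGroup.lift (genA m β c true)).ker := by
  obtain ⟨-, ψ, -, -, -, -, -, h⟩ := hv.exists_psi
  ext f
  simp only [MonoidHom.mem_ker]
  constructor
  · intro e
    rw [← h f (hv.range_genA.le ⟨f, rfl⟩)]
    simp only [e]
    exact map_one ψ
  · intro e
    rw [← rV_genA true f, e, map_one]

def DH : HData (V Q m) Unit where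
  D _ := FreeGroup ((Bool ⊕ J) ⊕ C)
  i _ b := FreeGroup.lift (genA m β c b)
  ker_eq _ := hv.ker_eq

abbrev H := MH (DH hv)

def hV : V Q m →* H hv := MH.of _

/-- The embedding of `Q`. -/
def iQ : Q →* H hv := (hV hv).comp ((vN Q m).comp (qN Q))

theorem iQ_injective : Function.Injective (iQ hv) := by
  refine (MH.of_injective _).comp ((vN_injective Q m).comp ((MH.of_injective _).comp ?_))
  exact fun x y e => congrArg Prod.snd e

omit hv in
/-- The generators lying in `V`. -/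
def genV [DecidableEq κ] (Q : Type) [Group Q] (m : MIn St κ J) : Gen St κ J → V Q m
  | .inl a => vL Q m (Rule.lgen a)
  | .inr (.inl q) => vN Q m (tN Q (q, 1))
  | .inr (.inr (.inl j)) => MH.t _ j
  | .inr (.inr (.inr (.inl x))) => vN Q m (bN Q (FreeGroup.of x))
  | .inr (.inr (.inr (.inr false))) => vN Q m (dN Q)
  | .inr (.inr (.inr (.inr true))) => 1

def genH [DecidableEq κ] : Gen St κ J → H hv
  | .inr (.inr (.inr (.inr true))) => MH.t _ ()
  | a => hV hv (genV Q m a)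

theorem genH_K [DecidableEq κ] : genH hv gK = MH.t _ () := rfl

theorem genH_of_ne [DecidableEq κ] {a : Gen St κ J} (h : a ≠ gK) :
    genH hv a = hV hv (genV Q m a) := by
  rcases a with a | a | a | a | _ | _
  all_goals first | rfl | exact absurd rfl h

end Crest.Agent.R185.Hig
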