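import Crest.Agent.R185.Rule
import Crest.Agent.R185.QDef
/-!
Row 185: the Higman embedding (Aanderaa–Cohen style) attached to a rule system `m`, code words
`β : C → Fr` and generators `c : C → Q`.

Floors: `N = (Fr × Q) * F(t ω, d)`, `V0 = N ⋊ Lam κ`, `V` adjoins the rule letters,
`H` adjoins `k`, which commutes with `t ω0`, `d`, the rules, and conjugates `β i` to `β i * c i`.
`A0 m β` is a finite presentation (independent of `Q`) which is isomorphic to `H` in good cases.
-/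
set_option autoImplicit false
open Set

noncomputable section
namespace Crest.Agent.R185.Hig

section floors
variable (St κ Q : Type) [Group Q]

abbrev DN : HData (Fr × Q) (Option (St × Lam κ)) := HData.free _ _
abbrev N := MH (DN St κ Q)

variable {St κ}

def xN : Fr × Q →* N St κ Q := MH.of _
def bN : Fr →* N St κ Q := (xN Q).comp (MonoidHom.inl _ _)
def qN : Q →* N St κ Q := (xN Q).comp (MonoidHom.inr _ _)
def tN (ω : St × Lam κ) : N St κ Q := MH.t _ (some ω)
def dN : N St κ Q := MH.t _ none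

def actE (μ : Lam κ) : N St κ Q →* N St κ Q :=
  MH.liftF (xN Q) fun l => l.elim ((bN Q μ.1)⁻¹ * dN Q) fun ω => tN Q (ω.1, μ * ω.2)

@[simp] theorem actE_x (μ : Lam κ) (x : Fr × Q) :
    actE Q μ (xN Q x) = (xN Q x : N St κ Q) := MH.liftF_of _ _ _
@[simp] theorem actE_b (μ : Lam κ) (w : Fr) : actE Q μ (bN Q w) = (bN Q w : N St κ Q) :=
  actE_x Q μ _
@[simp] theorem actE_q (μ : Lam κ) (q : Q) : actE Q μ (qN Q q) = (qN Q q : N St κ Q) :=
  actE_x Q μ _
@[simp] theorem actE_t (μ : Lam κ) (ω : St × Lam κ) :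
    actE Q μ (tN Q ω) = tN Q (ω.1, μ * ω.2) := MH.liftF_t _ _ _
@[simp] theorem actE_d (μ : Lam κ) :
    actE Q μ (dN Q) = ((bN Q μ.1)⁻¹ * dN Q : N St κ Q) := MH.liftF_t _ _ _

variable {Q} in
theorem N_ext {T : Type*} [Group T] {f g : N St κ Q →* T} (h1 : ∀ x, f (xN Q x) = g (xN Q x))
    (h2 : ∀ ω, f (tN Q ω) = g (tN Q ω)) (h3 : f (dN Q) = g (dN Q)) : f = g :=
  MH.hom_ext h1 fun l => by
    cases l
    · exact h3
    · exact h2 _

theorem actE_one : actE Q (1 : Lam κ) = MonoidHom.id (N St κ Q) :=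
  N_ext (by simp) (by simp) (by simp)

theorem actE_mul (μ ν : Lam κ) :
    actE Q (μ * ν) = (actE Q μ).comp (actE Q ν : N St κ Q →* N St κ Q) :=
  N_ext (by simp) (by simp [mul_assoc]) (by simp [mul_assoc])

variable (St κ) in
def act : Lam κ →* MulAut (N St κ Q) where
  toFun μ := MonoidHom.toMulEquiv (actE Q μ) (actE Q μ⁻¹)
    (by rw [← actE_mul, inv_mul_cancel, actE_one]) (by rw [← actE_mul, mul_inv_cancel, actE_one])
  map_one' := by ext x; exact DFunLike.congr_fun (actE_one Q) x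
  map_mul' μ ν := by ext x; exact DFunLike.congr_fun (actE_mul Q μ ν) x

@[simp] theorem act_apply (μ : Lam κ) (x : N St κ Q) : act St κ Q μ x = actE Q μ x := rfl

variable (St κ) in
abbrev V0 := N St κ Q ⋊[act St κ Q] Lam κ

variable (r : Rule St κ)

/-- The basis of the edge group of the rule `r` on the side `b`. -/
def eps (b : Bool) (ν : Lam κ) : N St κ Q :=
  tN Q (r.o b ν) * cond (r.tw && b) ((bN Q ν.1)⁻¹ * dN Q) 1

theorem actE_eps (b : Bool) (μ ν : Lam κ) : actE Q (r.i b μ) (eps Q r b ν) = eps Q r b (μ * ν) := by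
  have h : (r.i b μ).1 = μ.1 := rfl
  unfold eps
  cases r.tw && b <;> simp [Rule.o, mul_assoc, h]

def actD : r.L →* MulAut (FreeGroup r.L) where
  toFun μ := FreeGroup.freeGroupCongr (Equiv.mulLeft μ)
  map_one' := by rw [Equiv.mulLeft_one]; exact FreeGroup.freeGroupCongr_refl
  map_mul' μ ν := by
    ext x
    simp [FreeGroup.map.comp, Function.comp_def, mul_assoc]

abbrev Dr := FreeGroup r.L ⋊[actD r] r.L

def epsH (b : Bool) : FreeGroup r.L →* N St κ Q := FreeGroup.lift fun ν => eps Q r b ν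

def jr (b : Bool) : Dr r →* V0 St κ Q :=
  SemidirectProduct.map (epsH Q r b) ((r.i b).comp r.L.subtype) fun μ => by
    ext ν
    simp [epsH, actD, actE_eps]

open Classical in
/-- A left inverse of `epsH`. -/
def sg (b : Bool) : N St κ Q →* FreeGroup r.L :=
  MH.liftF 1 fun l => l.elim 1 fun ω =>
    if h : ∃ ν : r.L, r.o b ν = ω then FreeGroup.of h.choose else 1

theorem sg_x (b : Bool) (x : Fr × Q) : sg Q r b (xN Q x) = 1 := MH.liftF_of _ _ _
theorem sg_d (b : Bool) : sg Q r b (dN Q) = 1 := MH.liftF_t _ _ _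

theorem sg_t (b : Bool) (ν : r.L) : sg Q r b (tN Q (r.o b ν)) = FreeGroup.of ν := by
  have h : ∃ ν' : r.L, r.o b ν' = r.o b ν := ⟨ν, rfl⟩
  have h2 : sg Q r b (tN Q (r.o b ν)) = FreeGroup.of h.choose :=
    (MH.liftF_t _ _ _).trans (dif_pos h)
  rw [h2, Subtype.ext (r.o_injOn b h.choose.2 ν.2 h.choose_spec)]

theorem sg_t_of_not (b : Bool) {ω : St × Lam κ} (h : ω ∉ r.o b '' r.L) :
    sg Q r b (tN Q ω) = 1 :=
  (MH.liftF_t _ _ _).trans (dif_neg fun ⟨ν, hν⟩ => h ⟨ν, ν.2, hν⟩)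

theorem sg_eps (b : Bool) (ν : r.L) : sg Q r b (eps Q r b ν) = FreeGroup.of ν := by
  have h : sg Q r b (bN Q ν.1.1) = 1 := sg_x Q r b _
  unfold eps
  cases r.tw && b <;> simp [sg_t, sg_d, h]

theorem sg_epsH (b : Bool) (w : FreeGroup r.L) : sg Q r b (epsH Q r b w) = w := by
  have : (sg Q r b).comp (epsH Q r b) = MonoidHom.id _ := by
    ext ν; simp [epsH, sg_eps]
  exact DFunLike.congr_fun this w

theorem jr_injective (b : Bool) : Function.Injective (jr Q r b) := fun x y h =>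
  SemidirectProduct.ext
    (Function.LeftInverse.injective (sg_epsH Q r b) (congrArg SemidirectProduct.left h))
    (Subtype.ext (r.i_injOn b x.right.2 y.right.2 (congrArg SemidirectProduct.right h)))

/-- The retraction of `N` onto the normal part of the edge group. -/
def rho (b : Bool) : N St κ Q →* N St κ Q := (epsH Q r b).comp (sg Q r b)

variable {J : Type} (m : MIn St κ J)

def DV : HData (V0 St κ Q) J where
  D j := Dr (m.R j)
  i j b := jr Q (m.R j) b
  ker_eq j := ((MonoidHom.ker_eq_bot_iff _).2 (jr_injective Q _ _)).trans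
    ((MonoidHom.ker_eq_bot_iff _).2 (jr_injective Q _ _)).symm

abbrev V := MH (DV Q m)

def vN : N St κ Q →* V Q m := (MH.of (DV Q m)).comp SemidirectProduct.inl
def vL : Lam κ →* V Q m := (MH.of (DV Q m)).comp SemidirectProduct.inr

/-- Killing `Q`. -/
def rN : N St κ Q →* N St κ Q :=
  MH.liftF ((bN Q).comp (MonoidHom.fst _ _)) (MH.t _)

@[simp] theorem rN_x (x : Fr × Q) : rN Q (xN Q x) = (bN Q x.1 : N St κ Q) := MH.liftF_of _ _ _
@[simp] theorem rN_b (w : Fr) : rN Q (bN Q w) = (bN Q w : N St κ Q) := rN_x Q _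
@[simp] theorem rN_t (ω : St × Lam κ) : rN Q (tN Q ω) = tN Q ω := MH.liftF_t _ _ _
@[simp] theorem rN_d : rN Q (dN Q) = (dN Q : N St κ Q) := MH.liftF_t _ _ _

def r0 : V0 St κ Q →* V0 St κ Q :=
  SemidirectProduct.map (rN Q) (MonoidHom.id _) fun μ =>
    N_ext (by simp) (by simp) (by simp)

theorem rN_eps (b : Bool) (ν : Lam κ) : rN Q (eps Q r b ν) = eps Q r b ν := by
  unfold eps
  cases r.tw && b <;> simp

theorem r0_jr (b : Bool) (x : Dr r) : r0 Q (jr Q r b x) = jr Q r b x := by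
  have : (rN Q).comp (epsH Q r b) = epsH Q r b := by
    ext ν; simp [epsH, rN_eps]
  exact SemidirectProduct.ext (DFunLike.congr_fun this x.left) rfl

def rV : V Q m →* V Q m :=
  MH.lift ((MH.of (DV Q m)).comp (r0 Q)) (MH.t _) fun j d => by
    have h : ∀ b, r0 Q ((DV Q m).i j b d) = (DV Q m).i j b d := fun b => r0_jr Q _ b d
    simp only [MonoidHom.comp_apply, h]
    exact MH.rel _ j d

@[simp] theorem rV_of (x : V0 St κ Q) : rV Q m (MH.of _ x) = MH.of _ (r0 Q x) :=
  MH.lift_of _ _ _ _ _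
@[simp] theorem rV_t (j : J) : rV Q m (MH.t _ j) = MH.t _ j := MH.lift_t _ _ _ _ _

/-- The letters commuting with `k`: `t ω0`, `d` and the rules. -/
def com : Bool ⊕ J → V Q m
  | .inl false => vN Q m (tN Q m.ω0)
  | .inl true => vN Q m (dN Q)
  | .inr j => MH.t _ j

variable {C : Type} (β : C → Fr)

/-- The letters `d` and `t ω` (`ω ∈ H0`). -/
def LB : Set (Option (St × Lam κ) × Bool) := {e | ∀ ω, e.1 = some ω → ω ∈ m.H0}

def XB : Subgroup (Fr × Q) := (FreeGroup.lift β).range.map (MonoidHom.inl _ _)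
def BN : Subgroup (N St κ Q) := (MH.split (DN St κ Q)).gsub (XB Q β) (LB m)
def B0 : Subgroup (V0 St κ Q) := (BN Q m β).map SemidirectProduct.inl
def Ap : Subgroup (V Q m) := (MH.split (DV Q m)).gsub (B0 Q m β) univ

variable {Q} (c : C → Q)

def genA (b : Bool) : (Bool ⊕ J) ⊕ C → V Q m :=
  Sum.elim (com Q m) fun i => vN Q m (xN Q (β i, cond b (c i) 1))

/-- The words accepted by the twisted rules are codes of relations of `Q`. -/
structure Valid : Prop where
  inj : Function.Injective (FreeGroup.lift β)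
  acc : ∀ j, (m.R j).tw = true → ∀ ν ∈ (m.R j).L, (m.R j).o false ν ∈ m.H0 →
    ∃ f, FreeGroup.lift β f = ν.1 ∧ FreeGroup.lift c f = 1

/-- Enough relations are accepted. -/
structure Full : Prop where
  loop : ∀ j, (m.R j).tw = true → ∀ ν, (m.R j).o false ν = (m.R j).o true ν
  gen : Subgroup.closure (range c) = ⊤
  ker : ∀ f, FreeGroup.lift c f = 1 → f ∈ Subgroup.normalClosure
    {f | ∃ j, (m.R j).tw = true ∧ ∃ ν ∈ (m.R j).L, (m.R j).o false ν ∈ m.H0 ∧
      FreeGroup.lift β f = ν.1}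

end floors

/-! ### the finite presentation -/

/-- Generators: of `Lam κ`, the letters `t (q, 1)`, the rules, of `Fr`, and `d`, `k`. -/
def Gen (St κ J : Type) : Type := (Bool ⊕ κ) ⊕ St ⊕ J ⊕ Bool ⊕ Bool

instance (St κ J : Type) [Finite St] [Finite κ] [Finite J] : Finite (Gen St κ J) := by
  unfold Gen; infer_instance
instance (St κ J : Type) [Primcodable St] [Primcodable κ] [Primcodable J] :
    Primcodable (Gen St κ J) := by
  unfold Gen; infer_instance

section pres
variable {St κ J C : Type}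

def gL (a : Bool ⊕ κ) : Gen St κ J := .inl a
def gS (q : St) : Gen St κ J := .inr (.inl q)
def gR (j : J) : Gen St κ J := .inr (.inr (.inl j))
def gB (x : Bool) : Gen St κ J := .inr (.inr (.inr (.inl x)))
def gD : Gen St κ J := .inr (.inr (.inr (.inr false)))
def gK : Gen St κ J := .inr (.inr (.inr (.inr true)))

variable [Fintype κ] {T : Type} [Group T] (τ : Gen St κ J → T)

def lamT (ν : Lam κ) : T :=
  FreeGroup.lift (fun x => τ (gL (.inl x))) ν.1 *
    (Finset.univ.toList.map fun a => τ (gL (.inr a)) ^ (ν.2 a).toAdd).prod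

def bT : Fr →* T := FreeGroup.lift fun x => τ (gB x)
def tT (ω : St × Lam κ) : T := lamT τ ω.2 * τ (gS ω.1) * (lamT τ ω.2)⁻¹
def epsT (r : Rule St κ) (b : Bool) (ν : Lam κ) : T :=
  tT τ (r.o b ν) * cond (r.tw && b) ((bT τ ν.1)⁻¹ * τ gD) 1

/-- The word for the generator of `Q` with the code `w`. -/
def cT (w : Fr) : T := (bT τ w)⁻¹ * (τ gK)⁻¹ * bT τ w * τ gK

def comT (m : MIn St κ J) : Bool ⊕ J → T
  | .inl false => tT τ m.ω0
  | .inl true => τ gD
  | .inr j => τ (gR j)

def RelIx (κ J C : Type) : Type :=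
  ((Bool ⊕ κ) × κ) ⊕ ((Bool ⊕ κ) × Bool) ⊕ ((Bool ⊕ κ) × C) ⊕ (C × Bool) ⊕ (Bool ⊕ κ) ⊕ J ⊕
    (J × (Bool ⊕ κ)) ⊕ (Bool ⊕ J)

instance (κ J C : Type) [Finite κ] [Finite J] [Finite C] : Finite (RelIx κ J C) := by
  unfold RelIx; infer_instance

variable [DecidableEq κ] (m : MIn St κ J) (β : C → Fr)

open Classical in
def relT : RelIx κ J C → T
  | .inl p => cm (τ (gL p.1)) (τ (gL (.inr p.2)))
  | .inr (.inl p) => cm (τ (gL p.1)) (τ (gB p.2))
  | .inr (.inr (.inl p)) => cm (τ (gL p.1)) (cT τ (β p.2))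
  | .inr (.inr (.inr (.inl p))) => cm (cT τ (β p.1)) (τ (gB p.2))
  | .inr (.inr (.inr (.inr (.inl a)))) =>
      τ (gL a) * τ gD * (τ (gL a))⁻¹ * ((bT τ (Rule.lgen a).1)⁻¹ * τ gD)⁻¹
  | .inr (.inr (.inr (.inr (.inr (.inl j))))) =>
      epsT τ (m.R j) false 1 * τ (gR j) * (τ (gR j) * epsT τ (m.R j) true 1)⁻¹
  | .inr (.inr (.inr (.inr (.inr (.inr (.inl p)))))) =>
      if Rule.lgen p.2 ∈ (m.R p.1).L then
        lamT τ ((m.R p.1).i false (Rule.lgen p.2)) * τ (gR p.1) *
          (τ (gR p.1) * lamT τ ((m.R p.1).i true (Rule.lgen p.2)))⁻¹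
      else 1
  | .inr (.inr (.inr (.inr (.inr (.inr (.inr x)))))) => cm (comT τ m x) (τ gK)

/-- The finitely presented group. -/
abbrev A0 : Type := PresentedGroup (range (relT FreeGroup.of m β))

def gen0 : Gen St κ J → A0 m β := PresentedGroup.of

end pres

end Crest.Agent.R185.Hig
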