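import Crest.Agent.R185.HigAlg
import Crest.Agent.R185.Beta
/-! Row 185: filtrations of `N`, `V0`, `V` measuring syllables. -/
set_option autoImplicit false
open Set

noncomputable section
namespace Crest.Agent.R185

theorem supOK_free {B L : Type} [Group B] (F : Filt B) :
    (MH.split (HData.free B L)).SupOK F fun _ => 0 :=
  ⟨fun _ => rfl, fun e a ha => by
    rw [MH.free_A, Subgroup.mem_bot] at ha
    exact ha ▸ F.one⟩

/-- Homomorphisms whose values on the generators have size zero. -/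
theorem hf_zero {B J T : Type} [Group B] [Group T] {H : HData B J} (F : Filt T) (ψ : MH H →* T)
    (h1 : ∀ b, F.le (ψ (MH.of H b)) 0) (h2 : ∀ j, F.le (ψ (MH.t H j)) 0) (x : MH H) :
    F.le (ψ x) 0 := by
  have hx : x ∈ Subgroup.closure (range (MH.of H) ∪ range (MH.t H)) := by
    rw [MH.closure_eq_top]; trivial
  induction hx using Subgroup.closure_induction with
  | mem x hx =>
    rcases hx with ⟨b, rfl⟩ | ⟨j, rfl⟩
    · exact h1 b
    · exact h2 j
  | one => rw [map_one]; exact F.one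
  | mul x y _ _ hx hy => rw [map_mul]; exact F.mul hx hy
  | inv x _ hx => rw [map_inv]; exact F.inv hx

section letters
variable {B L : Type} [Group B] (F : Filt B) (ψ : MH (HData.free B L) →* MH (HData.free B L))
  {σ : L → L} (hσ : Function.Injective σ) (lam : L × Bool → B)
  (h1 : ∀ g, ψ (MH.of _ g) = MH.of _ g)
  (h2 : ∀ j, ψ (MH.t _ j) =
    MH.of _ (lam (j, false)) * MH.t _ (σ j) * (MH.of _ (lam (j, true)))⁻¹)
include hσ h1 h2

theorem hf_path {n a : ℕ} (l : List ((L × Bool) × B)) (hl : (MH.split (HData.free B L)).Red l)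
    (hs : ∀ p ∈ l, F.le p.2 n ∧ ∀ b, F.le (lam (p.1.1, b)) a) :
    ∃ u r, (MH.split (HData.free B L)).Red r ∧
      (MH.split (HData.free B L)).ev u r = ψ ((MH.split (HData.free B L)).ev 1 l) ∧ F.le u a ∧
      (∀ q ∈ r, F.le q.2 (n + 2 * a)) ∧
      ∀ q ∈ r.head?, ∃ p ∈ l.head?, q.1 = (σ p.1.1, p.1.2) ∧ u = lam p.1 := by
  induction l with
  | nil => exact ⟨1, [], PreSplit.red_nil _, (h1 1).symm, F.one' _, by simp, by simp⟩
  | cons p l ih =>
    obtain ⟨u, r, k1, k2, k3, k4, k5⟩ := ih hl.tail fun q hq => hs q (List.mem_cons_of_mem _ hq)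
    obtain ⟨⟨j, b⟩, g⟩ := p
    obtain ⟨s1, s2⟩ := hs _ List.mem_cons_self
    refine ⟨lam (j, b), ((σ j, b), (lam (j, !b))⁻¹ * g * u) :: r, ?_, ?_, s2 b,
      List.forall_mem_cons.2 ⟨Filt.mul' (F.mul (F.inv (s2 _)) s1) k3 (by omega), k4⟩, by simp⟩
    · rcases r with _ | ⟨q, r⟩
      · exact PreSplit.red_singleton _ _
      refine (PreSplit.red_cons_cons _ _ _ _).2 ⟨fun ⟨e1, e2⟩ => ?_, k1⟩
      obtain ⟨p', hp', e3, rfl⟩ := k5 q rfl
      rcases l with _ | ⟨p'', l⟩
      · simp at hp'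
      obtain rfl : p'' = p' := by simpa using hp'
      rw [e3, MH.split_bar, Prod.mk.injEq] at e1
      have e4 : p''.1 = (j, !b) := Prod.ext (hσ e1.1) e1.2
      refine ((PreSplit.red_cons_cons _ _ _ _).1 hl).1 ⟨e4, ?_⟩
      rw [MH.free_A, Subgroup.mem_bot] at e2 ⊢
      rw [e4, mul_assoc, inv_mul_eq_one] at e2
      exact mul_eq_right.1 e2.symm
    · have e : ψ ((MH.split (HData.free B L)).t (j, b)) = MH.of _ (lam (j, b)) *
          (MH.split (HData.free B L)).t (σ j, b) * (MH.of _ (lam (j, !b)))⁻¹ := by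
        cases b
        · exact h2 j
        · simp [h2, mul_assoc]
      rw [PreSplit.ev_cons, PreSplit.ev_cons, PreSplit.ev_mul, k2, ← mul_one g, PreSplit.ev_mul]
      simp [e, h1, mul_assoc]

theorem hf_map {n a : ℕ} {g : B} {l : List ((L × Bool) × B)}
    (hl : (MH.split (HData.free B L)).Red l) (hg : F.le g n)
    (hs : ∀ p ∈ l, F.le p.2 n ∧ ∀ b, F.le (lam (p.1.1, b)) a) :
    ((MH.split (HData.free B L)).supF (supOK_free F)).le
      (ψ ((MH.split (HData.free B L)).ev g l)) (n + 2 * a) := by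
  obtain ⟨u, r, k1, k2, k3, k4, -⟩ := hf_path F ψ hσ lam h1 h2 l hl hs
  refine ⟨g * u, r, k1, ?_, Filt.mul' hg k3 (by omega), fun q hq => ⟨k4 q hq, Nat.zero_le _⟩⟩
  rw [PreSplit.ev_mul, k2, ← mul_one g, PreSplit.ev_mul, mul_one, map_mul, MH.split_of, h1]

end letters

namespace Hig
variable {St κ J C : Type} {Q : Type} [Group Q]

/-- Maximal size of the syllables of the normal form. -/
def SN (FX : Filt (Fr × Q)) : Filt (N St κ Q) := (MH.split _).supF (supOK_free FX)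

section SN
variable {FX : Filt (Fr × Q)}

theorem SN_x {x : Fr × Q} {n : ℕ} (h : FX.le x n) : (SN FX).le (xN Q x : N St κ Q) n :=
  (MH.split _).supF_of _ h

theorem SN_t (ω : St × Lam κ) : (SN FX).le (tN Q ω) 0 :=
  (MH.split (DN St κ Q)).supF_t (supOK_free FX) (some ω, false)

theorem SN_d : (SN FX).le (dN Q : N St κ Q) 0 :=
  (MH.split (DN St κ Q)).supF_t (supOK_free FX) (none, false)

theorem SN_act {μ : Lam κ} {a : ℕ} (hμ : FX.le (μ.1, 1) a) {x : N St κ Q} {n : ℕ}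
    (h : (SN FX).le x n) : (SN FX).le (actE Q μ x) (n + 2 * a) := by
  obtain ⟨g, l, h1, rfl, h2, h3⟩ := h
  refine hf_map FX (actE Q μ) (σ := Option.map fun ω => (ω.1, μ * ω.2))
    (Option.map_injective fun ω ω' e => ?_)
    (fun e => e.1.elim (cond e.2 1 (μ.1, 1)⁻¹) fun _ => 1) (actE_x Q μ) ?_ h1 h2
    fun p hp => ⟨(h3 p hp).1, fun b => ?_⟩
  · rw [Prod.mk.injEq, mul_right_inj] at e
    exact Prod.ext e.1 e.2
  · rintro (_ | ω)
    · refine (actE_d Q μ).trans ?_
      simp only [Option.elim_none, cond_true, cond_false, map_one, map_inv, inv_one, mul_one]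
      rfl
    · refine (actE_t Q μ ω).trans ?_
      simp only [Option.elim_some, map_one, inv_one, mul_one, one_mul]
      rfl
  · rcases p.1.1 with _ | ω
    · cases b
      · exact FX.inv hμ
      · exact FX.one' _
    · exact FX.one' _

theorem SN_epsH (r : Rule St κ) (b : Bool) {s : ℕ} {w : FreeGroup r.L}
    (h : w ∈ Subgroup.closure (FreeGroup.of '' {ν : r.L | FX.le (ν.1.1, 1) s})) :
    (SN FX).le (epsH Q r b w) (2 * s) := by
  let lam : Option (St × Lam κ) × Bool → Fr × Q := fun e =>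
    e.1.elim 1 fun ω => cond (r.tw && b && e.2) (ω.2.1 * (r.xb b)⁻¹, 1) 1
  let A : N St κ Q →* N St κ Q := MH.liftF (xN Q) fun j =>
    MH.of _ (lam (j, false)) * MH.t _ j * (MH.of _ (lam (j, true)))⁻¹
  let B : FreeGroup r.L →* N St κ Q := FreeGroup.lift fun ν =>
    tN Q (r.o b ν) * cond (r.tw && b) (dN Q) 1
  let Λ : Set (Option (St × Lam κ) × Bool) := {e | ∀ b, FX.le (lam (e.1, b)) s}
  have e1 : ∀ ν : Lam κ, (r.o b ν).2.1 * (r.xb b)⁻¹ = ν.1 := fun ν => mul_inv_cancel_right _ _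
  have e : epsH Q r b = A.comp B := by
    refine FreeGroup.ext_hom _ _ fun ν => ?_
    have a1 : A (dN Q) = dN Q := (MH.liftF_t _ _ _).trans (by simp [lam, dN])
    have a2 : A (tN Q (r.o b ν)) = tN Q (r.o b ν) * (cond (r.tw && b) (bN Q ν.1.1) 1)⁻¹ := by
      refine (MH.liftF_t _ _ _).trans ?_
      simp only [lam, Option.elim_some, e1, Bool.and_false, Bool.and_true, cond_false, map_one,
        one_mul]
      cases r.tw && b
      · simp [tN]
      · rfl
    rw [MonoidHom.comp_apply, epsH, FreeGroup.lift_apply_of, FreeGroup.lift_apply_of, map_mul, a2,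
      eps]
    cases r.tw && b <;> simp [a1, mul_assoc]
  have hg : (MH.split (DN St κ Q)).IsGood ⊥ Λ := ⟨fun _ he => he, fun e _ a ha _ => by
    rw [Subgroup.mem_bot] at ha ⊢
    rw [ha, Split.φ_one]⟩
  have hB : B w ∈ (MH.split (DN St κ Q)).gsub ⊥ Λ := by
    refine Subgroup.mem_comap.1 ((Subgroup.closure_le (Subgroup.comap B _)).2 ?_ h)
    rintro _ ⟨ν, hν, rfl⟩
    rw [SetLike.mem_coe, Subgroup.mem_comap, FreeGroup.lift_apply_of]
    refine mul_mem (Subgroup.subset_closure (Or.inr ⟨(some _, false), fun b' => ?_, rfl⟩)) ?_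
    · simp only [lam, Option.elim_some, e1]
      cases r.tw && b && b'
      · exact FX.one' _
      · exact hν
    · cases r.tw && b
      · exact one_mem _
      · exact Subgroup.subset_closure (Or.inr ⟨(none, false), fun _ => FX.one' _, rfl⟩)
  obtain ⟨g, l, h1, h2, h3, h4⟩ := hg.exists_red hB
  have := hf_map FX A Function.injective_id lam (MH.liftF_of _ _) (MH.liftF_t _ _) (n := 0) (a := s)
    h3 (Subgroup.mem_bot.1 h1 ▸ FX.one)
    fun p hp => ⟨Subgroup.mem_bot.1 (h2 p hp).2 ▸ FX.one, (h2 p hp).1⟩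
  rw [h4, zero_add] at this
  rw [e]
  exact this

end SN

/-! ### the size of the `Q`-parts -/
section Lam
variable (F : Filt Q)

def LX : Filt (Fr × Q) := F.comap (MonoidHom.snd _ _)
def LN : Filt (N St κ Q) := SN (LX F)

theorem LN_act (μ : Lam κ) {x : N St κ Q} {n : ℕ} (h : (LN F).le x n) :
    (LN F).le (actE Q μ x) n := SN_act (FX := LX F) (a := 0) F.one h

def L0 : Filt (V0 St κ Q) where
  le x n := (LN F).le x.left n
  one := (LN F).one
  mul {x _ _ _} hx hy := (LN F).mul hx (LN_act F x.right hy)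
  inv {x _} hx := LN_act F x.right⁻¹ ((LN F).inv hx)
  mono := (LN F).mono

theorem LN_rN (x : N St κ Q) : (LN F).le (rN Q x) 0 := by
  refine hf_zero _ _ (fun y => ?_) (fun j => ?_) x
  · rw [show rN Q (MH.of _ y) = (bN Q y.1 : N St κ Q) from rN_x Q y]
    exact SN_x (FX := LX F) (x := (y.1, 1)) F.one
  · rw [show rN Q (MH.t _ j) = (MH.t _ j : N St κ Q) from MH.liftF_t _ _ _]
    exact (MH.split (DN St κ Q)).supF_t (supOK_free (LX F)) (j, false)

theorem LN_epsH (r : Rule St κ) (b : Bool) (w : FreeGroup r.L) : (LN F).le (epsH Q r b w) 0 := by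
  have : (rN Q).comp (epsH Q r b) = epsH Q r b := by
    ext ν; simp [epsH, rN_eps]
  rw [← this]
  exact LN_rN F _

variable (m : MIn St κ J)

theorem supOK_V : (MH.split (DV Q m)).SupOK (L0 F) fun _ => 0 :=
  ⟨fun _ => rfl, by
    rintro e _ ⟨d, rfl⟩
    exact LN_epsH F _ _ _⟩

def LV : Filt (V Q m) := (MH.split _).supF (supOK_V F m)

theorem LV_rV (x : V Q m) : (LV F m).le (rV Q m x) 0 := by
  refine hf_zero _ _ (fun y => ?_) (fun j => ?_) x
  · rw [rV_of]
    exact (MH.split _).supF_of (supOK_V F m) (LN_rN F y.left)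
  · rw [rV_t]
    exact (MH.split (DV Q m)).supF_t (supOK_V F m) (j, false)

end Lam

/-- Images of elements of `BN` with short syllables have small `Q`-parts. -/
theorem LN_psi {m : MIn St κ J} {β : C → Fr} {c : C → Q} {M : ℕ} (hM : Shrink β M)
    (ψN : BN Q m β →* N St κ Q)
    (h1 : ∀ f h, ψN ⟨xN Q (FreeGroup.lift β f, 1), h⟩ =
      xN Q (FreeGroup.lift β f, FreeGroup.lift c f))
    (h2 : ∀ l h, ψN ⟨MH.t _ l, h⟩ = MH.t _ l) (x : BN Q m β) {s : ℕ}
    (hx : (SN (FFr.comap (MonoidHom.fst _ _))).le (x : N St κ Q) s) :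
    (LN (Filt.wl c)).le (ψN x) (s / M) := by
  have hD : ∀ y : Fr × Q, ∃ z : Fr × Q, (z = 1 → y = 1) ∧ (y ∈ XB Q β →
      (∀ h, ψN ⟨xN Q y, h⟩ = xN Q z) ∧ (FFr.le y.1 s → (Filt.wl c).le z.2 (s / M))) := by
    intro y
    by_cases hy : y ∈ XB Q β
    · obtain ⟨_, ⟨f, rfl⟩, rfl⟩ := hy
      refine ⟨(FreeGroup.lift β f, FreeGroup.lift c f), fun h => Prod.ext (congrArg Prod.fst h :) rfl,
        fun _ => ⟨h1 f, fun h => ?_⟩⟩
      obtain ⟨w, hw, e⟩ := hM f s h
      rw [FreeGroup.lift_of_apply] at e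
      exact ⟨w, hw, by rw [e]⟩
    · exact ⟨y, id, fun h => absurd h hy⟩
  choose D hD1 hD2 using hD
  have key : ∀ (l : List ((Option (St × Lam κ) × Bool) × (Fr × Q))) (g : Fr × Q) (hg : g ∈ XB Q β)
      (hl : ∀ p ∈ l, p.1 ∈ LB m ∧ p.2 ∈ XB Q β),
      ψN ⟨(MH.split (DN St κ Q)).ev g l, (MH.split (DN St κ Q)).ev_mem_gsub hg hl⟩ =
        (MH.split (DN St κ Q)).ev (D g) (l.map fun p => (p.1, D p.2)) := by
    intro l
    induction l with
    | nil => exact fun g hg _ => (hD2 g hg).1 _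
    | cons p l ih =>
      intro g hg hl
      obtain ⟨hp, hl'⟩ := List.forall_mem_cons.1 hl
      have m1 : xN Q g ∈ BN Q m β := Subgroup.subset_closure (Or.inl ⟨g, hg, rfl⟩)
      have m2 : (MH.split (DN St κ Q)).t p.1 ∈ BN Q m β :=
        Subgroup.subset_closure (Or.inr ⟨p.1, hp.1, rfl⟩)
      have e : ψN ⟨_, m2⟩ = (MH.split (DN St κ Q)).t p.1 := by
        obtain ⟨⟨j, _ | _⟩, g'⟩ := p
        · exact h2 j _
        · exact (map_inv ψN ⟨MH.t _ j, inv_mem_iff.1 m2⟩).trans (congrArg _ (h2 j _))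
      rw [List.map_cons, PreSplit.ev_cons _ (D g), ← ih p.2 hp.2 hl', ← e,
        show (MH.split (DN St κ Q)).of (D g) = ψN ⟨_, m1⟩ from ((hD2 g hg).1 m1).symm,
        ← map_mul, ← map_mul]
      rfl
  obtain ⟨x, hxm⟩ := x
  obtain ⟨g, l, k1, rfl, k2, k3⟩ := hx
  obtain ⟨k4, k5⟩ := (Split.good_mem_iff (isGood_N Q m β)
    (fun e _ => by rw [MH.free_A]; exact bot_le) k1).1 hxm
  refine ⟨D g, l.map fun p => (p.1, D p.2), ?_, (key l g k4 k5).symm, (hD2 g k4).2 k2,
    fun q hq => ?_⟩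
  · unfold PreSplit.Red
    rw [List.isChain_map]
    refine List.IsChain.imp (fun p q h h' => h ⟨h'.1, ?_⟩) k1
    have := h'.2
    rw [MH.free_A, Subgroup.mem_bot] at this ⊢
    exact hD1 _ this
  · obtain ⟨p, hp, rfl⟩ := List.mem_map.1 hq
    exact ⟨(hD2 _ (k5 p hp).2).2 (k3 p hp).1, Nat.zero_le _⟩

end Hig
end Crest.Agent.R185
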