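import Crest.Agent.R185.HigFilt
/-! Row 185: the key size estimate of the Higman tower. -/
set_option autoImplicit false
open Set

noncomputable section
namespace Crest.Agent.R185.Hig
variable {St κ J C : Type} (Q : Type) [Group Q]

/-- Maximal length of the `Fr`-parts of the syllables. -/
def Blk : Filt (N St κ Q) := SN (FFr.comap (MonoidHom.fst _ _))

/-- Elements all of whose letters `t ω` have position `≤ n`. -/
def Rad (n : ℕ) : Subgroup (N St κ Q) :=
  Subgroup.closure (range (xN Q) ∪ {dN Q} ∪ tN Q '' {ω | FFr.le ω.2.1 n})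

/-- One-sided size in `V0`. -/
structure One (x : V0 St κ Q) (n : ℕ) : Prop where
  pos : FFr.le x.right.1 n
  rad : x.left ∈ Rad Q n
  mult : ∀ z s, (Blk Q).le z s → (Blk Q).le (actE Q x.right⁻¹ (z * x.left)) (s + 4 * n)

variable {Q}

theorem rad_mono {m n : ℕ} (h : m ≤ n) : (Rad Q m : Subgroup (N St κ Q)) ≤ Rad Q n :=
  Subgroup.closure_mono (union_subset_union subset_rfl (image_mono fun _ hω => FFr.mono hω h))

theorem x_mem_rad (x : Fr × Q) (n : ℕ) : (xN Q x : N St κ Q) ∈ Rad Q n :=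
  Subgroup.subset_closure (Or.inl (Or.inl ⟨x, rfl⟩))

theorem d_mem_rad (n : ℕ) : (dN Q : N St κ Q) ∈ Rad Q n :=
  Subgroup.subset_closure (Or.inl (Or.inr rfl))

theorem t_mem_rad {ω : St × Lam κ} {n : ℕ} (h : FFr.le ω.2.1 n) : tN Q ω ∈ Rad Q n :=
  Subgroup.subset_closure (Or.inr ⟨ω, h, rfl⟩)

theorem rad_act {μ : Lam κ} {m n : ℕ} (hμ : FFr.le μ.1 m) {x : N St κ Q} (hx : x ∈ Rad Q n) :
    actE Q μ x ∈ Rad Q (m + n) := by
  induction hx using Subgroup.closure_induction with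
  | mem y hy =>
    rcases hy with (⟨y, rfl⟩ | rfl) | ⟨ω, hω, rfl⟩
    · rw [actE_x]
      exact x_mem_rad _ _
    · rw [actE_d]
      exact mul_mem (inv_mem (x_mem_rad _ _)) (d_mem_rad _)
    · rw [actE_t]
      exact t_mem_rad (FFr.mul hμ hω)
  | one => rw [map_one]; exact one_mem _
  | mul y z _ _ hy hz => rw [map_mul]; exact mul_mem hy hz
  | inv y _ hy => rw [map_inv]; exact inv_mem hy

theorem actE_inv_act (μ : Lam κ) (x : N St κ Q) : actE Q μ⁻¹ (actE Q μ x) = x := by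
  rw [← MonoidHom.comp_apply, ← actE_mul, inv_mul_cancel, actE_one, MonoidHom.id_apply]

theorem blk_act {μ : Lam κ} {a : ℕ} (hμ : FFr.le μ.1 a) {x : N St κ Q} {n : ℕ}
    (h : (Blk Q).le x n) : (Blk Q).le (actE Q μ x) (n + 2 * a) :=
  SN_act (FX := FFr.comap (MonoidHom.fst _ _)) hμ h

theorem ffr_xb (r : Rule St κ) (b : Bool) : FFr.le (r.xb b) 1 :=
  ⟨(r.xb b).toWord, r.xb_norm b, by rw [FreeGroup.mk_toWord, FreeGroup.lift_of_eq_id]; rfl⟩

theorem epsH_rad (r : Rule St κ) (b : Bool) {n : ℕ} {w : FreeGroup r.L}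
    (h : w ∈ Subgroup.closure (FreeGroup.of '' {ν : r.L | FFr.le ν.1.1 n})) :
    epsH Q r b w ∈ Rad Q (n + 1) := by
  induction h using Subgroup.closure_induction with
  | mem y hy =>
    obtain ⟨ν, hν, rfl⟩ := hy
    rw [epsH, FreeGroup.lift_apply_of, eps]
    refine mul_mem (t_mem_rad (FFr.mul hν (ffr_xb r b))) ?_
    cases r.tw && b
    · exact one_mem _
    · exact mul_mem (inv_mem (x_mem_rad _ _)) (d_mem_rad _)
  | one => rw [map_one]; exact one_mem _
  | mul y z _ _ hy hz => rw [map_mul]; exact mul_mem hy hz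
  | inv y _ hy => rw [map_inv]; exact inv_mem hy

theorem r0_inl (x : N St κ Q) :
    r0 Q (SemidirectProduct.inl x) = SemidirectProduct.inl (rN Q x) :=
  SemidirectProduct.map_inl _ _ _ _

theorem One.mono {x : V0 St κ Q} {m n : ℕ} (h : One Q x m) (hmn : m ≤ n) : One Q x n := by
  exact ⟨FFr.mono h.pos hmn, rad_mono hmn h.rad, fun z s hz =>
    (Blk Q).mono (h.mult z s hz) (by omega)⟩

theorem One.mul {x y : V0 St κ Q} {m n : ℕ} (hx : One Q x m) (hy : One Q y n) :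
    One Q (x * y) (m + n) := by
  refine ⟨FFr.mul hx.pos hy.pos,
    mul_mem (rad_mono (Nat.le_add_right _ _) hx.rad) (rad_act hx.pos hy.rad), fun z s hz => ?_⟩
  have h := hy.mult _ _ (hx.mult z s hz)
  have e : actE Q (x * y).right⁻¹ (z * (x * y).left) =
      actE Q y.right⁻¹ (actE Q x.right⁻¹ (z * x.left) * y.left) := by
    rw [SemidirectProduct.mul_right, SemidirectProduct.mul_left, mul_inv_rev, actE_mul,
      MonoidHom.comp_apply, ← mul_assoc, map_mul (actE Q x.right⁻¹), act_apply, actE_inv_act]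
  rw [e]
  exact (Blk Q).mono h (by omega)

theorem One.of_blk {x : V0 St κ Q} {n : ℕ} (h1 : FFr.le x.right.1 n) (h2 : x.left ∈ Rad Q n)
    (h3 : (Blk Q).le x.left (2 * n)) : One Q x n := by
  refine ⟨h1, h2, fun z s hz => (Blk Q).mono (blk_act (μ := x.right⁻¹) (FFr.inv h1)
    ((Blk Q).mul hz h3)) (by omega)⟩

theorem One.blk {x : V0 St κ Q} {n : ℕ} (h : One Q x n) : (Blk Q).le x.left (6 * n) := by
  have h1 := blk_act h.pos (h.mult 1 0 (Blk Q).one)
  have h2 := actE_inv_act (Q := Q) x.right⁻¹ x.left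
  rw [inv_inv] at h2
  rw [one_mul, h2] at h1
  exact (Blk Q).mono h1 (by omega)

theorem sg_rad (r : Rule St κ) (b : Bool) {x : N St κ Q} {n : ℕ} (h : x ∈ Rad Q n) :
    sg Q r b x ∈ Subgroup.closure (FreeGroup.of '' {ν : r.L | FFr.le ν.1.1 (n + 1)}) := by
  induction h using Subgroup.closure_induction with
  | mem y hy =>
    rcases hy with (⟨y, rfl⟩ | rfl) | ⟨ω, hω, rfl⟩
    · rw [sg_x]
      exact one_mem _
    · rw [sg_d]
      exact one_mem _
    · by_cases h : ω ∈ r.o b '' r.L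
      · obtain ⟨ν, hν, rfl⟩ := h
        rw [sg_t Q r b ⟨ν, hν⟩]
        refine Subgroup.subset_closure ⟨⟨ν, hν⟩, ?_, rfl⟩
        have h1 : FFr.le (ν.1 * r.xb b) n := hω
        have h2 := FFr.mul h1 (FFr.inv (ffr_xb r b))
        rwa [mul_inv_cancel_right] at h2
      · rw [sg_t_of_not Q r b h]
        exact one_mem _
  | one => rw [map_one]; exact one_mem _
  | mul y z _ _ hy hz => rw [map_mul]; exact mul_mem hy hz
  | inv y _ hy => rw [map_inv]; exact inv_mem hy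

theorem One.pinch (r : Rule St κ) (b b' : Bool) {x : V0 St κ Q} {n : ℕ} (h : One Q x n) (ν : r.L)
    (hν : x.right = r.i b ν) : One Q (jr Q r b' ⟨sg Q r b x.left, ν⟩) (n + 2) := by
  have h1 := sg_rad r b h.rad
  refine One.of_blk ?_ (epsH_rad r b' h1) ((Blk Q).mono (SN_epsH r b' h1) (by omega))
  have h2 := h.pos
  rw [hν] at h2
  exact FFr.mono h2 (by omega)

variable (Q) in
def FM : Filt (V0 St κ Q) where
  le x n := One Q x n ∧ One Q x⁻¹ n
  one := by
    have : One Q (1 : V0 St κ Q) 0 := One.of_blk FFr.one (one_mem _) (Blk Q).one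
    exact ⟨this, by rwa [inv_one]⟩
  mul {x y m n} hx hy := ⟨hx.1.mul hy.1, by rw [mul_inv_rev, add_comm]; exact hy.2.mul hx.2⟩
  inv hx := ⟨hx.2, by rw [inv_inv]; exact hx.1⟩
  mono hx h := ⟨hx.1.mono h, hx.2.mono h⟩

theorem FM_inl {x : N St κ Q} {n : ℕ} (h1 : x ∈ Rad Q n) (h2 : (Blk Q).le x (2 * n)) :
    (FM Q).le (SemidirectProduct.inl x) n :=
  ⟨One.of_blk (FFr.one' n) h1 h2, by
    rw [← map_inv]
    exact One.of_blk (FFr.one' n) (inv_mem h1) ((Blk Q).inv h2)⟩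

theorem FM_inr {μ : Lam κ} {n : ℕ} (h : FFr.le μ.1 n) :
    (FM Q).le (SemidirectProduct.inr μ : V0 St κ Q) n :=
  ⟨One.of_blk h (one_mem _) ((Blk Q).one' _), by
    rw [← map_inv]
    exact One.of_blk (FFr.inv h) (one_mem _) ((Blk Q).one' _)⟩

variable (Q) (m : MIn St κ J)

theorem sumOK_V : (MH.split (DV Q m)).SumOK (FM Q) fun _ => 1 := by
  have key : ∀ (r : Rule St κ) (b b' : Bool) (d : Dr r) (n : ℕ),
      One Q (jr Q r b d) n → One Q (jr Q r b' d) (n + 2) := fun r b b' d n h => by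
    have h1 := h.pinch r b b' d.right rfl
    have e : sg Q r b (jr Q r b d).left = d.left := sg_epsH Q r b _
    rwa [e] at h1
  refine ⟨fun _ => rfl, ?_⟩
  rintro ⟨j, b⟩ _ n ⟨d, rfl⟩ h
  rw [MH.split_φ]
  refine ⟨key _ b _ d n h.1, ?_⟩
  have h2 := h.2
  rw [← map_inv] at h2 ⊢
  exact key _ b _ d⁻¹ n h2

def FW : Filt (V Q m) := (MH.split _).sumF (sumOK_V Q m)

theorem FW_genV [DecidableEq κ] (a : Gen St κ J) : (FW Q m).le (genV Q m a) 1 := by
  have hN : ∀ x : N St κ Q, x ∈ Rad Q 1 → (Blk Q).le x 2 → (FW Q m).le (vN Q m x) 1 :=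
    fun x h1 h2 => (MH.split (DV Q m)).sumF_of (sumOK_V Q m) (FM_inl h1 h2)
  rcases a with a | q | j | x | _ | _
  · refine (MH.split (DV Q m)).sumF_of (sumOK_V Q m) (FM_inr ?_)
    rcases a with a | a
    · exact Cube.wl_gen _ a
    · exact FFr.one' 1
  · exact hN _ (t_mem_rad (FFr.one' 1)) ((Blk Q).mono (SN_t _) (by omega))
  · exact (MH.split (DV Q m)).sumF_t (sumOK_V Q m) (j, false)
  · exact hN _ (x_mem_rad _ _) ((Blk Q).mono (SN_x (n := 1) (Cube.wl_gen _ x)) (by omega))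
  · exact hN _ (d_mem_rad _) ((Blk Q).mono SN_d (by omega))
  · exact (FW Q m).one' 1

theorem rV_genV [DecidableEq κ] (a : Gen St κ J) : rV Q m (genV Q m a) = genV Q m a := by
  have hN : ∀ x : N St κ Q, rN Q x = x → rV Q m (vN Q m x) = vN Q m x := fun x h => by
    change rV Q m (MH.of _ (SemidirectProduct.inl x)) = MH.of _ (SemidirectProduct.inl x)
    rw [rV_of, r0_inl, h]
  rcases a with a | q | j | x | _ | _
  · exact (rV_of Q m _).trans (congrArg _ (SemidirectProduct.map_inr _ _ _ _))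
  · exact hN _ (rN_t Q _)
  · exact rV_t Q m j
  · exact hN _ (rN_b Q _)
  · exact hN _ (rN_d Q)
  · exact map_one _

variable {Q m} {β : C → Fr} {c : C → Q} (hv : Valid m β c) {M : ℕ} (hM : Shrink β M)
include hv hM

omit hM in
theorem key_aux (ψN : BN Q m β →* N St κ Q) (ψ : Ap Q m β →* V Q m)
    (h3 : ∀ (x : BN Q m β) h, ψ ⟨vN Q m x, h⟩ = vN Q m (ψN x))
    (h4 : ∀ j h, ψ ⟨MH.t _ j, h⟩ = MH.t _ j) (h5 : ∀ x : BN Q m β, rN Q (ψN x) = x)
    (h6 : ∀ (x : BN Q m β) {s : ℕ}, (Blk Q).le (x : N St κ Q) s →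
      (LN (Filt.wl c)).le (ψN x) (s / M)) (K : ℕ) (l : List ((J × Bool) × V0 St κ Q)) :
    ∀ (g u : V0 St κ Q) (p n : ℕ), (MH.split (DV Q m)).Red l → One Q u p →
      PreSplit.PC (FM Q) (fun _ => 1) g l n → 8 * (p + 2 * n) + 2 ≤ K →
      ∀ hx : (MH.split (DV Q m)).ev (u * g) l ∈ Ap Q m β,
      ∃ (b : BN Q m β) (l' : List ((J × Bool) × V0 St κ Q)), (MH.split (DV Q m)).Red l' ∧
        (MH.split (DV Q m)).ev (SemidirectProduct.inl (ψN b)) l' = ψ ⟨_, hx⟩ ∧
        PreSplit.PS (L0 (Filt.wl c)) (fun _ => 0) (SemidirectProduct.inl (ψN b)) l' (K / M) ∧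
        ∀ q' ∈ l'.head?, ∃ q ∈ l.head?, q.1 = q'.1 ∧
          (SemidirectProduct.inl (b : N St κ Q))⁻¹ * (u * g) ∈ (MH.split (DV Q m)).A q.1 := by
  have hN : ∀ b : BN Q m β, vN Q m b ∈ Ap Q m β := fun b =>
    Subgroup.subset_closure (Or.inl ⟨_, ⟨b, b.2, rfl⟩, rfl⟩)
  have ht : ∀ e, (MH.split (DV Q m)).t e ∈ Ap Q m β := fun e =>
    Subgroup.subset_closure (Or.inr ⟨e, trivial, rfl⟩)
  have hψt : ∀ e, ψ ⟨_, ht e⟩ = (MH.split (DV Q m)).t e := by
    rintro ⟨j, _ | _⟩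
    · exact h4 j _
    · exact (map_inv ψ ⟨_, ht (j, false)⟩).trans (congrArg _ (h4 j _))
  have hL : ∀ (b : BN Q m β) (s : ℕ), (Blk Q).le (b : N St κ Q) s → s ≤ K →
      (L0 (Filt.wl c)).le (SemidirectProduct.inl (ψN b) : V0 St κ Q) (K / M) := fun b s h hs =>
    h6 b ((Blk Q).mono h hs)
  induction l with
  | nil =>
    intro g u p n _ hu hc hK hx
    obtain ⟨b, hb, e⟩ := (Split.good_of_mem hv.isGood_V).1 hx
    have h1 := (hu.mul hc.1).blk
    rw [← e] at h1
    refine ⟨⟨b, hb⟩, [], PreSplit.red_nil _, ?_, ⟨hL ⟨b, hb⟩ _ h1 (by omega), by simp⟩, by simp⟩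
    refine (h3 ⟨b, hb⟩ (hN _)).symm.trans ?_
    congr 2
    exact congrArg (MH.of _) e
  | cons q r ih =>
    obtain ⟨⟨j, bb⟩, g₁⟩ := q
    intro g u p n hl hu ⟨a, k, ha, hc, hak⟩ hK hx
    replace hak : a + 1 + k ≤ n := hak
    have hw := hu.mul ha.1
    generalize u * g = w at *
    obtain ⟨⟨ν, hν, eν⟩, hb⟩ := (hv.step_iff j bb w).1 (Split.good_first hv.isGood_V hl hx).2
    let d : Dr (m.R j) := ⟨sg Q (m.R j) bb w.left, ⟨ν, hν⟩⟩
    let b : BN Q m β := ⟨_, hb⟩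
    have ew : w = SemidirectProduct.inl (b : N St κ Q) * jr Q (m.R j) bb d := by
      refine SemidirectProduct.ext ?_ (eν.symm.trans (one_mul _).symm)
      rw [SemidirectProduct.mul_left, SemidirectProduct.left_inl, SemidirectProduct.right_inl,
        map_one]
      exact (inv_mul_cancel_right _ _).symm
    have hu' : One Q (jr Q (m.R j) (!bb) d) (p + a + 2) := hw.pinch _ bb _ ⟨ν, hν⟩ eν.symm
    have e1 : (MH.split (DV Q m)).ev w (((j, bb), g₁) :: r) = vN Q m b *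
        (MH.split (DV Q m)).t (j, bb) * (MH.split (DV Q m)).ev (jr Q (m.R j) (!bb) d * g₁) r := by
      have h1 := (MH.split (DV Q m)).conj (j, bb) (jr Q (m.R j) bb d) ⟨d, rfl⟩
      have h2 : (MH.split (DV Q m)).φ (j, bb) (jr Q (m.R j) bb d) = jr Q (m.R j) (!bb) d :=
        MH.split_φ (DV Q m) j bb d
      rw [h2] at h1
      rw [PreSplit.ev_cons, PreSplit.ev_mul]
      conv_lhs => rw [ew, map_mul, mul_assoc _ _ ((MH.split (DV Q m)).t _), h1]
      simp only [mul_assoc]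
      rfl
    have hx' : (MH.split (DV Q m)).ev (jr Q (m.R j) (!bb) d * g₁) r ∈ Ap Q m β := by
      rw [e1] at hx
      exact (Subgroup.mul_mem_cancel_left _ (mul_mem (hN b) (ht _))).1 hx
    obtain ⟨b', l', a1, a2, a3, a4⟩ := ih g₁ _ _ k hl.tail hu' hc (by omega) hx'
    have hblk : (Blk Q).le (b : N St κ Q) (6 * (p + a) + 2 * (p + a + 1)) :=
      (Blk Q).mul hw.blk ((Blk Q).inv (SN_epsH _ bb (sg_rad _ bb hw.rad)))
    refine ⟨b, ((j, bb), SemidirectProduct.inl (ψN b')) :: l', ?_, ?_,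
      ⟨hL b _ hblk (by omega), ?_⟩, ?_⟩
    · cases l' with
      | nil => exact PreSplit.red_singleton _ _
      | cons q' r' =>
        refine (PreSplit.red_cons_cons _ _ _ _).2 ⟨fun hp => ?_, a1⟩
        obtain ⟨q, hq, e2, e3⟩ := a4 q' rfl
        cases r with
        | nil => cases hq
        | cons q₀ r₀ =>
          obtain rfl : q₀ = q := Option.some.inj hq
          refine ((PreSplit.red_cons_cons _ _ _ _).1 hl).1 ⟨e2.trans hp.1, ?_⟩
          have h1 := hp.2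
          rw [← e2] at h1
          have h2 : q₀.1 = (j, !bb) := e2.trans hp.1
          rw [h2] at h1 e3 ⊢
          obtain ⟨d', hd'⟩ := h1
          have h7 : SemidirectProduct.inl (b' : N St κ Q) ∈ (MH.split (DV Q m)).A (j, !bb) := by
            refine ⟨d', ?_⟩
            have h8 := congrArg (r0 Q) hd'
            rw [r0_inl, h5] at h8
            exact (r0_jr Q (m.R j) (!bb) d').symm.trans h8
          have h9 : jr Q (m.R j) (!bb) d ∈ (MH.split (DV Q m)).A (j, !bb) := ⟨d, rfl⟩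
          exact (Subgroup.mul_mem_cancel_left _ h9).1
            ((Subgroup.mul_mem_cancel_left _ (inv_mem h7)).1 e3)
    · have e2 : (⟨_, hx⟩ : Ap Q m β) = ⟨_, hN b⟩ * ⟨_, ht (j, bb)⟩ * ⟨_, hx'⟩ := Subtype.ext e1
      rw [e2, map_mul, map_mul, h3, hψt, ← a2]
      rfl
    · intro q hq
      rcases List.mem_cons.1 hq with rfl | hq
      · exact ⟨a3.1, Nat.zero_le _⟩
      · exact a3.2 q hq
    · intro q' hq'
      obtain rfl := Option.some.inj hq'
      refine ⟨_, rfl, rfl, d, ?_⟩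
      conv_rhs => rw [ew, inv_mul_cancel_left]
      rfl

/-- Key lemma. -/
theorem key (f : FreeGroup ((Bool ⊕ J) ⊕ C)) {n : ℕ}
    (h : (FW Q m).le (FreeGroup.lift (genA m β c false) f) n) :
    (LV (Filt.wl c) m).le (FreeGroup.lift (genA m β c true) f) ((16 * n + 2) / M) := by
  obtain ⟨ψN, ψ, h1, h2, h3, h4, h5, h6⟩ := hv.exists_psi
  obtain ⟨g, l, hl, hc, e⟩ := (MH.split (DV Q m)).sumF_red (sumOK_V Q m) h
  have hmem : (MH.split (DV Q m)).ev (1 * g) l ∈ Ap Q m β := by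
    rw [one_mul, e, ← hv.range_genA]
    exact ⟨f, rfl⟩
  obtain ⟨b, l', a1, a2, a3, -⟩ := key_aux hv ψN ψ h3 h4 h5 (LN_psi hM ψN h1 h2) (16 * n + 2) l g 1
    0 n hl (FM Q).one.1 hc (by omega) hmem
  refine ⟨_, l', a1, a2.trans ?_, a3⟩
  rw [← h6 f (by rw [← hv.range_genA]; exact ⟨f, rfl⟩)]
  congr 2
  rw [one_mul, e]

omit hv hM in
variable (m c M) in
def FV : Filt (V Q m) := ((FW Q m).comap (rV Q m)).inf ((LV (Filt.wl c) m).scale 16 M)

theorem sumOK_H : (MH.split (DH hv)).SumOK (FV m c M) fun _ => 1 := by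
  refine ⟨fun _ => rfl, ?_⟩
  rintro ⟨j, b⟩ _ n ⟨f, rfl⟩ h
  rw [MH.split_φ]
  have h1 : (FW Q m).le (FreeGroup.lift (genA m β c false) f) n := by
    rw [← rV_genA b f]
    exact h.1
  refine ⟨?_, ?_⟩
  · change (FW Q m).le (rV Q m (FreeGroup.lift (genA m β c (!b)) f)) _
    rw [rV_genA]
    exact (FW Q m).mono h1 (by omega)
  · change (LV (Filt.wl c) m).le (FreeGroup.lift (genA m β c (!b)) f) (16 * (n + 2 * 1) / M)
    cases b
    · exact (LV _ m).mono (key hv hM f h1) (Nat.div_le_div_right (by omega))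
    · rw [Bool.not_true, ← rV_genA true f]
      exact (LV _ m).mono (LV_rV _ m _) (Nat.zero_le _)

theorem redCtl_H [DecidableEq κ] :
    (MH.split (DH hv)).RedCtl (FV m c M) (fun _ => 1) (Filt.wl (genH hv)) := by
  intro x n hx
  refine (MH.split (DH hv)).sumF_redCtl (sumOK_H hv hM) x n ?_
  have := Cube.wl_map (genH hv) ((MH.split (DH hv)).sumF (sumOK_H hv hM)) (MonoidHom.id _) 1
    (fun a => ?_) hx
  · simpa using this
  · rw [MonoidHom.id_apply]
    by_cases ha : a = gK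
    · rw [ha]
      exact (MH.split (DH hv)).sumF_t (sumOK_H hv hM) ((), false)
    · rw [genH_of_ne hv ha]
      refine (MH.split (DH hv)).sumF_of (sumOK_H hv hM) ⟨?_, ?_⟩
      · change (FW Q m).le (rV Q m (genV Q m a)) 1
        rw [rV_genV]
        exact FW_genV Q m a
      · change (LV (Filt.wl c) m).le (genV Q m a) _
        rw [← rV_genV]
        exact (LV _ m).mono (LV_rV _ m _) (Nat.zero_le _)

end Crest.Agent.R185.Hig
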