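import Crest.Agent.R185.HigAlg
/-! Row 185: homomorphisms out of the tower `V` defined by the relators `relT`. -/
set_option autoImplicit false
open Set

noncomputable section
namespace Crest.Agent.R185.Hig
variable {St κ J C : Type} [Fintype κ] [DecidableEq κ] {Q : Type} [Group Q] {m : MIn St κ J}
  {β : C → Fr} {c : C → Q}

theorem hpa_cm {T : Type} [Group T] {a b : T} (h : cm a b = 1) : Commute a b := by
  unfold cm at h
  rw [mul_inv_eq_one, mul_inv_eq_iff_eq_mul] at h
  exact h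

theorem hpa_lift_comm {T X : Type} [Group T] (g : X → T) {y : T} (h : ∀ x, Commute y (g x))
    (w : FreeGroup X) : Commute y (FreeGroup.lift g w) := by
  induction w using FreeGroup.induction_on with
  | C1 => simp
  | of a => simpa using h a
  | inv_of a ih => rw [map_inv]; exact ih.inv_right
  | mul x z hx hz => rw [map_mul]; exact hx.mul_right hz

section rels
variable {T : Type} [Group T] {τ : Gen St κ J → T} (h : ∀ x, relT τ m β x = 1)
include h

theorem hpa_r1 (a : Bool ⊕ κ) (k : κ) : Commute (τ (gL a)) (τ (gL (.inr k))) :=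
  hpa_cm (h (.inl (a, k)))

theorem hpa_r2 (a : Bool ⊕ κ) (x : Bool) : Commute (τ (gL a)) (τ (gB x)) :=
  hpa_cm (h (.inr (.inl (a, x))))

theorem hpa_r4 (i : C) (x : Bool) : Commute (cT τ (β i)) (τ (gB x)) :=
  hpa_cm (h (.inr (.inr (.inr (.inl (i, x))))))

theorem hpa_r5 (a : Bool ⊕ κ) :
    τ (gL a) * τ gD * (τ (gL a))⁻¹ = (bT τ (Rule.lgen a).1)⁻¹ * τ gD :=
  mul_inv_eq_one.1 (h (.inr (.inr (.inr (.inr (.inl a))))))

theorem hpa_r6 (j : J) :
    epsT τ (m.R j) false 1 * τ (gR j) = τ (gR j) * epsT τ (m.R j) true 1 :=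
  mul_inv_eq_one.1 (h (.inr (.inr (.inr (.inr (.inr (.inl j)))))))

theorem hpa_r7 (j : J) (a : Bool ⊕ κ) (ha : Rule.lgen a ∈ (m.R j).L) :
    lamT τ ((m.R j).i false (Rule.lgen a)) * τ (gR j) =
      τ (gR j) * lamT τ ((m.R j).i true (Rule.lgen a)) :=
  mul_inv_eq_one.1 ((if_pos ha).symm.trans
    (h (.inr (.inr (.inr (.inr (.inr (.inr (.inl (j, a))))))))))

theorem hpa_r8 (x : Bool ⊕ J) : Commute (comT τ m x) (τ gK) :=
  hpa_cm (h (.inr (.inr (.inr (.inr (.inr (.inr (.inr x))))))))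

theorem hpa_exists_lam :
    ∃ Λ : Lam κ →* T, (∀ ν, Λ ν = lamT τ ν) ∧ ∀ a, Λ (Rule.lgen a) = τ (gL a) := by
  have hc : Pairwise fun a b : κ => ∀ x y, Commute (zpowersHom T (τ (gL (.inr a))) x)
      (zpowersHom T (τ (gL (.inr b))) y) := fun a b _ x y =>
    (hpa_r1 h (.inr a) b).zpow_zpow _ _
  have hP : ∀ v : κ → Multiplicative ℤ,
      MonoidHom.noncommPiCoprod (fun a : κ => zpowersHom T (τ (gL (.inr a)))) hc v =
        (Finset.univ.toList.map fun a => τ (gL (.inr a)) ^ (v a).toAdd).prod := fun v => by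
    refine Eq.trans ?_ (Finset.noncommProd_toFinset _ _ (fun a _ b _ hab => hc hab (v a) (v b))
      (Finset.nodup_toList _))
    exact Finset.noncommProd_congr (Finset.toList_toFinset _).symm (fun _ _ => rfl)
      fun a _ b _ hab => hc hab (v a) (v b)
  have hcomm : ∀ (w : Fr) (v : κ → Multiplicative ℤ),
      Commute (FreeGroup.lift (fun x => τ (gL (.inl x))) w)
        (MonoidHom.noncommPiCoprod (fun a : κ => zpowersHom T (τ (gL (.inr a)))) hc v) := by
    intro w v
    rw [hP]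
    refine (hpa_lift_comm _ (fun x => ?_) w).symm
    refine (Commute.list_prod_right _ _ fun y hy => ?_).symm
    obtain ⟨a, -, rfl⟩ := List.mem_map.1 hy
    exact (hpa_r1 h (.inl x) a).zpow_right _
  refine ⟨MonoidHom.noncommCoprod _ _ hcomm, fun ν => ?_, fun a => ?_⟩
  · rw [MonoidHom.noncommCoprod_apply, hP]; rfl
  · rw [MonoidHom.noncommCoprod_apply]
    cases a with
    | inl x => simp [Rule.lgen]
    | inr k =>
      simp only [Rule.lgen, map_one, one_mul]
      rw [MonoidHom.noncommPiCoprod_mulSingle]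
      simp

omit h in
theorem hpa_lam_comm {Λ : Lam κ →* T} (hΛ : ∀ a, Λ (Rule.lgen a) = τ (gL a)) {y : T}
    (hy : ∀ a, Commute y (τ (gL a))) (ν : Lam κ) : Commute y (Λ ν) := by
  have hν : ν ∈ Subgroup.closure (range (Rule.lgen (κ := κ))) := by
    rw [Rule.closure_lgen]; trivial
  induction hν using Subgroup.closure_induction with
  | mem x hx => obtain ⟨a, rfl⟩ := hx; rw [hΛ]; exact hy a
  | one => simp
  | mul x z _ _ hx hz => rw [map_mul]; exact hx.mul_right hz
  | inv x _ hx => rw [map_inv]; exact hx.inv_right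

theorem hpa_lam_b {Λ : Lam κ →* T} (hΛ : ∀ a, Λ (Rule.lgen a) = τ (gL a)) (ν : Lam κ) (w : Fr) :
    Commute (Λ ν) (bT τ w) :=
  hpa_lift_comm _ (fun x => (hpa_lam_comm hΛ (fun a => (hpa_r2 h a x).symm) ν).symm) w

theorem hpa_lam_d {Λ : Lam κ →* T} (hΛ : ∀ a, Λ (Rule.lgen a) = τ (gL a)) (ν : Lam κ) :
    Λ ν * τ gD * (Λ ν)⁻¹ = (bT τ ν.1)⁻¹ * τ gD := by
  have hν : ν ∈ Subgroup.closure (range (Rule.lgen (κ := κ))) := by
    rw [Rule.closure_lgen]; trivial
  induction hν using Subgroup.closure_induction with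
  | mem x hx => obtain ⟨a, rfl⟩ := hx; rw [hΛ]; exact hpa_r5 h a
  | one => simp
  | mul x z _ _ hx hz =>
    have e := ((hpa_lam_b h hΛ x z.1).inv_right).eq
    calc Λ (x * z) * τ gD * (Λ (x * z))⁻¹ = Λ x * (Λ z * τ gD * (Λ z)⁻¹) * (Λ x)⁻¹ := by
          rw [map_mul]; group
      _ = (Λ x * (bT τ z.1)⁻¹) * τ gD * (Λ x)⁻¹ := by rw [hz]; group
      _ = (bT τ z.1)⁻¹ * (Λ x * τ gD * (Λ x)⁻¹) := by rw [e]; group
      _ = (bT τ (x * z).1)⁻¹ * τ gD := by rw [hx, Prod.fst_mul, map_mul]; group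
  | inv x _ hx =>
    have e := ((hpa_lam_b h hΛ x x.1).inv_left).eq
    calc Λ x⁻¹ * τ gD * (Λ x⁻¹)⁻¹
        = ((Λ x)⁻¹ * bT τ x.1) * ((bT τ x.1)⁻¹ * τ gD) * Λ x := by rw [map_inv]; group
      _ = bT τ x.1 * τ gD := by rw [e, ← hx]; group
      _ = (bT τ x⁻¹.1)⁻¹ * τ gD := by rw [Prod.fst_inv, map_inv, inv_inv]

theorem hpa_lam_r {Λ : Lam κ →* T} (hΛ : ∀ ν, Λ ν = lamT τ ν) (j : J) {ν : Lam κ}
    (hν : ν ∈ (m.R j).L) :
    Λ ((m.R j).i false ν) * τ (gR j) = τ (gR j) * Λ ((m.R j).i true ν) := by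
  rw [Rule.L_eq_closure] at hν
  induction hν using Subgroup.closure_induction with
  | mem x hx =>
    obtain ⟨⟨a, rfl⟩, ha⟩ := hx
    rw [hΛ, hΛ]; exact hpa_r7 h j a ha
  | one => simp
  | mul x z _ _ hx hz => rw [map_mul, map_mul, map_mul, map_mul, mul_assoc, hz, ← mul_assoc, hx,
      mul_assoc]
  | inv x _ hx =>
    rw [map_inv, map_inv, map_inv, map_inv, inv_mul_eq_iff_eq_mul, ← mul_assoc, hx,
      mul_inv_cancel_right]

end rels

/-- If the relations hold in `T`, there is a homomorphism from the tower. -/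
theorem exists_hom_V' {T Q' : Type} [Group T] [Group Q'] (τ : Gen St κ J → T)
    (h : ∀ x, relT τ m β x = 1) (f : Q' →* T) (hb : ∀ q x, Commute (f q) (τ (gB x)))
    (hl : ∀ q a, Commute (f q) (τ (gL a))) :
    ∃ θ : V Q' m →* T, (∀ x, θ (vN Q' m (xN Q' x)) = bT τ x.1 * f x.2) ∧
      (∀ ω, θ (vN Q' m (tN Q' ω)) = tT τ ω) ∧ θ (vN Q' m (dN Q')) = τ gD ∧
      (∀ ν, θ (vL Q' m ν) = lamT τ ν) ∧ ∀ j, θ (MH.t _ j) = τ (gR j) := by
  obtain ⟨Λ, hΛ, hΛg⟩ := hpa_exists_lam h
  have hbf : ∀ w q, Commute (bT τ w) (f q) := fun w q => (hpa_lift_comm _ (hb q) w).symm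
  obtain ⟨θN, hx, ht, hd⟩ : ∃ θN : N St κ Q' →* T, (∀ x, θN (xN Q' x) = bT τ x.1 * f x.2) ∧
      (∀ ω, θN (tN Q' ω) = tT τ ω) ∧ θN (dN Q') = τ gD :=
    ⟨MH.liftF ((bT τ).noncommCoprod f hbf) fun l => l.elim (τ gD) (tT τ),
      fun x => MH.liftF_of _ _ _, fun ω => MH.liftF_t _ _ _, MH.liftF_t _ _ _⟩
  have hbN : ∀ w, θN (bN Q' w) = bT τ w := fun w => by
    have := hx (w, 1)
    rw [map_one, mul_one] at this
    exact this
  have hact : ∀ (μ : Lam κ) (y : N St κ Q'), θN (actE Q' μ y) = Λ μ * θN y * (Λ μ)⁻¹ := by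
    intro μ
    have : θN.comp (actE Q' μ) = (MulAut.conj (Λ μ)).toMonoidHom.comp θN := by
      refine N_ext (fun x => ?_) (fun ω => ?_) ?_
      · have e : Commute (Λ μ) (bT τ x.1 * f x.2) :=
          (hpa_lam_b h hΛg μ x.1).mul_right (hpa_lam_comm hΛg (hl x.2) μ).symm
        simp only [MonoidHom.comp_apply, actE_x, hx, MulEquiv.coe_toMonoidHom, MulAut.conj_apply]
        rw [e.eq, mul_inv_cancel_right]
      · simp only [MonoidHom.comp_apply, actE_t, ht, MulEquiv.coe_toMonoidHom, MulAut.conj_apply,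
          tT, ← hΛ, map_mul]
        group
      · simp only [MonoidHom.comp_apply, actE_d, hd, MulEquiv.coe_toMonoidHom, MulAut.conj_apply,
          map_mul, map_inv, hbN]
        exact (hpa_lam_d h hΛg μ).symm
    exact fun y => DFunLike.congr_fun this y
  have heps : ∀ (r : Rule St κ) b ν, θN (eps Q' r b ν) = epsT τ r b ν := fun r b ν => by
    unfold eps epsT
    cases r.tw && b <;> simp [ht, hd, hbN]
  let θ0 : V0 St κ Q' →* T := SemidirectProduct.lift θN Λ fun μ => MonoidHom.ext (hact μ)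
  have h0l : ∀ y, θ0 (SemidirectProduct.inl y) = θN y := fun y => SemidirectProduct.lift_inl _ _ _ _
  have h0r : ∀ y, θ0 (SemidirectProduct.inr y) = Λ y := fun y => SemidirectProduct.lift_inr _ _ _ _
  have hrel : ∀ j (d : (DV Q' m).D j),
      θ0 ((DV Q' m).i j false d) * τ (gR j) = τ (gR j) * θ0 ((DV Q' m).i j true d) := by
    intro j
    have : θ0.comp (jr Q' (m.R j) false) =
        (MulAut.conj (τ (gR j))).toMonoidHom.comp (θ0.comp (jr Q' (m.R j) true)) := by
      refine SemidirectProduct.hom_ext (FreeGroup.ext_hom _ _ fun ν => ?_) (MonoidHom.ext fun ν => ?_)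
      · have e : ∀ b, θN (eps Q' (m.R j) b ν) =
            Λ ((m.R j).i b ν) * epsT τ (m.R j) b 1 * (Λ ((m.R j).i b ν))⁻¹ := fun b => by
          rw [← heps, ← hact, actE_eps, mul_one]
        simp only [MonoidHom.comp_apply, jr, SemidirectProduct.map_inl, h0l, epsH,
          FreeGroup.lift_apply_of, MulEquiv.coe_toMonoidHom, MulAut.conj_apply, e]
        have e1 := hpa_lam_r h hΛ j ν.2
        have e2 := hpa_r6 h j
        rw [eq_mul_inv_of_mul_eq e1, eq_mul_inv_of_mul_eq e2]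
        group
      · simp only [MonoidHom.comp_apply, jr, SemidirectProduct.map_inr, h0r,
          MulEquiv.coe_toMonoidHom, MulAut.conj_apply, Subgroup.coe_subtype]
        exact eq_mul_inv_of_mul_eq (hpa_lam_r h hΛ j ν.2)
    intro d
    exact mul_eq_of_eq_mul_inv (DFunLike.congr_fun this d)
  refine ⟨MH.lift θ0 (fun j => τ (gR j)) hrel, fun x => ?_, fun ω => ?_, ?_, fun ν => ?_,
    fun j => MH.lift_t _ _ _ _ _⟩
  · exact (MH.lift_of _ _ _ _ _).trans ((h0l _).trans (hx x))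
  · exact (MH.lift_of _ _ _ _ _).trans ((h0l _).trans (ht ω))
  · exact (MH.lift_of _ _ _ _ _).trans ((h0l _).trans hd)
  · exact (MH.lift_of _ _ _ _ _).trans ((h0r _).trans (hΛ ν))

theorem hpa_eps_rel {T : Type} [Group T] (τ : Gen St κ J → T) (h : ∀ x, relT τ m β x = 1) (j : J)
    {ν : Lam κ} (hν : ν ∈ (m.R j).L) :
    epsT τ (m.R j) false ν * τ (gR j) = τ (gR j) * epsT τ (m.R j) true ν := by
  obtain ⟨θ, hx, ht, hd, -, hr⟩ := exists_hom_V' (Q' := PUnit) τ h 1 (fun _ _ => Commute.one_left _)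
    fun _ _ => Commute.one_left _
  have hbN : ∀ w, θ (vN PUnit m (bN PUnit w)) = bT τ w := fun w => by
    have := hx (w, 1)
    rw [map_one, mul_one] at this
    exact this
  have heps : ∀ b, θ (vN PUnit m (eps PUnit (m.R j) b ν)) = epsT τ (m.R j) b ν := fun b => by
    unfold eps epsT
    cases (m.R j).tw && b <;> simp [ht, hd, hbN]
  have e : ∀ b, MH.of (DV PUnit m) ((DV PUnit m).i j b
      (SemidirectProduct.inl (FreeGroup.of ⟨ν, hν⟩) : Dr (m.R j))) =
        vN PUnit m (eps PUnit (m.R j) b ν) := fun b => by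
    change MH.of (DV PUnit m) (jr PUnit (m.R j) b _) = _
    simp only [jr, SemidirectProduct.map_inl, epsH, FreeGroup.lift_apply_of]
    rfl
  have := congrArg θ (MH.rel (DV PUnit m) j
    (SemidirectProduct.inl (FreeGroup.of ⟨ν, hν⟩) : Dr (m.R j)))
  rwa [e, e, map_mul, map_mul, heps, heps, hr] at this

/-- The relations of `Q` hold for the words `cT`. -/
theorem Full.lift_cT' (hf : Full m β c) {T : Type} [Group T] (τ : Gen St κ J → T)
    (h : ∀ x, relT τ m β x = 1) {f : FreeGroup C} (hc : FreeGroup.lift c f = 1) :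
    FreeGroup.lift (fun i => cT τ (β i)) f = 1 := by
  have hr : ∀ j, Commute (τ (gR j)) (τ gK) := fun j => hpa_r8 h (.inr j)
  have hd : Commute (τ gD) (τ gK) := hpa_r8 h (.inl true)
  have h0 : Commute (tT τ m.ω0) (τ gK) := hpa_r8 h (.inl false)
  have hE : ∀ x y, Relation.EqvGen (fun x y => ∃ r, (m.R r).Step x y) x y →
      (Commute (tT τ x) (τ gK) ↔ Commute (tT τ y) (τ gK)) := by
    intro x y hxy
    induction hxy with
    | rel x y hxy =>
      obtain ⟨j, ν, hν, rfl, rfl⟩ := hxy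
      cases htw : (m.R j).tw
      · have e := hpa_eps_rel τ h j hν
        simp only [epsT, htw, Bool.false_and, cond_false, mul_one] at e
        constructor
        · intro hx
          rw [← inv_mul_eq_iff_eq_mul] at e
          rw [← e]
          exact (hr j).inv_left.mul_left (hx.mul_left (hr j))
        · intro hy
          rw [eq_mul_inv_of_mul_eq e]
          exact ((hr j).mul_left hy).mul_left (hr j).inv_left
      · rw [hf.loop j htw ν]
    | refl x => rfl
    | symm x y _ ih => exact ih.symm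
    | trans x y z _ _ ih1 ih2 => exact ih1.trans ih2
  have hbc : ∀ (g : FreeGroup C) w, Commute (FreeGroup.lift (fun i => cT τ (β i)) g) (bT τ w) :=
    fun g w => (hpa_lift_comm _ (fun i => (hpa_lift_comm _ (hpa_r4 h i) w).symm) g).symm
  have hconj : ∀ g : FreeGroup C, (τ gK)⁻¹ * bT τ (FreeGroup.lift β g) * τ gK =
      bT τ (FreeGroup.lift β g) * FreeGroup.lift (fun i => cT τ (β i)) g := by
    intro g
    induction g using FreeGroup.induction_on with
    | C1 => simp
    | of a => simp only [FreeGroup.lift_apply_of, cT]; group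
    | inv_of a ih =>
      rw [map_inv, map_inv, map_inv, ← mul_inv_rev (FreeGroup.lift _ _), (hbc _ _).eq, ← ih]
      group
    | mul x z hx hz =>
      calc (τ gK)⁻¹ * bT τ (FreeGroup.lift β (x * z)) * τ gK
          = ((τ gK)⁻¹ * bT τ (FreeGroup.lift β x) * τ gK) *
            ((τ gK)⁻¹ * bT τ (FreeGroup.lift β z) * τ gK) := by rw [map_mul, map_mul]; group
        _ = bT τ (FreeGroup.lift β x) * (FreeGroup.lift (fun i => cT τ (β i)) x *
            bT τ (FreeGroup.lift β z)) * FreeGroup.lift (fun i => cT τ (β i)) z := by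
          rw [hx, hz]; group
        _ = _ := by rw [(hbc _ _).eq, map_mul, map_mul, map_mul]; group
  have hle := Subgroup.normalClosure_le_normal (N := (FreeGroup.lift (fun i => cT τ (β i))).ker)
    (s := {f | ∃ j, (m.R j).tw = true ∧ ∃ ν ∈ (m.R j).L, (m.R j).o false ν ∈ m.H0 ∧
      FreeGroup.lift β f = ν.1}) (by
    rintro g ⟨j, htw, ν, hν, hH, hg⟩
    have ht : Commute (tT τ ((m.R j).o true ν)) (τ gK) := by
      rw [← hf.loop j htw ν]; exact (hE _ _ hH).1 h0
    have e := hpa_eps_rel τ h j hν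
    simp only [epsT, htw, Bool.and_false, Bool.and_self, cond_false, cond_true, mul_one,
      hf.loop j htw ν] at e
    have e2 : bT τ ν.1 = τ gD * (τ (gR j))⁻¹ * (tT τ ((m.R j).o true ν))⁻¹ * τ (gR j) *
        tT τ ((m.R j).o true ν) := by
      have : τ gD * (τ (gR j))⁻¹ * (tT τ ((m.R j).o true ν))⁻¹ =
          τ gD * (tT τ ((m.R j).o true ν) * τ (gR j))⁻¹ := by group
      rw [this, e]; group
    have hk : Commute (bT τ ν.1) (τ gK) := by
      rw [e2]
      exact (((hd.mul_left (hr j).inv_left).mul_left ht.inv_left).mul_left (hr j)).mul_left ht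
    have e3 := hconj g
    rw [hg, mul_assoc, hk.eq, inv_mul_cancel_left] at e3
    exact left_eq_mul.1 e3)
  exact hle (hf.ker f hc)

end Crest.Agent.R185.Hig
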