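import Crest.Agent.R185.MachBaseAux
/-! Row 185: every r.e. family of sets of words is accepted by a (nondeterministic) rule system. -/
set_option autoImplicit false
open Set

namespace Crest.Agent.R185

namespace MB
open Relation

/-- The abstract program: read a word, guess a witness, check. -/
theorem exists_prog (W : ℕ × List (Bool × Bool) → Prop) (hW : REPred W) :
    ∃ A, Real A ∧ ∀ (e : ℕ) (w : Fr),
      (∃ s', A (w, Pi.single 0 (e : ℤ)) s') ↔ ∃ u, FreeGroup.mk u = w ∧ W (e, u) := by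
  obtain ⟨c, hc, -, hW⟩ := re_normal hW
  -- one reading step
  have h1 : ∀ x : Bool × Bool, HT (fun (g : X × ℕ) s => s = g.1 ∧ s.2 1 = g.2)
      fun g s => s.1 = g.1.1 ∧ s.2 0 = g.1.2 0 ∧ s.2 2 = g.1.2 2 ∧
        s.2 1 = ((Nat.pair (Encodable.encode x) g.2 + 1 : ℕ) : ℤ) := fun x => by
    have hp : Primrec fun v : List.Vector ℕ 1 => Nat.pair (Encodable.encode x) v.head + 1 :=
      Primrec.succ.comp (Primrec₂.natPair.comp (Primrec.const _) Primrec.vector_head)
    refine ((cmp_of_prim hp).call (fun _ => 1) 3 (fun _ => by omega)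
      (fun g => g.2 ::ᵥ List.Vector.nil) ?_
      (Q := fun g s => Frm 3 g.1 s ∧ s.2 3 = ((Nat.pair (Encodable.encode x) g.2 + 1 : ℕ) : ℤ))
      ?_).seq ((fn_mov (i := 3) (j := 1) (by omega)).ht ?_)
    · rintro g s ⟨-, h⟩ i
      obtain rfl : i = 0 := Subsingleton.elim _ _
      exact h
    · rintro g s s' ⟨rfl, -⟩ h2 h3
      exact ⟨h2, h3⟩
    · rintro g s ⟨h2, h3⟩
      exact ⟨h2.1, by simpa using h2.2 0 (by omega), by simpa using h2.2 2 (by omega),
        by simpa using h3⟩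
  choose A hA h1 using h1
  -- the final check
  let f : ℕ → ℕ → ℕ → ℕ := fun e h k =>
    cond (c (e, (Encodable.decode (α := List (Bool × Bool)) h).getD []) k) 0 1
  have hf : ∀ e u k, f e (Encodable.encode u) k = 0 ↔ c (e, u) k = true := fun e u k => by
    simp only [f, Encodable.encodek, Option.getD_some]
    cases c (e, u) k <;> simp
  have h2 : HT (fun (g : ℕ × ℕ × ℕ) s => s.2 0 = g.1 ∧ s.2 1 = g.2.1 ∧ s.2 2 = g.2.2)
      fun g s => s.2 3 = f g.1 g.2.1 g.2.2 := by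
    have hg : ∀ i : Fin 3, Primrec fun v : List.Vector ℕ 3 => v.get i := fun i =>
      Primrec.vector_get.comp Primrec.id (Primrec.const i)
    have hp : Primrec fun v : List.Vector ℕ 3 => f (v.get 0) (v.get 1) (v.get 2) :=
      Primrec.cond (hc.comp (((hg 0).pair (Primrec.option_getD.comp
        (Primrec.decode.comp (hg 1)) (Primrec.const []))).pair (hg 2)))
        (Primrec.const 0) (Primrec.const 1)
    refine (cmp_of_prim hp).call (fun i => i.1) 3 (fun i => i.2)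
      (fun g => g.1 ::ᵥ g.2.1 ::ᵥ g.2.2 ::ᵥ List.Vector.nil) ?_ fun g s s' _ _ h => h
    rintro g s ⟨h3, h4, h5⟩ i
    fin_cases i
    · exact h3
    · exact h4
    · exact h5
  obtain ⟨B, hB, h2⟩ := h2
  refine ⟨_, ((real_ex fun x => (real_strip x).seq (hA x)).star).seq (real_one.seq
    ((Real.star (fn_add (Pi.single 2 1))).seq (hB.seq (real_zero 3)))), fun e w => ⟨?_, ?_⟩⟩
  · rintro ⟨_, s0, r1, s1, ⟨hw, rfl⟩, s2, r2, s3, r3, hz, -⟩
    have i1 : ∃ u, s1.1 * FreeGroup.mk u = w ∧ s1.2 0 = e ∧ s1.2 2 = 0 ∧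
        s1.2 1 = (Encodable.encode u : ℕ) := by
      clear hw r2
      induction r1 with
      | refl => exact ⟨[], by simp [← FreeGroup.one_eq_mk], by simp, by simp, by simp⟩
      | @tail a b _ h ih =>
        obtain ⟨u, h3, h4, h5, h6⟩ := ih
        obtain ⟨x, _, rfl, h7⟩ := h
        obtain ⟨k1, k2, k3, k4⟩ :=
          (h1 x ((a.1 * (FreeGroup.mk [x])⁻¹, a.2), Encodable.encode u) _ ⟨rfl, h6⟩).2 _ h7
        refine ⟨x :: u, ?_, k2.trans h4, k3.trans h5, k4⟩
        rw [k1, ← h3, show FreeGroup.mk (x :: u) = FreeGroup.mk [x] * FreeGroup.mk u from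
          (FreeGroup.mul_mk (L₁ := [x])).symm]
        simp only [mul_assoc, inv_mul_cancel_left]
    obtain ⟨u, h3, h4, h5, h6⟩ := i1
    have i2 : ∃ k : ℕ, s2.2 0 = e ∧ s2.2 1 = (Encodable.encode u : ℕ) ∧ s2.2 2 = k := by
      clear r3
      induction r2 with
      | refl => exact ⟨0, h4, h6, h5⟩
      | tail _ h ih =>
        obtain ⟨k, k1, k2, k3⟩ := ih
        subst h
        exact ⟨k + 1, by simpa using k1, by simpa using k2, by simpa using k3⟩
    obtain ⟨k, i2⟩ := i2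
    have h7 := hz.symm.trans ((h2 (e, Encodable.encode u, k) _ i2).2 _ r3)
    refine ⟨u, by rw [← h3, hw, one_mul], (hW _).2 ⟨k, (hf e u k).1 ?_⟩⟩
    exact_mod_cast h7.symm
  · rintro ⟨u, hu, h⟩
    obtain ⟨k, hk⟩ := (hW _).1 h
    have i1 : ∃ s1 : X, ReflTransGen (fun s s' => ∃ x, ∃ y,
        y = (s.1 * (FreeGroup.mk [x])⁻¹, s.2) ∧ A x y s') (w, Pi.single 0 (e : ℤ)) s1 ∧
        s1.1 * FreeGroup.mk u = w ∧ s1.2 0 = e ∧ s1.2 2 = 0 ∧
        s1.2 1 = (Encodable.encode u : ℕ) := by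
      clear hu h hk
      induction u with
      | nil => exact ⟨_, .refl, by simp [← FreeGroup.one_eq_mk], by simp, by simp, by simp⟩
      | cons x u ih =>
        obtain ⟨a, r, h3, h4, h5, h6⟩ := ih
        obtain ⟨⟨b, h7⟩, h8⟩ :=
          h1 x ((a.1 * (FreeGroup.mk [x])⁻¹, a.2), Encodable.encode u) _ ⟨rfl, h6⟩
        obtain ⟨k1, k2, k3, k4⟩ := h8 b h7
        refine ⟨b, r.tail ⟨x, _, rfl, h7⟩, ?_, k2.trans h4, k3.trans h5, k4⟩
        rw [k1, ← h3, show FreeGroup.mk (x :: u) = FreeGroup.mk [x] * FreeGroup.mk u from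
          (FreeGroup.mul_mk (L₁ := [x])).symm]
        simp only [mul_assoc, inv_mul_cancel_left]
    obtain ⟨s1, r1, h3, h4, h5, h6⟩ := i1
    have i2 : ∃ s2 : X, ReflTransGen (fun s s' : X => s' = (s.1, s.2 + Pi.single 2 1)) s1 s2 ∧
        s2.2 0 = e ∧ s2.2 1 = (Encodable.encode u : ℕ) ∧ s2.2 2 = k := by
      clear hk
      induction k with
      | zero => exact ⟨s1, .refl, h4, h6, h5⟩
      | succ k ih =>
        obtain ⟨a, r, k1, k2, k3⟩ := ih
        exact ⟨_, r.tail rfl, by simpa using k1, by simpa using k2, by simpa using k3⟩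
    obtain ⟨s2, r2, i2⟩ := i2
    obtain ⟨⟨s3, r3⟩, h7⟩ := h2 (e, Encodable.encode u, k) _ i2
    refine ⟨s3, s1, r1, s1, ⟨?_, rfl⟩, s2, r2, s3, r3, ?_, rfl⟩
    · rwa [hu, mul_eq_right] at h3
    · rw [h7 s3 r3, (hf e u k).2 hk, Nat.cast_zero]

/-- Restriction to the first `k` registers. -/
def res (k : ℕ) (s : X) : Lam (Fin k) := (s.1, fun c => Multiplicative.ofAdd (s.2 c))

/-- The rule of an atomic instruction. -/
def mkRule {St : Type} (k : ℕ) (p q : St) (α : Atom) : Rule St (Fin k) where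
  q b := cond b q p
  tst := α.tst
  xb b := cond b 1 α.x
  a b c := cond b (α.d c) 0
  μ _ c := if α.z = some c.1 then 0 else 1
  tw := false
  μ_zero _ := Iff.rfl
  xb_norm b := by
    cases b
    · exact α.hx
    · simp

theorem mkRule_fwd {St : Type} (k : ℕ) (p q : St) {α : Atom} {s s' : X} (h : α.sem s s') :
    (mkRule k p q α).Step (p, res k s) (q, res k s') := by
  obtain ⟨h1, h2, h3, h4⟩ := h
  refine ⟨(s'.1, fun c => Multiplicative.ofAdd (s.2 c)), ⟨h1, fun c hc => ?_⟩, ?_, ?_⟩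
  · have : α.z = some c.1 := by simpa [mkRule] using hc
    simp [h4 _ this]
  · refine Prod.ext rfl (Prod.ext h2 (funext fun c => ?_))
    by_cases hc : α.z = some c.1
    · simp [Rule.o, Rule.i, Rule.base, mkRule, res, hc, h4 _ hc]
    · simp [Rule.o, Rule.i, Rule.base, mkRule, res, hc]
  · refine Prod.ext rfl (Prod.ext (mul_one _).symm (funext fun c => ?_))
    by_cases hc : α.z = some c.1
    · simp [Rule.o, Rule.i, Rule.base, mkRule, res, hc, h4 _ hc, h3]
    · simp [Rule.o, Rule.i, Rule.base, mkRule, res, hc, h3]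

theorem mkRule_bwd {St : Type} {k : ℕ} {p q p' : St} {α : Atom} (hk : ∀ j, α.z = some j → j < k)
    {s : X} {y : St × Lam (Fin k)} (h : (mkRule k p q α).Step (p', res k s) y) :
    p = p' ∧ ∃ s', y = (q, res k s') ∧ α.sem s s' := by
  obtain ⟨ν, ⟨h1, -⟩, h3, rfl⟩ := h
  have e1 : p' = p := congrArg Prod.fst h3
  have e2 : s.1 = ν.1 * α.x := congrArg (fun z => z.2.1) h3
  have e3 : ∀ c : Fin k, Multiplicative.ofAdd (s.2 c) =
      ν.2 c ^ (if α.z = some c.1 then 0 else 1 : ℤ) := fun c => by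
    have := congrArg (fun z => z.2.2 c) h3
    simpa [Rule.o, Rule.i, Rule.base, mkRule, res] using this
  refine ⟨e1.symm, (ν.1, s.2 + α.d), ?_, h1, e2, rfl, fun j hj => ?_⟩
  · refine Prod.ext rfl (Prod.ext (mul_one _) (funext fun c => ?_))
    change ν.2 c ^ (if α.z = some c.1 then 0 else 1 : ℤ) * Multiplicative.ofAdd (α.d c) =
      Multiplicative.ofAdd (s.2 c + α.d c)
    rw [← e3, ofAdd_add]
  · have := e3 ⟨j, hk j hj⟩
    simpa [hj] using this

end MB

theorem exists_base (W : ℕ × List (Bool × Bool) → Prop) (hW : REPred W) :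
    ∃ (s k j : ℕ) (R : Fin j → Rule (Fin s) (Fin k)) (qin qacc : Fin s) (v : ℕ → Fin k → ℤ),
      (∀ c, Computable fun e => v e c) ∧ (∀ r, (R r).tw = false) ∧
      ∀ (e : ℕ) (w : Fr),
        (∃ x, Relation.ReflTransGen (fun x y => ∃ r, (R r).Step x y)
          (qin, (w, fun c => Multiplicative.ofAdd (v e c))) (qacc, x)) ↔
        ∃ u, FreeGroup.mk u = w ∧ W (e, u) := by
  obtain ⟨A, ⟨M, hM⟩, hA⟩ := MB.exists_prog W hW
  have := M.finS
  have := M.finJ
  obtain ⟨s, ⟨eS⟩⟩ := Finite.exists_equiv_fin M.St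
  obtain ⟨j, ⟨eJ⟩⟩ := Finite.exists_equiv_fin M.J
  obtain ⟨k, hk⟩ := (finite_range fun r : M.J => ((M.lab r).z.getD 0)).bddAbove
  have hk' : ∀ r i, (M.lab r).z = some i → i < k + 1 := fun r i h => by
    have := hk ⟨r, rfl⟩
    simp only [h, Option.getD_some] at this
    omega
  refine ⟨s, k + 1, j, fun r => MB.mkRule (k + 1) (eS (M.src (eJ.symm r))) (eS (M.tgt (eJ.symm r)))
    (M.lab (eJ.symm r)), eS M.qi, eS M.qo, fun e c => (Pi.single 0 (e : ℤ) : ℕ → ℤ) c, fun c => ?_,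
    fun _ => rfl, fun e w => ?_⟩
  · by_cases hc : c.1 = 0
    · simp only [hc, Pi.single_eq_same]
      exact Crest.Agent.Lib.Computability.int_natCast.to_comp
    · simp only [Pi.single_eq_of_ne hc]
      exact Computable.const _
  rw [← hA]
  change (∃ x, Relation.ReflTransGen _ (eS M.qi, MB.res (k + 1) (w, Pi.single 0 (e : ℤ))) _) ↔ _
  constructor
  · rintro ⟨x, hx⟩
    have key : ∀ y, Relation.ReflTransGen (fun x y => ∃ r, (MB.mkRule (k + 1)
        (eS (M.src (eJ.symm r))) (eS (M.tgt (eJ.symm r))) (M.lab (eJ.symm r))).Step x y)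
        (eS M.qi, MB.res (k + 1) (w, Pi.single 0 (e : ℤ))) y →
        ∃ q s', y = (eS q, MB.res (k + 1) s') ∧
          Relation.ReflTransGen M.Step (M.qi, (w, Pi.single 0 (e : ℤ))) (q, s') := by
      intro y hy
      induction hy with
      | refl => exact ⟨_, _, rfl, .refl⟩
      | tail _ h ih =>
        obtain ⟨q, s', rfl, h1⟩ := ih
        obtain ⟨r, h⟩ := h
        obtain ⟨h2, s'', rfl, h3⟩ := MB.mkRule_bwd (hk' _) h
        exact ⟨_, s'', rfl, h1.tail ⟨eJ.symm r, eS.injective h2, rfl, h3⟩⟩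
    obtain ⟨q, s', h1, h2⟩ := key _ hx
    obtain rfl : M.qo = q := eS.injective (congrArg Prod.fst h1)
    exact ⟨s', (hM _ _).1 h2⟩
  · rintro ⟨s', h⟩
    refine ⟨MB.res (k + 1) s', MB.rtg_map (r := M.Step)
      (fun a : M.St × MB.X => (eS a.1, MB.res (k + 1) a.2)) ?_ ((hM _ _).2 h)⟩
    rintro ⟨a1, a2⟩ ⟨b1, b2⟩ ⟨r, rfl, rfl, h1⟩
    refine .single ⟨eJ r, ?_⟩
    simp only [eJ.symm_apply_apply]
    exact MB.mkRule_fwd _ _ _ h1

end Crest.Agent.R185
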