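import Crest.Agent.R185.Rule
/-!
Row 185: nondeterministic register programs (finite graphs of atomic instructions), Hoare triples,
and the computation of primitive recursive functions.
-/
set_option autoImplicit false
open Set Relation

namespace Crest.Agent.R185.MB

/-- Abstract configurations: a group element and infinitely many registers. -/
abbrev X := Fr × (ℕ → ℤ)

/-- Atomic instruction: strip `x`, optionally test for `1`, translate by `d`, optionally test a
register for zero. -/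
structure Atom where
  tst : Bool
  x : Fr
  hx : x.norm ≤ 1
  d : ℕ → ℤ
  z : Option ℕ

def Atom.sem (α : Atom) (s s' : X) : Prop :=
  (α.tst = true → s'.1 = 1) ∧ s.1 = s'.1 * α.x ∧ s'.2 = s.2 + α.d ∧ ∀ j, α.z = some j → s.2 j = 0

def GStep {St J : Type} (src tgt : J → St) (A : J → X → X → Prop) (a b : St × X) : Prop :=
  ∃ j, src j = a.1 ∧ tgt j = b.1 ∧ A j a.2 b.2

/-- A finite graph labelled by atomic instructions. -/
structure Aut where
  St : Type
  J : Type
  finS : Finite St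
  finJ : Finite J
  src : J → St
  tgt : J → St
  lab : J → Atom
  qi : St
  qo : St

def Aut.Step (M : Aut) : M.St × X → M.St × X → Prop := GStep M.src M.tgt fun j => (M.lab j).sem

/-- Relations realised by a program. -/
def Real (A : X → X → Prop) : Prop :=
  ∃ M : Aut, ∀ x y, ReflTransGen M.Step (M.qi, x) (M.qo, y) ↔ A x y

theorem Real.congr {A B : X → X → Prop} (h : Real A) (e : ∀ x y, A x y ↔ B x y) : Real B := by
  obtain ⟨M, hM⟩ := h
  exact ⟨M, fun x y => (hM x y).trans (e x y)⟩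

def addA (d : ℕ → ℤ) : Atom := ⟨false, 1, by simp, d, none⟩

theorem addA_sem (d : ℕ → ℤ) (s s' : X) : (addA d).sem s s' ↔ s' = (s.1, s.2 + d) := by
  obtain ⟨w, σ⟩ := s
  obtain ⟨w', σ'⟩ := s'
  simp [addA, Atom.sem, eq_comm]

theorem eps_sem {s s' : X} : (addA 0).sem s s' ↔ s' = s := by
  rw [addA_sem, add_zero]

theorem rtg_map {α β : Type} {r : α → α → Prop} {p : β → β → Prop} (f : α → β)
    (h : ∀ a b, r a b → ReflTransGen p (f a) (f b)) {a b : α} (hab : ReflTransGen r a b) :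
    ReflTransGen p (f a) (f b) := by
  induction hab with
  | refl => exact .refl
  | tail _ h1 ih => exact ih.trans (h _ _ h1)

theorem real_graph {St J : Type} [Finite St] [Finite J] (src tgt : J → St)
    (A : J → X → X → Prop) (hA : ∀ j, Real (A j)) (qi qo : St) :
    Real fun x y => ReflTransGen (GStep src tgt A) (qi, x) (qo, y) := by
  choose M hM using hA
  have := fun j => (M j).finS
  have := fun j => (M j).finJ
  let N : Aut :=
    { St := St ⊕ Σ j, (M j).St
      J := (J × Bool) ⊕ Σ j, (M j).J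
      finS := inferInstance
      finJ := inferInstance
      src := Sum.elim (fun p => cond p.2 (.inr ⟨p.1, (M p.1).qo⟩) (.inl (src p.1)))
        fun p => .inr ⟨p.1, (M p.1).src p.2⟩
      tgt := Sum.elim (fun p => cond p.2 (.inl (tgt p.1)) (.inr ⟨p.1, (M p.1).qi⟩))
        fun p => .inr ⟨p.1, (M p.1).tgt p.2⟩
      lab := Sum.elim (fun _ => addA 0) fun p => (M p.1).lab p.2
      qi := .inl qi
      qo := .inl qo }
  refine ⟨N, fun x y => ⟨fun h => ?_, fun h => ?_⟩⟩
  · let Inv : (St ⊕ Σ j, (M j).St) → X → Prop := fun a s => match a with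
      | .inl q => ReflTransGen (GStep src tgt A) (qi, x) (q, s)
      | .inr p => ∃ y, ReflTransGen (GStep src tgt A) (qi, x) (src p.1, y) ∧
          ReflTransGen (M p.1).Step ((M p.1).qi, y) (p.2, s)
    suffices ∀ a, ReflTransGen N.Step (N.qi, x) a → Inv a.1 a.2 from this _ h
    intro a ha
    induction ha with
    | refl => exact .refl
    | @tail a b _ hab ih =>
      obtain ⟨a1, a2⟩ := a
      obtain ⟨b1, b2⟩ := b
      obtain ⟨(⟨j, _ | _⟩ | ⟨j, e⟩), rfl, rfl, h3⟩ := hab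
      · obtain rfl : b2 = a2 := eps_sem.1 h3
        exact ⟨_, ih, .refl⟩
      · obtain rfl : b2 = a2 := eps_sem.1 h3
        obtain ⟨y, h1, h2⟩ := ih
        exact h1.tail ⟨j, rfl, rfl, (hM j _ _).1 h2⟩
      · obtain ⟨y, h1, h2⟩ := ih
        exact ⟨y, h1, h2.tail ⟨e, rfl, rfl, h3⟩⟩
  · have key : ∀ a b, GStep src tgt A a b →
        ReflTransGen N.Step (Sum.inl a.1, a.2) (Sum.inl b.1, b.2) := by
      rintro ⟨a1, a2⟩ ⟨b1, b2⟩ ⟨j, rfl, rfl, h3⟩
      have h4 : ReflTransGen N.Step (Sum.inr ⟨j, (M j).qi⟩, a2) (Sum.inr ⟨j, (M j).qo⟩, b2) :=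
        rtg_map (r := (M j).Step) (fun a : (M j).St × X => ((Sum.inr ⟨j, a.1⟩, a.2) : N.St × X))
          (by
            rintro ⟨c1, c2⟩ ⟨d1, d2⟩ ⟨e, rfl, rfl, h5⟩
            exact .single ⟨.inr ⟨j, e⟩, rfl, rfl, h5⟩) ((hM j _ _).2 h3)
      exact (h4.head ⟨.inl (j, false), rfl, rfl, eps_sem.2 rfl⟩).tail
        ⟨.inl (j, true), rfl, rfl, eps_sem.2 rfl⟩
    exact rtg_map (fun a : St × X => ((Sum.inl a.1, a.2) : N.St × X)) key h

theorem reach_bool {J : Type} (A : J → X → X → Prop) (x y : X) :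
    ReflTransGen (GStep (fun _ => false) (fun _ => true) A) (false, x) (true, y) ↔ ∃ j, A j x y := by
  refine ⟨fun h => ?_, fun ⟨j, h⟩ => .single ⟨j, rfl, rfl, h⟩⟩
  rcases h.cases_tail with h1 | ⟨⟨_, c⟩, h1, j, rfl, -, h2⟩
  · cases h1
  · rcases h1.cases_tail with h3 | ⟨_, -, _, -, h3, -⟩
    · cases h3
      exact ⟨j, h2⟩
    · cases h3

theorem real_atom (α : Atom) : Real α.sem :=
  ⟨⟨Bool, Unit, inferInstance, inferInstance, fun _ => false, fun _ => true, fun _ => α, false, true⟩,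
    fun x y => (reach_bool _ x y).trans (by simp)⟩

theorem real_ex {J : Type} [Finite J] {A : J → X → X → Prop} (h : ∀ j, Real (A j)) :
    Real fun x y => ∃ j, A j x y :=
  (real_graph _ _ A h false true).congr (reach_bool A)

theorem Real.star {A : X → X → Prop} (h : Real A) : Real (ReflTransGen A) := by
  refine (real_graph (fun _ : Unit => ()) (fun _ => ()) (fun _ => A) (fun _ => h) () ()).congr
    fun x y => ⟨fun h => ?_, fun h => ?_⟩
  · exact rtg_map (Prod.snd : Unit × X → X) (fun _ _ ⟨_, _, _, h⟩ => .single h) h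
  · exact rtg_map (fun s : X => (((), s) : Unit × X))
      (fun _ _ h => .single ⟨(), rfl, rfl, h⟩) h

theorem Real.seq {A B : X → X → Prop} (hA : Real A) (hB : Real B) :
    Real fun x z => ∃ y, A x y ∧ B y z := by
  refine (real_graph (fun j : Bool => cond j (some false) none) (fun j => some j)
    (fun j => cond j B A) (fun j => by cases j <;> assumption) none (some true)).congr
    fun x z => ⟨fun h => ?_, fun ⟨y, h1, h2⟩ => ?_⟩
  · rcases h.cases_tail with h1 | ⟨⟨_, c⟩, h1, j, rfl, hj, h2⟩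
    · cases h1
    obtain rfl : j = true := Option.some.inj hj
    rcases h1.cases_tail with h3 | ⟨⟨_, d⟩, h3, j, rfl, hj, h4⟩
    · cases h3
    obtain rfl : j = false := Option.some.inj hj
    rcases h3.cases_tail with h5 | ⟨_, -, j, -, h5, -⟩
    · cases h5
      exact ⟨c, h4, h2⟩
    · cases h5
  · exact (ReflTransGen.single (b := (some false, y)) ⟨false, rfl, rfl, h1⟩).tail
      ⟨true, rfl, rfl, h2⟩

theorem real_zero (j : ℕ) : Real fun s s' => s.2 j = 0 ∧ s' = s := by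
  refine (real_atom ⟨false, 1, by simp, 0, some j⟩).congr ?_
  rintro ⟨w, σ⟩ ⟨w', σ'⟩
  simp only [Atom.sem, Prod.mk.injEq]
  simp
  tauto

theorem real_one : Real fun s s' => s.1 = 1 ∧ s' = s := by
  refine (real_atom ⟨true, 1, by simp, 0, none⟩).congr ?_
  rintro ⟨w, σ⟩ ⟨w', σ'⟩
  simp only [Atom.sem, Prod.mk.injEq]
  simp only [forall_const, mul_one, add_zero, reduceCtorEq, IsEmpty.forall_iff, and_true]
  constructor
  · rintro ⟨rfl, rfl, rfl⟩; exact ⟨rfl, rfl, rfl⟩
  · rintro ⟨rfl, rfl, rfl⟩; exact ⟨rfl, rfl, rfl⟩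

theorem real_strip (x : Bool × Bool) :
    Real fun s s' => s' = (s.1 * (FreeGroup.mk [x])⁻¹, s.2) := by
  refine (real_atom ⟨false, FreeGroup.mk [x], FreeGroup.norm_mk_le, 0, none⟩).congr ?_
  rintro ⟨w, σ⟩ ⟨w', σ'⟩
  simp only [Atom.sem, Prod.mk.injEq, eq_mul_inv_iff_mul_eq]
  simp
  tauto

/-! ### total functions of the registers -/

/-- A function of the registers computed by a program. -/
def Fn (F : (ℕ → ℤ) → ℕ → ℤ) : Prop := Real fun s s' => s' = (s.1, F s.2)

theorem Fn.comp {F G : (ℕ → ℤ) → ℕ → ℤ} (hF : Fn F) (hG : Fn G) : Fn fun σ => G (F σ) :=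
  (Real.seq hF hG).congr fun x y => by simp

theorem Fn.congr {F G : (ℕ → ℤ) → ℕ → ℤ} (hF : Fn F) (e : ∀ σ j, F σ j = G σ j) : Fn G := by
  obtain rfl : F = G := funext fun σ => funext (e σ)
  exact hF

theorem fn_add (d : ℕ → ℤ) : Fn fun σ => σ + d := (real_atom (addA d)).congr (addA_sem d)

theorem real_lin (d : ℕ → ℤ) : Real fun s s' => ∃ m : ℤ, s' = (s.1, s.2 + m • d) := by
  refine (real_ex fun b : Bool => fn_add (cond b d (-d))).star.congr fun s s' =>
    ⟨fun h => ?_, ?_⟩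
  · induction h with
    | refl => exact ⟨0, by simp⟩
    | tail _ h ih =>
      obtain ⟨m, rfl⟩ := ih
      obtain ⟨_ | _, rfl⟩ := h
      · exact ⟨m - 1, by simp [sub_eq_add_neg, add_assoc, add_smul]⟩
      · exact ⟨m + 1, by simp [add_smul, add_assoc]⟩
  · rintro ⟨m, rfl⟩
    induction m using Int.induction_on with
    | zero => simpa using ReflTransGen.refl
    | succ m ih => exact ih.tail ⟨true, by simp [add_smul, add_assoc]⟩
    | pred m ih =>
      exact ih.tail ⟨false, by simp [sub_eq_add_neg, add_assoc, add_smul]⟩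

/-- Transfer of the register `j`. -/
theorem fn_tr (j : ℕ) (d : ℕ → ℤ) (hd : d j = -1) : Fn fun σ => σ + σ j • d := by
  refine ((real_lin d).seq (real_zero j)).congr fun s s' => ⟨?_, ?_⟩
  · rintro ⟨_, ⟨m, rfl⟩, h, rfl⟩
    have : m = s.2 j := by
      simp only [Pi.add_apply, Pi.smul_apply, hd, smul_eq_mul] at h
      omega
    rw [this]
  · rintro rfl
    exact ⟨_, ⟨s.2 j, rfl⟩, by simp [hd], rfl⟩

theorem fn_clr (j : ℕ) : Fn fun σ => Function.update σ j 0 :=
  (fn_tr j (Pi.single j (-1)) (by simp)).congr fun σ k => by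
    by_cases h : k = j
    · subst h; simp
    · simp [h]

theorem fn_mov {i j : ℕ} (h : i ≠ j) :
    Fn fun σ => Function.update (Function.update σ j (σ i)) i 0 :=
  ((fn_clr j).comp (fn_tr i (Pi.single j 1 - Pi.single i 1) (by simp [h]))).congr fun σ k => by
    by_cases h1 : k = i
    · subst h1; simp [h]
    · by_cases h2 : k = j
      · subst h2; simp [h, h1]
      · simp [h1, h2]

theorem fn_copy {i j t : ℕ} (h : i ≠ j) (h' : i ≠ t) (h'' : j ≠ t) :
    Fn fun σ => Function.update (Function.update σ j (σ i)) t 0 :=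
  ((((fn_clr j).comp (fn_clr t)).comp
    (fn_tr i (Pi.single j 1 + Pi.single t 1 - Pi.single i 1) (by simp [h, h']))).comp
    (fn_tr t (Pi.single i 1 - Pi.single t 1) (by simp [h'.symm]))).congr fun σ k => by
    by_cases h1 : k = t
    · subst h1; simp [h, h', h'.symm, h''.symm]
    · by_cases h2 : k = j
      · subst h2; simp [h, h', h.symm, h1]
      · by_cases h3 : k = i
        · subst h3; simp [h, h', h'.symm, h''.symm]
        · simp [h1, h2, h3]

/-! ### Hoare triples (total correctness, with a ghost variable) -/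

def HT {G : Type} (P Q : G → X → Prop) : Prop :=
  ∃ A, Real A ∧ ∀ g s, P g s → (∃ s', A s s') ∧ ∀ s', A s s' → Q g s'

theorem HT.seq {G : Type} {P Q R : G → X → Prop} (h : HT P Q) (h' : HT Q R) : HT P R := by
  obtain ⟨A, hA, h⟩ := h
  obtain ⟨B, hB, h'⟩ := h'
  refine ⟨_, hA.seq hB, fun g s hs => ⟨?_, ?_⟩⟩
  · obtain ⟨s', h1⟩ := (h g s hs).1
    obtain ⟨s'', h2⟩ := (h' g s' ((h g s hs).2 s' h1)).1
    exact ⟨s'', s', h1, h2⟩
  · rintro s'' ⟨s', h1, h2⟩
    exact (h' g s' ((h g s hs).2 s' h1)).2 s'' h2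

theorem HT.conseq {G G' : Type} {P Q : G → X → Prop} {P' Q' : G' → X → Prop} (h : HT P Q)
    (e : ∀ g' s, P' g' s → ∃ g, P g s ∧ ∀ s', Q g s' → Q' g' s') : HT P' Q' := by
  obtain ⟨A, hA, h⟩ := h
  refine ⟨A, hA, fun g' s hs => ?_⟩
  obtain ⟨g, h1, h2⟩ := e g' s hs
  exact ⟨(h g s h1).1, fun s' h3 => h2 s' ((h g s h1).2 s' h3)⟩

theorem Fn.ht {G : Type} {F : (ℕ → ℤ) → ℕ → ℤ} (hF : Fn F) {P Q : G → X → Prop}
    (e : ∀ g s, P g s → Q g (s.1, F s.2)) : HT P Q :=
  ⟨_, hF, fun g s hs => ⟨⟨_, rfl⟩, fun _ h => h ▸ e g s hs⟩⟩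

theorem HT.loop {G : Type} {I : G → ℕ → X → Prop} (c : ℕ) (N : G → ℕ)
    (h : HT (fun g : G × ℕ => I g.1 g.2) fun g => I g.1 (g.2 + 1))
    (hc : ∀ g m s, I g m s → (s.2 c = 0 ↔ m = N g)) :
    HT (fun g => I g 0) fun g => I g (N g) := by
  obtain ⟨A, hA, h⟩ := h
  refine ⟨_, hA.star.seq (real_zero c), fun g s hs => ⟨?_, ?_⟩⟩
  · have : ∀ m, ∃ s', ReflTransGen A s s' ∧ I g m s' := fun m => by
      induction m with
      | zero => exact ⟨s, .refl, hs⟩
      | succ m ih =>
        obtain ⟨s', h1, h2⟩ := ih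
        obtain ⟨s'', h3⟩ := (h (g, m) s' h2).1
        exact ⟨s'', h1.tail h3, (h (g, m) s' h2).2 s'' h3⟩
    obtain ⟨s', h1, h2⟩ := this (N g)
    exact ⟨s', s', h1, (hc g _ s' h2).2 rfl, rfl⟩
  · rintro s'' ⟨s', h1, h2, e⟩
    rw [e]
    clear e
    have : ∃ m, I g m s' := by
      clear h2
      induction h1 with
      | refl => exact ⟨0, hs⟩
      | tail _ h3 ih =>
        obtain ⟨m, hm⟩ := ih
        exact ⟨m + 1, (h (g, m) _ hm).2 _ h3⟩
    obtain ⟨m, hm⟩ := this
    rwa [← (hc g m s' hm).1 h2]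

/-! ### primitive recursive functions -/

/-- The group element and the registers below `b` are unchanged. -/
def Frm (b : ℕ) (s s' : X) : Prop := s'.1 = s.1 ∧ ∀ j < b, s'.2 j = s.2 j

/-- The registers `r` hold the vector `x`. -/
def Holds {n : ℕ} (r : Fin n → ℕ) (x : List.Vector ℕ n) (s : X) : Prop :=
  ∀ i, s.2 (r i) = x.get i

theorem Holds.frm {n b : ℕ} {r : Fin n → ℕ} {x : List.Vector ℕ n} {s s' : X} (h : Holds r x s)
    (hr : ∀ i, r i < b) (hf : Frm b s s') : Holds r x s' :=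
  fun i => (hf.2 _ (hr i)).trans (h i)

theorem Frm.trans {b b' : ℕ} {s s' s'' : X} (h : Frm b s s') (h' : Frm b' s' s'') (hb : b ≤ b') :
    Frm b s s'' :=
  ⟨h'.1.trans h.1, fun j hj => (h'.2 j (by omega)).trans (h.2 j hj)⟩

/-- `f` of the registers `r` can be computed in the register `b`. -/
def Cmp {n : ℕ} (f : List.Vector ℕ n → ℕ) : Prop :=
  ∀ (r : Fin n → ℕ) (b : ℕ), (∀ i, r i < b) →
    HT (fun (g : X × List.Vector ℕ n) s => s = g.1 ∧ Holds r g.2 s)
      fun g s => Frm b g.1 s ∧ s.2 b = f g.2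

theorem Cmp.call {n : ℕ} {f : List.Vector ℕ n → ℕ} (h : Cmp f) (r : Fin n → ℕ) (b : ℕ)
    (hr : ∀ i, r i < b) {G : Type} {P Q : G → X → Prop} (xs : G → List.Vector ℕ n)
    (hP : ∀ g s, P g s → Holds r (xs g) s)
    (hQ : ∀ g s s', P g s → Frm b s s' → s'.2 b = f (xs g) → Q g s') : HT P Q :=
  (h r b hr).conseq fun g s hs =>
    ⟨(s, xs g), ⟨rfl, hP g s hs⟩, fun s' h' => hQ g s s' hs h'.1 h'.2⟩

theorem cmp_get {n : ℕ} (i : Fin n) : Cmp fun v : List.Vector ℕ n => v.get i := by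
  intro r b hr
  have := hr i
  refine (fn_copy (i := r i) (j := b) (t := b + 1) (by omega) (by omega) (by omega)).ht ?_
  rintro ⟨s, x⟩ _ ⟨rfl, h⟩
  refine ⟨⟨rfl, fun j hj => ?_⟩, ?_⟩
  · simp [Function.update_of_ne (show j ≠ b + 1 by omega), Function.update_of_ne hj.ne]
  · simpa using h i

theorem cmp_comp {m n : ℕ} {f : List.Vector ℕ n → ℕ} (g : Fin n → List.Vector ℕ m → ℕ)
    (hf : Cmp f) (hg : ∀ i, Cmp (g i)) :
    Cmp fun a => f (List.Vector.ofFn fun i => g i a) := by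
  intro r b hr
  have h1 : ∀ k ≤ n, HT (fun (p : X × List.Vector ℕ m) s => s = p.1 ∧ Holds r p.2 s)
      fun p s => Frm b p.1 s ∧ Holds r p.2 s ∧ ∀ i : Fin n, i.1 < k → s.2 (b + i) = g i p.2 := by
    intro k hk
    induction k with
    | zero =>
      refine (fn_add 0).ht ?_
      rintro ⟨s, x⟩ _ ⟨rfl, h⟩
      exact ⟨⟨rfl, by simp⟩, by simpa [Holds] using h, fun i hi => absurd hi (by omega)⟩
    | succ k ih =>
      refine (ih (by omega)).seq ((hg ⟨k, hk⟩).call r (b + k) (fun i => by have := hr i; omega)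
        Prod.snd (fun p s hs => hs.2.1) ?_)
      rintro p s s' ⟨h1, h2, h3⟩ h4 h5
      refine ⟨h1.trans h4 (by omega), h2.frm (fun i => by have := hr i; omega) h4, fun i hi => ?_⟩
      rcases Nat.lt_succ_iff_lt_or_eq.1 hi with hi | rfl
      · rw [h4.2 _ (by omega), h3 i hi]
      · exact h5
  refine ((h1 n le_rfl).seq (hf.call (fun i => b + i) (b + n + 1) (fun i => by omega)
    (fun p => List.Vector.ofFn fun i => g i p.2) ?_
    (Q := fun p s => Frm b p.1 s ∧
      s.2 (b + n + 1) = f (List.Vector.ofFn fun i => g i p.2)) ?_)).seq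
    ((fn_mov (i := b + n + 1) (j := b) (by omega)).ht ?_)
  · rintro p s ⟨-, -, h⟩ i
    rw [List.Vector.get_ofFn]
    exact h i i.2
  · rintro p s s' ⟨h1, -⟩ h2 h3
    exact ⟨h1.trans h2 (by omega), h3⟩
  · rintro p s ⟨h1, h2⟩
    refine ⟨⟨h1.1, fun j hj => ?_⟩, ?_⟩
    · simpa [Function.update_of_ne (show j ≠ b + n + 1 by omega), Function.update_of_ne hj.ne]
        using h1.2 j hj
    · simpa [Function.update_of_ne (show b ≠ b + n + 1 by omega)] using h2

theorem cmp_prec {n : ℕ} {f : List.Vector ℕ n → ℕ} {g : List.Vector ℕ (n + 2) → ℕ}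
    (hf : Cmp f) (hg : Cmp g) :
    Cmp fun v : List.Vector ℕ (n + 1) =>
      (v.head.rec (f v.tail) fun y IH => g (y ::ᵥ IH ::ᵥ v.tail) : ℕ) := by
  intro r b hr
  let R : List.Vector ℕ (n + 1) → ℕ → ℕ := fun v m =>
    Nat.rec (motive := fun _ => ℕ) (f v.tail) (fun y IH => g (y ::ᵥ IH ::ᵥ v.tail)) m
  let I : X × List.Vector ℕ (n + 1) → ℕ → X → Prop := fun p m s =>
    Frm b p.1 s ∧ Holds r p.2 s ∧ s.2 b = ((R p.2 m : ℕ) : ℤ) ∧ s.2 (b + 1) = (m : ℤ) ∧
      s.2 (b + 2) = ((p.2.head : ℕ) : ℤ) - (m : ℤ)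
  have h0 := hr 0
  have init : HT (fun (p : X × List.Vector ℕ (n + 1)) s => s = p.1 ∧ Holds r p.2 s)
      fun p => I p 0 := by
    refine (hf.call (fun i => r i.succ) b (fun i => hr _) (fun p => p.2.tail) ?_
      (Q := fun p s => Frm b p.1 s ∧ Holds r p.2 s ∧ s.2 b = R p.2 0) ?_).seq
      (((fn_clr (b + 1)).comp
        (fn_copy (i := r 0) (j := b + 2) (t := b + 3) (by omega) (by omega) (by omega))).ht ?_)
    · rintro p s ⟨-, h⟩ i
      rw [List.Vector.get_tail_succ]
      exact h _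
    · rintro p s s' ⟨rfl, h1⟩ h2 h3
      exact ⟨h2, h1.frm hr h2, h3⟩
    · rintro p s ⟨h1, h2, h3⟩
      have hF : Frm (b + 1) s (s.1, Function.update (Function.update
          (Function.update s.2 (b + 1) 0) (b + 2) (Function.update s.2 (b + 1) 0 (r 0))) (b + 3) 0) :=
        ⟨rfl, fun j hj => by
          simp [Function.update_of_ne (show j ≠ b + 3 by omega),
            Function.update_of_ne (show j ≠ b + 2 by omega), Function.update_of_ne hj.ne]⟩
      refine ⟨h1.trans hF (by omega), h2.frm (fun i => by have := hr i; omega) hF,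
        (hF.2 b (by omega)).trans h3, by simp, ?_⟩
      have := h2 0
      rw [List.Vector.get_zero] at this
      simpa [Function.update_of_ne (show r 0 ≠ b + 1 by omega)] using this
  have body : HT (fun p : (X × List.Vector ℕ (n + 1)) × ℕ => I p.1 p.2)
      fun p => I p.1 (p.2 + 1) := by
    refine (hg.call (Fin.cons (b + 1) (Fin.cons b fun i => r i.succ)) (b + 3) ?_
      (fun p => p.2 ::ᵥ R p.1.2 p.2 ::ᵥ p.1.2.tail) ?_
      (Q := fun p s => I p.1 p.2 s ∧ s.2 (b + 3) = R p.1.2 (p.2 + 1)) ?_).seq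
      (((fn_mov (i := b + 3) (j := b) (by omega)).comp
        (fn_add (Pi.single (b + 1) 1 - Pi.single (b + 2) 1))).ht ?_)
    · refine Fin.cases (by simp) (Fin.cases (by simp) fun i => ?_)
      have := hr i.succ
      simp only [Fin.cons_succ]
      omega
    · rintro p s ⟨-, h2, h3, h4, -⟩
      refine Fin.cases (by simpa using h4) (Fin.cases h3 fun i => ?_)
      simp only [Fin.cons_succ, List.Vector.get_cons_succ, List.Vector.get_tail_succ]
      exact h2 _
    · rintro p s s' ⟨h1, h2, h3, h4, h5⟩ h6 h7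
      exact ⟨⟨h1.trans h6 (by omega), h2.frm (fun i => by have := hr i; omega) h6,
        (h6.2 _ (by omega)).trans h3, (h6.2 _ (by omega)).trans h4,
        (h6.2 _ (by omega)).trans h5⟩, h7⟩
    · rintro p s ⟨⟨h1, h2, -, h4, h5⟩, h7⟩
      have hF : Frm b s (s.1, Function.update (Function.update s.2 b (s.2 (b + 3))) (b + 3) 0 +
          (Pi.single (b + 1) 1 - Pi.single (b + 2) 1)) :=
        ⟨rfl, fun j hj => by
          simp [Function.update_of_ne (show j ≠ b + 3 by omega), Function.update_of_ne hj.ne,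
            show j ≠ b + 1 by omega, show j ≠ b + 2 by omega]⟩
      refine ⟨h1.trans hF le_rfl, h2.frm hr hF, by simpa using h7, by simpa using h4, ?_⟩
      simp [h5]
      ring
  refine init.seq ((HT.loop (b + 2) (fun p => p.2.head) body ?_).conseq
    fun p s hs => ⟨p, hs, fun s' h => ⟨h.1, h.2.2.1⟩⟩)
  rintro p m s ⟨-, -, -, -, h⟩
  rw [h]
  omega

theorem cmp_of_prim' {n : ℕ} {f : List.Vector ℕ n → ℕ} (hf : Nat.Primrec' f) : Cmp f := by
  induction hf with
  | zero =>
    intro r b _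
    refine (fn_clr b).ht ?_
    rintro ⟨s, x⟩ _ ⟨rfl, -⟩
    exact ⟨⟨rfl, fun j hj => Function.update_of_ne hj.ne _ _⟩, by simp⟩
  | succ =>
    intro r b hr
    refine (cmp_get 0 r b hr).seq ((fn_add (Pi.single b 1)).ht ?_)
    rintro ⟨s, x⟩ s' ⟨h1, h2⟩
    refine ⟨⟨h1.1, fun j hj => ?_⟩, ?_⟩
    · simpa [hj.ne] using h1.2 j hj
    · simpa using h2
  | get i => exact cmp_get i
  | comp g _ _ hf hg => exact cmp_comp g hf hg
  | prec _ _ hf hg => exact cmp_prec hf hg

theorem cmp_of_prim {n : ℕ} {f : List.Vector ℕ n → ℕ} (hf : Primrec f) : Cmp f :=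
  cmp_of_prim' (Nat.Primrec'.of_prim hf)

end Crest.Agent.R185.MB
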