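import Crest.Agent.R185.SimDef
/-! Row 185: simplicity of the twisted double. -/
set_option autoImplicit false
open Set

noncomputable section
namespace Crest.Agent.R185

section alt
variable {A T : Type} [Group A] [Group T]

/-- The alternating product. -/
def simW (j : Bool → A →* T) (L : List (A × A)) : T :=
  (L.map fun p => j false p.1 * j true p.2).prod

theorem simW_nil (j : Bool → A →* T) : simW j [] = 1 := rfl

theorem simW_cons (j : Bool → A →* T) (p : A × A) (L : List (A × A)) :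
    simW j (p :: L) = j false p.1 * j true p.2 * simW j L := by
  simp [simW]

theorem simW_append (j : Bool → A →* T) (L L' : List (A × A)) :
    simW j (L ++ L') = simW j L * simW j L' := by
  simp [simW]

theorem sim_exists_W (j : Bool → A →* T)
    (hgen : Subgroup.closure (range (j false) ∪ range (j true)) = ⊤) (x : T) :
    ∃ L, simW j L = x := by
  have hx : x ∈ Subgroup.closure (range (j false) ∪ range (j true)) := hgen ▸ Subgroup.mem_top x
  induction hx using Subgroup.closure_induction_left with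
  | one => exact ⟨[], rfl⟩
  | mul_left x hx y _ ih =>
    obtain ⟨L, rfl⟩ := ih
    rcases hx with ⟨a, rfl⟩ | ⟨a, rfl⟩
    · exact ⟨(a, 1) :: L, by simp [simW_cons]⟩
    · exact ⟨(1, a) :: L, by simp [simW_cons]⟩
  | inv_mul_cancel x hx y _ ih =>
    obtain ⟨L, rfl⟩ := ih
    rcases hx with ⟨a, rfl⟩ | ⟨a, rfl⟩
    · exact ⟨(a⁻¹, 1) :: L, by simp [simW_cons]⟩
    · exact ⟨(1, a⁻¹) :: L, by simp [simW_cons]⟩

theorem sim_rot (j : Bool → A →* T) (N : Subgroup T) [hN : N.Normal] {L L' : List (A × A)}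
    (h : simW j (L ++ L') ∈ N) (h1 : simW j (L ++ L') ≠ 1) :
    simW j (L' ++ L) ∈ N ∧ simW j (L' ++ L) ≠ 1 := by
  rw [simW_append] at h h1 ⊢
  exact ⟨hN.mem_comm h, fun h2 => h1 (mul_eq_one_comm.1 h2)⟩

theorem sim_base (C : Subgroup A) (j : Bool → A →* T)
    (hA : ∀ N : Subgroup A, N.Normal → N ≠ ⊥ → ∃ x ∈ N, x ∉ C) (h : A) (hh : h ∉ C)
    (N : Subgroup T) [hN : N.Normal] {b : Bool} {a : A} (ha : j b a ∈ N) (h1 : j b a ≠ 1) :
    ∃ L : List (A × A), L ≠ [] ∧ (∀ p ∈ L, p.1 ∉ C ∧ p.2 ∉ C) ∧ simW j L ∈ N := by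
  have hne : N.comap (j b) ≠ ⊥ := by
    intro h0
    have : a ∈ N.comap (j b) := ha
    rw [h0, Subgroup.mem_bot] at this
    exact h1 (by rw [this, map_one])
  obtain ⟨x, hx, hxC⟩ := hA _ (hN.comap _) hne
  have hx' : j b x ∈ N := hx
  have hxi : x⁻¹ ∉ C := fun h0 => hxC (inv_mem_iff.1 h0)
  have hhi : h⁻¹ ∉ C := fun h0 => hh (inv_mem_iff.1 h0)
  cases b
  · refine ⟨[(x, h), (x⁻¹, h⁻¹)], by simp, by simp [hxC, hh], ?_⟩
    have := N.mul_mem hx' (hN.conj_mem _ (N.inv_mem hx') (j true h))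
    simpa [simW_cons, simW_nil, mul_assoc] using this
  · refine ⟨[(h, x), (h⁻¹, x⁻¹)], by simp, by simp [hxC, hh], ?_⟩
    have := N.mul_mem (hN.conj_mem _ hx' (j false h)) (N.inv_mem hx')
    simpa [simW_cons, simW_nil, mul_assoc] using this

end alt

/-- A non-trivial normal subgroup of a group generated by two copies of `A` glued along `C`
contains an alternating word with all letters outside `C`. -/
theorem exists_alt {A T : Type} [Group A] [Group T] (C : Subgroup A) (j : Bool → A →* T)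
    (hgen : Subgroup.closure (range (j false) ∪ range (j true)) = ⊤)
    (hC : ∀ b, ∀ c ∈ C, ∃ c' ∈ C, j b c = j (!b) c')
    (hA : ∀ N : Subgroup A, N.Normal → N ≠ ⊥ → ∃ x ∈ N, x ∉ C) (h : A) (hh : h ∉ C)
    (N : Subgroup T) [N.Normal] (hN : N ≠ ⊥) :
    ∃ L : List (A × A), L ≠ [] ∧ (∀ p ∈ L, p.1 ∉ C ∧ p.2 ∉ C) ∧
      (L.map fun p => j false p.1 * j true p.2).prod ∈ N := by
  have key : ∀ (n : ℕ) (L : List (A × A)), L.length = n → simW j L ∈ N → simW j L ≠ 1 →
      ∃ L : List (A × A), L ≠ [] ∧ (∀ p ∈ L, p.1 ∉ C ∧ p.2 ∉ C) ∧ simW j L ∈ N := by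
    intro n
    induction n using Nat.strong_induction_on with
    | _ n ih =>
    intro L hlen hL h1
    by_cases hg : ∀ p ∈ L, p.1 ∉ C ∧ p.2 ∉ C
    · exact ⟨L, fun h0 => h1 (by rw [h0]; rfl), hg, hL⟩
    push Not at hg
    obtain ⟨p, hp, hb⟩ := hg
    obtain ⟨L₁, L₂, rfl⟩ := List.append_of_mem hp
    obtain ⟨h2, h3⟩ := sim_rot j N hL h1
    have hlen' : (L₂ ++ L₁).length + 1 = n := by
      rw [← hlen]
      simp only [List.length_append, List.length_cons]
      omega
    rw [List.cons_append] at h2 h3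
    generalize L₂ ++ L₁ = R at h2 h3 hlen'
    by_cases hp1 : p.1 ∈ C
    · obtain ⟨c, -, hc⟩ := hC false _ hp1
      rcases List.eq_nil_or_concat R with rfl | ⟨R', q, rfl⟩
      · have e : simW j [p] = j true (c * p.2) := by simp [simW_cons, simW_nil, hc]
        rw [e] at h2 h3
        exact sim_base C j hA h hh N h2 h3
      · obtain ⟨h4, h5⟩ := sim_rot j N (L := [p]) (L' := R'.concat q) h2 h3
        have e : simW j (R'.concat q ++ [p]) = simW j (R' ++ [(q.1, q.2 * c * p.2)]) := by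
          simp [simW_append, simW_cons, simW_nil, hc, mul_assoc]
        rw [e] at h4 h5
        refine ih _ ?_ _ rfl h4 h5
        rw [← hlen']
        simp
    · obtain ⟨c, -, hc⟩ := hC true _ (hb hp1)
      rcases R with _ | ⟨q, R'⟩
      · have e : simW j [p] = j false (p.1 * c) := by simp [simW_cons, simW_nil, hc]
        rw [e] at h2 h3
        exact sim_base C j hA h hh N h2 h3
      · have e : simW j (p :: q :: R') = simW j ((p.1 * c * q.1, q.2) :: R') := by
          simp [simW_cons, hc, mul_assoc]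
        rw [e] at h2 h3
        refine ih _ ?_ _ rfl h2 h3
        rw [← hlen']
        simp
  obtain ⟨⟨x, hx⟩, hx1⟩ := Subgroup.ne_bot_iff_exists_ne_one.1 hN
  obtain ⟨L, rfl⟩ := sim_exists_W j hgen x
  exact key _ L rfl hx fun h0 => hx1 (Subtype.ext h0)

namespace SIn
variable {P : Type} [Group P] (S : SIn P) {T : Type} [Group T] (j : Bool → S.AH →* T)
  (hrel : ∀ w, j false (S.γ w) = j true (S.γ (θ w)))
include hrel

omit hrel in
theorem sim_γ_none : S.γ (FreeGroup.of none) = S.τ := by simp [γ]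

omit hrel in
theorem sim_γ_some (k : Fin 6) : S.γ (FreeGroup.of (some k)) = S.of (S.y k) := by simp [γ]

omit hrel in
theorem sim_θ_none : θ (FreeGroup.of none) = FreeGroup.of none := by simp [θ]

omit hrel in
theorem sim_θ_0 : θ (FreeGroup.of (some 0)) = FreeGroup.of (some 1) := by simp [θ]

omit hrel in
theorem sim_θ_2 : θ (FreeGroup.of (some 2)) = FreeGroup.of (some 2) := by simp [θ]

omit hrel in
theorem sim_θ_3 : θ (FreeGroup.of (some 3)) = FreeGroup.of (some 3) * (FreeGroup.of none)⁻¹ := by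
  simp [θ]

omit hrel in
theorem sim_θ_4 : θ (FreeGroup.of (some 4)) = FreeGroup.of (some 4) := by simp [θ]

omit hrel in
theorem sim_θ_5 : θ (FreeGroup.of (some 5)) = FreeGroup.of (some 5) := by simp [θ]

theorem sim_τ : j false S.τ = j true S.τ := by
  have := hrel (FreeGroup.of none)
  rwa [sim_θ_none, sim_γ_none] at this

theorem sim_y4 : j false (S.of (S.y 4)) = j true (S.of (S.y 4)) := by
  have := hrel (FreeGroup.of (some 4))
  rwa [sim_θ_4, sim_γ_some] at this

theorem sim_y5 : j false (S.of (S.y 5)) = j true (S.of (S.y 5)) := by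
  have := hrel (FreeGroup.of (some 5))
  rwa [sim_θ_5, sim_γ_some] at this

theorem sim_αy4 (b : Bool) : j b (S.of (S.α (S.y 4))) = j false (S.of (S.α (S.y 4))) := by
  cases b
  · rfl
  · simp only [of_α, map_mul, map_inv, S.sim_τ j hrel, S.sim_y4 j hrel]

theorem sim_αy5 (b : Bool) : j b (S.of (S.α (S.y 5))) = j false (S.of (S.α (S.y 5))) := by
  cases b
  · rfl
  · simp only [of_α, map_mul, map_inv, S.sim_τ j hrel, S.sim_y5 j hrel]

theorem sim_row (b : Bool) (m : ℤ) :
    j b (S.of ((S.y 2 ^ m)⁻¹ * S.y (cond b 1 0) * S.y 2 ^ m)) =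
      j false (S.of ((S.y 2 ^ m)⁻¹ * S.y 0 * S.y 2 ^ m)) := by
  cases b
  · rfl
  · have := hrel ((FreeGroup.of (some 2) ^ m)⁻¹ * FreeGroup.of (some 0) * FreeGroup.of (some 2) ^ m)
    simp only [map_mul, map_inv, map_zpow, sim_θ_0, sim_θ_2, sim_γ_some] at this
    simp only [map_mul, map_inv, map_zpow, cond_true]
    exact this.symm

omit hrel in
theorem sim_letter {x : S.AH} (hx : S.χ x = 1) (hC : x ∉ S.γ.range) :
    ∃ n₀ : ℕ, ∀ n, n₀ ≤ n → ∃ g, g ∉ S.D ∧
      S.of (S.α g) = (S.τ ^ (n + 1))⁻¹ * x * S.τ ^ (n + 1) := by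
  obtain ⟨n₀, h⟩ := S.exists_conj hx
  refine ⟨n₀, fun n hn => ?_⟩
  obtain ⟨g, hg⟩ := h n hn
  have hτ : S.τ ∈ S.γ.range := ⟨_, S.sim_γ_none⟩
  refine ⟨g, fun hD => hC ?_, ?_⟩
  · have h1 := S.of_mem_range.2 hD
    rw [← hg] at h1
    have h2 := mul_mem (mul_mem (pow_mem hτ n) h1) (inv_mem (pow_mem hτ n))
    simpa [mul_assoc] using h2
  · rw [of_α, ← hg, pow_succ]
    group

theorem sim_pair {a b : S.AH} (ha : a ∉ S.γ.range) (hb : b ∉ S.γ.range) :
    ∃ a' b', a' ∉ S.γ.range ∧ b' ∉ S.γ.range ∧ S.χ a' = 1 ∧ S.χ b' = 1 ∧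
      j false a' * j true b' = j false a * j true b := by
  let p : ℤ := -Multiplicative.toAdd (S.χ a)
  let q : ℤ := p - Multiplicative.toAdd (S.χ b)
  let w : FreeGroup (Option (Fin 6)) := FreeGroup.of none ^ p * FreeGroup.of (some 3) ^ q
  refine ⟨a * S.γ w, (S.γ (θ w))⁻¹ * b, fun h => ha ?_, fun h => hb ?_, ?_, ?_, ?_⟩
  · exact (S.γ.range.mul_mem_cancel_right (MonoidHom.mem_range.2 ⟨w, rfl⟩)).1 h
  · exact (S.γ.range.mul_mem_cancel_left (inv_mem (MonoidHom.mem_range.2 ⟨θ w, rfl⟩))).1 h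
  · apply Multiplicative.toAdd.injective
    simp [w, p, sim_γ_none, sim_γ_some]
  · apply Multiplicative.toAdd.injective
    simp [w, q, sim_γ_none, sim_γ_some, sim_θ_none, sim_θ_3]
    ring
  · rw [map_mul (j false), map_mul (j true), map_inv (j true), hrel w]
    group

theorem sim_norm (L : List (S.AH × S.AH))
    (hL : ∀ p ∈ L, p.1 ∉ S.γ.range ∧ p.2 ∉ S.γ.range) :
    ∃ n₀ : ℕ, ∀ n, n₀ ≤ n → ∃ L' : List (P × P), L'.length = L.length ∧
      (∀ p ∈ L', p.1 ∉ S.D ∧ p.2 ∉ S.D) ∧
      (L'.map fun p => j false (S.of (S.α p.1)) * j true (S.of (S.α p.2))).prod =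
        (j false S.τ ^ (n + 1))⁻¹ * (L.map fun p => j false p.1 * j true p.2).prod *
          j false S.τ ^ (n + 1) := by
  induction L with
  | nil => exact ⟨0, fun n _ => ⟨[], rfl, by simp, by simp⟩⟩
  | cons p L ih =>
    obtain ⟨n₀, h0⟩ := ih fun q hq => hL q (List.mem_cons_of_mem _ hq)
    have hp := hL p List.mem_cons_self
    obtain ⟨a, b, ha, hb, ha1, hb1, e⟩ := S.sim_pair j hrel hp.1 hp.2
    obtain ⟨n₁, h1⟩ := S.sim_letter ha1 ha
    obtain ⟨n₂, h2⟩ := S.sim_letter hb1 hb
    refine ⟨n₀ + n₁ + n₂, fun n hn => ?_⟩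
    obtain ⟨L', l1, l2, l3⟩ := h0 n (by omega)
    obtain ⟨g₁, g1, g2⟩ := h1 n (by omega)
    obtain ⟨g₂, g3, g4⟩ := h2 n (by omega)
    refine ⟨(g₁, g₂) :: L', by simp [l1], ?_, ?_⟩
    · intro q hq
      rcases List.mem_cons.1 hq with rfl | hq
      · exact ⟨g1, g3⟩
      · exact l2 q hq
    · simp only [List.map_cons, List.prod_cons, l3, g2, g4, ← e, map_mul, map_inv, map_pow,
        ← S.sim_τ j hrel]
      group

/-- Normalisation of the letters. -/
theorem normalise (N : Subgroup T) [N.Normal] (L : List (S.AH × S.AH))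
    (hL : ∀ p ∈ L, p.1 ∉ S.γ.range ∧ p.2 ∉ S.γ.range)
    (h : (L.map fun p => j false p.1 * j true p.2).prod ∈ N) :
    ∃ L' : List (P × P), L'.length = L.length ∧ (∀ p ∈ L', p.1 ∉ S.D ∧ p.2 ∉ S.D) ∧
      (L'.map fun p => j false (S.of (S.α p.1)) * j true (S.of (S.α p.2))).prod ∈ N := by
  obtain ⟨n₀, h0⟩ := S.sim_norm j hrel L hL
  obtain ⟨L', l1, l2, l3⟩ := h0 n₀ le_rfl
  refine ⟨L', l1, l2, ?_⟩
  rw [l3]
  exact Subgroup.Normal.conj_mem' inferInstance _ h _

omit hrel in
theorem sim_flat (f : Bool → P → T) (L : List (P × P)) :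
    ((List.range (L.flatMap fun p => [p.1, p.2]).length).map fun i =>
      f (QIn.par i) ((L.flatMap fun p => [p.1, p.2]).getD i 1)).prod =
      (L.map fun p => f false p.1 * f true p.2).prod := by
  induction L with
  | nil => simp
  | cons p L ih =>
    have e : ((p :: L).flatMap fun p => [p.1, p.2]) =
        p.1 :: p.2 :: (L.flatMap fun p => [p.1, p.2]) := by simp
    have hp : ∀ i, QIn.par (i + 1 + 1) = QIn.par i := by
      intro i
      unfold QIn.par
      congr 1
      apply propext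
      omega
    rw [e, List.length_cons, List.length_cons, List.range_succ_eq_map, List.range_succ_eq_map,
      List.map_cons, List.map_cons, List.map_cons, List.prod_cons, List.prod_cons, List.map_map,
      List.map_map, List.map_cons, List.prod_cons, ← ih, mul_assoc]
    simp only [Function.comp_def, Nat.succ_eq_add_one, hp, List.getD_cons_succ, List.getD_cons_zero]
    rfl

/-- The gadget. -/
theorem cm_mem (N : Subgroup T) [N.Normal] (L : List (P × P)) (h0 : L ≠ [])
    (hL : ∀ p ∈ L, p.1 ∉ S.D ∧ p.2 ∉ S.D)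
    (h : (L.map fun p => j false (S.of (S.α p.1)) * j true (S.of (S.α p.2))).prod ∈ N) :
    j false (S.of (cm (S.y 4) (S.y 5))) ∈ N := by
  set F := L.flatMap fun p => [p.1, p.2] with hF
  have hlen : F.length = 2 * L.length := by
    rw [hF, List.length_flatMap]
    simp [mul_comm]
  have hpos : 0 < F.length := by
    have := List.length_pos_iff.2 h0
    omega
  obtain ⟨n, mk, hn, hmk, hg⟩ := S.gad F (List.length_pos_iff.1 hpos) ⟨L.length, by omega⟩ (by
    intro a ha
    obtain ⟨p, hp, ha⟩ := List.mem_flatMap.1 ha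
    simp only [List.mem_cons, List.not_mem_nil, or_false] at ha
    rcases ha with rfl | rfl
    · exact (hL p hp).1
    · exact (hL p hp).2)
  set X : ℤ → T := fun m => j false (S.of ((S.y 2 ^ m)⁻¹ * S.y 0 * S.y 2 ^ m)) with hX
  set c := j false (S.of (S.α (S.y 4))) with hc
  set ω := j false (S.of (S.α (S.y 5))) with hω
  set Λ : ℕ → T := fun i => j (QIn.par i) (S.of (S.α (F.getD i 1))) with hΛ
  have key : ∀ i, i ≤ F.length → ∃ M, Commute M c ∧
      X (n i) = (if i = F.length then ω else 1) * M * X (n 0) * ((List.range i).map Λ).prod := by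
    intro i
    induction i with
    | zero => exact fun _ => ⟨1, Commute.one_left _, by simp [hpos.ne]⟩
    | succ i ih =>
      intro hi
      obtain ⟨M, hM, e⟩ := ih (by omega)
      rw [if_neg (by omega), one_mul] at e
      have h4 : ∀ (b : Bool) (x₁ x₂ x₃ x₄ : P), j b (S.of (x₁ * x₂ * x₃ * x₄)) =
          j b (S.of x₁) * j b (S.of x₂) * j b (S.of x₃) * j b (S.of x₄) := by
        intro b x₁ x₂ x₃ x₄
        simp only [map_mul]
      have h1 := congrArg (fun x => j (QIn.par i) (S.of x)) (hg i (by omega))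
      rw [h4, S.sim_row j hrel, S.sim_row j hrel] at h1
      have h2 : Commute (j (QIn.par i) (S.of (mk i))) c := by
        rw [hc, ← S.sim_αy4 j hrel (QIn.par i)]
        exact ((hmk i _ (S.y_mem 4)).map S.of).map _
      have h3 : j (QIn.par i) (S.of (S.α (if i + 1 = F.length then S.y 5 else 1))) =
          if i + 1 = F.length then ω else 1 := by
        split_ifs
        · exact S.sim_αy5 j hrel _
        · simp
      refine ⟨j (QIn.par i) (S.of (mk i)) * M, h2.mul_left hM, ?_⟩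
      rw [List.range_succ, List.map_append, List.prod_append, List.map_singleton,
        List.prod_singleton, ← h3]
      change X (n (i + 1)) = _ * _ * X (n i) * Λ i at h1
      rw [h1, e]
      simp only [mul_assoc]
  obtain ⟨M, hM, e⟩ := key _ le_rfl
  rw [if_pos rfl, hn] at e
  have hW : ((List.range F.length).map Λ).prod ∈ N := by
    have := sim_flat (fun b a => j b (S.of (S.α a))) L
    rw [← this] at h
    exact h
  have hN : N.Normal := inferInstance
  have h1 : ω * M ∈ N := by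
    have e2 : ω * M = X (n 0) * (((List.range F.length).map Λ).prod)⁻¹ * (X (n 0))⁻¹ := by
      rw [eq_mul_inv_iff_mul_eq, eq_mul_inv_iff_mul_eq]
      exact e.symm
    rw [e2]
    exact hN.conj_mem _ (N.inv_mem hW) _
  have h2 : c * ω * c⁻¹ * ω⁻¹ ∈ N := by
    have e3 : c * ω * c⁻¹ * ω⁻¹ = c * (ω * M) * c⁻¹ * (ω * M)⁻¹ := by
      have e4 : M * c⁻¹ * M⁻¹ = c⁻¹ := by rw [hM.inv_right.eq, mul_inv_cancel_right]
      calc c * ω * c⁻¹ * ω⁻¹ = c * ω * (M * c⁻¹ * M⁻¹) * ω⁻¹ := by rw [e4]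
        _ = _ := by group
    rw [e3]
    exact N.mul_mem (hN.conj_mem _ h1 _) (N.inv_mem h1)
  have h3 := hN.conj_mem _ h2 (j false S.τ)
  rw [hc, hω] at h3
  simp only [of_α, map_mul, map_inv] at h3
  simp only [cm, map_mul, map_inv]
  convert h3 using 1
  group

theorem eq_top_of_cm (hgen : Subgroup.closure (range (j false) ∪ range (j true)) = ⊤)
    (N : Subgroup T) [N.Normal] (h : j false (S.of (cm (S.y 4) (S.y 5))) ∈ N) : N = ⊤ := by
  have hN : N.Normal := inferInstance
  have h1 : ∀ b, j b (S.of (cm (S.y 4) (S.y 5))) ∈ N := by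
    intro b
    cases b
    · exact h
    · simp only [cm, map_mul, map_inv, S.sim_y4 j hrel, S.sim_y5 j hrel] at h ⊢
      exact h
  have h2 : ∀ b g, j b (S.of g) ∈ N := by
    intro b g
    have hle : Subgroup.closure S.gen ≤ N.comap ((j b).comp S.of) := by
      rw [Subgroup.closure_le]
      intro a ha
      obtain ⟨v, hv⟩ := S.vrel a ha
      have e : S.α a = (cm (S.y 4) (S.y 5))⁻¹ * (v⁻¹ * cm (S.y 4) (S.y 5) * v) := by
        rw [mul_assoc, hv]
        group
      have h3 : j b (S.of (S.α a)) ∈ N := by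
        rw [e, map_mul, map_mul, map_inv, map_inv, map_mul, map_mul, map_mul, map_mul, map_inv,
          map_inv]
        exact N.mul_mem (N.inv_mem (h1 b)) (hN.conj_mem' _ (h1 b) _)
      have h4 := hN.conj_mem _ h3 (j b S.τ)
      simp only [of_α, map_mul, map_inv] at h4
      show j b (S.of a) ∈ N
      convert h4 using 1
      group
    exact hle (S.gen_top ▸ Subgroup.mem_top g)
  have h3 : j true S.τ ∈ N := by
    have e := hrel (FreeGroup.of (some 3))
    rw [sim_θ_3, map_mul, map_inv, sim_γ_some, sim_γ_none, map_mul, map_inv] at e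
    have e2 : j true S.τ = (j false (S.of (S.y 3)))⁻¹ * j true (S.of (S.y 3)) := by
      rw [e]
      group
    rw [e2]
    exact N.mul_mem (N.inv_mem (h2 _ _)) (h2 _ _)
  have h4 : ∀ b, j b S.τ ∈ N := by
    intro b
    cases b
    · rw [S.sim_τ j hrel]
      exact h3
    · exact h3
  have h5 : ∀ b x, j b x ∈ N := by
    intro b x
    have hle : Subgroup.closure (range (MH.of (asc S.α S.inj)) ∪ range (MH.t (asc S.α S.inj))) ≤
        N.comap (j b) := by
      rw [Subgroup.closure_le]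
      rintro _ (⟨g, rfl⟩ | ⟨u, rfl⟩)
      · exact h2 b g
      · exact h4 b
    exact hle (MH.closure_eq_top (asc S.α S.inj) ▸ Subgroup.mem_top x)
  rw [eq_top_iff, ← hgen, Subgroup.closure_le]
  rintro _ (⟨x, rfl⟩ | ⟨x, rfl⟩)
  · exact h5 _ x
  · exact h5 _ x

theorem eq_bot_or_eq_top (hgen : Subgroup.closure (range (j false) ∪ range (j true)) = ⊤)
    (N : Subgroup T) [N.Normal] : N = ⊥ ∨ N = ⊤ := by
  by_cases hN : N = ⊥
  · exact Or.inl hN
  refine Or.inr (S.eq_top_of_cm j hrel hgen N ?_)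
  obtain ⟨L, h0, hL, h⟩ := exists_alt S.γ.range j hgen (by
      rintro b _ ⟨w, rfl⟩
      cases b
      · exact ⟨_, ⟨θ w, rfl⟩, hrel w⟩
      · obtain ⟨w, rfl⟩ := θ_bijective.2 w
        exact ⟨_, ⟨w, rfl⟩, (hrel w).symm⟩)
    (fun N' hN' h' => S.exists_notMem N' h') (S.of S.z)
    (fun h => S.z_notMem (S.of_mem_range.1 h)) N hN
  obtain ⟨L', l1, l2, l3⟩ := S.normalise j hrel N L hL h
  refine S.cm_mem j hrel N L' ?_ l2 l3
  rintro rfl
  exact h0 (List.length_eq_zero_iff.1 l1.symm)

omit hrel in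
/-- The simple group. -/
theorem exists_simple [Group.IsFinitelyPresented P] (h : ∀ n, SExt n S.α) :
    ∃ (G : Type) (_ : Group G) (f : P →* G), Group.IsFinitelyPresented G ∧ IsSimpleGroup G ∧
      Coarse G ∧ Function.Injective f := by
  let i : Bool → FreeGroup (Option (Fin 6)) →* S.AH := fun b => cond b (S.γ.comp θ) S.γ
  have hi : ∀ b, Function.Injective (i b) := by
    intro b
    cases b
    · exact S.γ_injective
    · exact S.γ_injective.comp θ_bijective.1
  have hfg : Group.FG P := by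
    obtain ⟨n, φ, hφ, -⟩ := Group.IsFinitelyPresented.out (G := P)
    exact Group.fg_of_surjective hφ
  have hfp : Group.IsFinitelyPresented S.AH := MH.isFinitelyPresented _ fun _ => hfg
  have hf : Function.Injective ((Amal.j i false).comp S.of) :=
    (Amal.j_injective i hi false).comp S.of_injective
  have hnt : Nontrivial (Amal i) := by
    refine ⟨⟨(Amal.j i false).comp S.of S.z, (Amal.j i false).comp S.of 1, fun h0 => ?_⟩⟩
    exact S.z_notMem (hf h0 ▸ one_mem _)
  refine ⟨Amal i, inferInstance, (Amal.j i false).comp S.of, Amal.isFinitelyPresented i,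
    ⟨fun N hN => ?_⟩, Amal.coarse i hi (coarse_asc S.α S.inj h) coarse_freeGroup, hf⟩
  exact S.eq_bot_or_eq_top (Amal.j i) (Amal.rel i) (Amal.closure_eq_top i) N

end SIn
end Crest.Agent.R185
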