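import Crest.Agent.R185.FixRE
import Crest.Agent.R185.Simple
import Crest.Agent.R185.BrMain
/-! Row 185: assembly. -/
set_option autoImplicit false
open Set

namespace Crest.Agent.R185
open Hig
variable {AG G : Type} [Finite AG] [Primcodable AG] [Group G] {sG : AG → G}
  (hG : Subgroup.closure (range sG) = ⊤)
  (hre : REPred fun w : List (AG × Bool) => FreeGroup.lift sG (FreeGroup.mk w) = 1)
include hG hre

theorem exists_setup :
    ∃ (St κ J : Type) (_ : Finite St) (_ : Primcodable St) (_ : Fintype κ) (_ : DecidableEq κ)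
      (_ : Primcodable κ) (_ : Finite J) (_ : Primcodable J) (d : Dat St κ J AG)
      (rel : ℕ × ℕ → List (GenQ (Gen St κ J) AG × Bool)) (r₀ : J) (M : ℕ) (Good : ℕ → Prop),
      d.Setup sG rel r₀ M Good := by
  obtain ⟨U, hU, hfix⟩ := exists_universal (List (Bool × Bool) ⊕ ℕ)
  have hW : REPred fun x : ℕ × List (Bool × Bool) => U (x.1, .inl x.2) :=
    re_comp hU (Primrec.fst.pair (Primrec.sumInl.comp Primrec.snd)).to_comp
  obtain ⟨St, κ, J, _, _, _, _, _, _, _, m, r₀, h1, h2, h3, h4, h5⟩ := exists_machine _ hW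
  obtain ⟨β, hβ, hM⟩ := exists_beta (CC St κ J AG) (M := 34 * c0 + 1) (by omega)
  have hp : REPred fun x : ℕ × List (Gen St κ J × Bool) => U (x.1, .inr (Encodable.encode x.2)) :=
    re_comp hU (Primrec.fst.pair (Primrec.sumInr.comp (Primrec.encode.comp Primrec.snd))).to_comp
  obtain ⟨w₀, hw₀⟩ := regrp_mk_surj _
    (cT (FreeGroup.of : Gen St κ J → _) (β (some (.inr (.inr (.inl 5))))))
  obtain ⟨lab, hl1, hl2, hl3, hl4⟩ := exists_lab hp w₀.length
  let d : Dat St κ J AG := ⟨m, β, lab, hl2⟩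
  obtain ⟨rel, hr1, hr2⟩ := d.exists_rel hG hre (fun K => (h5 K).1) hl1
  refine ⟨St, κ, J, inferInstance, inferInstance, inferInstance, inferInstance, inferInstance,
    inferInstance, inferInstance, d, rel, r₀, _,
    fun e => ∀ u, U (e, .inl u) ↔ FreeGroup.mk u ∈ d.Acc rel e, hr2, hβ, hM, by omega, hl1,
    fun e => ⟨fun N => ?_, fun N a ha => ?_, fun N hN => ?_⟩,
    fun e he => ⟨h1 e, h2 e, h3 e, fun ν hν => (h4 e ν hν).trans ?_⟩, fun K => (h5 K).1,
    fun K hK => (h5 K).2 ((d.ure_not_acc hr1 hM K).of_iff fun i w => not_congr ?_),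
    fun p hp' => ?_⟩
  · simpa [QIn.len, Dat.Q] using (hl3 e N).1
  · obtain ⟨w, hw, rfl⟩ := List.mem_map.1 ha
    exact ⟨w, ((hl3 e N).2.2 w hw).1, rfl⟩
  · refine ⟨w₀, (hl3 e N).2.1 fun h => ?_, congrArg (d.ev e) hw₀⟩
    simp [QIn.len, Dat.Q, d, h] at hN
  · refine ⟨fun ⟨u, hu, h⟩ => hu ▸ (he u).1 h, fun h => ?_⟩
    obtain ⟨u, hu⟩ := regrp_mk_surj _ ν.1
    exact ⟨u, hu, (he u).2 (hu ▸ h)⟩
  · refine ⟨fun h => ?_, fun ⟨u, hu, h⟩ => hu ▸ (hK i u).1 h⟩
    obtain ⟨u, hu⟩ := regrp_mk_surj _ w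
    exact ⟨u, hu, (hK i u).2 (hu ▸ h)⟩
  · have hR : REPred fun x : ℕ × (List (Bool × Bool) ⊕ ℕ) =>
        (∃ u, x.2 = .inl u ∧ FreeGroup.mk u ∈ d.Acc rel x.1) ∨
          ∃ w, x.2 = .inr (Encodable.encode w) ∧ p (x.1, w) := by
      refine re_or (re_ex (p := fun y : (ℕ × (List (Bool × Bool) ⊕ ℕ)) × List (Bool × Bool) =>
          y.1.2 = .inl y.2 ∧ FreeGroup.mk y.2 ∈ d.Acc rel y.1.1) (re_and ?_ ?_))
        (re_ex (p := fun y : (ℕ × (List (Bool × Bool) ⊕ ℕ)) × List (Gen St κ J × Bool) =>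
          y.1.2 = .inr (Encodable.encode y.2) ∧ p (y.1.1, y.2)) (re_and ?_ ?_))
      · exact re_eq (Primrec.snd.comp Primrec.fst) (Primrec.sumInl.comp Primrec.snd)
      · exact re_comp (f := fun y : (ℕ × (List (Bool × Bool) ⊕ ℕ)) × List (Bool × Bool) =>
          (y.1.1, y.2)) (d.re_acc hr1) ((Primrec.fst.comp Primrec.fst).pair Primrec.snd).to_comp
      · exact re_eq (Primrec.snd.comp Primrec.fst)
          (Primrec.sumInr.comp (Primrec.encode.comp Primrec.snd))
      · exact re_comp (f := fun y : (ℕ × (List (Bool × Bool) ⊕ ℕ)) × List (Gen St κ J × Bool) =>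
          (y.1.1, y.2)) hp' ((Primrec.fst.comp Primrec.fst).pair Primrec.snd).to_comp
    obtain ⟨e, he⟩ := hfix _ hR
    have h6 : ∀ w, U (e, .inr (Encodable.encode w)) ↔ p (e, w) := fun w => by
      rw [he]; simp
    refine ⟨e, fun u => by rw [he]; simp, fun N w hw => (h6 w).1 ((hl3 e N).2.2 w hw).2,
      fun L hL h => hl4 e L hL fun w hw => (h6 w).2 (h w hw)⟩

theorem main_asc : ∃ (H : Type) (_ : Group H) (f : G →* H), Coarse H ∧ Function.Injective f := by
  obtain ⟨St, κ, J, _, _, _, _, _, _, _, d, rel, r₀, M, Good, h⟩ := exists_setup hG hre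
  obtain ⟨e, he, -⟩ := h.fix (fun _ => False) (by
    simpa using re_bool (c := fun _ : ℕ × List (Gen St κ J × Bool) => false) (Primrec.const _))
  obtain ⟨E, -⟩ := Dat.exists_emb (Dat.valid h.isRel h.inj (h.spec e he)) (Dat.full h.isRel (h.spec e he))
  obtain ⟨f, hf⟩ := E.exists_g hG
  exact ⟨MH (asc (E.α hG) (E.α_injective hG)), inferInstance, (MH.of _).comp f,
    coarse_asc _ _ (E.sExt hG), (MH.of_injective _).comp hf⟩

theorem main_simple
    (hco : REPred fun w : List (AG × Bool) => FreeGroup.lift sG (FreeGroup.mk w) ≠ 1) :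
    ∃ (S : Type) (_ : Group S) (f : G →* S), Group.IsFinitelyPresented S ∧ IsSimpleGroup S ∧
      Coarse S ∧ Function.Injective f := by
  obtain ⟨St, κ, J, _, _, _, _, _, _, _, d, rel, r₀, M, Good, h⟩ := exists_setup hG hre
  obtain ⟨p, hp, h1⟩ := Dat.Setup.exists_p d hG hre h hco
  obtain ⟨e, he, h2, h3⟩ := h.fix p hp
  obtain ⟨h4, h5⟩ := h1 e he
  have hQ : (d.Q e).Good := by
    intro N a ha
    obtain ⟨w, hw, rfl⟩ := List.mem_map.1 ha
    exact h4 w (h2 N w hw)
  obtain ⟨E, -⟩ := Dat.exists_emb (Dat.valid h.isRel h.inj (h.spec e he)) (Dat.full h.isRel (h.spec e he))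
  obtain ⟨f, hf⟩ := E.exists_g hG
  obtain ⟨S, hS⟩ := E.exists_sIn hG hQ fun L hL hD => by
    have hs : Function.Surjective fun w => d.ev e (FreeGroup.mk w) :=
      (d.ev_surjective e).comp (regrp_mk_surj _)
    obtain ⟨L', rfl⟩ := hs.list_map L
    obtain ⟨N, hN⟩ := h3 L' (by simpa using hL) fun w hw =>
      h5 hQ w (hD _ (List.mem_map_of_mem hw))
    exact ⟨N, by rw [← hN]; rfl⟩
  obtain ⟨T, _, g, h6, h7, h8, h9⟩ := S.exists_simple (hS ▸ E.sExt hG)
  exact ⟨T, inferInstance, g.comp f, h6, h7, h8, h9.comp hf⟩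

omit hG hre in
theorem main_dec (G : Type*) [Group G] (k : ℕ) (s : Fin k → G)
    (hgen : Subgroup.closure (Set.range s) = ⊤)
    (hdec : ComputablePred fun w : List (Fin k × Bool) => FreeGroup.lift s (FreeGroup.mk w) = 1) :
    ∃ (S : Type) (_ : Group S) (f : G →* S), Group.IsFinitelyPresented S ∧ IsSimpleGroup S ∧
      Coarse S ∧ Function.Injective f := by
  have hs : Function.Surjective (FreeGroup.lift s) := by
    rw [← MonoidHom.range_eq_top, FreeGroup.range_lift_eq_closure, hgen]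
  let G' := FreeGroup (Fin k) ⧸ (FreeGroup.lift s).ker
  let e : G' ≃* G := QuotientGroup.quotientKerEquivOfSurjective _ hs
  have h1 : ∀ w, e (FreeGroup.lift (fun a => e.symm (s a)) w) = FreeGroup.lift s w := fun w => by
    have : e.toMonoidHom.comp (FreeGroup.lift fun a => e.symm (s a)) = FreeGroup.lift s := by
      ext a; simp
    exact DFunLike.congr_fun this w
  have h2 : ∀ w, FreeGroup.lift (fun a => e.symm (s a)) w = 1 ↔ FreeGroup.lift s w = 1 := fun w => by
    rw [← h1, MulEquiv.map_eq_one_iff]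
  obtain ⟨S, _, f, h⟩ := main_simple (G := G') (sG := fun a => e.symm (s a)) (by
      rw [← FreeGroup.range_lift_eq_closure, MonoidHom.range_eq_top]
      intro x
      obtain ⟨w, hw⟩ := hs (e x)
      exact ⟨w, e.injective ((h1 w).trans hw)⟩)
    (by simpa only [h2] using hdec.to_re) (by simpa only [ne_eq, h2] using hdec.not.to_re)
  exact ⟨S, inferInstance, f.comp e.symm.toMonoidHom, h.1, h.2.1, h.2.2.1,
    h.2.2.2.comp e.symm.injective⟩

end Crest.Agent.R185
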