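import Crest.Agent.R185.QDef
/-! Row 185: the structure of the subgroups `De`, `Dq` (auxiliary file of `QAlg`). -/
set_option autoImplicit false
open Set

noncomputable section
namespace Crest.Agent.R185
namespace QIn
variable {P A : Type} [Group P] (Q : QIn P A) (G : Type) [Group G]

theorem a2_x1_injective : Function.Injective (x1 P G) := fun _ _ h =>
  Cube.x4_injective P (congrArg Prod.fst h)

theorem a2_xs_injective : Function.Injective (Q.xs G) :=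
  (MH.of_injective _).comp (a2_x1_injective G)

theorem a2_xs_mem {g : P} : Q.xs G g ∈ Q.Dp G ↔ g ∈ Q.D :=
  (Split.good_of_mem (Q.isGood_Dp G)).trans (Subgroup.mem_map_iff_mem (a2_x1_injective G))

theorem a2_of_mem {h : Q.Ps G} : MH.of (Q.DE G) h ∈ Q.De G ↔ h ∈ Q.Dp G :=
  ((Q.subE G).of_mem_Mor_iff (v := ()) (w := ())).trans (and_iff_left rfl)

theorem a2_mrk_mem {N i : ℕ} (h : Q.Bad (N, i)) : Q.mrk G N i ∈ Q.Dp G :=
  Subgroup.subset_closure (Or.inr ⟨((N, i), false), h, rfl⟩)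

theorem a2_tw_mem (N i : ℕ) : Q.tw N i ∈ Q.D := by
  unfold tw
  split_ifs
  · exact Q.om_mem
  · exact one_mem _

theorem a2_t_mem (i : {q : Ltr × Bool // Q.Acc q.1}) : (Q.subE G).t i ∈ Q.De G :=
  (Q.subE G).t_mem_Mor i

theorem a2_t_inl (q : Bool × ℤ) (h : Q.Acc (.inl q)) :
    (Q.subE G).t ⟨(.inl q, false), h⟩ = Q.sigv G q := by
  change MH.of (Q.DE G) (Q.lco G q) * Q.lt G (.inl (Q.srcq q)) *
    (MH.of (Q.DE G) (Q.xs G (Q.rco q))⁻¹)⁻¹ = _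
  rw [map_inv, inv_inv]
  rfl

theorem a2_t_inr (k : Bool × Bool) (h : Q.Acc (.inr k)) :
    (Q.subE G).t ⟨(.inr k, false), h⟩ = Q.lt G (.inr k) := by
  change MH.of (Q.DE G) 1 * Q.lt G (.inr k) * (MH.of (Q.DE G) 1)⁻¹ = _
  simp

theorem a2_t_true (l : Ltr) (h : Q.Acc l) :
    (Q.subE G).t ⟨(l, true), h⟩ = ((Q.subE G).t ⟨(l, false), h⟩)⁻¹ :=
  (Q.subE G).t_bar ⟨(l, false), h⟩

theorem a2_not_elim {q : Bool × ℤ} (h : Q.Elim q) : ¬ Q.Elim (Q.srcq q) := by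
  rw [srcq, if_pos h]
  obtain ⟨-, h1, h2⟩ := h
  rintro ⟨-, -, h3⟩
  simp only [Int.toNat_natCast, Nat.unpair_pair] at h3
  rw [h2, Bool.not_inj_iff] at h3
  have h4 := Q.even q.2.toNat.unpair.1
  simp only [par, prv, decide_eq_decide] at h3
  change Even (Q.len _) at h4
  generalize Q.len q.2.toNat.unpair.1 = n at *
  generalize q.2.toNat.unpair.2 = i at *
  obtain ⟨m, rfl⟩ := h4
  rcases Nat.eq_zero_or_pos i with rfl | hi
  · rw [Nat.mod_eq_of_lt (a := 0 + (m + m) - 1) (by omega)] at h3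
    omega
  · rw [show i + (m + m) - 1 = i - 1 + (m + m) by omega, Nat.add_mod_right,
      Nat.mod_eq_of_lt (a := i - 1) (by omega)] at h3
    omega

theorem a2_sigv_of_not {q : Bool × ℤ} (h : ¬ Q.Elim q) : Q.sigv G q = Q.lt G (.inl q) := by
  simp [sigv, lco, srcq, rco, h]

theorem a2_bad {q : Bool × ℤ} (h : Q.Elim q) (h' : Q.rco q ∈ Q.D) :
    Q.Bad (q.2.toNat.unpair.1, Q.prv q.2.toNat.unpair.1 q.2.toNat.unpair.2) := by
  rw [rco, if_pos h] at h'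
  exact ⟨Nat.mod_lt _ (lt_of_le_of_lt (Nat.zero_le _) h.2.1), h'⟩

theorem a2_sigv_mem (q : Bool × ℤ) : Q.sigv G q ∈ Q.De G := by
  by_cases h : Q.Acc (.inl q)
  · rw [← Q.a2_t_inl G q h]; exact Q.a2_t_mem G _
  · obtain ⟨h1, h2⟩ : Q.Elim q ∧ Q.rco q ∈ Q.D := not_not.1 h
    refine mul_mem (mul_mem ((Q.a2_of_mem G).2 ?_) ?_)
      ((Q.a2_of_mem G).2 ((Q.a2_xs_mem G).2 h2))
    · rw [lco, if_pos h1]
      exact mul_mem ((Q.a2_xs_mem G).2 (Q.a2_tw_mem _ _)) (Q.a2_mrk_mem G (Q.a2_bad h1 h2))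
    · have h3 := Q.a2_not_elim h1
      rw [← Q.a2_sigv_of_not G h3, ← Q.a2_t_inl G _ fun h => h3 h.1]
      exact Q.a2_t_mem G _

theorem a2_sig_mem (w : FreeGroup (Bool × ℤ)) : Q.sig G w ∈ Q.De G := by
  induction w using FreeGroup.induction_on with
  | C1 => rw [map_one]; exact one_mem _
  | of q => rw [sig, FreeGroup.lift_apply_of]; exact Q.a2_sigv_mem G q
  | inv_of q h => rw [map_inv]; exact inv_mem h
  | mul a b ha hb => rw [map_mul]; exact mul_mem ha hb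

theorem a2_isGood : (MH.split (Q.DQ G)).IsGood (Q.De G) {e | e.1 = none} := by
  refine ⟨fun e he => he, ?_⟩
  rintro ⟨j, b⟩ he _ - ⟨w, rfl⟩
  obtain rfl : j = none := he
  have h := MH.split_φ (Q.DQ G) none b w
  change (MH.split (Q.DQ G)).φ (none, b) ((Q.DQ G).i none b w) ∈ _
  rw [h]
  cases b <;> exact Q.a2_sig_mem G _

theorem a2_lt_mem {k : Bool × Bool} (h : k ≠ (true, true)) : Q.lt G (.inr k) ∈ Q.De G := by
  rw [← Q.a2_t_inr G k h]; exact Q.a2_t_mem G _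

theorem a2_Dq_eq
    (h1 : ∀ (ε : Bool) (j : ℤ), Q.sq G (ε, j) = (Q.pp G ^ j)⁻¹ * Q.sq G (ε, 0) * Q.pp G ^ j)
    (h2 : ∀ N i : ℕ, i < Q.len N → Q.sq G (par i, (Nat.pair N (Q.nxt N i) : ℕ)) =
      Q.xq G (Q.tw N i) * Q.mq G N i * Q.sq G (par i, (Nat.pair N i : ℕ)) * Q.xq G (Q.lb N i)) :
    Q.Dq G = (MH.split (Q.DQ G)).gsub (Q.De G) {e | e.1 = none} := by
  apply le_antisymm
  · have ho : ∀ x ∈ Q.De G, MH.of (Q.DQ G) x ∈
        (MH.split (Q.DQ G)).gsub (Q.De G) {e | e.1 = none} :=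
      fun x hx => Subgroup.subset_closure (Or.inl ⟨x, hx, rfl⟩)
    rw [Dq, Subgroup.closure_le]
    rintro _ (⟨k, rfl⟩ | ⟨d, hd, rfl⟩)
    · fin_cases k
      · exact ho _ (Q.a2_sigv_mem G _)
      · exact ho _ (Q.a2_sigv_mem G _)
      · exact Subgroup.subset_closure (Or.inr ⟨(none, false), rfl, rfl⟩)
      · exact ho _ (Q.a2_lt_mem G (by simp))
      · exact ho _ (Q.a2_lt_mem G (by simp))
      · exact ho _ (Q.a2_lt_mem G (by simp))
    · exact ho _ ((Q.a2_of_mem G).2 ((Q.a2_xs_mem G).2 hd))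
  · have hy : ∀ k, Q.yv G k ∈ Q.Dq G := fun k => Subgroup.subset_closure (Or.inl ⟨k, rfl⟩)
    have hx : ∀ d ∈ Q.D, Q.xq G d ∈ Q.Dq G := fun d hd =>
      Subgroup.subset_closure (Or.inr ⟨d, hd, rfl⟩)
    have hp : Q.pp G ∈ Q.Dq G := hy 2
    have hs : ∀ q, Q.sq G q ∈ Q.Dq G := by
      rintro ⟨ε, j⟩
      rw [h1]
      refine mul_mem (mul_mem (inv_mem (zpow_mem hp _)) ?_) (zpow_mem hp _)
      cases ε
      · exact hy 0
      · exact hy 1
    have hDp : Q.Dp G ≤ (Q.Dq G).comap ((MH.of (Q.DQ G)).comp (MH.of (Q.DE G))) := by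
      rw [Dp, PreSplit.gsub, Subgroup.closure_le]
      rintro _ (⟨_, ⟨d, hd, rfl⟩, rfl⟩ | ⟨⟨⟨N, i⟩, b⟩, he, rfl⟩)
      · exact hx d hd
      · have h3 : Q.mq G N i ∈ Q.Dq G := by
          have h4 : Q.mq G N i = (Q.xq G (Q.tw N i))⁻¹ *
              Q.sq G (par i, (Nat.pair N (Q.nxt N i) : ℕ)) * (Q.xq G (Q.lb N i))⁻¹ *
              (Q.sq G (par i, (Nat.pair N i : ℕ)))⁻¹ := by
            rw [h2 N i he.1]; group
          rw [h4]
          exact mul_mem (mul_mem (mul_mem (inv_mem (hx _ (Q.a2_tw_mem N i))) (hs _))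
            (inv_mem (hx _ he.2))) (inv_mem (hs _))
        cases b
        · exact h3
        · exact ((Q.Dq G).comap ((MH.of (Q.DQ G)).comp (MH.of (Q.DE G)))).inv_mem
            (x := Q.mrk G N i) h3
    have hDe : Q.De G ≤ (Q.Dq G).comap (MH.of (Q.DQ G)) := by
      rw [De, Sub.K_eq_closure, Subgroup.closure_le]
      have key : ∀ l h, (Q.subE G).t ⟨(l, false), h⟩ ∈ (Q.Dq G).comap (MH.of (Q.DQ G)) := by
        rintro (q | k) h
        · rw [a2_t_inl]; exact hs q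
        · rw [a2_t_inr]
          rcases k with ⟨_ | _, _ | _⟩
          · exact hy 3
          · exact hy 4
          · exact hy 5
          · exact absurd rfl h
      rintro _ (⟨h, hh, rfl⟩ | ⟨⟨⟨l, _ | _⟩, h⟩, rfl⟩)
      · exact hDp hh
      · exact key l h
      · rw [a2_t_true]; exact inv_mem (key l h)
    rw [PreSplit.gsub, Subgroup.closure_le]
    rintro _ (⟨x, hx, rfl⟩ | ⟨⟨j, b⟩, he, rfl⟩)
    · exact hDe hx
    · obtain rfl : j = none := he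
      cases b
      · exact hp
      · exact inv_mem hp

theorem a2_first {g : Q.Ps G} {l : List ((Ltr × Bool) × Q.Ps G)}
    (hl : (MH.split (Q.DE G)).Red (((.inr (true, true), false), g) :: l)) :
    (MH.split (Q.DE G)).ev 1 (((.inr (true, true), false), g) :: l) ∉ Q.De G := by
  intro h
  obtain ⟨⟨⟨l, b⟩, hi⟩, h1, -⟩ := (Q.subE G).first hl h
  have h2 : Sum.map Q.srcq id l = .inr (true, true) := congrArg Prod.fst h1
  rcases l with q | k
  · simp at h2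
  · exact hi (by simpa using h2)

theorem a2_zp (h : Q.Dq G = (MH.split (Q.DQ G)).gsub (Q.De G) {e | e.1 = none}) :
    Q.zp G ∉ Q.Dq G := by
  rw [h]
  intro h1
  refine Q.a2_first G (g := 1) (l := []) (PreSplit.red_singleton _ _) ?_
  simpa [lt] using (Split.good_of_mem (Q.a2_isGood G)).1 h1

theorem a2_zp_conj (h : Q.Dq G = (MH.split (Q.DQ G)).gsub (Q.De G) {e | e.1 = none}) {g : P}
    (hg : g ≠ 1) : Q.zp G * Q.xq G g * (Q.zp G)⁻¹ ∉ Q.Dq G := by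
  rw [h]
  intro h1
  refine Q.a2_first G (g := Q.xs G g) (l := [((.inr (true, true), true), 1)]) ?_ ?_
  · rw [PreSplit.red_cons_cons]
    refine ⟨fun h2 => hg (Q.a2_xs_injective G ?_), PreSplit.red_singleton _ _⟩
    have h3 := h2.2
    rw [MH.free_A, Subgroup.mem_bot] at h3
    rw [map_one]; exact h3
  · have h2 : Q.zp G * Q.xq G g * (Q.zp G)⁻¹ = (MH.split (Q.DQ G)).of
        (Q.lt G (.inr (true, true)) * Q.xe G g * (Q.lt G (.inr (true, true)))⁻¹) := by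
      rw [map_mul, map_mul, map_inv]; rfl
    rw [h2] at h1
    simpa [lt, xe, mul_assoc] using (Split.good_of_mem (Q.a2_isGood G)).1 h1

theorem a2_not_bad (hQ : Q.Good) (e : ℕ × ℕ) : ¬ Q.Bad e := by
  rintro ⟨h1, h2⟩
  refine hQ e.1 _ ?_ h2
  rw [lb, List.getD_eq_getElem _ _ h1]
  exact List.getElem_mem _

theorem a2_lift_Dp (hQ : Q.Good) {T : Type} [Group T] (f : Q.D →* T) :
    ∃ ψ : Q.Dp G →* T, ∀ d : Q.D, ψ ⟨Q.xs G d, (Q.a2_xs_mem G).2 d.2⟩ = f d := by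
  obtain ⟨ψ, h, -⟩ := Split.good_lift (Q.isGood_Dp G)
    (f.comp (Q.D.equivMapOfInjective _ (a2_x1_injective G)).symm.toMonoidHom) (fun _ => 1)
    (fun _ _ => by simp) fun e he => absurd he (Q.a2_not_bad hQ _)
  refine ⟨ψ, fun d => (h (Q.D.equivMapOfInjective _ (a2_x1_injective G) d)).trans ?_⟩
  simp

theorem a2_lift_De (hQ : Q.Good) {T : Type} [Group T] (f : Q.D →* T) (τ : Ltr → T) :
    ∃ ψ : Q.De G →* T,
      (∀ d : Q.D, ψ ⟨Q.xe G d, (Q.a2_of_mem G).2 ((Q.a2_xs_mem G).2 d.2)⟩ = f d) ∧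
      (∀ q, ψ ⟨Q.sigv G q, Q.a2_sigv_mem G q⟩ = τ (.inl q)) ∧
      ∀ k (h : k ≠ (true, true)), ψ ⟨Q.lt G (.inr k), Q.a2_lt_mem G h⟩ = τ (.inr k) := by
  classical
  obtain ⟨ψ₁, h₁⟩ := Q.a2_lift_Dp G hQ f
  let f' : Unit → Q.Ps G → T := fun _ b => if hb : b ∈ Q.Dp G then ψ₁ ⟨b, hb⟩ else 1
  have e1 : f' () 1 = 1 := by
    simp only [f', dif_pos (one_mem (Q.Dp G))]
    exact map_one ψ₁
  obtain ⟨ψ, hψ⟩ := (Q.subE G).exists_lift f' (fun i => cond i.1.2 (τ i.1.1)⁻¹ (τ i.1.1))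
    (fun _ a (ha : a ∈ Q.Dp G) b (hb : b ∈ Q.Dp G) => by
      simp only [f', dif_pos ha, dif_pos hb, dif_pos (mul_mem ha hb)]
      exact map_mul ψ₁ ⟨a, ha⟩ ⟨b, hb⟩)
    (by rintro ⟨⟨l, _ | _⟩, h⟩ <;> simp [subE])
    (fun i a ha _ => by
      rw [MH.free_A, Subgroup.mem_bot] at ha
      subst ha
      rw [Split.φ_one, mul_one, mul_one, mul_inv_cancel, mul_inv_cancel, e1, one_mul, mul_one]) ()
  have key : ∀ l h, ψ ⟨(Q.subE G).t ⟨(l, false), h⟩, Q.a2_t_mem G _⟩ = τ l := by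
    intro l h
    have h2 := hψ 1 [(⟨(l, false), h⟩, 1)] ⟨one_mem _, rfl, one_mem _, rfl⟩
    simp only [Sub.gev, e1, one_mul, mul_one, cond_false] at h2
    rw [← h2]
    congr 2
    simp [Sub.ev]
  refine ⟨ψ, fun d => ?_, fun q => ?_, fun k h => ?_⟩
  · have h2 := hψ (Q.xs G d) [] ⟨(Q.a2_xs_mem G).2 d.2, rfl⟩
    simp only [Sub.gev, f', dif_pos ((Q.a2_xs_mem G).2 d.2), h₁] at h2
    exact h2
  · have h : Q.Acc (.inl q) := fun h => Q.a2_not_bad hQ _ (Q.a2_bad h.1 h.2)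
    rw [← key _ h]
    exact congrArg ψ (Subtype.ext (Q.a2_t_inl G q h).symm)
  · rw [← key (.inr k) h]
    exact congrArg ψ (Subtype.ext (Q.a2_t_inr G k h).symm)

theorem a2_lift (h : Q.Dq G = (MH.split (Q.DQ G)).gsub (Q.De G) {e | e.1 = none}) (hQ : Q.Good)
    {T : Type} [Group T] (f : Q.D →* T) (y : Fin 6 → T) :
    ∃ ρ : Q.Dq G →* T,
      (∀ d : Q.D, ρ ⟨Q.xq G d, Subgroup.subset_closure (Or.inr ⟨d, d.2, rfl⟩)⟩ = f d) ∧
      ∀ k, ρ ⟨Q.yv G k, Subgroup.subset_closure (Or.inl ⟨k, rfl⟩)⟩ = y k := by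
  obtain ⟨ψ, h1, h2, h3⟩ := Q.a2_lift_De G hQ f (Sum.elim
    (fun q => (y 2 ^ q.2)⁻¹ * cond q.1 (y 1) (y 0) * y 2 ^ q.2)
    fun k => cond k.1 (y 5) (cond k.2 (y 4) (y 3)))
  have h4 : ∀ w, ψ ⟨Q.sig G (shift w), Q.a2_sig_mem G _⟩ =
      (y 2)⁻¹ * ψ ⟨Q.sig G w, Q.a2_sig_mem G _⟩ * y 2 := by
    intro w
    have e : (ψ.comp ((Q.sig G).codRestrict _ (Q.a2_sig_mem G))).comp shift =
        (MulAut.conj (y 2)⁻¹).toMonoidHom.comp
          (ψ.comp ((Q.sig G).codRestrict _ (Q.a2_sig_mem G))) := by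
      ext q
      have e1 : ∀ q, (Q.sig G).codRestrict _ (Q.a2_sig_mem G) (FreeGroup.of q) =
          ⟨Q.sigv G q, Q.a2_sigv_mem G q⟩ := fun q => Subtype.ext (FreeGroup.lift_apply_of)
      simp only [shift, MonoidHom.comp_apply, FreeGroup.map.of, e1, h2, Sum.elim_inl,
        MulEquiv.coe_toMonoidHom, MulAut.conj_apply, zpow_add_one]
      group
    simpa using DFunLike.congr_fun e w
  obtain ⟨ρ, h5, h6⟩ := Split.good_lift (Q.a2_isGood G) ψ (fun e => cond e.2 (y 2)⁻¹ (y 2))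
    (by rintro ⟨j, _ | _⟩ - <;> simp) (by
      rintro ⟨j, b⟩ he ⟨a, ha⟩ hA
      obtain rfl : j = none := he
      obtain ⟨w, hw⟩ := id hA
      change _ = a at hw
      subst hw
      have e := MH.split_φ (Q.DQ G) none b w
      cases b
      · have e' : (⟨(MH.split (Q.DQ G)).φ (none, false) ((Q.DQ G).i none false w),
            (Q.a2_isGood G).φ_mem _ rfl _ ha ⟨w, rfl⟩⟩ : Q.De G) =
            ⟨Q.sig G (shift w), Q.a2_sig_mem G _⟩ := Subtype.ext e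
        change ψ ⟨Q.sig G w, Q.a2_sig_mem G _⟩ * y 2 = y 2 * ψ _
        rw [e', h4]
        group
      · have e' : (⟨(MH.split (Q.DQ G)).φ (none, true) ((Q.DQ G).i none true w),
            (Q.a2_isGood G).φ_mem _ rfl _ ha ⟨w, rfl⟩⟩ : Q.De G) =
            ⟨Q.sig G w, Q.a2_sig_mem G _⟩ := Subtype.ext e
        change ψ ⟨Q.sig G (shift w), Q.a2_sig_mem G _⟩ * (y 2)⁻¹ = (y 2)⁻¹ * ψ _
        rw [e', h4]
        group)
  refine ⟨ρ.comp (Subgroup.inclusion h.le), fun d => (h5 ⟨_, _⟩).trans (h1 d), fun k => ?_⟩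
  fin_cases k
  · exact (h5 ⟨_, _⟩).trans ((h2 (false, 0)).trans (by simp))
  · exact (h5 ⟨_, _⟩).trans ((h2 (true, 0)).trans (by simp))
  · exact h6 (none, false) rfl
  · exact (h5 ⟨_, _⟩).trans (h3 (false, false) (by simp))
  · exact (h5 ⟨_, _⟩).trans (h3 (false, true) (by simp))
  · exact (h5 ⟨_, _⟩).trans (h3 (true, false) (by simp))

end QIn
end Crest.Agent.R185
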