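import Crest.Agent.R185.QDef
import Crest.Agent.R185.QAlgAux2
/-! Row 185: algebraic properties of `Qh`. -/
set_option autoImplicit false
open Set

noncomputable section
namespace Crest.Agent.R185
namespace QIn
variable {P A : Type} [Group P] (Q : QIn P A) (G : Type) [Group G]

theorem i1_injective : Function.Injective (Q.i1 G) := by
  exact (MH.of_injective _).comp ((MH.of_injective _).comp (MH.of_injective _))

theorem xq_injective : Function.Injective (Q.xq G) := by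
  exact (Q.i1_injective G).comp (x1_injective P G)

theorem gq_injective : Function.Injective (Q.gq G) := by
  exact (Q.i1_injective G).comp fun _ _ h => congrArg Prod.snd h

theorem sq_eq (ε : Bool) (j : ℤ) :
    Q.sq G (ε, j) = (Q.pp G ^ j)⁻¹ * Q.sq G (ε, 0) * Q.pp G ^ j := by
  have step : ∀ j : ℤ, Q.sq G (ε, j) * Q.pp G = Q.pp G * Q.sq G (ε, j + 1) := fun j => by
    have := MH.rel (Q.DQ G) none (FreeGroup.of (ε, j))
    change MH.of (Q.DQ G) (Q.sig G (FreeGroup.of (ε, j))) * _ =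
      _ * MH.of (Q.DQ G) (Q.sig G (shift (FreeGroup.of (ε, j)))) at this
    rw [shift, FreeGroup.map.of, sig_of, sig_of] at this
    exact this
  induction j using Int.induction_on with
  | zero => simp
  | succ j ih =>
    have h := step j
    rw [← inv_mul_eq_iff_eq_mul] at h
    rw [← h, ih, zpow_add_one]
    group
  | pred j ih =>
    have h := step (-(j : ℤ) - 1)
    rw [sub_add_cancel, ← eq_mul_inv_iff_mul_eq] at h
    rw [h, ih, zpow_sub_one]
    group

/-- The relation of the edge `(N, i)`. -/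
theorem sq_edge {N i : ℕ} (h : i < Q.len N) :
    Q.sq G (par i, (Nat.pair N (Q.nxt N i) : ℕ)) =
      Q.xq G (Q.tw N i) * Q.mq G N i * Q.sq G (par i, (Nat.pair N i : ℕ)) * Q.xq G (Q.lb N i) := by
  rw [sq, sq, Q.sigv_tgt G h, Q.sigv_of_not G (Q.not_elim_src N i), map_mul, map_mul, map_mul]
  rfl

theorem mq_comm (N i : ℕ) {d : P} (hd : d ∈ Q.D) : Commute (Q.mq G N i) (Q.xq G d) := by
  exact (((MH.central_comm (fun _ : ℕ × ℕ => Q.D.map (x1 P G)) (N, i)
    (Subgroup.mem_map_of_mem _ hd)).map (MH.of (Q.DE G))).map (MH.of (Q.DQ G))).symm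

theorem vv_rel (a : A) : cm (Q.yv G 4) (Q.yv G 5) * Q.vv G a =
    Q.vv G a * (cm (Q.yv G 4) (Q.yv G 5) * Q.xq G (Q.s a)) := by
  have := MH.rel (Q.DQ G) (some a) (Multiplicative.ofAdd (1 : ℤ))
  change MH.of (Q.DQ G) ((Q.zz G * Q.xe G 1) ^ (1 : ℤ)) * _ =
    _ * MH.of (Q.DQ G) ((Q.zz G * Q.xe G (Q.s a)) ^ (1 : ℤ)) at this
  rw [zpow_one, zpow_one, map_one, mul_one, map_mul] at this
  have e : MH.of (Q.DQ G) (Q.zz G) = cm (Q.yv G 4) (Q.yv G 5) := by
    rw [zz, cm, map_mul, map_mul, map_mul, map_inv, map_inv]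
    rfl
  rw [e] at this
  exact this

theorem sigv_mem_De (q : Bool × ℤ) : Q.sigv G q ∈ Q.De G := by
  exact Q.a2_sigv_mem G q

theorem isGood_De : (MH.split (Q.DQ G)).IsGood (Q.De G) {e | e.1 = none} := by
  exact Q.a2_isGood G

theorem Dq_eq : Q.Dq G = (MH.split (Q.DQ G)).gsub (Q.De G) {e | e.1 = none} := by
  exact Q.a2_Dq_eq G (Q.sq_eq G) fun _ _ h => Q.sq_edge G h

theorem xq_mem_Dq {g : P} : Q.xq G g ∈ Q.Dq G ↔ g ∈ Q.D := by
  rw [Dq_eq]
  exact (Split.good_of_mem (Q.a2_isGood G)).trans ((Q.a2_of_mem G).trans (Q.a2_xs_mem G))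

theorem zp_notMem : Q.zp G ∉ Q.Dq G := by
  exact Q.a2_zp G (Q.Dq_eq G)

theorem zp_conj_notMem {g : P} (hg : g ≠ 1) : Q.zp G * Q.xq G g * (Q.zp G)⁻¹ ∉ Q.Dq G := by
  exact Q.a2_zp_conj G (Q.Dq_eq G) hg

/-- If all gadgets are good, `Dq` is the free product of `D` and the free group on six letters. -/
theorem Dq_lift (hQ : Q.Good) {T : Type} [Group T] (f : Q.D →* T) (y : Fin 6 → T) :
    ∃ ρ : Q.Dq G →* T,
      (∀ d : Q.D, ρ ⟨Q.xq G d, Subgroup.subset_closure (Or.inr ⟨d, d.2, rfl⟩)⟩ = f d) ∧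
      ∀ k, ρ ⟨Q.yv G k, Subgroup.subset_closure (Or.inl ⟨k, rfl⟩)⟩ = y k := by
  exact Q.a2_lift G (Q.Dq_eq G) hQ f y

variable {G} {AG : Type} (sG : AG → G)

theorem i1_mem_closure (hs : Subgroup.closure (range Q.s) = ⊤)
    (hG : Subgroup.closure (range sG) = ⊤) (x : G1 P G) :
    Q.i1 G x ∈ Subgroup.closure (range (Q.genQ sG)) := by
  set K := Subgroup.closure (range (Q.genQ sG))
  have hg : ∀ q, Q.genQ sG q ∈ K := fun q => Subgroup.subset_closure ⟨q, rfl⟩
  have h1 : (⊤ : Subgroup (Cube.L4 P)) ≤ K.comap ((Q.i1 G).comp (MonoidHom.inl _ _)) := by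
    rw [← Cube.closure_gen4 Q.s hs, Subgroup.closure_le]
    rintro _ ⟨c, rfl⟩
    exact hg (.inl c)
  have h2 : (⊤ : Subgroup G) ≤ K.comap (Q.gq G) := by
    rw [← hG, Subgroup.closure_le]
    rintro _ ⟨c, rfl⟩
    exact hg (.inr (.inl c))
  have e : x = (x.1, 1) * (1, x.2) := by simp
  rw [e, map_mul]
  exact K.mul_mem (h1 (Subgroup.mem_top x.1)) (h2 (Subgroup.mem_top x.2))

/-- The word for `xq (s a)`. -/
theorem lift_xw (a : A) :
    FreeGroup.lift (Q.genQ sG) (FreeGroup.map (fun c => (Sum.inl c : GenQ A AG)) (Cube.x4w a)) =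
      Q.xq G (Q.s a) := by
  have e : (FreeGroup.lift (Q.genQ sG)).comp (FreeGroup.map fun c => (Sum.inl c : GenQ A AG)) =
      ((Q.i1 G).comp (MonoidHom.inl _ _)).comp (FreeGroup.lift (Cube.gen4 Q.s)) := by
    ext c
    simp only [MonoidHom.comp_apply, FreeGroup.map.of, FreeGroup.lift_apply_of]
    rfl
  have := DFunLike.congr_fun e (Cube.x4w a)
  rw [MonoidHom.comp_apply, MonoidHom.comp_apply, Cube.lift_x4w] at this
  exact this

end QIn
end Crest.Agent.R185
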