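import Crest.Agent.R185.QAlg
import Crest.Agent.Lib.Computability.Rat
/-! Row 185: sizes in the tower `G1 ≤ Ps ≤ E1 ≤ Qh`. -/
set_option autoImplicit false
open Set

noncomputable section
namespace Crest.Agent.R185

/-- The Heisenberg group. -/
@[ext] structure QfHeis where
  a : ℤ
  b : ℤ
  c : ℤ

instance : Group QfHeis where
  mul x y := ⟨x.a + y.a, x.b + y.b, x.c + y.c + x.a * y.b⟩
  one := ⟨0, 0, 0⟩
  inv x := ⟨-x.a, -x.b, x.a * x.b - x.c⟩
  mul_assoc x y z := by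
    change QfHeis.mk _ _ _ = QfHeis.mk _ _ _
    congr 1
    · exact add_assoc _ _ _
    · exact add_assoc _ _ _
    · change x.c + y.c + x.a * y.b + z.c + (x.a + y.a) * z.b =
        x.c + (y.c + z.c + y.a * z.b) + x.a * (y.b + z.b)
      ring
  one_mul x := by
    change QfHeis.mk (0 + x.a) (0 + x.b) (0 + x.c + 0 * x.b) = x
    simp
  mul_one x := by
    change QfHeis.mk (x.a + 0) (x.b + 0) (x.c + 0 + x.a * 0) = x
    simp
  inv_mul_cancel x := by
    change QfHeis.mk (-x.a + x.a) (-x.b + x.b) (x.a * x.b - x.c + x.c + -x.a * x.b) =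
      QfHeis.mk 0 0 0
    congr 1 <;> ring

theorem qfHeis_mul (x y : QfHeis) :
    x * y = ⟨x.a + y.a, x.b + y.b, x.c + y.c + x.a * y.b⟩ := rfl
theorem qfHeis_inv (x : QfHeis) : x⁻¹ = ⟨-x.a, -x.b, x.a * x.b - x.c⟩ := rfl
theorem qfHeis_one : (1 : QfHeis) = ⟨0, 0, 0⟩ := rfl

theorem qfHeis_zpow (m : ℤ) : (⟨0, 0, 1⟩ : QfHeis) ^ m = ⟨0, 0, m⟩ := by
  induction m using Int.induction_on with
  | zero => rfl
  | succ n ih => rw [zpow_add_one, ih, qfHeis_mul]; simp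
  | pred n ih => rw [zpow_sub_one, ih, qfHeis_mul, qfHeis_inv]; simp [sub_eq_add_neg]

/-- The generators of the Heisenberg group. -/
def qfGen (a : Bool) : QfHeis := cond a ⟨0, 1, 0⟩ ⟨1, 0, 0⟩

/-- Left multiplication by a letter. -/
def qfStep (x : Bool × Bool) (y : ℤ × ℤ × ℤ) : ℤ × ℤ × ℤ :=
  cond x.1 (y.1, cond x.2 1 (-1) + y.2.1, y.2.2)
    (cond x.2 1 (-1) + y.1, y.2.1, y.2.2 + cond x.2 1 (-1) * y.2.1)

theorem qf_foldr (w : List (Bool × Bool)) :
    w.foldr qfStep (0, 0, 0) = ((FreeGroup.lift qfGen (FreeGroup.mk w)).a,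
      (FreeGroup.lift qfGen (FreeGroup.mk w)).b, (FreeGroup.lift qfGen (FreeGroup.mk w)).c) := by
  rw [FreeGroup.lift_mk]
  induction w with
  | nil => rfl
  | cons x w ih =>
    rw [List.foldr_cons, ih, List.map_cons, List.prod_cons]
    obtain ⟨_ | _, _ | _⟩ := x <;> simp [qfStep, qfGen, qfHeis_mul, qfHeis_inv]

theorem qf_primrec : Primrec fun w : List (Bool × Bool) => w.foldr qfStep (0, 0, 0) := by
  have hx : Primrec fun p : List (Bool × Bool) × (Bool × Bool) × ℤ × ℤ × ℤ => p.2.1 :=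
    Primrec.fst.comp Primrec.snd
  have hy : Primrec fun p : List (Bool × Bool) × (Bool × Bool) × ℤ × ℤ × ℤ => p.2.2 :=
    Primrec.snd.comp Primrec.snd
  have he : Primrec fun p : List (Bool × Bool) × (Bool × Bool) × ℤ × ℤ × ℤ =>
      cond p.2.1.2 (1 : ℤ) (-1) :=
    Primrec.cond (Primrec.snd.comp hx) (Primrec.const _) (Primrec.const _)
  have h1 := Primrec.fst.comp hy
  have h2 := Primrec.fst.comp (Primrec.snd.comp hy)
  have h3 := Primrec.snd.comp (Primrec.snd.comp hy)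
  exact Primrec.list_foldr (h := fun _ p => qfStep p.1 p.2) Primrec.id (Primrec.const _)
    (Primrec.cond (Primrec.fst.comp hx)
      (h1.pair ((Lib.Computability.int_add.comp he h2).pair h3))
      ((Lib.Computability.int_add.comp he h1).pair (h2.pair
        (Lib.Computability.int_add.comp h3 (Lib.Computability.int_mul.comp he h2)))))

theorem qf_pair {N i j : ℕ} (hi : i < N) (hj : j < N) : Nat.pair N j ≤ 2 * Nat.pair N i := by
  unfold Nat.pair
  rw [if_neg (by omega), if_neg (by omega)]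
  omega

theorem qf_word {X : Type} {wt : X → ℕ} {w : FreeGroup X} {r : ℕ}
    (h : (Filt.rad FreeGroup.of wt).le w r) :
    ∃ L, FreeGroup.IsReduced L ∧ FreeGroup.mk L = w ∧ ∀ x ∈ L, wt x.1 ≤ r := by
  classical
  obtain ⟨L, h1, h2⟩ : ∃ L, FreeGroup.mk L = w ∧ ∀ x ∈ L, wt x.1 ≤ r := by
    refine Subgroup.closure_induction (p := fun w _ => ∃ L, FreeGroup.mk L = w ∧
      ∀ x ∈ L, wt x.1 ≤ r) ?_ ⟨[], rfl, by simp⟩ ?_ ?_ h
    · rintro _ ⟨a, ha, rfl⟩
      exact ⟨[(a, true)], rfl, by simpa using ha⟩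
    · rintro _ _ _ _ ⟨L, rfl, hL⟩ ⟨M, rfl, hM⟩
      exact ⟨L ++ M, FreeGroup.mul_mk.symm, fun x hx => (List.mem_append.1 hx).elim (hL x) (hM x)⟩
    · rintro _ _ ⟨L, rfl, hL⟩
      refine ⟨FreeGroup.invRev L, FreeGroup.inv_mk.symm, fun x hx => ?_⟩
      simp only [FreeGroup.invRev, List.mem_reverse, List.mem_map] at hx
      obtain ⟨y, hy, rfl⟩ := hx
      exact hL y hy
  exact ⟨FreeGroup.reduce L, FreeGroup.isReduced_iff_reduce_eq.2 FreeGroup.reduce.idem,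
    FreeGroup.reduce.self.trans h1,
    fun x hx => h2 x ((FreeGroup.Red.sublist FreeGroup.reduce.red).subset hx)⟩

theorem qf_amb {B Γ E : Type} [Group B] [Group Γ] {S : PreSplit B Γ E} {V I : Type} (U : Sub S V I)
    (F : Filt B) (c : E → ℕ) {M : ℕ} (L : List (I × B))
    (h : ∀ p ∈ L, p.2 = 1 ∧ F.le (U.l p.1) M ∧ F.le (U.l (U.bar p.1)) M ∧ c (U.e p.1) ≤ 2 * M) :
    F.le (U.amb 1 L).1 M ∧ ∀ p ∈ (U.amb 1 L).2, F.le p.2 (2 * M) ∧ c p.1 ≤ 2 * M := by
  induction L with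
  | nil => exact ⟨F.one' _, by simp [Sub.amb]⟩
  | cons p L ih =>
    obtain ⟨h1, h2, h3, h4⟩ := h p (by simp)
    obtain ⟨h5, h6⟩ := ih fun q hq => h q (by simp [hq])
    simp only [Sub.amb, one_mul, h1, List.forall_mem_cons]
    exact ⟨h2, ⟨Filt.mul' (F.inv h3) h5 (by omega), h4⟩, h6⟩

namespace QIn
variable {P A : Type} [Group P] (Q : QIn P A) (G : Type) [Group G]

/-- Sizes of the labels. -/
structure Size (k : ℕ) : Prop where
  len : ∀ N, Q.len N ≤ N
  lab : ∀ N, ∀ a ∈ Q.lab N, (Filt.wl Q.s).le a N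
  om : ∀ N, 0 < Q.len N → (Filt.wl Q.s).le Q.om (N + k)

def F1 : Filt (G1 P G) := (Filt.wl (Cube.gen4 Q.s)).comap (MonoidHom.fst _ _)

def cP (e : (ℕ × ℕ) × Bool) : ℕ := Nat.pair e.1.1 e.1.2 + 1

theorem sumOKP : (MH.split (Q.DP G)).SumOK (Q.F1 G) cP where
  c_bar _ := rfl
  pinch e a n ha h := by
    rw [MH.central_A] at ha
    rw [MH.central_φ _ e ha]
    exact (Q.F1 G).mono h (Nat.le_add_right _ _)

def FP : Filt (Q.Ps G) := (MH.split (Q.DP G)).sumF (Q.sumOKP G)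

def cE (e : Ltr × Bool) : ℕ := Sum.elim (fun q : Bool × ℤ => q.2.natAbs + 1) (fun _ => 1) e.1

theorem supOKE : (MH.split (Q.DE G)).SupOK (Q.FP G) cE where
  c_bar _ := rfl
  zero e a ha := by
    rw [MH.free_A, Subgroup.mem_bot] at ha
    subst ha
    exact (Q.FP G).one

def FE : Filt (Q.E1 G) := (MH.split (Q.DE G)).supF (Q.supOKE G)

/-- Largest index. -/
def FR : Filt (FreeGroup (Bool × ℤ)) := Filt.rad FreeGroup.of fun q => q.2.natAbs

variable {Q G} {k : ℕ}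

theorem FP_xs {g : P} {n : ℕ} (h : (Filt.wl Q.s).le g n) : (Q.FP G).le (Q.xs G g) (3 * n) :=
  (MH.split (Q.DP G)).sumF_of (Q.sumOKP G) (g := x1 P G g) (Cube.wl_x4 Q.s h)

theorem qf_prv_lt {N i : ℕ} (h : i < Q.len N) : Q.prv N i < Q.len N := Nat.mod_lt _ (by omega)

theorem qf_nxt_lt {N i : ℕ} (h : i < Q.len N) : Q.nxt N i < Q.len N := Nat.mod_lt _ (by omega)

theorem qf_prv_eq {N i : ℕ} (h : i < Q.len N) :
    (i = 0 ∧ Q.prv N i = Q.len N - 1) ∨ (0 < i ∧ Q.prv N i = i - 1) := by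
  unfold prv
  rcases Nat.eq_zero_or_pos i with rfl | hi
  · exact Or.inl ⟨rfl, by rw [Nat.zero_add, Nat.mod_eq_of_lt (by omega)]⟩
  · refine Or.inr ⟨hi, ?_⟩
    rw [show i + Q.len N - 1 = i - 1 + Q.len N by omega, Nat.add_mod_right,
      Nat.mod_eq_of_lt (by omega)]

theorem qf_nxt_eq {N i : ℕ} (h : i < Q.len N) :
    (i + 1 = Q.len N ∧ Q.nxt N i = 0) ∨ (i + 1 < Q.len N ∧ Q.nxt N i = i + 1) := by
  unfold nxt
  rcases (Nat.succ_le_of_lt h).eq_or_lt with h' | h'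
  · exact Or.inl ⟨h', by rw [show i + 1 = Q.len N from h', Nat.mod_self]⟩
  · exact Or.inr ⟨h', Nat.mod_eq_of_lt h'⟩

theorem qf_nxt_prv {N i : ℕ} (h : i < Q.len N) : Q.nxt N (Q.prv N i) = i := by
  have := qf_prv_eq h
  have := qf_nxt_eq (qf_prv_lt h)
  omega

theorem qf_prv_nxt {N i : ℕ} (h : i < Q.len N) : Q.prv N (Q.nxt N i) = i := by
  have := qf_nxt_eq h
  have := qf_prv_eq (qf_nxt_lt h)
  omega

theorem qf_par_nxt {N i : ℕ} (h : i < Q.len N) : par (Q.nxt N i) = !par i := by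
  have h1 := qf_nxt_eq h
  have h2 : Q.len N % 2 = 0 := Nat.even_iff.1 (Q.even N)
  unfold par
  by_cases h3 : i % 2 = 1
  · simp [h3]; omega
  · simp [h3]; omega

theorem qf_par_prv {N i : ℕ} (h : i < Q.len N) : par (Q.prv N i) = !par i := by
  have := qf_par_nxt (qf_prv_lt h)
  rw [qf_nxt_prv h] at this
  rw [this, Bool.not_not]

theorem qf_elim {q : Bool × ℤ} (h : Q.Elim q) :
    ∃ N i, i < Q.len N ∧ q = (!par i, ((Nat.pair N i : ℕ) : ℤ)) :=
  ⟨_, _, h.2.1, Prod.ext h.2.2 (by simp [Int.toNat_of_nonneg h.1])⟩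

theorem qf_elim_mk {N i : ℕ} (h : i < Q.len N) : Q.Elim (!par i, ((Nat.pair N i : ℕ) : ℤ)) :=
  ⟨by simp, by simpa using h, by simp⟩

theorem qf_srcq_mk {N i : ℕ} (h : i < Q.len N) : Q.srcq (!par i, ((Nat.pair N i : ℕ) : ℤ)) =
    (!par i, ((Nat.pair N (Q.prv N i) : ℕ) : ℤ)) := by
  rw [srcq, if_pos (qf_elim_mk h)]
  simp

theorem qf_srcq_le (hs : Q.Size k) (q : Bool × ℤ) : (Q.srcq q).2.natAbs ≤ 2 * q.2.natAbs := by
  by_cases h : Q.Elim q
  · obtain ⟨N, i, hi, rfl⟩ := qf_elim h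
    rw [qf_srcq_mk hi]
    simpa using qf_pair (hi.trans_le (hs.len N)) ((qf_prv_lt hi).trans_le (hs.len N))
  · rw [srcq, if_neg h]
    omega

theorem qf_lb_mem {N i : ℕ} (h : i < Q.len N) : Q.lb N i ∈ Q.lab N := by
  have h' : i < (Q.lab N).length := h
  rw [lb, List.getD_eq_getElem _ _ h']
  exact List.getElem_mem _

theorem qf_acc (hg : Q.Good) (q : Bool × ℤ) : Q.Acc (.inl q) := by
  rintro ⟨h1, h2⟩
  rw [rco, if_pos h1] at h2
  exact hg _ _ (qf_lb_mem (qf_prv_lt h1.2.1)) h2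

theorem qf_subl_one {q : Bool × ℤ} (h : ¬ Q.Elim q) (b : Bool) : Q.subl G (.inl q, b) = 1 := by
  cases b
  · simp [subl, lco, h]
  · simp [subl, rco, h]

theorem FP_subl (hs : Q.Size k) (q : Bool × ℤ) (b : Bool) :
    (Q.FP G).le (Q.subl G (.inl q, b)) (3 * q.2.natAbs + 3 * k + 1) := by
  by_cases h : Q.Elim q
  · obtain ⟨N, i, hi, rfl⟩ := qf_elim h
    have h1 := qf_pair (hi.trans_le (hs.len N)) ((qf_prv_lt hi).trans_le (hs.len N))
    cases b
    · simp only [subl, lco, if_pos h, Int.toNat_natCast, Nat.unpair_pair, Int.natAbs_natCast]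
      have h3 : (Q.FP G).le (Q.mrk G N (Q.prv N i)) (Nat.pair N (Q.prv N i) + 1) :=
        (MH.split (Q.DP G)).sumF_t (Q.sumOKP G) ((N, Q.prv N i), false)
      by_cases ht : Q.prv N i + 1 = Q.len N
      · have h2 : (Filt.wl Q.s).le (Q.tw N (Q.prv N i)) (N + k) := by
          unfold tw
          rw [if_pos ht]
          exact hs.om N (by omega)
        refine Filt.mul' (FP_xs h2) h3 ?_
        have h4 := hs.len N
        have h5 := qf_prv_lt hi
        unfold Nat.pair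
        rw [if_neg (by omega), if_neg (by omega)]
        nlinarith [Nat.le_mul_self N]
      · have h2 : (Filt.wl Q.s).le (Q.tw N (Q.prv N i)) 0 := by
          unfold tw
          rw [if_neg ht]
          exact Filt.one' _ _
        exact Filt.mul' (FP_xs h2) h3 (by omega)
    · simp only [subl, rco, if_pos h, Int.toNat_natCast, Nat.unpair_pair, Int.natAbs_natCast]
      have h2 := Nat.left_le_pair N i
      exact (Q.FP G).mono ((Q.FP G).inv (FP_xs (hs.lab N _ (qf_lb_mem (qf_prv_lt hi)))))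
        (by omega)
  · rw [qf_subl_one h]
    exact Filt.one' _ _

theorem qf_t_sigv (q : Bool × ℤ) (h : Q.Acc (.inl q)) :
    (Q.subE G).t ⟨(.inl q, false), h⟩ = Q.sigv G q := by
  simp [Sub.t, subE, subl, sigv, lt, xe]

theorem FE_sig (hs : Q.Size k) (hg : Q.Good) {w : FreeGroup (Bool × ℤ)} {r : ℕ} (h : FR.le w r) :
    (Q.FE G).le (Q.sig G w) ((6 * k + 6) * (r + 1)) := by
  obtain ⟨L, h1, rfl, h3⟩ := qf_word h
  let f : (Bool × ℤ) × Bool → {q : Ltr × Bool // Q.Acc q.1} × Q.Ps G :=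
    fun x => (⟨(.inl x.1, !x.2), qf_acc hg x.1⟩, 1)
  have hp : ∀ M : List ((Bool × ℤ) × Bool), (Q.subE G).Pth () 1 (M.map f) () := fun M => by
    induction M with
    | nil => exact ⟨one_mem _, rfl⟩
    | cons x M ih => exact ⟨one_mem _, rfl, ih⟩
  have he : ∀ M : List ((Bool × ℤ) × Bool),
      (Q.subE G).ev 1 (M.map f) = Q.sig G (FreeGroup.mk M) := fun M => by
    rw [sig, FreeGroup.lift_mk]
    induction M with
    | nil => exact map_one _
    | cons x M ih =>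
      rw [List.map_cons, List.map_cons, List.prod_cons, ← ih, Sub.ev, map_one, one_mul]
      congr 1
      obtain ⟨q, _ | _⟩ := x
      · exact ((Q.subE G).t_bar ⟨(.inl q, false), qf_acc hg q⟩).trans
          (congrArg _ (qf_t_sigv q _))
      · exact qf_t_sigv q _
  have hr : (Q.subE G).Red (L.map f) := by
    unfold Sub.Red
    rw [List.isChain_map]
    refine List.IsChain.imp (fun a b hab h => ?_) h1
    have := congrArg Subtype.val h.1
    simp only [f, subE, Prod.mk.injEq, Sum.inl.injEq] at this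
    have h4 := hab this.1.symm
    rw [h4] at this
    simpa using this.2
  obtain ⟨h4, h5⟩ := qf_amb (Q.subE G) (Q.FP G) cE (M := 3 * r + 3 * k + 1) (L.map f) (by
    intro p hp
    obtain ⟨x, hx, rfl⟩ := List.mem_map.1 hp
    have a1 := h3 x hx
    have a2 := qf_srcq_le hs x.1
    refine ⟨rfl, (Q.FP G).mono (FP_subl hs x.1 _) (by omega),
      (Q.FP G).mono (FP_subl hs x.1 _) (by omega), ?_⟩
    change (Q.srcq x.1).2.natAbs + 1 ≤ _
    omega)
  have hle : 2 * (3 * r + 3 * k + 1) ≤ (6 * k + 6) * (r + 1) := by nlinarith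
  exact ⟨_, _, (Q.subE G).red_amb (hp L) hr, ((Q.subE G).ev_amb _ _).trans (he L),
    (Q.FP G).mono h4 (by omega),
    fun p hp => ⟨(Q.FP G).mono (h5 p hp).1 hle, (h5 p hp).2.trans hle⟩⟩

theorem qf_FR_of {q : Bool × ℤ} {n : ℕ} (h : q.2.natAbs ≤ n) : FR.le (FreeGroup.of q) n :=
  Subgroup.subset_closure ⟨q, h, rfl⟩

theorem qf_FR_mul {x y : FreeGroup (Bool × ℤ)} {n : ℕ} (hx : FR.le x n) (hy : FR.le y n) :
    FR.le (x * y) n := mul_mem hx hy

theorem qf_Rt_x1 (g : G1 P G) : Q.Rt G (MH.of (Q.DE G) (MH.of (Q.DP G) g)) = 1 := by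
  simp [Rt]

theorem qf_Rt_inr (j : Bool × Bool) : Q.Rt G (Q.lt G (.inr j)) = 1 := by
  simp [Rt, lt]

theorem qf_Rt_inl (q : Bool × ℤ) : Q.Rt G (Q.lt G (.inl q)) = FreeGroup.of q := by
  simp [Rt, lt]

theorem qf_Rt_of (hs : Q.Size k) {g : Q.Ps G} {n : ℕ} (h : (Q.FP G).le g n) :
    FR.le (Q.Rt G (MH.of (Q.DE G) g)) (2 * n) := by
  have key : ∀ e : ℕ × ℕ, FR.le (Q.Rt G (MH.of (Q.DE G) (MH.t (Q.DP G) e)))
      (2 * (Nat.pair e.1 e.2 + 1) / 1) := fun e => by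
    simp only [Rt, MH.liftF_of, MH.liftC_t]
    split_ifs with he
    · have := qf_pair (he.trans_le (hs.len _)) ((qf_nxt_lt he).trans_le (hs.len _))
      exact qf_FR_mul (qf_FR_of (by simp; omega)) (FR.inv (qf_FR_of (by simp; omega)))
    · exact Filt.one' _ _
  have := (MH.split (Q.DP G)).sumF_map (Q.sumOKP G) (FR.scale 2 1)
    ((Q.Rt G).comp (MH.of (Q.DE G))) (fun g n _ => by
      rw [MonoidHom.comp_apply, MH.split_of, qf_Rt_x1]
      exact Filt.one' _ _) (by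
      rintro ⟨e, _ | _⟩
      · exact key e
      · rw [MH.split_t_true, map_inv]
        exact FR.inv (key e)) h
  exact FR.mono this (by simp)

theorem FR_Rt (hs : Q.Size k) {x : Q.E1 G} {n : ℕ} (h : (Q.FE G).le x n) :
    FR.le (Q.Rt G x) (2 * n) := by
  obtain ⟨g, l, -, rfl, h1, h2⟩ := h
  induction l generalizing g with
  | nil => exact qf_Rt_of hs h1
  | cons p l ih =>
    obtain ⟨h3, h4⟩ := h2 p (by simp)
    rw [PreSplit.ev_cons, map_mul, map_mul]
    refine qf_FR_mul (qf_FR_mul (qf_Rt_of hs h1) ?_) (ih _ h3 fun q hq => h2 q (by simp [hq]))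
    have key : FR.le (Q.Rt G (Q.lt G p.1.1)) (2 * n) := by
      obtain ⟨⟨q | j, b⟩, g'⟩ := p
      · rw [qf_Rt_inl]
        change q.2.natAbs + 1 ≤ n at h4
        exact qf_FR_of (by omega)
      · rw [qf_Rt_inr]
        exact Filt.one' _ _
    obtain ⟨⟨e, _ | _⟩, g'⟩ := p
    · exact key
    · rw [MH.split_t_true, map_inv]
      exact FR.inv key

theorem FE_zz (a : A) (b : Bool) (m : ℤ) :
    (Q.FE G).le ((Q.zz G * Q.xe G (cond b (Q.s a) 1)) ^ m) 3 := by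
  have hg : (Q.FP G).le (Q.xs G (cond b (Q.s a) 1)) 3 := by
    cases b
    · exact FP_xs (n := 1) (Filt.one' _ _)
    · exact FP_xs (Cube.wl_gen Q.s a)
  generalize cond b (Q.s a) 1 = g at hg
  have key : ∀ n : ℕ, ∃ l, (MH.split (Q.DE G)).Red l ∧
      (MH.split (Q.DE G)).ev 1 l = (Q.zz G * Q.xe G g) ^ n ∧
      (∀ p ∈ l, (Q.FP G).le p.2 3 ∧ cE p.1 ≤ 3) ∧
      ∀ p ∈ l.head?, p.1 = (.inr (false, true), false) := fun n => by
    induction n with
    | zero => exact ⟨[], PreSplit.red_nil _, by simp, by simp, by simp⟩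
    | succ n ih =>
      obtain ⟨l, h1, h2, h3, h4⟩ := ih
      refine ⟨((.inr (false, true), false), 1) :: ((.inr (true, false), false), 1) ::
        ((.inr (false, true), true), 1) :: ((.inr (true, false), true), Q.xs G g) :: l,
        ?_, ?_, ?_, by simp⟩
      · rw [PreSplit.red_cons_cons, PreSplit.red_cons_cons, PreSplit.red_cons_cons]
        refine ⟨by simp, by simp, by simp, ?_⟩
        cases l with
        | nil => exact PreSplit.red_singleton _ _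
        | cons p l =>
          rw [PreSplit.red_cons_cons, h4 p (by simp)]
          exact ⟨by simp, h1⟩
      · rw [pow_succ', ← h2]
        have := (MH.split (Q.DE G)).ev_mul (Q.xs G g) 1 l
        rw [mul_one] at this
        simp only [PreSplit.ev_cons, this, map_one, one_mul, MH.split_t_false, MH.split_t_true,
          MH.split_of, zz, cm, lt, xe, MonoidHom.comp_apply, mul_assoc]
      · simp only [List.forall_mem_cons]
        exact ⟨⟨Filt.one' _ _, by decide⟩, ⟨Filt.one' _ _, by decide⟩, ⟨Filt.one' _ _, by decide⟩,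
          ⟨hg, by decide⟩, h3⟩
  have key' : ∀ n : ℕ, (Q.FE G).le ((Q.zz G * Q.xe G g) ^ n) 3 := fun n => by
    obtain ⟨l, h1, h2, h3, -⟩ := key n
    exact ⟨1, l, h1, h2, Filt.one' _ _, h3⟩
  obtain ⟨n, rfl | rfl⟩ := Int.eq_nat_or_neg m
  · rw [zpow_natCast]
    exact key' n
  · rw [zpow_neg, zpow_natCast]
    exact (Q.FE G).inv (key' n)

theorem qf_FR_map (d : ℤ) (hd : d.natAbs ≤ 1) {w : FreeGroup (Bool × ℤ)} {n : ℕ} (h : FR.le w n) :
    FR.le (FreeGroup.map (fun q => (q.1, q.2 + d)) w) (n + 1) := by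
  refine Subgroup.closure_induction (p := fun w _ =>
    FR.le (FreeGroup.map (fun q : Bool × ℤ => (q.1, q.2 + d)) w) (n + 1)) ?_ ?_ ?_ ?_ h
  · rintro _ ⟨q, hq, rfl⟩
    change q.2.natAbs ≤ n at hq
    exact qf_FR_of (by dsimp only; omega)
  · rw [map_one]
    exact Filt.one' _ _
  · intro x y _ _ hx hy
    rw [map_mul]
    exact qf_FR_mul hx hy
  · intro x _ hx
    rw [map_inv]
    exact FR.inv hx

theorem qf_Rt_zz (g : P) (m : ℤ) : Q.Rt G ((Q.zz G * Q.xe G g) ^ m) = 1 := by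
  have : Q.Rt G (Q.xe G g) = 1 := qf_Rt_x1 _
  simp [zz, cm, qf_Rt_inr, this]

variable (Q G k) in
/-- The filtration of `E1` used for `Qh`. -/
def qfF0 : Filt (Q.E1 G) := ((Q.FE G).scale (6 * k + 6) 1).inf (FR.comap (Q.Rt G))

theorem qfF0_sig (hs : Q.Size k) (hg : Q.Good) {w : FreeGroup (Bool × ℤ)} {r : ℕ}
    (h : FR.le w r) : (qfF0 Q G k).le (Q.sig G w) (r + 1) :=
  ⟨(Q.FE G).mono (FE_sig hs hg h) (by simp), by
    change FR.le (Q.Rt G (Q.sig G w)) _
    rw [Rt_sig]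
    exact FR.mono h (Nat.le_succ r)⟩

theorem qfF0_of {x : Q.E1 G} {n : ℕ} (h : (Q.FE G).le x 3) (h' : Q.Rt G x = 1) :
    (qfF0 Q G k).le x (n + 1) :=
  ⟨(Q.FE G).mono h (by rw [Nat.div_one]; nlinarith), by
    change FR.le (Q.Rt G x) _
    rw [h']
    exact Filt.one' _ _⟩

theorem qf_sumOK (hs : Q.Size k) (hg : Q.Good) :
    (MH.split (Q.DQ G)).SumOK (qfF0 Q G k) fun _ => 1 where
  c_bar _ := rfl
  pinch := by
    rintro ⟨j, b⟩ _ n ⟨x, rfl⟩ ⟨-, h⟩
    dsimp only at x h ⊢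
    rw [MH.split_φ]
    cases j with
    | none =>
      change FreeGroup (Bool × ℤ) at x
      cases b
      · change FR.le (Q.Rt G (Q.sig G x)) n at h
        rw [Rt_sig] at h
        exact qfF0_sig hs hg (qf_FR_map 1 (by simp) h)
      · change FR.le (Q.Rt G (Q.sig G (shift x))) n at h
        rw [Rt_sig] at h
        have h1 := qf_FR_map (-1) (by simp) h
        rw [shift, FreeGroup.map.comp] at h1
        have h2 : ((fun q : Bool × ℤ => (q.1, q.2 + -1)) ∘ fun q : Bool × ℤ => (q.1, q.2 + 1)) =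
            id := by
          funext q
          simp
        rw [h2, FreeGroup.map.id] at h1
        exact qfF0_sig hs hg h1
    | some a => exact qfF0_of (FE_zz a (!b) _) (qf_Rt_zz _ _)

/-- Words of length `n` in the generators have reduced paths with syllables of size `O(n)`. -/
theorem redCtl_Q (hs : Q.Size k) (hg : Q.Good) {AG : Type} (sG : AG → G) :
    (MH.split (Q.DQ G)).RedCtl ((Q.FE G).scale (6 * k + 6) 1) (fun _ => 0)
      (Filt.wl (Q.genQ sG)) := by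
  intro x n hx
  have H := qf_sumOK (G := G) hs hg
  have h1 : ∀ g : G1 P G, (Q.F1 G).le g 1 →
      ((MH.split (Q.DQ G)).sumF H).le (Q.i1 G g) 1 := fun g h =>
    (MH.split (Q.DQ G)).sumF_of H (qfF0_of (n := 0) ((MH.split (Q.DE G)).supF_of (Q.supOKE G)
      ((Q.FP G).mono ((MH.split (Q.DP G)).sumF_of (Q.sumOKP G) h) (by omega))) (qf_Rt_x1 g))
  have h2 : ∀ j, ((MH.split (Q.DQ G)).sumF H).le (MH.of (Q.DQ G) (Q.lt G (.inr j))) 1 := fun j =>
    (MH.split (Q.DQ G)).sumF_of H (qfF0_of (n := 0) ((Q.FE G).mono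
      ((MH.split (Q.DE G)).supF_t (Q.supOKE G) (.inr j, false)) (by simp [cE])) (qf_Rt_inr j))
  have h3 : ∀ b, ((MH.split (Q.DQ G)).sumF H).le (Q.sq G (b, 0)) 1 := fun b => by
    have := qfF0_sig (G := G) hs hg (qf_FR_of (q := (b, 0)) (n := 0) le_rfl)
    rw [sig, FreeGroup.lift_apply_of] at this
    exact (MH.split (Q.DQ G)).sumF_of H this
  have h4 : ∀ j, ((MH.split (Q.DQ G)).sumF H).le (MH.t (Q.DQ G) j) 1 := fun j =>
    (MH.split (Q.DQ G)).sumF_t H (j, false)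
  have h5 := Cube.wl_map (Q.genQ sG) ((MH.split (Q.DQ G)).sumF H) (MonoidHom.id _) 1 (by
    rintro (c | a | i | _ | a)
    · exact h1 _ (Cube.wl_gen (Cube.gen4 Q.s) c)
    · exact h1 _ (Filt.one' (Filt.wl (Cube.gen4 Q.s)) 1)
    · fin_cases i
      exacts [h3 _, h3 _, h4 _, h2 _, h2 _, h2 _]
    · exact h2 _
    · exact h4 _) hx
  rw [one_mul] at h5
  obtain ⟨g, l, a1, a2, a3, a4⟩ := (MH.split (Q.DQ G)).sumF_redCtl H x n h5
  exact ⟨g, l, a1, a2, a3.1, fun p hp => ⟨(a4 p hp).1.1, Nat.zero_le _⟩⟩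

variable (Q) in
/-- The target of the edge starting at a row letter (the letter itself if there is none). -/
def tq (q : Bool × ℤ) : Bool × ℤ :=
  if 0 ≤ q.2 ∧ q.2.toNat.unpair.2 < Q.len q.2.toNat.unpair.1 ∧ q.1 = par q.2.toNat.unpair.2 then
    (q.1, (Nat.pair q.2.toNat.unpair.1 (Q.nxt q.2.toNat.unpair.1 q.2.toNat.unpair.2) : ℕ))
  else q

variable (Q G) in
/-- The first step `g, e` of a path is rejected by the sub-structure `subE`;
`X` is the predicate "not in `Dp`" (or a certificate for it). -/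
def Rej (X : Q.Ps G → Prop) (g : Q.Ps G) : Ltr × Bool → Prop
  | (.inl q, b) => Q.Elim q ∨ (X g ∧ X (g * (Q.subl G (.inl (Q.tq q), b))⁻¹))
  | (.inr k, _) => k = (true, true) ∨ X g

theorem notMem_De_of_nil {g : Q.Ps G} (hg : g ∉ Q.Dp G) : MH.of (Q.DE G) g ∉ Q.De G :=
  fun h => hg ((Q.subE G).of_mem_Mor_iff.1 h).1

theorem qf_tq_mk {N i : ℕ} (h : i < Q.len N) : Q.tq (par i, ((Nat.pair N i : ℕ) : ℤ)) =
    (par i, ((Nat.pair N (Q.nxt N i) : ℕ) : ℤ)) := by
  rw [tq, if_pos ⟨by simp, by simpa using h, by simp⟩]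
  simp

theorem qf_tq (hs : Q.Size k) {q : Bool × ℤ} (h : ¬ Q.Elim q) :
    Q.srcq (Q.tq q) = q ∧ (Q.tq q).2.natAbs ≤ 2 * q.2.natAbs := by
  by_cases h' : 0 ≤ q.2 ∧ q.2.toNat.unpair.2 < Q.len q.2.toNat.unpair.1 ∧
      q.1 = par q.2.toNat.unpair.2
  · obtain ⟨N, i, hi, rfl⟩ : ∃ N i, i < Q.len N ∧ q = (par i, ((Nat.pair N i : ℕ) : ℤ)) :=
      ⟨_, _, h'.2.1, Prod.ext h'.2.2 (by simp [Int.toNat_of_nonneg h'.1])⟩
    have h1 := qf_srcq_mk (qf_nxt_lt hi)
    rw [qf_par_nxt hi, Bool.not_not, qf_prv_nxt hi] at h1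
    rw [qf_tq_mk hi]
    exact ⟨h1, by
      simpa using qf_pair (hi.trans_le (hs.len N)) ((qf_nxt_lt hi).trans_le (hs.len N))⟩
  · rw [tq, if_neg h', srcq, if_neg h]
    exact ⟨rfl, by omega⟩

theorem notMem_De_of_rej {g : Q.Ps G} {p : (Ltr × Bool) × Q.Ps G}
    {l : List ((Ltr × Bool) × Q.Ps G)} (hl : (MH.split (Q.DE G)).Red (p :: l))
    (h : Q.Rej G (· ∉ Q.Dp G) g p.1) : (MH.split (Q.DE G)).ev g (p :: l) ∉ Q.De G := by
  intro hx
  obtain ⟨⟨⟨j, b⟩, hj⟩, h1, -, d, hd, h2⟩ := (Q.subE G).first hl hx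
  rw [MH.free_A, Subgroup.mem_bot, inv_mul_eq_one] at h2
  change d ∈ Q.Dp G at hd
  change d * Q.subl G (j, b) = g at h2
  rw [← h1] at h
  subst h2
  rcases j with q | j
  · change Q.Elim (Q.srcq q) ∨ _ ∧ _ ∉ Q.Dp G at h
    by_cases he : Q.Elim q
    · obtain ⟨N, i, hi, rfl⟩ := qf_elim he
      have h3 := qf_tq_mk (qf_prv_lt hi)
      rw [qf_par_prv hi, qf_nxt_prv hi] at h3
      simp only [qf_srcq_mk hi, h3] at h
      rcases h with h | h
      · have := h.2.2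
        simp [qf_par_prv hi] at this
      · exact h.2 (by simpa using hd)
    · rw [srcq, if_neg he] at h
      rcases h with h | h
      · exact he h
      · exact h.1 (by simpa [qf_subl_one he] using hd)
  · rcases h with h | h
    · exact hj h
    · exact h (by simpa [subl] using hd)

theorem qf_accept (hs : Q.Size k) (hg : Q.Good) {g : Q.Ps G} {e : Ltr × Bool} {n : ℕ}
    (he : cE e ≤ n) (h0 : (Q.FP G).le g (7 * n + 3 * k + 1))
    (h : ¬ Q.Rej G (fun y => y ∉ Q.Dp G ∧ (Q.FP G).le y (20 * n + 6 * k + 2)) g e) :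
    ∃ i, (Q.subE G).e i = e ∧ g * ((Q.subE G).l i)⁻¹ ∈ Q.Dp G ∧
      (Q.FP G).le ((Q.subE G).l ((Q.subE G).bar i)) (6 * n + 3 * k + 1) := by
  have h1 : (Q.FP G).le g (20 * n + 6 * k + 2) := (Q.FP G).mono h0 (by omega)
  obtain ⟨q | j, b⟩ := e
  · change q.2.natAbs + 1 ≤ n at he
    simp only [Rej, not_or] at h
    obtain ⟨h2, h3⟩ := qf_tq hs h.1
    by_cases h4 : g ∈ Q.Dp G
    · refine ⟨⟨(.inl q, b), qf_acc hg q⟩, by simp [subE, srcq, h.1], ?_,
        (Q.FP G).mono (FP_subl hs q _) (by omega)⟩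
      change g * (Q.subl G (.inl q, b))⁻¹ ∈ _
      simpa [qf_subl_one h.1] using h4
    · refine ⟨⟨(.inl (Q.tq q), b), qf_acc hg _⟩, by simp [subE, h2], ?_,
        (Q.FP G).mono (FP_subl hs (Q.tq q) _) (by omega)⟩
      by_contra h5
      exact h.2 ⟨⟨h4, h1⟩, h5, Filt.mul' h0 ((Q.FP G).inv (FP_subl hs (Q.tq q) b)) (by omega)⟩
  · simp only [Rej, not_or] at h
    refine ⟨⟨(.inr j, b), h.1⟩, rfl, ?_, Filt.one' _ _⟩
    by_contra h5
    refine h.2 ⟨fun h4 => h5 ?_, h1⟩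
    change g * (1 : Q.Ps G)⁻¹ ∈ _
    simpa using h4

theorem exists_rej (hs : Q.Size k) (hg : Q.Good) {x : Q.E1 G} (hx : x ∉ Q.De G) {n : ℕ}
    (h : (Q.FE G).le x n) : ∃ d ∈ Q.De G, ∃ g l, (MH.split (Q.DE G)).Red l ∧
      (MH.split (Q.DE G)).ev g l = d⁻¹ * x ∧ (∀ p ∈ l, (Q.FP G).le p.2 n) ∧
      ((l = [] ∧ g ∉ Q.Dp G ∧ (Q.FP G).le g (20 * n + 6 * k + 2)) ∨ ∃ p r, l = p :: r ∧
        Q.Rej G (fun y => y ∉ Q.Dp G ∧ (Q.FP G).le y (20 * n + 6 * k + 2)) g p.1) := by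
  obtain ⟨g, l, h1, rfl, h2, h3⟩ := h
  replace h2 : (Q.FP G).le g (7 * n + 3 * k + 1) := (Q.FP G).mono h2 (by omega)
  induction l generalizing g with
  | nil =>
    refine ⟨1, one_mem _, g, [], h1, by simp, by simp, Or.inl ⟨rfl, fun h => hx ?_,
      (Q.FP G).mono h2 (by omega)⟩⟩
    exact (Q.subE G).of_mem_Mor (v := ()) h
  | cons p l ih =>
    by_cases h : Q.Rej G (fun y => y ∉ Q.Dp G ∧ (Q.FP G).le y (20 * n + 6 * k + 2)) g p.1
    · exact ⟨1, one_mem _, g, p :: l, h1, by simp, fun q hq => (h3 q hq).1, Or.inr ⟨p, l, rfl, h⟩⟩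
    obtain ⟨i, a1, a2, a3⟩ := qf_accept hs hg (h3 p (by simp)).2 h2 h
    have a4 : (MH.split (Q.DE G)).of (g * ((Q.subE G).l i)⁻¹) * (Q.subE G).t i ∈ Q.De G :=
      mul_mem ((Q.subE G).of_mem_Mor (v := ()) a2) ((Q.subE G).t_mem_Mor i)
    have a5 : (MH.split (Q.DE G)).ev g (p :: l) =
        (MH.split (Q.DE G)).of (g * ((Q.subE G).l i)⁻¹) * (Q.subE G).t i *
          (MH.split (Q.DE G)).ev ((Q.subE G).l ((Q.subE G).bar i) * p.2) l := by
      rw [PreSplit.ev_cons, PreSplit.ev_mul, Sub.t, a1, map_mul, map_inv]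
      group
    obtain ⟨d, hd, g', l', b1, b2, b3⟩ := ih ((Q.subE G).l ((Q.subE G).bar i) * p.2) h1.tail
      (fun h' => hx (a5 ▸ mul_mem a4 h')) (fun q hq => h3 q (by simp [hq]))
      (Filt.mul' a3 (h3 p (by simp)).1 (by omega))
    refine ⟨_, mul_mem a4 hd, g', l', b1, ?_, b3⟩
    rw [b2, a5]
    group

/-- A homomorphism to the Heisenberg group (here: upper unitriangular integer matrices, recorded
by three integers) detects the exponent of `z`. -/
theorem exists_heis : ∃ h : List (Bool × Bool) → ℤ × ℤ × ℤ, Primrec h ∧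
    ∃ ρ : Q.E1 G →* FreeGroup Bool,
      (∀ x, ρ (MH.of (Q.DE G) x) = 1) ∧ (∀ q, ρ (Q.lt G (.inl q)) = 1) ∧
      (∀ k, ρ (Q.lt G (.inr k)) = if k.1 = k.2 then 1 else FreeGroup.of k.1) ∧
      ∀ (w : List (Bool × Bool)) (g : P) (m : ℤ),
        ρ ((Q.zz G * Q.xe G g) ^ m) = FreeGroup.mk w → h w = (0, 0, m) := by
  refine ⟨_, qf_primrec, MH.liftF 1 (Sum.elim (fun _ => 1)
    fun k => if k.1 = k.2 then 1 else FreeGroup.of k.1), fun x => by simp,
    fun q => by simp [lt], fun k => by simp [lt], fun w g m h => ?_⟩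
  rw [qf_foldr, ← h]
  have : qfGen false * qfGen true * (qfGen false)⁻¹ * (qfGen true)⁻¹ = ⟨0, 0, 1⟩ := by
    simp [qfGen, qfHeis_mul, qfHeis_inv]
  simp [zz, cm, lt, xe, this, qfHeis_zpow]

end QIn
end Crest.Agent.R185
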