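import Crest.Agent.R185.REAux2
/-! Row 185: combinators for `Cert`, `URE`, `Trk`. -/
set_option autoImplicit false
open Set

namespace Crest.Agent.R185
variable {K : Ctx} {X Y Z W : K.I → Type} [Rep K X] [Rep K Y] [Rep K Z] [Rep K W]

/-! ### constant families -/

instance (priority := low) IsStd.const (α : Type) [Primcodable α] :
    @IsStd K α _ (Rep.const α) := @IsStd.mk K α _ (Rep.const α) Trk.id Trk.id

instance IsStd.prod (α β : Type) [Primcodable α] [Primcodable β] [Rep K fun _ => α]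
    [Rep K fun _ => β] [IsStd K α] [IsStd K β] : IsStd K (α × β) := isStd_prod α β

instance IsStd.sum (α β : Type) [Primcodable α] [Primcodable β] [Rep K fun _ => α]
    [Rep K fun _ => β] [IsStd K α] [IsStd K β] : IsStd K (α ⊕ β) := isStd_sum α β

instance IsStd.list (α : Type) [Primcodable α] [Rep K fun _ => α] [IsStd K α] :
    IsStd K (List α) := isStd_list α

section std
variable {α β : Type} [Primcodable α] [Primcodable β] [Rep K fun _ => α] [Rep K fun _ => β]
  [IsStd K α] [IsStd K β]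

theorem Trk.computable {g : α → β} (hg : Computable g) {f : ∀ i, X i → α} (hf : Trk f) :
    Trk fun i x => g (f i x) := Trk.comp (trk_computable hg) hf

theorem Trk.primrec {g : α → β} (hg : Primrec g) {f : ∀ i, X i → α} (hf : Trk f) :
    Trk fun i x => g (f i x) := Trk.computable hg.to_comp hf

theorem Trk.const (a : α) : Trk fun i (_ : X i) => a := TrkC.trk (a := fun _ => a) (ure_eq_const a)

theorem TrkC.const (a : α) : TrkC (K := K) (Y := fun _ => α) fun _ => a := ure_eq_const a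

theorem Cert.re {p : α → Prop} (hp : REPred p) {f : ∀ i, X i → α} (hf : Trk f) :
    Cert fun i x _ => p (f i x) := Cert.comp (ure_re hp) hf

instance (priority := low) RNe.std : RNe K fun _ => α :=
  ⟨Cert.re (α := α × α) (p := fun q => q.1 ≠ q.2)
    (Primrec.eq.comp Primrec.fst Primrec.snd).not.computablePred.to_re Trk.id⟩

/-- Case distinction on a finite value. -/
theorem Trk.fin_cases [Finite α] {g : α → ∀ i, X i → Y i} (hg : ∀ a, Trk (g a))
    {f : ∀ i, X i → α} (hf : Trk f) : Trk fun i x => g (f i x) i x := by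
  have h : Cert fun i (p : X i × Y i) _ => ∃ a, f i p.1 = a ∧ g a i p.1 = p.2 :=
    Cert.exists_fin fun a => Cert.and (Cert.eq (hf.comp (Trk.fst Trk.id)) (Trk.const a)) (hg a)
  exact h.of_iff fun i x _ => ⟨fun ⟨_, h1, h2⟩ => by subst h1; exact h2, fun h => ⟨_, rfl, h⟩⟩

theorem Cert.fin_cases [Finite α] {P : α → ∀ i, X i → ℕ∞ → Prop} (hP : ∀ a, Cert (P a))
    {f : ∀ i, X i → α} (hf : Trk f) : Cert fun i x m => P (f i x) i x m := by
  have h : Cert fun i x m => ∃ a, f i x = a ∧ P a i x m :=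
    Cert.exists_fin fun a => Cert.and (Cert.eq hf (Trk.const a)) (hP a)
  exact h.of_iff fun i x _ => ⟨fun ⟨_, h1, h2⟩ => h1 ▸ h2, fun h => ⟨_, rfl, h⟩⟩

end std

theorem Cert.nat_le {f g : ∀ i, X i → ℕ} (hf : Trk f) (hg : Trk g) :
    Cert fun i x _ => f i x ≤ g i x :=
  Cert.re (α := ℕ × ℕ) (p := fun q => q.1 ≤ q.2)
    (Primrec.nat_le.comp Primrec.fst Primrec.snd).computablePred.to_re (hf.pair hg)

theorem Cert.nat_lt {f g : ∀ i, X i → ℕ} (hf : Trk f) (hg : Trk g) :
    Cert fun i x _ => f i x < g i x :=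
  Cert.re (α := ℕ × ℕ) (p := fun q => q.1 < q.2)
    (Primrec.nat_lt.comp Primrec.fst Primrec.snd).computablePred.to_re (hf.pair hg)

theorem Cert.int_lt {f g : ∀ i, X i → ℤ} (hf : Trk f) (hg : Trk g) :
    Cert fun i x _ => f i x < g i x :=
  Cert.re (α := ℤ × ℤ) (p := fun q => q.1 < q.2)
    (Lib.Computability.int_lt.comp Primrec.fst Primrec.snd).computablePred.to_re (hf.pair hg)

instance RNe.prod [RNe K X] [RNe K Y] : RNe K fun i => X i × Y i := by
  refine ⟨Cert.of_iff (Cert.or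
    (Cert.ne (Trk.fst (Trk.fst Trk.id)) (Trk.fst (Trk.snd Trk.id)))
    (Cert.ne (Trk.snd (Trk.fst Trk.id)) (Trk.snd (Trk.snd Trk.id)))) fun i x _ => ?_⟩
  simp only [Ne, Prod.ext_iff (x := x.1), not_and_or]

instance RNe.sum [RNe K X] [RNe K Y] : RNe K fun i => X i ⊕ Y i := by
  have h1 : URE fun i (p : (X i ⊕ Y i) × (X i ⊕ Y i)) => ∃ q : X i × X i,
      (p.1 = Sum.inl q.1 ∧ p.2 = Sum.inl q.2) ∧ q.1 ≠ q.2 :=
    Cert.exists (Cert.and (Cert.and
      (Cert.eq (Trk.fst (Trk.fst Trk.id)) (Trk.inl (Trk.fst (Trk.snd Trk.id))))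
      (Cert.eq (Trk.snd (Trk.fst Trk.id)) (Trk.inl (Trk.snd (Trk.snd Trk.id)))))
      (Cert.ne (Trk.fst (Trk.snd Trk.id)) (Trk.snd (Trk.snd Trk.id))))
  have h2 : URE fun i (p : (X i ⊕ Y i) × (X i ⊕ Y i)) => ∃ q : Y i × Y i,
      (p.1 = Sum.inr q.1 ∧ p.2 = Sum.inr q.2) ∧ q.1 ≠ q.2 :=
    Cert.exists (Cert.and (Cert.and
      (Cert.eq (Trk.fst (Trk.fst Trk.id)) (Trk.inr (Trk.fst (Trk.snd Trk.id))))
      (Cert.eq (Trk.snd (Trk.fst Trk.id)) (Trk.inr (Trk.snd (Trk.snd Trk.id)))))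
      (Cert.ne (Trk.fst (Trk.snd Trk.id)) (Trk.snd (Trk.snd Trk.id))))
  have h3 : URE fun i (p : (X i ⊕ Y i) × (X i ⊕ Y i)) => ∃ q : X i × Y i,
      p.1 = Sum.inl q.1 ∧ p.2 = Sum.inr q.2 :=
    Cert.exists (Cert.and
      (Cert.eq (Trk.fst (Trk.fst Trk.id)) (Trk.inl (Trk.fst (Trk.snd Trk.id))))
      (Cert.eq (Trk.snd (Trk.fst Trk.id)) (Trk.inr (Trk.snd (Trk.snd Trk.id)))))
  have h4 : URE fun i (p : (X i ⊕ Y i) × (X i ⊕ Y i)) => ∃ q : Y i × X i,
      p.1 = Sum.inr q.1 ∧ p.2 = Sum.inl q.2 :=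
    Cert.exists (Cert.and
      (Cert.eq (Trk.fst (Trk.fst Trk.id)) (Trk.inr (Trk.fst (Trk.snd Trk.id))))
      (Cert.eq (Trk.snd (Trk.fst Trk.id)) (Trk.inl (Trk.snd (Trk.snd Trk.id)))))
  refine ⟨Cert.of_iff ((h1.or h2).or (h3.or h4)) fun i x _ => ?_⟩
  rcases x with ⟨a | a, b | b⟩ <;> simp

instance RNe.list [RNe K X] : RNe K fun i => List (X i) := by
  have h1 : URE fun i (p : List (X i) × List (X i)) => p.1.length ≠ p.2.length :=
    Cert.ne (Trk.length (Trk.fst Trk.id)) (Trk.length (Trk.snd Trk.id))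
  have h2 : URE fun i (p : List (X i) × List (X i)) =>
      ∃ q : (List (X i) × List (X i) × List (X i)) × (X i × X i),
        (p.1 = q.1.1 ++ q.2.1 :: q.1.2.1 ∧ p.2 = q.1.1 ++ q.2.2 :: q.1.2.2) ∧ q.2.1 ≠ q.2.2 :=
    Cert.exists (Cert.and (Cert.and
      (Cert.eq (Trk.fst (Trk.fst Trk.id)) (Trk.append (Trk.fst (Trk.fst (Trk.snd Trk.id)))
        (Trk.cons (Trk.fst (Trk.snd (Trk.snd Trk.id)))
          (Trk.fst (Trk.snd (Trk.fst (Trk.snd Trk.id)))))))
      (Cert.eq (Trk.snd (Trk.fst Trk.id)) (Trk.append (Trk.fst (Trk.fst (Trk.snd Trk.id)))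
        (Trk.cons (Trk.snd (Trk.snd (Trk.snd Trk.id)))
          (Trk.snd (Trk.snd (Trk.fst (Trk.snd Trk.id))))))))
      (Cert.ne (Trk.fst (Trk.snd (Trk.snd Trk.id))) (Trk.snd (Trk.snd (Trk.snd Trk.id)))))
  refine ⟨Cert.of_iff (h1.or h2) fun i x _ => ?_⟩
  obtain ⟨l, l'⟩ := x
  dsimp only
  constructor
  · rintro (h | ⟨q, ⟨rfl, rfl⟩, h⟩)
    · rintro rfl; exact h rfl
    · simp [h]
  · intro h
    induction l generalizing l' with
    | nil => cases l' with
      | nil => exact absurd rfl h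
      | cons b l' => simp
    | cons a l ih => cases l' with
      | nil => simp
      | cons b l' =>
        by_cases hab : a = b
        · subst hab
          rcases ih l' (fun e => h (by rw [e])) with h' | ⟨q, ⟨rfl, rfl⟩, h'⟩
          · exact Or.inl (by simpa using h')
          · exact Or.inr ⟨((a :: q.1.1, q.1.2), q.2), ⟨rfl, rfl⟩, h'⟩
        · exact Or.inr ⟨(([], l, l'), (a, b)), ⟨rfl, rfl⟩, hab⟩

instance RNe.pi [RNe K X] (ι : Type) [Fintype ι] : RNe K fun i => ι → X i := by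
  have h : URE fun i (p : (ι → X i) × (ι → X i)) => ∃ a, p.1 a ≠ p.2 a :=
    Cert.exists_fin fun a =>
      Cert.ne (Trk.apply (Trk.fst Trk.id) a) (Trk.apply (Trk.snd Trk.id) a)
  exact ⟨Cert.of_iff h fun i x _ => Function.ne_iff.symm⟩

instance RNe.mult [h : RNe K X] : RNe K fun i => Multiplicative (X i) := ⟨h.ne⟩

/-! ### extracting r.e. predicates -/

/-- Without oracle facts, a `URE` predicate on a standard family is r.e. in the parameter. -/
theorem URE.exists_re {α : Type} [Primcodable α] [Rep K fun _ => α] [IsStd K α]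
    (hK : ∀ i m φ, ¬ K.Or i m φ) (hN : ∀ i, K.Nice i) {T : K.I → α → Prop} (h : URE (X := fun _ => α) T) :
    ∃ p : ℕ × α → Prop, REPred p ∧ ∀ i a, p (K.par i, a) ↔ T i a := ure_exists_re hK hN h

/-- The bootstrap: if every true fact of size `n` is certified by facts of size `< n`, then the
set of true facts is r.e. in the parameter. -/
theorem Cert.bootstrap (Tr : K.I → ℕ → Prop) (sz : ℕ → ℕ)
    (hOr : ∀ i m φ, K.Or i m φ ↔ Tr i φ ∧ sz φ ≤ m) (hsz : ∀ i φ, Tr i φ → 1 ≤ sz φ)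
    (h : Cert fun i (φ : ℕ) m => Tr i φ ∧ (sz φ : ℕ∞) ≤ m + 1) :
    ∃ p : ℕ × ℕ → Prop, REPred p ∧ (∀ i φ, p (K.par i, φ) → Tr i φ) ∧
      ∀ i φ, K.Nice i → Tr i φ → p (K.par i, φ) :=
  cert_bootstrap Tr sz hOr hsz h

/-- An r.e. family of sets containing a default element is the range of a computable function. -/
theorem exists_enum {α : Type} [Primcodable α] {p : ℕ × α → Prop} (hp : REPred p) (a₀ : α) :
    ∃ g : ℕ × ℕ → α, Computable g ∧ (∀ e, g (e, 0) = a₀) ∧
      (∀ e j, g (e, j) = a₀ ∨ p (e, g (e, j))) ∧ ∀ e a, p (e, a) → ∃ j, g (e, j) = a :=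
  exists_enum' hp a₀

/-- One step of `trk`; extend with `macro_rules`. -/
syntax "trk_step" : tactic

macro_rules | `(tactic| trk_step) => `(tactic| exact Trk.const _)
macro_rules | `(tactic| trk_step) => `(tactic| with_reducible apply Trk.pair)
macro_rules | `(tactic| trk_step) => `(tactic| with_reducible first
  | assumption
  | exact Trk.id
  | apply Trk.fst
  | apply Trk.snd
  | exact Trk.par
  | exact Trk.nil
  | apply Trk.cons
  | apply Trk.append
  | apply Trk.inl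
  | apply Trk.inr
  | apply Trk.length
  | apply Trk.reverse
  | apply Trk.cond
  | apply Trk.ofAdd
  | apply Trk.toAdd)

/-- Structural tracking goals. -/
macro "trk" : tactic => `(tactic| repeat' trk_step)

example {f : ∀ i, X i → Y i} (hf : Trk f) :
    Trk fun i (p : (X i × ℕ) × List (Y i)) => (p.1.2, p.2 ++ p.2, p.1.1, (3 : ℕ)) := by
  trk

end Crest.Agent.R185
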