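import Crest.Agent.R185.REDef
/-! Row 185: combinators for `Cert`, `URE`, `Trk` (logic and structural tracking). -/
set_option autoImplicit false
open Set

namespace Crest.Agent.R185
variable {K : Ctx} {X Y Z W : K.I → Type} [Rep K X] [Rep K Y] [Rep K Z] [Rep K W]

/-! ### logic -/

theorem Cert.mono {P Q : ∀ i, X i → ℕ∞ → Prop} (h : Cert P) (hs : ∀ i x, P i x ⊤ → Q i x ⊤)
    (hc : ∀ i x (m : ℕ), Q i x m → P i x m) : Cert Q :=
  RCert.mono h (fun i _ ⟨x, hx, hp⟩ => ⟨x, hx, hs i x hp⟩) fun i _ m ⟨x, hx, hp⟩ => ⟨x, hx, hc i x m hp⟩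

/-- In the completeness part one may assume that the model is nice. -/
theorem Cert.mono' {P Q : ∀ i, X i → ℕ∞ → Prop} (h : Cert P) (hs : ∀ i x, P i x ⊤ → Q i x ⊤)
    (hc : ∀ i x (m : ℕ), K.Nice i → Q i x m → P i x m) : Cert Q :=
  RCert.mono' h (fun i _ ⟨x, hx, hp⟩ => ⟨x, hx, hs i x hp⟩)
    fun i _ m hN ⟨x, hx, hp⟩ => ⟨x, hx, hc i x m hN hp⟩

theorem Cert.of_iff {P Q : ∀ i, X i → ℕ∞ → Prop} (h : Cert P) (e : ∀ i x m, P i x m ↔ Q i x m) :
    Cert Q := h.mono (fun i x => (e i x _).1) fun i x _ => (e i x _).2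

theorem URE.of_iff {P Q : ∀ i, X i → Prop} (h : URE P) (e : ∀ i x, P i x ↔ Q i x) : URE Q :=
  Cert.of_iff h fun i x _ => e i x

/-- Forget the size bound (only the soundness level matters if every level is allowed). -/
theorem URE.cert {T : ∀ i, X i → Prop} (h : URE T) {L : ∀ i, X i → ℕ∞ → Prop}
    (hL : ∀ i x, L i x ⊤) : Cert fun i x m => T i x ∧ L i x m :=
  Cert.mono h (fun i x hx => ⟨hx, hL i x⟩) fun _ _ _ hx => hx.1

theorem Cert.true : Cert fun i (_ : X i) _ => True := ure_true' fun _ _ => trivial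

theorem Cert.false : Cert fun i (_ : X i) _ => False := by
  refine RCert.mono (RCert.of_re (K := K) (C := Cd K X) (p := fun _ => False)
    (ComputablePred.to_re ?_)) (fun _ _ h => h.elim) fun _ _ _ ⟨_, _, h⟩ => h
  exact ⟨inferInstance, (Computable.const Bool.false).of_eq fun _ => by simp⟩

theorem Cert.and {P Q : ∀ i, X i → ℕ∞ → Prop} (hP : Cert P) (hQ : Cert Q) :
    Cert fun i x m => P i x m ∧ Q i x m := by
  refine RCert.mono (RCert.and hP hQ) ?_ fun i c m ⟨x, hx, h1, h2⟩ => ⟨⟨x, hx, h1⟩, x, hx, h2⟩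
  rintro i c ⟨⟨x, hx, h1⟩, y, hy, h2⟩
  obtain rfl := Rep.uniq i _ _ _ hx hy
  exact ⟨x, hx, h1, h2⟩

theorem Cert.or {P Q : ∀ i, X i → ℕ∞ → Prop} (hP : Cert P) (hQ : Cert Q) :
    Cert fun i x m => P i x m ∨ Q i x m := by
  refine RCert.mono (RCert.or hP hQ) ?_ ?_
  · rintro i c (⟨x, hx, h⟩ | ⟨x, hx, h⟩)
    · exact ⟨x, hx, Or.inl h⟩
    · exact ⟨x, hx, Or.inr h⟩
  · rintro i c m ⟨x, hx, h | h⟩
    · exact Or.inl ⟨x, hx, h⟩
    · exact Or.inr ⟨x, hx, h⟩

theorem Cert.exists {P : ∀ i, X i → Y i → ℕ∞ → Prop}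
    (h : Cert fun i (p : X i × Y i) m => P i p.1 p.2 m) : Cert fun i x m => ∃ y, P i x y m := by
  refine RCert.mono (RCert.exists (C := Cd K X) (C' := Cd K Y) h) ?_ ?_
  · rintro i c ⟨c', ⟨x, y⟩, ⟨hx, -⟩, h⟩
    exact ⟨x, hx, y, h⟩
  · rintro i c m ⟨x, hx, y, h⟩
    obtain ⟨c', hc'⟩ := Rep.tot i y
    exact ⟨c', (x, y), ⟨hx, hc'⟩, h⟩

/-- Composition with a function which is computable on the codes. -/
theorem Cert.recode {P : ∀ i, Y i → ℕ∞ → Prop} (h : Cert P) (f : ∀ i, X i → Y i)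
    (φ : ℕ × Cd K X → Cd K Y) (hφ : Computable φ)
    (hr : ∀ i c x, Rep.rep i c x → Rep.rep i (φ (K.par i, c)) (f i x)) :
    Cert fun i x m => P i (f i x) m := by
  refine RCert.mono (RCert.and (Cert.true (X := X)) (RCert.comp h hφ)) ?_ ?_
  · rintro i c ⟨⟨x, hx, -⟩, y, hy, h⟩
    obtain rfl := Rep.uniq i _ _ _ (hr i c x hx) hy
    exact ⟨x, hx, h⟩
  · rintro i c m ⟨x, hx, h⟩
    exact ⟨⟨x, hx, trivial⟩, _, hr i c x hx, h⟩

theorem Cert.recode' {P : ∀ i, Y i → ℕ∞ → Prop} (h : Cert P) (f : ∀ i, X i → Y i)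
    (φ : Cd K X → Cd K Y) (hφ : Primrec φ)
    (hr : ∀ i c x, Rep.rep i c x → Rep.rep i (φ c) (f i x)) :
    Cert fun i x m => P i (f i x) m :=
  h.recode f (fun c => φ c.2) (hφ.comp Primrec.snd).to_comp hr

theorem Trk.id : Trk fun i (x : X i) => x := by
  change RCert K fun i (c : Cd K X × Cd K X) _ =>
    ∃ p : X i × X i, (Rep.rep i c.1 p.1 ∧ Rep.rep i c.2 p.2) ∧ p.1 = p.2
  refine RCert.mono (Rep.eq (K := K) (X := X)) ?_ ?_
  · rintro i c ⟨x, h1, h2⟩
    exact ⟨(x, x), ⟨h1, h2⟩, rfl⟩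
  · rintro i c m ⟨⟨x, y⟩, ⟨h1, h2⟩, h⟩
    obtain rfl : x = y := h
    exact ⟨x, h1, h2⟩

theorem Trk.of_code (f : ∀ i, X i → Y i) (φ : Cd K X → Cd K Y) (hφ : Primrec φ)
    (hr : ∀ i c x, Rep.rep i c x → Rep.rep i (φ c) (f i x)) : Trk f :=
  Cert.recode' (X := fun i => X i × Y i) (Y := fun i => Y i × Y i) Trk.id
    (fun i p => (f i p.1, p.2)) (fun c : Cd K X × Cd K Y => (φ c.1, c.2))
    ((hφ.comp Primrec.fst).pair Primrec.snd) fun i _ _ h => ⟨hr i _ _ h.1, h.2⟩

theorem Cert.comp {P : ∀ i, Y i → ℕ∞ → Prop} (h : Cert P) {f : ∀ i, X i → Y i} (hf : Trk f) :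
    Cert fun i x m => P i (f i x) m := by
  have h1 : Cert fun i (p : X i × Y i) m => P i p.2 m :=
    h.recode' (X := fun i => X i × Y i) (fun _ p => p.2) (fun c : Cd K X × Cd K Y => c.2)
      Primrec.snd fun _ _ _ h => h.2
  exact (Cert.exists (P := fun i x y m => f i x = y ∧ P i y m) (Cert.and hf h1)).of_iff
    fun i x m => by simp

/-! ### tracked functions -/

theorem Trk.pair {f : ∀ i, X i → Y i} {g : ∀ i, X i → Z i} (hf : Trk f) (hg : Trk g) :
    Trk fun i x => (f i x, g i x) := by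
  have h1 := Cert.recode' (X := fun i => X i × Y i × Z i) hf (fun _ p => (p.1, p.2.1))
    (fun c : Cd K X × Cd K Y × Cd K Z => (c.1, c.2.1))
    (Primrec.fst.pair (Primrec.fst.comp Primrec.snd)) fun _ _ _ h => ⟨h.1, h.2.1⟩
  have h2 := Cert.recode' (X := fun i => X i × Y i × Z i) hg (fun _ p => (p.1, p.2.2))
    (fun c : Cd K X × Cd K Y × Cd K Z => (c.1, c.2.2))
    (Primrec.fst.pair (Primrec.snd.comp Primrec.snd)) fun _ _ _ h => ⟨h.1, h.2.2⟩
  exact (h1.and h2).of_iff fun i p _ => (Prod.ext_iff (x := (f i p.1, g i p.1)) (y := p.2)).symm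

theorem Trk.comp {g : ∀ i, Y i → Z i} (hg : Trk g) {f : ∀ i, X i → Y i} (hf : Trk f) :
    Trk fun i x => g i (f i x) := by
  have h1 := Cert.recode' (X := fun i => (X i × Z i) × Y i) hf (fun _ p => (p.1.1, p.2))
    (fun c : (Cd K X × Cd K Z) × Cd K Y => (c.1.1, c.2))
    ((Primrec.fst.comp Primrec.fst).pair Primrec.snd) fun _ _ _ h => ⟨h.1.1, h.2⟩
  have h2 := Cert.recode' (X := fun i => (X i × Z i) × Y i) hg (fun _ p => (p.2, p.1.2))
    (fun c : (Cd K X × Cd K Z) × Cd K Y => (c.2, c.1.2))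
    (Primrec.snd.pair (Primrec.snd.comp Primrec.fst)) fun _ _ _ h => ⟨h.2, h.1.2⟩
  exact (Cert.exists (P := fun i (p : X i × Z i) y _ => f i p.1 = y ∧ g i y = p.2)
    (h1.and h2)).of_iff fun i x m => by simp

theorem Trk.of_eq {f g : ∀ i, X i → Y i} (hf : Trk f) (h : ∀ i x, f i x = g i x) : Trk g := by
  have : f = g := by funext i x; exact h i x
  exact this ▸ hf

theorem Trk.fst {f : ∀ i, X i → Y i × Z i} (hf : Trk f) : Trk fun i x => (f i x).1 :=
  (Trk.of_code (X := fun i => Y i × Z i) (fun _ p => p.1) (fun c : Cd K Y × Cd K Z => c.1)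
    Primrec.fst fun _ _ _ h => h.1).comp hf

theorem Trk.snd {f : ∀ i, X i → Y i × Z i} (hf : Trk f) : Trk fun i x => (f i x).2 :=
  (Trk.of_code (X := fun i => Y i × Z i) (fun _ p => p.2) (fun c : Cd K Y × Cd K Z => c.2)
    Primrec.snd fun _ _ _ h => h.2).comp hf

theorem Cert.eq {f g : ∀ i, X i → Y i} (hf : Trk f) (hg : Trk g) :
    Cert fun i x _ => f i x = g i x :=
  Cert.comp (Trk.id (X := Y)) (hf.pair hg)

theorem Cert.ne [RNe K Y] {f g : ∀ i, X i → Y i} (hf : Trk f) (hg : Trk g) :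
    Cert fun i x _ => f i x ≠ g i x :=
  Cert.comp (RNe.ne (K := K) (X := Y)) (hf.pair hg)

/-- A tracked constant, independent of the source family. -/
def TrkC (a : ∀ i, Y i) : Prop := URE fun i (y : Y i) => y = a i

theorem TrkC.trk {a : ∀ i, Y i} (h : TrkC a) : Trk fun i (_ : X i) => a i :=
  (Cert.comp h (Trk.id (X := fun i => X i × Y i)).snd).of_iff fun _ _ _ => eq_comm

theorem Trk.const_std {α : Type} [Primcodable α] (a : α) :
    @Trk K X (fun _ => α) _ (Rep.const α) fun _ _ => a :=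
  @Trk.of_code K X (fun _ => α) _ (Rep.const α) _ (fun _ => a) (Primrec.const a) fun _ _ _ _ => rfl

theorem Trk.trkC {a : ∀ i, Y i} (h : Trk fun i (_ : ℕ) => a i) : TrkC a :=
  (Cert.comp h ((Trk.const_std (X := Y) (0 : ℕ)).pair Trk.id)).of_iff fun _ _ _ => eq_comm

theorem Trk.par : Trk fun i (_ : X i) => K.par i :=
  Cert.recode (X := fun i => X i × ℕ) (Y := fun _ => ℕ × ℕ) (Trk.id (X := fun _ => ℕ))
    (fun i p => (K.par i, p.2)) (fun c : ℕ × Cd K X × ℕ => (c.1, c.2.2))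
    (Primrec.fst.pair (Primrec.snd.comp Primrec.snd)).to_comp fun _ _ _ h => ⟨rfl, h.2⟩

theorem Trk.nil : Trk fun i (_ : X i) => ([] : List (Y i)) :=
  Trk.of_code _ (fun _ => ([] : List (Cd K Y))) (Primrec.const _) fun _ _ _ _ => List.Forall₂.nil

theorem Trk.cons {f : ∀ i, X i → Y i} {g : ∀ i, X i → List (Y i)} (hf : Trk f) (hg : Trk g) :
    Trk fun i x => f i x :: g i x :=
  (Trk.of_code (X := fun i => Y i × List (Y i)) (Y := fun i => List (Y i)) (fun _ p => p.1 :: p.2)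
    (fun c : Cd K Y × List (Cd K Y) => c.1 :: c.2) Primrec.list_cons
    fun _ _ _ h => List.Forall₂.cons h.1 h.2).comp (hf.pair hg)

theorem Trk.append {f g : ∀ i, X i → List (Y i)} (hf : Trk f) (hg : Trk g) :
    Trk fun i x => f i x ++ g i x :=
  (Trk.of_code (X := fun i => List (Y i) × List (Y i)) (Y := fun i => List (Y i))
    (fun _ p => p.1 ++ p.2) (fun c : List (Cd K Y) × List (Cd K Y) => c.1 ++ c.2)
    Primrec.list_append fun _ _ _ h => List.rel_append h.1 h.2).comp (hf.pair hg)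

theorem Trk.length {f : ∀ i, X i → List (Y i)} (hf : Trk f) : Trk fun i x => (f i x).length :=
  (Trk.of_code (X := fun i => List (Y i)) (Y := fun _ => ℕ) (fun _ p => p.length)
    (fun c : List (Cd K Y) => c.length) Primrec.list_length
    fun _ _ _ h => List.Forall₂.length_eq h).comp hf

theorem Trk.reverse {f : ∀ i, X i → List (Y i)} (hf : Trk f) : Trk fun i x => (f i x).reverse :=
  (Trk.of_code (X := fun i => List (Y i)) (Y := fun i => List (Y i)) (fun _ p => p.reverse)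
    (fun c : List (Cd K Y) => c.reverse) Primrec.list_reverse
    fun _ _ _ h => List.rel_reverse h).comp hf

theorem Trk.tail {f : ∀ i, X i → List (Y i)} (hf : Trk f) : Trk fun i x => (f i x).tail :=
  (Trk.of_code (X := fun i => List (Y i)) (Y := fun i => List (Y i)) (fun _ p => p.tail)
    (fun c : List (Cd K Y) => c.tail) Primrec.list_tail
    fun _ _ _ h => by
      cases (show List.Forall₂ _ _ _ from h) with
      | nil => exact List.Forall₂.nil
      | cons _ h' => exact h').comp hf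

theorem Trk.map_fst {f : ∀ i, X i → List (Y i × Z i)} (hf : Trk f) :
    Trk fun i x => (f i x).map Prod.fst :=
  (Trk.of_code (X := fun i => List (Y i × Z i)) (Y := fun i => List (Y i))
    (fun _ p => p.map Prod.fst) (fun c : List (Cd K Y × Cd K Z) => c.map Prod.fst)
    (Primrec.list_map Primrec.id (Primrec.fst.comp Primrec.snd).to₂)
    fun _ _ _ h => List.rel_map (fun _ _ h => h.1) h).comp hf

theorem Trk.map_snd {f : ∀ i, X i → List (Y i × Z i)} (hf : Trk f) :
    Trk fun i x => (f i x).map Prod.snd :=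
  (Trk.of_code (X := fun i => List (Y i × Z i)) (Y := fun i => List (Z i))
    (fun _ p => p.map Prod.snd) (fun c : List (Cd K Y × Cd K Z) => c.map Prod.snd)
    (Primrec.list_map Primrec.id (Primrec.snd.comp Primrec.snd).to₂)
    fun _ _ _ h => List.rel_map (fun _ _ h => h.2) h).comp hf

theorem Trk.range {f : ∀ i, X i → ℕ} (hf : Trk f) :
    Trk (Y := fun i => List ((fun _ => ℕ) i)) fun i x => List.range (f i x) :=
  (Trk.of_code (X := fun _ => ℕ) (Y := fun i => List ((fun _ => ℕ) i)) (fun _ p => List.range p)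
    (fun c : ℕ => List.range c) Primrec.list_range
    fun _ c x h => by
      obtain rfl : c = x := h
      exact List.forall₂_same.2 fun _ _ => rfl).comp hf

theorem Trk.getD {f : ∀ i, X i → List (Y i)} {n : ∀ i, X i → ℕ} {d : ∀ i, X i → Y i} (hf : Trk f)
    (hn : Trk n) (hd : Trk d) : Trk fun i x => (f i x).getD (n i x) (d i x) := by
  refine (Trk.of_code (X := fun i => List (Y i) × ℕ × Y i) (Y := Y)
    (fun _ p => p.1.getD p.2.1 p.2.2)
    (fun c : List (Cd K Y) × ℕ × Cd K Y => (c.1[c.2.1]?).getD c.2.2)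
    (Primrec.option_getD.comp (Primrec.list_getElem?.comp Primrec.fst
      (Primrec.fst.comp Primrec.snd)) (Primrec.snd.comp Primrec.snd)) ?_).comp
    (hf.pair (hn.pair hd))
  rintro i ⟨cl, k', e⟩ ⟨l, k, y⟩ ⟨h1, h2, h3⟩
  obtain rfl : k = k' := Eq.symm h2
  clear h2
  change List.Forall₂ (Rep.rep i) cl l at h1
  change Rep.rep i e y at h3
  change Rep.rep i (List.getD cl k e) (l.getD k y)
  induction h1 generalizing k with
  | nil => simpa using h3
  | cons h _ ih =>
    cases k with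
    | zero => simpa using h
    | succ k => simpa using ih k

theorem Trk.inl {f : ∀ i, X i → Y i} (hf : Trk f) :
    Trk fun i x => (Sum.inl (f i x) : Y i ⊕ Z i) :=
  (Trk.of_code (X := Y) (Y := fun i => Y i ⊕ Z i) (fun _ p => Sum.inl p)
    (fun c => (Sum.inl c : Cd K Y ⊕ Cd K Z)) Primrec.sumInl
    fun _ _ _ h => Sum.LiftRel.inl h).comp hf

theorem Trk.inr {f : ∀ i, X i → Z i} (hf : Trk f) :
    Trk fun i x => (Sum.inr (f i x) : Y i ⊕ Z i) :=
  (Trk.of_code (X := Z) (Y := fun i => Y i ⊕ Z i) (fun _ p => Sum.inr p)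
    (fun c => (Sum.inr c : Cd K Y ⊕ Cd K Z)) Primrec.sumInr
    fun _ _ _ h => Sum.LiftRel.inr h).comp hf

/-! ### bounded quantifiers -/

theorem forall₂_mem_left {α β : Type} {R : α → β → Prop} {l : List α} {l' : List β}
    (h : List.Forall₂ R l l') : ∀ a ∈ l, ∃ b ∈ l', R a b := by
  induction h with
  | nil => simp
  | cons h _ ih =>
    intro a ha
    rcases List.mem_cons.1 ha with rfl | ha
    · exact ⟨_, List.mem_cons_self, h⟩
    · obtain ⟨b, hb, hr⟩ := ih a ha
      exact ⟨b, List.mem_cons_of_mem _ hb, hr⟩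

theorem Cert.forall_mem {P : ∀ i, X i → Y i → ℕ∞ → Prop} {f : ∀ i, X i → List (Y i)} (hf : Trk f)
    (h : Cert fun i (p : X i × Y i) m => P i p.1 p.2 m) :
    Cert fun i x m => ∀ y ∈ f i x, P i x y m := by
  have h1 : Cert fun i (p : X i × List (Y i)) m => ∀ y ∈ p.2, P i p.1 y m := by
    refine RCert.mono (RCert.and (Cert.true (X := fun i => X i × List (Y i)))
      (RCert.forall_mem (C := Cd K X) (C' := Cd K Y) h)) ?_ ?_
    · rintro i c ⟨⟨⟨x, l⟩, ⟨hx, hl⟩, -⟩, h⟩
      refine ⟨(x, l), ⟨hx, hl⟩, fun y hy => ?_⟩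
      obtain ⟨c', hc', hr⟩ := forall₂_mem_left (List.Forall₂.flip hl) y hy
      obtain ⟨⟨x', y'⟩, ⟨h1, h2⟩, h3⟩ := h c' hc'
      obtain rfl := Rep.uniq i _ _ _ hx h1
      obtain rfl := Rep.uniq i _ _ _ hr h2
      exact h3
    · rintro i c m ⟨⟨x, l⟩, ⟨hx, hl⟩, h⟩
      refine ⟨⟨(x, l), ⟨hx, hl⟩, trivial⟩, fun c' hc' => ?_⟩
      obtain ⟨y, hy, hr⟩ := forall₂_mem_left hl c' hc'
      exact ⟨(x, y), ⟨hx, hr⟩, h y hy⟩
  exact h1.comp (Trk.id.pair hf)

theorem Cert.mem {f : ∀ i, X i → Y i} {g : ∀ i, X i → List (Y i)} (hf : Trk f) (hg : Trk g) :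
    Cert fun i x _ => f i x ∈ g i x := by
  refine (Cert.exists (P := fun i x (l : List (Y i) × List (Y i)) _ => g i x = l.1 ++ f i x :: l.2)
    (Cert.eq (hg.comp Trk.id.fst) (Trk.id.snd.fst.append
      ((hf.comp Trk.id.fst).cons Trk.id.snd.snd)))).of_iff fun i x _ => ?_
  rw [List.mem_iff_append, Prod.exists]

theorem Cert.exists_mem {P : ∀ i, X i → Y i → ℕ∞ → Prop} {f : ∀ i, X i → List (Y i)} (hf : Trk f)
    (h : Cert fun i (p : X i × Y i) m => P i p.1 p.2 m) :
    Cert fun i x m => ∃ y ∈ f i x, P i x y m :=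
  Cert.exists (P := fun i x y m => y ∈ f i x ∧ P i x y m)
    ((Cert.mem Trk.id.snd (hf.comp Trk.id.fst)).and h)

theorem Cert.forall_fin {α : Type} [Finite α] {P : α → ∀ i, X i → ℕ∞ → Prop}
    (h : ∀ a, Cert (P a)) : Cert fun i x m => ∀ a, P a i x m := by
  have key : ∀ l : List α, Cert fun i x m => ∀ a ∈ l, P a i x m := by
    intro l
    induction l with
    | nil => exact Cert.true.of_iff fun _ _ _ => by simp
    | cons a l ih => exact ((h a).and ih).of_iff fun _ _ _ => by simp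
  have := Fintype.ofFinite α
  exact (key Finset.univ.toList).of_iff fun _ _ _ => by simp

theorem Cert.exists_fin {α : Type} [Finite α] {P : α → ∀ i, X i → ℕ∞ → Prop}
    (h : ∀ a, Cert (P a)) : Cert fun i x m => ∃ a, P a i x m := by
  have key : ∀ l : List α, Cert fun i x m => ∃ a ∈ l, P a i x m := by
    intro l
    induction l with
    | nil => exact Cert.false.of_iff fun _ _ _ => by simp
    | cons a l ih => exact ((h a).or ih).of_iff fun _ _ _ => by simp
  have := Fintype.ofFinite α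
  exact (key Finset.univ.toList).of_iff fun _ _ _ => by simp

theorem Cert.forall_lt {P : ∀ i, X i → ℕ → ℕ∞ → Prop} {f : ∀ i, X i → ℕ} (hf : Trk f)
    (h : Cert fun i (p : X i × ℕ) m => P i p.1 p.2 m) :
    Cert fun i x m => ∀ k < f i x, P i x k m :=
  (Cert.forall_mem (Y := fun _ => ℕ) hf.range h).of_iff fun _ _ _ => by simp

theorem isChain_iff_exists {α : Type} (R : α → α → Prop) (l : List α) :
    (∃ L : List (α × α), (∃ t, L.map Prod.fst ++ t = l) ∧ L.map Prod.snd = l.tail ∧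
      ∀ q ∈ L, R q.1 q.2) ↔ l.IsChain R := by
  induction l with
  | nil => exact ⟨fun _ => List.isChain_nil, fun _ => ⟨[], ⟨[], rfl⟩, rfl, by simp⟩⟩
  | cons a l ih =>
    cases l with
    | nil => exact ⟨fun _ => List.isChain_singleton _, fun _ => ⟨[], ⟨[a], rfl⟩, rfl, by simp⟩⟩
    | cons b l =>
      rw [List.isChain_cons_cons, ← ih]
      constructor
      · rintro ⟨L, ⟨t, h1⟩, h2, h3⟩
        cases L with
        | nil => simp at h2
        | cons q L =>
          simp only [List.map_cons, List.cons_append, List.cons.injEq, List.tail_cons] at h1 h2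
          obtain ⟨q1, q2⟩ := q
          obtain ⟨rfl, h1⟩ := h1
          obtain ⟨rfl, h2⟩ := h2
          exact ⟨h3 _ List.mem_cons_self, L, ⟨t, h1⟩, h2,
            fun q hq => h3 q (List.mem_cons_of_mem _ hq)⟩
      · rintro ⟨h0, L, ⟨t, h1⟩, h2, h3⟩
        refine ⟨(a, b) :: L, ⟨t, by simp [h1]⟩, by simpa using h2, fun q hq => ?_⟩
        rcases List.mem_cons.1 hq with rfl | hq
        · exact h0
        · exact h3 q hq

theorem Cert.isChain {P : ∀ i, X i → Y i → Y i → ℕ∞ → Prop} {f : ∀ i, X i → List (Y i)}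
    (hf : Trk f) (h : Cert fun i (p : X i × Y i × Y i) m => P i p.1 p.2.1 p.2.2 m) :
    Cert fun i x m => (f i x).IsChain fun a b => P i x a b m := by
  have h1 : Cert fun i (p : X i × List (Y i × Y i)) _ => ∃ t, p.2.map Prod.fst ++ t = f i p.1 :=
    Cert.exists (P := fun i (p : X i × List (Y i × Y i)) t _ => p.2.map Prod.fst ++ t = f i p.1)
      (Cert.eq (Trk.id.fst.snd.map_fst.append Trk.id.snd) (hf.comp Trk.id.fst.fst))
  have h2 : Cert fun i (p : X i × List (Y i × Y i)) _ => p.2.map Prod.snd = (f i p.1).tail :=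
    Cert.eq Trk.id.snd.map_snd (hf.comp Trk.id.fst).tail
  have h3 : Cert fun i (p : X i × List (Y i × Y i)) m => ∀ q ∈ p.2, P i p.1 q.1 q.2 m :=
    Cert.forall_mem (P := fun i (p : X i × List (Y i × Y i)) (q : Y i × Y i) m => P i p.1 q.1 q.2 m)
      Trk.id.snd (h.comp (Trk.id.fst.fst.pair Trk.id.snd))
  exact (Cert.exists (P := fun i x (L : List (Y i × Y i)) m =>
    (∃ t, L.map Prod.fst ++ t = f i x) ∧ L.map Prod.snd = (f i x).tail ∧
      ∀ q ∈ L, P i x q.1 q.2 m) (h1.and (h2.and h3))).of_iff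
    fun i x m => isChain_iff_exists (fun a b => P i x a b m) _

theorem URE.rtg {r : ∀ i, X i → X i → Prop} (h : URE fun i (p : X i × X i) => r i p.1 p.2) :
    URE fun i (p : X i × X i) => Relation.ReflTransGen (r i) p.1 p.2 := by
  have h1 := RCert.rtg (K := K) (C := Cd K X)
    (r := fun i c c' => ∃ p : X i × X i, (Rep.rep i c p.1 ∧ Rep.rep i c' p.2) ∧
      (r i p.1 p.2 ∨ p.1 = p.2)) (Cert.or h Trk.id)
  refine RCert.mono (RCert.and (Cert.true (X := fun i => X i × X i)) h1) ?_ ?_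
  · rintro i ⟨c, c'⟩ ⟨⟨⟨x, y⟩, ⟨hx, hy⟩, -⟩, h⟩
    refine ⟨(x, y), ⟨hx, hy⟩, ?_⟩
    change Rep.rep i c x at hx
    change Rep.rep i c' y at hy
    change Relation.ReflTransGen _ c c' at h
    change Relation.ReflTransGen _ x y
    induction h generalizing y with
    | refl => rw [Rep.uniq i _ _ _ hx hy]
    | tail _ h2 ih =>
      obtain ⟨⟨u, v⟩, ⟨hu, hv⟩, h3⟩ := h2
      obtain rfl := Rep.uniq i _ _ _ hy hv
      rcases h3 with h3 | h3
      · exact (ih u hu).tail h3
      · obtain rfl : u = y := h3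
        exact ih u hu
  · rintro i ⟨c, c'⟩ m ⟨⟨x, y⟩, ⟨hx, hy⟩, h⟩
    refine ⟨⟨(x, y), ⟨hx, hy⟩, trivial⟩, ?_⟩
    change Rep.rep i c x at hx
    change Rep.rep i c' y at hy
    change Relation.ReflTransGen _ x y at h
    change Relation.ReflTransGen _ c c'
    induction h generalizing c' with
    | refl => exact Relation.ReflTransGen.single ⟨(x, x), ⟨hx, hy⟩, Or.inr rfl⟩
    | @tail u v _ h2 ih =>
      obtain ⟨cu, hu⟩ := Rep.tot i u
      exact (ih cu hu).tail ⟨(u, v), ⟨hu, hy⟩, Or.inl h2⟩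

theorem Cert.oracle {f : ∀ i, X i → ℕ} (hf : Trk f) :
    Cert fun i x m => ∃ m₀ : ℕ, (m₀ : ℕ∞) ≤ m ∧ K.Or i m₀ (f i x) := by
  have h : Cert (K := K) (X := fun _ => ℕ) fun i φ m => ∃ m₀ : ℕ, (m₀ : ℕ∞) ≤ m ∧ K.Or i m₀ φ := by
    refine RCert.mono RCert.oracle (fun i c h => ⟨c, rfl, h⟩) ?_
    rintro i c m ⟨x, hx, h⟩
    obtain rfl : c = x := hx
    exact h
  exact h.comp hf

/-! ### recursion -/

theorem Trk.map {f : ∀ i, X i → List (Y i)} {g : ∀ i, X i → Y i → Z i} (hf : Trk f)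
    (hg : Trk fun i (p : X i × Y i) => g i p.1 p.2) : Trk fun i x => (f i x).map (g i x) := by
  have h1 : Cert fun i (p : (X i × List (Z i)) × List (Y i × Z i)) _ =>
      p.2.map Prod.fst = f i p.1.1 := Cert.eq Trk.id.snd.map_fst (hf.comp Trk.id.fst.fst)
  have h2 : Cert fun i (p : (X i × List (Z i)) × List (Y i × Z i)) _ =>
      p.2.map Prod.snd = p.1.2 := Cert.eq Trk.id.snd.map_snd Trk.id.fst.snd
  have h3 : Cert fun i (p : (X i × List (Z i)) × List (Y i × Z i)) _ =>
      ∀ q ∈ p.2, g i p.1.1 q.1 = q.2 :=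
    Cert.forall_mem (P := fun i (p : (X i × List (Z i)) × List (Y i × Z i)) (q : Y i × Z i) _ =>
      g i p.1.1 q.1 = q.2) Trk.id.snd
      (Cert.eq (hg.comp (Trk.id.fst.fst.fst.pair Trk.id.snd.fst)) Trk.id.snd.snd)
  refine (Cert.exists (P := fun i (p : X i × List (Z i)) (L : List (Y i × Z i)) _ =>
    L.map Prod.fst = f i p.1 ∧ L.map Prod.snd = p.2 ∧ ∀ q ∈ L, g i p.1 q.1 = q.2)
    (h1.and (h2.and h3))).of_iff fun i p _ => ⟨?_, ?_⟩
  · rintro ⟨L, h1, h2, h3⟩
    change (f i p.1).map (g i p.1) = p.2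
    rw [← h1, ← h2, List.map_map]
    exact List.map_congr_left h3
  · intro h
    refine ⟨(f i p.1).map fun y => (y, g i p.1 y), by simp [Function.comp_def], ?_, ?_⟩
    · rw [List.map_map]
      exact h
    · intro q hq
      obtain ⟨y, -, rfl⟩ := List.mem_map.1 hq
      rfl

theorem rtg_foldl {α β γ : Type} (g : α → β → γ → γ) (x : α) (l : List β) (z r : γ) :
    Relation.ReflTransGen (fun s t : α × List β × γ =>
      ∃ a, s.1 = t.1 ∧ s.2.1 = a :: t.2.1 ∧ g s.1 a s.2.2 = t.2.2) (x, l, z) (x, [], r) ↔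
      l.foldl (fun acc a => g x a acc) z = r := by
  constructor
  · intro h
    have key : ∀ s t : α × List β × γ, Relation.ReflTransGen (fun s t : α × List β × γ =>
        ∃ a, s.1 = t.1 ∧ s.2.1 = a :: t.2.1 ∧ g s.1 a s.2.2 = t.2.2) s t →
        s.2.1.foldl (fun acc a => g s.1 a acc) s.2.2 =
          t.2.1.foldl (fun acc a => g t.1 a acc) t.2.2 := by
      intro s t h
      induction h with
      | refl => rfl
      | tail _ h ih =>
        obtain ⟨a, h1, h2, h3⟩ := h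
        rw [ih, h2, List.foldl_cons, h3, h1]
    exact key _ _ h
  · intro h
    induction l generalizing z with
    | nil => rw [← h]; rfl
    | cons a l ih => exact Relation.ReflTransGen.head (b := (x, l, g x a z)) ⟨a, rfl, rfl, rfl⟩ (ih _ h)

theorem Trk.foldr {f : ∀ i, X i → List (Y i)} {z : ∀ i, X i → Z i} {g : ∀ i, X i → Y i → Z i → Z i}
    (hf : Trk f) (hz : Trk z) (hg : Trk fun i (p : X i × Y i × Z i) => g i p.1 p.2.1 p.2.2) :
    Trk fun i x => (f i x).foldr (g i x) (z i x) := by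
  have h1 : URE fun i (p : (X i × List (Y i) × Z i) × (X i × List (Y i) × Z i)) =>
      ∃ a, p.1.1 = p.2.1 ∧ p.1.2.1 = a :: p.2.2.1 ∧ g i p.1.1 a p.1.2.2 = p.2.2.2 :=
    Cert.exists (P := fun i (p : (X i × List (Y i) × Z i) × (X i × List (Y i) × Z i)) a _ =>
      p.1.1 = p.2.1 ∧ p.1.2.1 = a :: p.2.2.1 ∧ g i p.1.1 a p.1.2.2 = p.2.2.2)
      ((Cert.eq Trk.id.fst.fst.fst Trk.id.fst.snd.fst).and
        ((Cert.eq Trk.id.fst.fst.snd.fst (Trk.id.snd.cons Trk.id.fst.snd.snd.fst)).and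
          (Cert.eq (hg.comp (Trk.id.fst.fst.fst.pair (Trk.id.snd.pair Trk.id.fst.fst.snd.snd)))
            Trk.id.fst.snd.snd.snd)))
  have h2 := URE.rtg (r := fun i (s t : X i × List (Y i) × Z i) =>
    ∃ a, s.1 = t.1 ∧ s.2.1 = a :: t.2.1 ∧ g i s.1 a s.2.2 = t.2.2) h1
  have h3 : Trk fun i (p : X i × Z i) =>
      ((p.1, (f i p.1).reverse, z i p.1), (p.1, ([] : List (Y i)), p.2)) :=
    (Trk.id.fst.pair ((hf.comp Trk.id.fst).reverse.pair (hz.comp Trk.id.fst))).pair
      (Trk.id.fst.pair (Trk.nil.pair Trk.id.snd))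
  refine (Cert.comp h2 h3).of_iff fun i p _ => ?_
  exact (rtg_foldl (g i) _ _ _ _).trans (by rw [List.foldl_reverse])

/-- All words of length at most `n` over the alphabet `A`. -/
def wordsLe {α : Type} (A : List α) (n : ℕ) : List (List α) :=
  (List.range n).foldr
    (fun _ acc => [] :: A.foldr (fun a L => acc.map (fun w => a :: w) ++ L) []) [[]]

theorem mem_wordsLe {α : Type} (A : List α) (hA : ∀ a, a ∈ A) (n : ℕ) (w : List α) :
    w ∈ wordsLe A n ↔ w.length ≤ n := by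
  have h1 : ∀ (acc : List (List α)) (B : List α) (w : List α),
      w ∈ B.foldr (fun a L => acc.map (fun w => a :: w) ++ L) [] ↔
        ∃ a ∈ B, ∃ v ∈ acc, a :: v = w := by
    intro acc B w
    induction B with
    | nil => simp
    | cons b B ih => simp only [List.foldr_cons, List.mem_append, ih, List.mem_map,
        List.mem_cons, exists_eq_or_imp]
  have h2 : ∀ (l : List ℕ) (w : List α), w ∈ l.foldr
      (fun _ acc => [] :: A.foldr (fun a L => acc.map (fun w => a :: w) ++ L) []) [[]] ↔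
        w.length ≤ l.length := by
    intro l
    induction l with
    | nil => simp
    | cons k l ih =>
      intro w
      rw [List.foldr_cons, List.mem_cons, h1]
      cases w with
      | nil => simp
      | cons a w =>
        simp only [ih]
        simp [hA]
  rw [wordsLe, h2, List.length_range]

/-- Quantification over all words of bounded length over a finite alphabet. -/
theorem Cert.forall_words {α : Type} [Finite α] [Rep K fun _ => α]
    (hα : ∀ a : α, URE (K := K) (X := fun _ => α) fun _ x => x = a)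
    {P : ∀ i, X i → List α → ℕ∞ → Prop} {f : ∀ i, X i → ℕ} (hf : Trk f)
    (h : Cert fun i (p : X i × List α) m => P i p.1 p.2 m) :
    Cert fun i x m => ∀ w : List α, w.length ≤ f i x → P i x w m := by
  have hA : ∀ (A : List α) (U : K.I → Type) [Rep K U],
      Trk (X := U) (Y := fun i => List ((fun _ => α) i)) fun _ _ => A := by
    intro A U _
    induction A with
    | nil => exact Trk.nil
    | cons a A ih => exact Trk.cons (Y := fun _ => α) (TrkC.trk (a := fun _ => a) (hα a)) ih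
  have := Fintype.ofFinite α
  have hw : Trk (Y := fun i => List (List ((fun _ => α) i))) fun i x =>
      wordsLe (Finset.univ : Finset α).toList (f i x) := by
    refine Trk.foldr (Y := fun _ => ℕ) (Z := fun i => List (List ((fun _ => α) i))) hf.range
      (Trk.nil.cons Trk.nil) (Trk.nil.cons ?_)
    refine Trk.foldr (Y := fun _ => α) (Z := fun i => List (List ((fun _ => α) i))) (hA _ _)
      Trk.nil (Trk.append ?_ Trk.id.snd.snd)
    exact Trk.map (Y := fun i => List ((fun _ => α) i)) Trk.id.fst.snd.snd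
      (Trk.cons (Y := fun _ => α) Trk.id.fst.snd.fst Trk.id.snd)
  refine (Cert.forall_mem (Y := fun i => List ((fun _ => α) i)) hw h).of_iff fun i x m => ?_
  simp only [mem_wordsLe _ (fun a => Finset.mem_toList.2 (Finset.mem_univ a))]

theorem Trk.elim {f : ∀ i, X i → Y i ⊕ Z i} {g : ∀ i, X i → Y i → W i} {h : ∀ i, X i → Z i → W i}
    (hf : Trk f) (hg : Trk fun i (p : X i × Y i) => g i p.1 p.2)
    (hh : Trk fun i (p : X i × Z i) => h i p.1 p.2) :
    Trk fun i x => (f i x).elim (g i x) (h i x) := by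
  have h1 := Cert.exists (P := fun i (p : X i × W i) (y : Y i) _ =>
    f i p.1 = Sum.inl y ∧ g i p.1 y = p.2)
    ((Cert.eq (hf.comp Trk.id.fst.fst) Trk.id.snd.inl).and
      (Cert.eq (hg.comp (Trk.id.fst.fst.pair Trk.id.snd)) Trk.id.fst.snd))
  have h2 := Cert.exists (P := fun i (p : X i × W i) (y : Z i) _ =>
    f i p.1 = Sum.inr y ∧ h i p.1 y = p.2)
    ((Cert.eq (hf.comp Trk.id.fst.fst) Trk.id.snd.inr).and
      (Cert.eq (hh.comp (Trk.id.fst.fst.pair Trk.id.snd)) Trk.id.fst.snd))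
  refine (h1.or h2).of_iff fun i p _ => ?_
  beta_reduce
  cases f i p.1 <;> simp

theorem Trk.ite {c : ∀ i, X i → Prop} [∀ i, DecidablePred (c i)] {f g : ∀ i, X i → Y i}
    (hc : URE c) (hc' : URE fun i x => ¬ c i x) (hf : Trk f) (hg : Trk g) :
    Trk fun i x => if c i x then f i x else g i x := by
  refine (((Cert.comp hc Trk.id.fst).and hf).or ((Cert.comp hc' Trk.id.fst).and hg)).of_iff
    fun i p _ => ?_
  by_cases h : c i p.1 <;> simp [h]

theorem Trk.cond {c : ∀ i, X i → Bool} {f g : ∀ i, X i → Y i} (hc : Trk c) (hf : Trk f)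
    (hg : Trk g) : Trk fun i x => cond (c i x) (f i x) (g i x) :=
  (Trk.ite (c := fun i x => c i x = true) (Cert.eq hc (Trk.const_std true))
    ((Cert.eq hc (Trk.const_std false)).of_iff fun _ _ _ => by simp) hf hg).of_eq
    fun i x => by cases c i x <;> simp

theorem Trk.ofSurj {Y : K.I → Type} (f : ∀ i, X i → Y i) (hf : ∀ i, Function.Surjective (f i))
    (h : URE fun i (p : X i × X i) => f i p.1 = f i p.2) :
    @Trk K X Y _ (Rep.ofSurj f hf h) f :=
  @Trk.of_code K X Y _ (Rep.ofSurj f hf h) f (fun c => c) Primrec.id fun _ _ x hx => ⟨x, hx, rfl⟩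

theorem Trk.ofInj {Y : K.I → Type} (f : ∀ i, Y i → X i) (hf : ∀ i, Function.Injective (f i))
    (h : URE fun i (x : X i) => ∃ y, f i y = x) : @Trk K Y X (Rep.ofInj f hf h) _ f :=
  @Trk.of_code K Y X (Rep.ofInj f hf h) _ f (fun c => c) Primrec.id fun _ _ _ hx => hx

theorem Trk.apply {ι : Type} [Fintype ι] {f : ∀ i, X i → ι → Y i} (hf : Trk f) (a : ι) :
    Trk fun i x => f i x a := by
  have h0 : Trk fun i (g : ι → Y i) => List.ofFn (g ∘ (Fintype.equivFin ι).symm) :=
    Trk.of_code _ (fun c => c) Primrec.id fun _ _ _ hx => hx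
  refine (Cert.eq (X := fun i => X i × Y i) ((h0.comp (hf.comp Trk.id.fst)).getD
    (Trk.const_std (Fintype.equivFin ι a : ℕ)) Trk.id.snd) Trk.id.snd).of_iff fun i p _ => ?_
  simp

theorem Trk.pi {ι : Type} [Fintype ι] {f : ∀ i, X i → ι → Y i} (hf : ∀ a, Trk fun i x => f i x a) :
    Trk f :=
  (Cert.forall_fin (X := fun i => X i × (ι → Y i)) fun a =>
    Cert.eq ((hf a).comp Trk.id.fst) (Trk.id.snd.apply a)).of_iff fun _ _ _ => funext_iff.symm

theorem Trk.ofAdd {f : ∀ i, X i → Y i} (hf : Trk f) :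
    Trk fun i x => Multiplicative.ofAdd (f i x) := hf

theorem Trk.toAdd {f : ∀ i, X i → Multiplicative (Y i)} (hf : Trk f) :
    Trk fun i x => (f i x).toAdd := hf

/-- To track `g` it is enough to track it after precomposition with a tracked surjection. -/
theorem Trk.of_comp_surj {f : ∀ i, X i → Y i} (hf : Trk f) (hs : ∀ i, Function.Surjective (f i))
    {g : ∀ i, Y i → Z i} (h : Trk fun i x => g i (f i x)) : Trk g := by
  refine (Cert.exists (P := fun i (p : Y i × Z i) (x : X i) _ => f i x = p.1 ∧ g i (f i x) = p.2)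
    ((Cert.eq (hf.comp Trk.id.snd) Trk.id.fst.fst).and
      (Cert.eq (h.comp Trk.id.snd) Trk.id.fst.snd))).of_iff fun i p _ => ⟨?_, fun h => ?_⟩
  · rintro ⟨x, h1, h2⟩
    rw [← h1, h2]
  · obtain ⟨x, hx⟩ := hs i p.1
    exact ⟨x, hx, hx ▸ h⟩

/-- To track `g` it is enough to track it after postcomposition with a tracked injection. -/
theorem Trk.of_inj_comp {f : ∀ i, Y i → Z i} (hf : Trk f) (hs : ∀ i, Function.Injective (f i))
    {g : ∀ i, X i → Y i} (h : Trk fun i x => f i (g i x)) : Trk g :=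
  (Cert.eq (X := fun i => X i × Y i) (h.comp Trk.id.fst) (hf.comp Trk.id.snd)).of_iff
    fun i _ _ => (hs i).eq_iff

end Crest.Agent.R185
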