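import Crest.Agent.R185.REAux
/-! Row 185: raw lemmas for standard representations, bootstrap and enumeration. -/
set_option autoImplicit false
open Set

namespace Crest.Agent.R185
variable {K : Ctx}

theorem re_comp' {α β : Type} [Primcodable α] [Primcodable β] {p : α → Prop} (hp : REPred p)
    {f : β → α} (hf : Computable f) : REPred fun b => p (f b) :=
  Partrec.comp hp hf

theorem RCert.of_iff' {C : Type} [Primcodable C] {P Q : K.I → C → ℕ∞ → Prop} (h : RCert K P)
    (e : ∀ i c m, P i c m ↔ Q i c m) : RCert K Q :=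
  h.mono (fun i c => (e i c _).1) fun i c _ => (e i c _).2

theorem RCert.compC {C C' : Type} [Primcodable C] [Primcodable C'] {P : K.I → C → ℕ∞ → Prop}
    (hP : RCert K P) {f : C' → C} (hf : Computable f) : RCert K fun i c m => P i (f c) m :=
  RCert.comp hP (f := fun x : ℕ × C' => f x.2) (hf.comp Computable.snd)

theorem RCert.of_re' {C : Type} [Primcodable C] {p : C → Prop} (hp : REPred p) :
    RCert K fun _ (c : C) _ => p c :=
  RCert.of_re (p := fun x : ℕ × C => p x.2) (re_comp' hp Computable.snd)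

theorem RCert.of_primrec {C : Type} [Primcodable C] {p : C → Prop} (hp : PrimrecPred p) :
    RCert K fun _ (c : C) _ => p c :=
  RCert.of_re' hp.computablePred.to_re

theorem RCert.eq' {C D : Type} [Primcodable C] [Primcodable D] {f g : C → D} (hf : Primrec f)
    (hg : Primrec g) : RCert K fun _ (c : C) _ => f c = g c :=
  RCert.of_primrec (Primrec.eq.comp hf hg)

theorem trk_iff {X Y : K.I → Type} [hX : Rep K X] [hY : Rep K Y] {f : ∀ i, X i → Y i} :
    Trk f ↔ RCert K fun i (c : Cd K X × Cd K Y) _ => ∃ x, hX.rep i c.1 x ∧ hY.rep i c.2 (f i x) := by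
  have e : ∀ i (c : Cd K X × Cd K Y), (∃ x : X i × Y i, (hX.rep i c.1 x.1 ∧ hY.rep i c.2 x.2) ∧
      f i x.1 = x.2) ↔ ∃ x, hX.rep i c.1 x ∧ hY.rep i c.2 (f i x) := by
    intro i c
    constructor
    · rintro ⟨⟨a, b⟩, ⟨h1, h2⟩, h3⟩
      dsimp only at h1 h2 h3
      subst h3
      exact ⟨a, h1, h2⟩
    · rintro ⟨a, h1, h2⟩
      exact ⟨(a, f i a), ⟨h1, h2⟩, rfl⟩
  have e' : Trk f ↔ RCert K fun i (c : Cd K X × Cd K Y) _ => ∃ x : X i × Y i,
      (hX.rep i c.1 x.1 ∧ hY.rep i c.2 x.2) ∧ f i x.1 = x.2 := Iff.rfl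
  rw [e']
  exact ⟨fun h => h.of_iff' fun i c _ => e i c, fun h => h.of_iff' fun i c _ => (e i c).symm⟩

theorem IsStd.rcert (α : Type) [Primcodable α] [h : Rep K fun _ => α] [hs : IsStd K α] :
    RCert K fun i (c : Cd K (fun _ => α) × α) _ => h.rep i c.1 c.2 := by
  refine RCert.of_iff' ((@trk_iff K _ _ h (Rep.const α) _).1 hs.toStd) fun i c _ => ?_
  constructor
  · rintro ⟨x, h1, h2⟩
    have h2' : c.2 = x := h2
    rw [h2']; exact h1
  · intro hc
    exact ⟨c.2, hc, rfl⟩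

theorem IsStd.of_rcert (α : Type) [Primcodable α] [h : Rep K fun _ => α]
    (hr : RCert K fun i (c : Cd K (fun _ => α) × α) _ => h.rep i c.1 c.2) : IsStd K α := by
  refine ⟨(@trk_iff K _ _ h (Rep.const α) _).2 (RCert.of_iff' hr fun i c _ => ?_),
    (@trk_iff K _ _ (Rep.const α) h _).2 ?_⟩
  · constructor
    · intro hc
      exact ⟨c.2, hc, rfl⟩
    · rintro ⟨x, h1, h2⟩
      have h2' : c.2 = x := h2
      rw [h2']; exact h1
  · have := hr.compC (f := fun c : α × Cd K (fun _ => α) => (c.2, c.1))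
      (Computable.snd.pair Computable.fst)
    refine RCert.of_iff' this fun i c _ => ?_
    constructor
    · intro hc
      exact ⟨c.1, rfl, hc⟩
    · rintro ⟨x, h1, h2⟩
      have h1' : c.1 = x := h1
      show h.rep i c.2 c.1
      rw [h1']; exact h2

theorem isStd_prod (α β : Type) [Primcodable α] [Primcodable β] [Rep K fun _ => α]
    [Rep K fun _ => β] [IsStd K α] [IsStd K β] : IsStd K (α × β) := by
  refine IsStd.of_rcert _ ?_
  have h1 := (IsStd.rcert (K := K) α).compC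
    (f := fun c : (Cd K (fun _ => α) × Cd K (fun _ => β)) × (α × β) => (c.1.1, c.2.1))
    (Primrec.to_comp (by fun_prop))
  have h2 := (IsStd.rcert (K := K) β).compC
    (f := fun c : (Cd K (fun _ => α) × Cd K (fun _ => β)) × (α × β) => (c.1.2, c.2.2))
    (Primrec.to_comp (by fun_prop))
  exact h1.and h2

theorem isStd_sum (α β : Type) [Primcodable α] [Primcodable β] [hα : Rep K fun _ => α]
    [hβ : Rep K fun _ => β] [IsStd K α] [IsStd K β] : IsStd K (α ⊕ β) := by
  refine IsStd.of_rcert _ ?_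
  set A := Cd K (fun _ => α)
  set B := Cd K (fun _ => β)
  have h1 : RCert K fun i (c : ((A ⊕ B) × (α ⊕ β)) × (A × α)) _ =>
      (c.1.1 = Sum.inl c.2.1 ∧ c.1.2 = Sum.inl c.2.2) ∧ hα.rep i c.2.1 c.2.2 :=
    ((RCert.eq' (by fun_prop) (Primrec.sumInl.comp (by fun_prop))).and
      (RCert.eq' (by fun_prop) (Primrec.sumInl.comp (by fun_prop)))).and
      ((IsStd.rcert (K := K) α).compC Computable.snd)
  have h2 : RCert K fun i (c : ((A ⊕ B) × (α ⊕ β)) × (B × β)) _ =>
      (c.1.1 = Sum.inr c.2.1 ∧ c.1.2 = Sum.inr c.2.2) ∧ hβ.rep i c.2.1 c.2.2 :=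
    ((RCert.eq' (by fun_prop) (Primrec.sumInr.comp (by fun_prop))).and
      (RCert.eq' (by fun_prop) (Primrec.sumInr.comp (by fun_prop)))).and
      ((IsStd.rcert (K := K) β).compC Computable.snd)
  refine RCert.of_iff' (h1.exists.or h2.exists) fun i c _ => ?_
  obtain ⟨c, x⟩ := c
  show _ ↔ Sum.LiftRel (hα.rep i) (hβ.rep i) c x
  constructor
  · rintro (⟨⟨a, y⟩, ⟨h1, h2⟩, h3⟩ | ⟨⟨a, y⟩, ⟨h1, h2⟩, h3⟩)
    · dsimp only at h1 h2 h3
      subst h1 h2
      exact .inl h3
    · dsimp only at h1 h2 h3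
      subst h1 h2
      exact .inr h3
  · intro h
    cases h with
    | inl h => exact Or.inl ⟨(_, _), ⟨rfl, rfl⟩, h⟩
    | inr h => exact Or.inr ⟨(_, _), ⟨rfl, rfl⟩, h⟩

theorem isStd_list (α : Type) [Primcodable α] [hα : Rep K fun _ => α] [IsStd K α] :
    IsStd K (List α) := by
  refine IsStd.of_rcert _ ?_
  set A := Cd K (fun _ => α)
  have h0 : RCert K fun i (c : (List A × List α) × List (A × α)) _ =>
      ∀ p ∈ c.2, hα.rep i p.1 p.2 :=
    RCert.forall_mem (P := fun i (c : (List A × List α) × (A × α)) _ => hα.rep i c.2.1 c.2.2)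
      ((IsStd.rcert (K := K) α).compC Computable.snd)
  have h1 : RCert K fun i (c : (List A × List α) × List (A × α)) _ =>
      (c.1.1 = c.2.map (fun p => p.1) ∧ c.1.2 = c.2.map (fun p => p.2)) ∧
        ∀ p ∈ c.2, hα.rep i p.1 p.2 :=
    ((RCert.eq' (by fun_prop) (by fun_prop)).and (RCert.eq' (by fun_prop) (by fun_prop))).and h0
  refine RCert.of_iff' h1.exists fun i c _ => ?_
  obtain ⟨c, x⟩ := c
  show _ ↔ List.Forall₂ (hα.rep i) c x
  constructor
  · rintro ⟨l, ⟨h1, h2⟩, h3⟩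
    dsimp only at h1 h2 h3
    subst h1 h2
    rw [List.forall₂_map_left_iff, List.forall₂_map_right_iff, List.forall₂_same]
    exact h3
  · intro h
    induction h with
    | nil => exact ⟨[], ⟨rfl, rfl⟩, by simp⟩
    | @cons a b l l' h _ ih =>
      obtain ⟨L, ⟨h1, h2⟩, h3⟩ := ih
      dsimp only at h1 h2 h3
      refine ⟨(a, b) :: L, ⟨by simp [h1], by simp [h2]⟩, ?_⟩
      intro p hp
      rcases List.mem_cons.1 hp with rfl | hp
      · exact h
      · exact h3 p hp

section std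
variable {α β : Type} [Primcodable α] [Primcodable β] [hα : Rep K fun _ => α]
  [hβ : Rep K fun _ => β] [IsStd K α] [IsStd K β]

theorem trk_computable {g : α → β} (hg : Computable g) :
    Trk (K := K) (X := fun _ => α) (Y := fun _ => β) fun _ x => g x := by
  set A := Cd K (fun _ => α)
  set B := Cd K (fun _ => β)
  have h1 := (IsStd.rcert (K := K) α).compC (f := fun c : (A × B) × α => (c.1.1, c.2))
    (Primrec.to_comp (by fun_prop))
  have h2 := (IsStd.rcert (K := K) β).compC (f := fun c : (A × B) × α => (c.1.2, g c.2))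
    ((Computable.snd.comp Computable.fst).pair (hg.comp Computable.snd))
  exact trk_iff.2 (h1.and h2).exists

theorem ure_eq_const (a : α) : URE (K := K) (X := fun _ => α) fun _ y => y = a := by
  have h1 := (IsStd.rcert (K := K) α).compC (f := fun c : Cd K (fun _ => α) => (c, a))
    (Computable.id.pair (Computable.const a))
  refine RCert.of_iff' h1 fun i c _ => ?_
  constructor
  · intro h
    exact ⟨a, h, rfl⟩
  · rintro ⟨x, h, rfl⟩
    exact h

theorem ure_re {p : α → Prop} (hp : REPred p) : URE (K := K) (X := fun _ => α) fun _ y => p y := by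
  have h2 : RCert K fun _ (c : Cd K (fun _ => α) × α) _ => p c.2 :=
    RCert.of_re' (re_comp' hp Computable.snd)
  exact ((IsStd.rcert (K := K) α).and h2).exists

end std

theorem RCert.exists_re {C : Type} [Primcodable C] (hK : ∀ i m φ, ¬ K.Or i m φ)
    (hN : ∀ i, K.Nice i)
    {T : K.I → C → Prop} (h : RCert K fun i c _ => T i c) :
    ∃ p : ℕ × C → Prop, REPred p ∧ ∀ i a, p (K.par i, a) ↔ T i a := by
  obtain ⟨R, hR, h1, h2⟩ := h
  refine ⟨fun x => R (x.1, x.2, []), re_comp' hR (Primrec.to_comp (by fun_prop)), fun i a => ?_⟩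
  constructor
  · intro h
    exact h1 i a [] (by simp) h
  · intro h
    obtain ⟨D, hD, hr⟩ := h2 i a 0 (hN i) h
    have : D = [] := List.eq_nil_iff_forall_not_mem.2 fun φ hφ => hK _ _ _ (hD φ hφ)
    subst this
    exact hr

theorem ure_exists_re {α : Type} [Primcodable α] [hα : Rep K fun _ => α] [IsStd K α]
    (hK : ∀ i m φ, ¬ K.Or i m φ) (hN : ∀ i, K.Nice i) {T : K.I → α → Prop}
    (h : URE (X := fun _ => α) T) :
    ∃ p : ℕ × α → Prop, REPred p ∧ ∀ i a, p (K.par i, a) ↔ T i a := by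
  refine RCert.exists_re hK hN ?_
  set A := Cd K (fun _ => α)
  have h1 := (IsStd.rcert (K := K) α).compC (f := fun c : α × A => (c.2, c.1))
    (Computable.snd.pair Computable.fst)
  have h2 := RCert.compC h (f := fun c : α × A => c.2) Computable.snd
  refine RCert.of_iff' (h1.and h2).exists fun i a _ => ?_
  constructor
  · rintro ⟨c, h1, x, h2, h3⟩
    have : a = x := hα.uniq i c _ _ h1 h2
    rw [this]; exact h3
  · intro h
    obtain ⟨c, hc⟩ := hα.tot i a
    exact ⟨c, hc, a, hc, h⟩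

/-- The context with parameter `ℕ` and no oracle facts. -/
def ctx0 : Ctx where
  I := ℕ
  par e := e
  Or _ _ _ := False
  mono _ _ _ _ h _ := h
  Nice _ := True

theorem re_of_ctx0 {C : Type} [Primcodable C] {T : ℕ → C → Prop}
    (h : RCert ctx0 fun i c _ => T i c) : REPred fun x : ℕ × C => T x.1 x.2 := by
  obtain ⟨p, hp, h⟩ := RCert.exists_re (K := ctx0) (fun _ _ _ h => h) (fun _ => trivial) h
  exact hp.of_eq fun x => h x.1 x.2

theorem primrec_mem_nat : PrimrecRel fun (a : ℕ) (l : List ℕ) => a ∈ l := by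
  have : Primrec fun p : ℕ × List ℕ =>
      p.2.foldr (fun b r => Lib.Computability.eqB p.1 b || r) false := by fun_prop
  refine ⟨inferInstance, this.of_eq fun p => ?_⟩
  obtain ⟨a, l⟩ := p
  induction l with
  | nil => simp
  | cons b l ih =>
    simp only [List.foldr_cons, List.mem_cons, Bool.decide_or] at ih ⊢
    rw [ih]; rfl

/-- One derivation step. -/
def bstep (R : ℕ × ℕ × List ℕ → Prop) (e : ℕ) (L L' : List ℕ) : Prop :=
  ∃ q : ℕ × List ℕ, (L' = q.1 :: L ∧ ∀ ψ ∈ q.2, ψ ∈ L) ∧ R (e, q.1, q.2)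

theorem re_derivable {R : ℕ × ℕ × List ℕ → Prop} (hR : REPred R) :
    REPred fun x : ℕ × ℕ => ∃ L, Relation.ReflTransGen (bstep R x.1) [] L ∧ x.2 ∈ L := by
  have h1 : RCert ctx0 fun _ (c : (List ℕ × List ℕ) × (ℕ × List ℕ)) _ => c.1.2 = c.2.1 :: c.1.1 :=
    RCert.eq' (by fun_prop) (by fun_prop)
  have h2' : RCert ctx0 fun _ (c : List ℕ × ℕ) _ => c.2 ∈ c.1 :=
    RCert.of_primrec (primrec_mem_nat.comp Primrec.snd Primrec.fst)
  have h2 : RCert ctx0 fun _ (c : (List ℕ × List ℕ) × (ℕ × List ℕ)) _ => ∀ ψ ∈ c.2.2, ψ ∈ c.1.1 :=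
    (RCert.forall_mem h2').compC (f := fun c : (List ℕ × List ℕ) × (ℕ × List ℕ) => (c.1.1, c.2.2))
      (Primrec.to_comp (by fun_prop))
  have h3 : RCert ctx0 fun e (c : (List ℕ × List ℕ) × (ℕ × List ℕ)) _ => R (e, c.2.1, c.2.2) :=
    RCert.of_re (K := ctx0) (p := fun x : ℕ × (List ℕ × List ℕ) × (ℕ × List ℕ) =>
      R (x.1, x.2.2.1, x.2.2.2)) (re_comp' hR (Primrec.to_comp (by fun_prop)))
  have h4 : RCert ctx0 fun e (c : List ℕ × List ℕ) _ => bstep R e c.1 c.2 :=
    ((h1.and h2).and h3).exists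
  have h5 := (RCert.rtg (K := ctx0) (r := fun e => bstep R e) h4).compC
    (f := fun c : ℕ × List ℕ => (([] : List ℕ), c.2)) (Primrec.to_comp (by fun_prop))
  have h6 : RCert ctx0 fun _ (c : ℕ × List ℕ) _ => c.1 ∈ c.2 :=
    RCert.of_primrec (primrec_mem_nat.comp Primrec.fst Primrec.snd)
  exact re_of_ctx0 (T := fun e φ => ∃ L, Relation.ReflTransGen (bstep R e) [] L ∧ φ ∈ L)
    (h5.and h6).exists

theorem bstep_subset {R : ℕ × ℕ × List ℕ → Prop} {e : ℕ} {L L' : List ℕ}
    (h : Relation.ReflTransGen (bstep R e) L L') : ∀ φ ∈ L, φ ∈ L' := by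
  induction h with
  | refl => exact fun _ h => h
  | tail _ h ih =>
    obtain ⟨q, ⟨rfl, -⟩, -⟩ := h
    exact fun φ hφ => List.mem_cons_of_mem _ (ih φ hφ)

theorem cert_bootstrap (Tr : K.I → ℕ → Prop) (sz : ℕ → ℕ)
    (hOr : ∀ i m φ, K.Or i m φ ↔ Tr i φ ∧ sz φ ≤ m) (hsz : ∀ i φ, Tr i φ → 1 ≤ sz φ)
    (h : Cert fun i (φ : ℕ) m => Tr i φ ∧ (sz φ : ℕ∞) ≤ m + 1) :
    ∃ p : ℕ × ℕ → Prop, REPred p ∧ (∀ i φ, p (K.par i, φ) → Tr i φ) ∧
      ∀ i φ, K.Nice i → Tr i φ → p (K.par i, φ) := by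
  obtain ⟨R, hR, h1, h2⟩ := h
  refine ⟨_, re_derivable hR, fun i φ => ?_, fun i φ hN => ?_⟩
  · rintro ⟨L, hL, hφ⟩
    have : ∀ ψ ∈ L, Tr i ψ := by
      clear hφ
      induction hL with
      | refl => simp
      | tail _ h ih =>
        obtain ⟨q, ⟨rfl, hq⟩, hr⟩ := h
        intro ψ hψ
        rcases List.mem_cons.1 hψ with rfl | hψ
        · obtain ⟨x, hx, ht, -⟩ := h1 i q.1 q.2
            (fun χ hχ => ⟨sz χ, (hOr _ _ _).2 ⟨ih χ (hq χ hχ), le_rfl⟩⟩) hr
          have hx' : q.1 = x := hx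
          rw [hx']; exact ht
        · exact ih ψ hψ
    exact this φ hφ
  · intro ht
    have key : ∀ n φ, Tr i φ → sz φ ≤ n → ∀ L,
        ∃ L', Relation.ReflTransGen (bstep R (K.par i)) L L' ∧ φ ∈ L' := by
      intro n
      induction n with
      | zero => intro φ h hn; have := hsz i φ h; omega
      | succ n ih =>
        intro φ hφ hn L
        obtain ⟨D, hD, hr⟩ := h2 i φ n hN ⟨φ, rfl, hφ, by exact_mod_cast hn⟩
        have hD' : ∀ L, ∃ L', Relation.ReflTransGen (bstep R (K.par i)) L L' ∧ ∀ ψ ∈ D, ψ ∈ L' := by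
          clear hr
          induction D with
          | nil => exact fun L => ⟨L, .refl, by simp⟩
          | cons a D ihD =>
            intro L
            obtain ⟨L1, hL1, h1⟩ := ihD (fun ψ hψ => hD ψ (List.mem_cons_of_mem _ hψ)) L
            have ha := (hOr _ _ _).1 (hD a List.mem_cons_self)
            obtain ⟨L2, hL2, h2⟩ := ih a ha.1 ha.2 L1
            refine ⟨L2, hL1.trans hL2, fun ψ hψ => ?_⟩
            rcases List.mem_cons.1 hψ with rfl | hψ
            · exact h2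
            · exact bstep_subset hL2 _ (h1 ψ hψ)
        obtain ⟨L', hL', hs⟩ := hD' L
        exact ⟨φ :: L', hL'.tail ⟨(φ, D), ⟨rfl, hs⟩, hr⟩, List.mem_cons_self⟩
    exact key _ φ ht le_rfl []

theorem re_normal_form {α : Type} [Primcodable α] {p : α → Prop} (hp : REPred p) :
    ∃ c : α → ℕ → Bool, Primrec₂ c ∧ ∀ a, p a ↔ ∃ k, c a k = true := by
  obtain ⟨cd, hc⟩ := Nat.Partrec.Code.exists_code.1 hp
  refine ⟨fun a k => (Nat.Partrec.Code.evaln k cd (Encodable.encode a)).isSome, ?_, fun a => ?_⟩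
  · exact Primrec.option_isSome.comp (Nat.Partrec.Code.primrec_evaln.comp
      ((Primrec.snd.pair (Primrec.const cd)).pair (Primrec.encode.comp Primrec.fst)))
  · have h1 : (cd.eval (Encodable.encode a)).Dom ↔ p a := by
      rw [hc]; simp [Part.assert]
    rw [← h1, Part.dom_iff_mem]
    constructor
    · rintro ⟨x, hx⟩
      obtain ⟨k, hk⟩ := Nat.Partrec.Code.evaln_complete.1 hx
      exact ⟨k, Option.isSome_iff_exists.2 ⟨x, hk⟩⟩
    · rintro ⟨k, hk⟩
      obtain ⟨x, hx⟩ := Option.isSome_iff_exists.1 hk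
      exact ⟨x, Nat.Partrec.Code.evaln_sound hx⟩

theorem exists_enum' {α : Type} [Primcodable α] {p : ℕ × α → Prop} (hp : REPred p) (a₀ : α) :
    ∃ g : ℕ × ℕ → α, Computable g ∧ (∀ e, g (e, 0) = a₀) ∧
      (∀ e j, g (e, j) = a₀ ∨ p (e, g (e, j))) ∧ ∀ e a, p (e, a) → ∃ j, g (e, j) = a := by
  obtain ⟨c, hc, hpc⟩ := re_normal_form hp
  let dec : ℕ → α := fun n => (Encodable.decode (α := α) n).getD a₀
  have hdec : Primrec dec := Primrec.option_getD.comp Primrec.decode (Primrec.const a₀)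
  have hc' : Primrec fun x : (ℕ × α) × ℕ => c x.1 x.2 := hc
  refine ⟨fun x => cond (Lib.Computability.eqB x.2 0) a₀
      (cond (c (x.1, dec (x.2 - 1).unpair.1) (x.2 - 1).unpair.2) (dec (x.2 - 1).unpair.1) a₀),
    Primrec.to_comp ?_, fun e => by simp [Lib.Computability.eqB], fun e j => ?_, fun e a ha => ?_⟩
  · have h1 : Primrec fun x : ℕ × ℕ => dec (x.2 - 1).unpair.1 := hdec.comp (by fun_prop)
    have h2 : Primrec fun x : ℕ × ℕ => c (x.1, dec (x.2 - 1).unpair.1) (x.2 - 1).unpair.2 :=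
      hc.comp (Primrec.fst.pair h1) (by fun_prop)
    exact Primrec.cond (by fun_prop) (Primrec.const a₀) (Primrec.cond h2 h1 (Primrec.const a₀))
  · dsimp only
    cases Lib.Computability.eqB j 0 with
    | true => exact Or.inl rfl
    | false =>
      cases hk : c (e, dec (j - 1).unpair.1) (j - 1).unpair.2 with
      | false => exact Or.inl rfl
      | true => exact Or.inr ((hpc _).2 ⟨_, hk⟩)
  · obtain ⟨k, hk⟩ := (hpc _).1 ha
    refine ⟨Nat.pair (Encodable.encode a) k + 1, ?_⟩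
    have hd : dec (Encodable.encode a) = a := by simp [dec]
    simp [Lib.Computability.eqB, hd, hk]

end Crest.Agent.R185
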