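import Crest.Agent.Lib.Computability.FunProp
/-!
Row 185: closure properties of recursively enumerable predicates.
-/
set_option autoImplicit false

namespace Crest.Agent.R185

open Crest.Agent.Lib.Computability

variable {α β : Type*} [Primcodable α] [Primcodable β]

/-- monotone normal form -/
theorem re_normal {p : α → Prop} (hp : REPred p) :
    ∃ c : α → ℕ → Bool, Primrec (fun x : α × ℕ => c x.1 x.2) ∧
      (∀ a k k', k ≤ k' → c a k = true → c a k' = true) ∧ ∀ a, p a ↔ ∃ k, c a k = true := by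
  obtain ⟨c, hc⟩ := Nat.Partrec.Code.exists_code.1 hp
  refine ⟨fun a k => (Nat.Partrec.Code.evaln k c (Encodable.encode a)).isSome, ?_, ?_, fun a => ?_⟩
  · exact Primrec.option_isSome.comp (Nat.Partrec.Code.primrec_evaln.comp
      ((Primrec.snd.pair (Primrec.const c)).pair (Primrec.encode.comp Primrec.fst)))
  · intro a k k' hk h
    obtain ⟨x, hx⟩ := Option.isSome_iff_exists.1 h
    exact Option.isSome_iff_exists.2 ⟨x, Nat.Partrec.Code.evaln_mono hk hx⟩
  · have h1 : p a ↔ ∃ x, x ∈ c.eval (Encodable.encode a) := by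
      rw [hc]
      simp [Part.mem_assert_iff]
    rw [h1]
    simp only [Nat.Partrec.Code.evaln_complete, Option.isSome_iff_exists]
    exact ⟨fun ⟨x, k, h⟩ => ⟨k, x, h⟩, fun ⟨k, x, h⟩ => ⟨x, k, h⟩⟩

theorem re_comp {p : β → Prop} (hp : REPred p) {f : α → β} (hf : Computable f) :
    REPred fun a => p (f a) := Partrec.comp hp hf

theorem re_bool {c : α → Bool} (hc : Primrec c) : REPred fun a => c a = true :=
  (re_exists (c := fun a (_ : ℕ) => c a) (hc.comp Primrec.fst)).of_eq fun _ => by simp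

theorem re_eq {f g : α → β} (hf : Primrec f) (hg : Primrec g) : REPred fun a => f a = g a := by
  classical
  exact (re_bool (fp_eqB hf hg)).of_eq fun _ => eqB_iff

theorem re_and {p q : α → Prop} (hp : REPred p) (hq : REPred q) : REPred fun a => p a ∧ q a := by
  obtain ⟨c, hc, -, hc'⟩ := re_normal hp
  obtain ⟨d, hd, -, hd'⟩ := re_normal hq
  refine (re_exists (c := fun a (k : ℕ × ℕ) => c a k.1 && d a k.2) (fp_and
    (hc.comp (g := fun x : α × ℕ × ℕ => (x.1, x.2.1)) (by fun_prop))
    (hd.comp (g := fun x : α × ℕ × ℕ => (x.1, x.2.2)) (by fun_prop)))).of_eq fun a => ?_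
  simp [hc', hd']

theorem re_or {p q : α → Prop} (hp : REPred p) (hq : REPred q) : REPred fun a => p a ∨ q a := by
  obtain ⟨c, hc, -, hc'⟩ := re_normal hp
  obtain ⟨d, hd, -, hd'⟩ := re_normal hq
  refine (re_exists (c := fun a (k : ℕ) => c a k || d a k) (fp_or hc hd)).of_eq fun a => ?_
  simp [hc', hd', exists_or]

theorem re_ex {p : α × β → Prop} (hp : REPred p) : REPred fun a => ∃ b, p (a, b) := by
  obtain ⟨c, hc, -, hc'⟩ := re_normal hp
  refine (re_exists (c := fun a (k : β × ℕ) => c (a, k.1) k.2)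
    (hc.comp (g := fun x : α × β × ℕ => ((x.1, x.2.1), x.2.2)) (by fun_prop))).of_eq fun a => ?_
  simp [hc']

theorem re_forall_mem {p : α × β → Prop} (hp : REPred p) :
    REPred fun x : α × List β => ∀ b ∈ x.2, p (x.1, b) := by
  obtain ⟨c, hc, hm, hc'⟩ := re_normal hp
  refine (re_exists (c := fun (x : α × List β) (k : ℕ) =>
    x.2.foldr (fun b s => c (x.1, b) k && s) true) (fp_foldr (by fun_prop) (by fun_prop)
      (fp_and (hc.comp (g := fun x : ((α × List β) × ℕ) × β × Bool => ((x.1.1.1, x.2.1), x.1.2))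
        (by fun_prop)) (by fun_prop)))).of_eq ?_
  rintro ⟨a, l⟩
  induction l with
  | nil => simp
  | cons b l ih =>
    simp only [List.foldr_cons, Bool.and_eq_true, List.forall_mem_cons] at ih ⊢
    have mono : ∀ (l : List β) k k', k ≤ k' → l.foldr (fun b s => c (a, b) k && s) true = true →
        l.foldr (fun b s => c (a, b) k' && s) true = true := by
      intro l k k' hk
      induction l with
      | nil => exact id
      | cons b l ih =>
        simp only [List.foldr_cons, Bool.and_eq_true]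
        exact fun h => ⟨hm _ _ _ hk h.1, ih h.2⟩
    constructor
    · rintro ⟨k, h1, h2⟩
      exact ⟨(hc' _).2 ⟨k, h1⟩, ih.1 ⟨k, h2⟩⟩
    · rintro ⟨h1, h2⟩
      obtain ⟨k, hk⟩ := (hc' _).1 h1
      obtain ⟨k', hk'⟩ := ih.2 h2
      exact ⟨max k k', hm _ _ _ (le_max_left _ _) hk, mono _ _ _ (le_max_right _ _) hk'⟩

theorem re_mem : REPred fun x : List α × α => x.2 ∈ x.1 := by
  classical
  refine (re_bool (c := fun x : List α × α => x.1.foldr (fun b s => eqB x.2 b || s) false)
    (by fun_prop)).of_eq ?_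
  rintro ⟨l, a⟩
  induction l with
  | nil => simp
  | cons b l ih =>
    simp only [List.foldr_cons, Bool.or_eq_true, eqB_iff, List.mem_cons] at ih ⊢
    rw [ih]

theorem re_subset : REPred fun x : List α × List α => ∀ b ∈ x.2, b ∈ x.1 :=
  re_forall_mem (p := fun x : List α × α => x.2 ∈ x.1) re_mem

/-- a chain as a list of linked pairs -/
theorem rtg_iff {γ : Type*} [DecidableEq γ] (r : γ → γ → Prop) (a b : γ) :
    Relation.ReflTransGen r a b ↔ ∃ l : List (γ × γ), (∀ p ∈ l, r p.1 p.2) ∧
      l.foldr (fun p (s : γ × Bool) => (p.1, s.2 && eqB p.2 s.1)) (b, true) = (a, true) := by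
  constructor
  · intro h
    induction h using Relation.ReflTransGen.head_induction_on with
    | refl => exact ⟨[], by simp, rfl⟩
    | @head a c h1 _ ih =>
      obtain ⟨l, hl, he⟩ := ih
      refine ⟨(a, c) :: l, List.forall_mem_cons.2 ⟨h1, hl⟩, ?_⟩
      rw [List.foldr_cons, he]
      simp
  · rintro ⟨l, hl, he⟩
    induction l generalizing a with
    | nil =>
      cases he
      exact .refl
    | cons p l ih =>
      rw [List.foldr_cons, Prod.mk.injEq, Bool.and_eq_true, eqB_iff] at he
      obtain ⟨rfl, h2, h3⟩ := he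
      rw [List.forall_mem_cons] at hl
      exact .head hl.1 (ih _ hl.2 (Prod.ext h3.symm h2))

theorem forall₂_append_left {γ δ : Type*} {R : γ → δ → Prop} {l₁ l₂ : List γ} {x : List δ}
    (h : List.Forall₂ R (l₁ ++ l₂) x) :
    ∃ x₁ x₂, x = x₁ ++ x₂ ∧ List.Forall₂ R l₁ x₁ ∧ List.Forall₂ R l₂ x₂ := by
  induction l₁ generalizing x with
  | nil => exact ⟨[], x, rfl, .nil, h⟩
  | cons a l ih =>
    cases h with
    | cons h1 h2 =>
      obtain ⟨x₁, x₂, rfl, h3, h4⟩ := ih h2
      exact ⟨_ :: x₁, x₂, rfl, .cons h1 h3, h4⟩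

end Crest.Agent.R185
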