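import Crest.Agent.R185.SplitDef
import Crest.Agent.Lib.Computability.FunProp
import Crest.Agent.R185.REBase
/-!
Row 185: uniform recursive enumerability relative to an oracle of negative facts.

`K : Ctx` is a family of models `i : K.I` with a parameter `K.par i : ℕ` and an oracle
`K.Or i m φ` ("the fact `φ` is true in the model `i` and has size `≤ m`").
`Rep K X` represents the elements of a family of types by codes.
`Cert P` (for `P i x m`, `m : ℕ∞`) says: there is one r.e. relation `R (par i, code, D)` between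
codes and finite lists `D` of facts that is *sound* for `P i x ⊤` (when all facts of `D` are true)
and *complete* for `P i x m` using only facts of size `≤ m`.
`URE T` is the case without size restriction, `Trk f` says that the graph of `f` is `URE`.
-/
set_option autoImplicit false
open Set

namespace Crest.Agent.R185

structure Ctx where
  I : Type
  par : I → ℕ
  Or : I → ℕ → ℕ → Prop
  mono : ∀ i m m' φ, Or i m φ → m ≤ m' → Or i m' φ
  /-- completeness is only required in nice models -/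
  Nice : I → Prop

def RCert (K : Ctx) {C : Type} [Primcodable C] (P : K.I → C → ℕ∞ → Prop) : Prop :=
  ∃ R : ℕ × C × List ℕ → Prop, REPred R ∧
    (∀ i c D, (∀ φ ∈ D, ∃ m, K.Or i m φ) → R (K.par i, c, D) → P i c ⊤) ∧
    (∀ i c (m : ℕ), K.Nice i → P i c m → ∃ D, (∀ φ ∈ D, K.Or i m φ) ∧ R (K.par i, c, D))

/-- A representation of a family of types by codes, with r.e. equality. -/
class Rep (K : Ctx) (X : K.I → Type) where
  C : Type
  [pc : Primcodable C]
  rep : ∀ i, C → X i → Prop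
  uniq : ∀ i c x y, rep i c x → rep i c y → x = y
  tot : ∀ i x, ∃ c, rep i c x
  eq : RCert K fun i (c : C × C) _ => ∃ x, rep i c.1 x ∧ rep i c.2 x

attribute [reducible, instance] Rep.pc

/-- The type of codes. -/
abbrev Cd (K : Ctx) (X : K.I → Type) [h : Rep K X] : Type := h.C

variable {K : Ctx}

def Cert {X : K.I → Type} [Rep K X] (P : ∀ i, X i → ℕ∞ → Prop) : Prop :=
  RCert K fun i (c : Cd K X) m => ∃ x, Rep.rep i c x ∧ P i x m

abbrev URE {X : K.I → Type} [Rep K X] (T : ∀ i, X i → Prop) : Prop := Cert fun i x _ => T i x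

/-! ### closure properties of `RCert` -/

section raw
variable {C C' : Type} [Primcodable C] [Primcodable C']

theorem RCert.mono' {P Q : K.I → C → ℕ∞ → Prop} (h : RCert K P) (hs : ∀ i c, P i c ⊤ → Q i c ⊤)
    (hc : ∀ i c (m : ℕ), K.Nice i → Q i c m → P i c m) : RCert K Q := by
  obtain ⟨R, hR, h1, h2⟩ := h
  exact ⟨R, hR, fun i c D hD hr => hs _ _ (h1 i c D hD hr),
    fun i c m hN hq => h2 i c m hN (hc _ _ _ hN hq)⟩

theorem RCert.mono {P Q : K.I → C → ℕ∞ → Prop} (h : RCert K P) (hs : ∀ i c, P i c ⊤ → Q i c ⊤)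
    (hc : ∀ i c (m : ℕ), Q i c m → P i c m) : RCert K Q :=
  h.mono' hs fun i c m _ => hc i c m

/-- The relation can be taken monotone in the list of facts. -/
theorem RCert.normal {P : K.I → C → ℕ∞ → Prop} (h : RCert K P) :
    ∃ R : ℕ × C × List ℕ → Prop, REPred R ∧
      (∀ n c D D', (∀ φ ∈ D, φ ∈ D') → R (n, c, D) → R (n, c, D')) ∧
      (∀ i c D, (∀ φ ∈ D, ∃ m, K.Or i m φ) → R (K.par i, c, D) → P i c ⊤) ∧
      (∀ i c (m : ℕ), K.Nice i → P i c m → ∃ D, (∀ φ ∈ D, K.Or i m φ) ∧ R (K.par i, c, D)) := by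
  obtain ⟨R, hR, h1, h2⟩ := h
  refine ⟨fun x => ∃ D' : List ℕ, (∀ φ ∈ D', φ ∈ x.2.2) ∧ R (x.1, x.2.1, D'), ?_, ?_, ?_, ?_⟩
  · refine re_ex (p := fun y : (ℕ × C × List ℕ) × List ℕ =>
      (∀ φ ∈ y.2, φ ∈ y.1.2.2) ∧ R (y.1.1, y.1.2.1, y.2)) (re_and ?_ ?_)
    · exact re_comp re_subset (f := fun y : (ℕ × C × List ℕ) × List ℕ => (y.1.2.2, y.2))
        (Primrec.to_comp (by fun_prop))
    · exact re_comp hR (Primrec.to_comp (by fun_prop))
  · rintro n c D D' hD ⟨E, hE, hr⟩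
    exact ⟨E, fun φ hφ => hD φ (hE φ hφ), hr⟩
  · rintro i c D hD ⟨E, hE, hr⟩
    exact h1 i c E (fun φ hφ => hD φ (hE φ hφ)) hr
  · intro i c m hN hp
    obtain ⟨D, hD, hr⟩ := h2 i c m hN hp
    exact ⟨D, hD, D, fun _ h => h, hr⟩

theorem RCert.of_re {p : ℕ × C → Prop} (hp : REPred p) :
    RCert K fun i (c : C) _ => p (K.par i, c) :=
  ⟨fun x => p (x.1, x.2.1), re_comp hp (Primrec.to_comp (by fun_prop)), fun _ _ _ _ h => h,
    fun _ _ _ _ h => ⟨[], by simp, h⟩⟩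

theorem RCert.and {P Q : K.I → C → ℕ∞ → Prop} (hP : RCert K P) (hQ : RCert K Q) :
    RCert K fun i c m => P i c m ∧ Q i c m := by
  obtain ⟨R, hR, hm, h1, h2⟩ := hP.normal
  obtain ⟨S, hS, km, k1, k2⟩ := hQ.normal
  refine ⟨fun x => R x ∧ S x, re_and hR hS,
    fun i c D hD h => ⟨h1 i c D hD h.1, k1 i c D hD h.2⟩, fun i c m hN h => ?_⟩
  obtain ⟨D, hD, hr⟩ := h2 i c m hN h.1
  obtain ⟨E, hE, hs⟩ := k2 i c m hN h.2
  refine ⟨D ++ E, fun φ hφ => (List.mem_append.1 hφ).elim (hD φ) (hE φ),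
    hm _ _ _ _ (fun _ => List.mem_append_left _) hr,
    km _ _ _ _ (fun _ => List.mem_append_right _) hs⟩

theorem RCert.or {P Q : K.I → C → ℕ∞ → Prop} (hP : RCert K P) (hQ : RCert K Q) :
    RCert K fun i c m => P i c m ∨ Q i c m := by
  obtain ⟨R, hR, h1, h2⟩ := hP
  obtain ⟨S, hS, k1, k2⟩ := hQ
  refine ⟨fun x => R x ∨ S x, re_or hR hS,
    fun i c D hD h => h.imp (h1 i c D hD) (k1 i c D hD), fun i c m hN h => ?_⟩
  rcases h with h | h
  · obtain ⟨D, hD, hr⟩ := h2 i c m hN h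
    exact ⟨D, hD, .inl hr⟩
  · obtain ⟨D, hD, hr⟩ := k2 i c m hN h
    exact ⟨D, hD, .inr hr⟩

theorem RCert.exists {P : K.I → C × C' → ℕ∞ → Prop} (hP : RCert K P) :
    RCert K fun i c m => ∃ c', P i (c, c') m := by
  obtain ⟨R, hR, h1, h2⟩ := hP
  refine ⟨fun x => ∃ c' : C', R (x.1, (x.2.1, c'), x.2.2),
    re_ex (p := fun y : (ℕ × C × List ℕ) × C' => R (y.1.1, (y.1.2.1, y.2), y.1.2.2))
      (re_comp hR (Primrec.to_comp (by fun_prop))),
    fun i c D hD ⟨c', h⟩ => ⟨c', h1 i _ D hD h⟩, fun i c m hN ⟨c', h⟩ => ?_⟩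
  obtain ⟨D, hD, hr⟩ := h2 i _ m hN h
  exact ⟨D, hD, c', hr⟩

theorem RCert.comp {P : K.I → C → ℕ∞ → Prop} (hP : RCert K P) {f : ℕ × C' → C}
    (hf : Computable f) : RCert K fun i c m => P i (f (K.par i, c)) m := by
  obtain ⟨R, hR, h1, h2⟩ := hP
  exact ⟨fun x => R (x.1, f (x.1, x.2.1), x.2.2),
    re_comp hR (Computable.fst.pair ((hf.comp (Computable.fst.pair
      (Computable.fst.comp Computable.snd))).pair (Computable.snd.comp Computable.snd))),
    fun i c D hD h => h1 i _ D hD h, fun i c m hN h => h2 i _ m hN h⟩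

theorem RCert.comp' {P : K.I → C → ℕ∞ → Prop} (hP : RCert K P) {f : C' → C}
    (hf : Primrec f) : RCert K fun i c m => P i (f c) m :=
  hP.comp (f := fun x => f x.2) (hf.comp Primrec.snd).to_comp

theorem RCert.of_eq {f g : C → C'} (hf : Primrec f) (hg : Primrec g) :
    RCert K fun _ (c : C) _ => f c = g c :=
  RCert.of_re (p := fun x : ℕ × C => f x.2 = g x.2)
    (re_eq (hf.comp Primrec.snd) (hg.comp Primrec.snd))

theorem RCert.forall_mem {P : K.I → C × C' → ℕ∞ → Prop} (hP : RCert K P) :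
    RCert K fun i (c : C × List C') m => ∀ c' ∈ c.2, P i (c.1, c') m := by
  obtain ⟨R, hR, hm, h1, h2⟩ := hP.normal
  refine ⟨fun x => ∀ c' ∈ x.2.1.2, R (x.1, (x.2.1.1, c'), x.2.2), ?_,
    fun i c D hD h c' hc' => h1 i _ D hD (h c' hc'), ?_⟩
  · exact re_comp (re_forall_mem (p := fun y : (ℕ × C × List ℕ) × C' =>
      R (y.1.1, (y.1.2.1, y.2), y.1.2.2)) (re_comp hR (Primrec.to_comp (by fun_prop))))
      (f := fun x : ℕ × (C × List C') × List ℕ => ((x.1, x.2.1.1, x.2.2), x.2.1.2))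
      (Primrec.to_comp (by fun_prop))
  · rintro i ⟨c, l⟩ m hN h
    induction l with
    | nil => exact ⟨[], by simp, by simp⟩
    | cons a l ih =>
      rw [List.forall_mem_cons] at h
      obtain ⟨D, hD, hr⟩ := h2 i _ m hN h.1
      obtain ⟨E, hE, hs⟩ := ih h.2
      refine ⟨D ++ E, fun φ hφ => (List.mem_append.1 hφ).elim (hD φ) (hE φ),
        List.forall_mem_cons.2 ⟨hm _ _ _ _ (fun _ => List.mem_append_left _) hr, fun c' hc' =>
          hm _ _ _ _ (fun _ => List.mem_append_right _) (hs c' hc')⟩⟩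

theorem RCert.oracle : RCert K fun i (φ : ℕ) m => ∃ m₀ : ℕ, (m₀ : ℕ∞) ≤ m ∧ K.Or i m₀ φ := by
  refine ⟨fun x => x.2.1 ∈ x.2.2, re_comp re_mem (f := fun x : ℕ × ℕ × List ℕ => (x.2.2, x.2.1))
    (Primrec.to_comp (by fun_prop)), fun i φ D hD h => ?_, fun i φ m _ ⟨m₀, hm, h⟩ => ?_⟩
  · obtain ⟨m, hm⟩ := hD φ h
    exact ⟨m, le_top, hm⟩
  · exact ⟨[φ], by simpa using K.mono i _ _ _ h (Nat.cast_le.1 hm), by simp⟩

theorem RCert.rtg {r : K.I → C → C → Prop} (h : RCert K fun i (c : C × C) _ => r i c.1 c.2) :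
    RCert K fun i (c : C × C) _ => Relation.ReflTransGen (r i) c.1 c.2 := by
  classical
  have h1 := (h.comp' (f := fun x : (C × C) × C × C => x.2) (by fun_prop)).forall_mem
  have h2 : RCert K fun _ (c : (C × C) × List (C × C)) _ =>
      c.2.foldr (fun p (s : C × Bool) => (p.1, s.2 && Lib.Computability.eqB p.2 s.1))
        (c.1.2, true) = (c.1.1, true) := RCert.of_eq (by fun_prop) (by fun_prop)
  exact (h1.and h2).exists.mono (fun i c hc => (rtg_iff _ _ _).2 hc)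
    fun i c _ hc => (rtg_iff _ _ _).1 hc

end raw

theorem RCert.const_eq (α : Type) [Primcodable α] :
    RCert K fun _ (c : α × α) _ => ∃ x, c.1 = x ∧ c.2 = x :=
  (RCert.of_eq Primrec.fst Primrec.snd).mono (fun _ _ h => ⟨_, h, rfl⟩)
    fun _ _ _ ⟨_, h, h'⟩ => h.trans h'.symm

/-- equality of the represented elements -/
theorem RCert.eqv (X : K.I → Type) [Rep K X] {C : Type} [Primcodable C] {f g : C → Cd K X}
    (hf : Primrec f) (hg : Primrec g) :
    RCert K fun i (c : C) _ => ∃ x : X i, Rep.rep i (f c) x ∧ Rep.rep i (g c) x :=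
  (Rep.eq (K := K) (X := X)).comp' (hf.pair hg)

theorem RCert.prod_eq {X Y : K.I → Type} [Rep K X] [Rep K Y] :
    RCert K fun i (c : (Cd K X × Cd K Y) × (Cd K X × Cd K Y)) _ => ∃ x : X i × Y i,
      (Rep.rep i c.1.1 x.1 ∧ Rep.rep i c.1.2 x.2) ∧ (Rep.rep i c.2.1 x.1 ∧ Rep.rep i c.2.2 x.2) :=
  ((RCert.eqv X (f := fun c : (Cd K X × Cd K Y) × (Cd K X × Cd K Y) => c.1.1) (g := fun c => c.2.1)
    (by fun_prop) (by fun_prop)).and
    (RCert.eqv Y (f := fun c => c.1.2) (g := fun c => c.2.2) (by fun_prop) (by fun_prop))).mono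
    (fun _ _ ⟨⟨x, h1, h2⟩, y, h3, h4⟩ => ⟨(x, y), ⟨h1, h3⟩, h2, h4⟩)
    fun _ _ _ ⟨x, ⟨h1, h3⟩, h2, h4⟩ => ⟨⟨x.1, h1, h2⟩, x.2, h3, h4⟩

theorem RCert.list_eq {X : K.I → Type} [Rep K X] :
    RCert K fun i (c : List (Cd K X) × List (Cd K X)) _ => ∃ x : List (X i),
      List.Forall₂ (Rep.rep i) c.1 x ∧ List.Forall₂ (Rep.rep i) c.2 x := by
  have h1 := (RCert.eqv X (f := fun x : (List (Cd K X) × List (Cd K X)) × Cd K X × Cd K X => x.2.1)
    (g := fun x => x.2.2) (by fun_prop) (by fun_prop)).forall_mem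
  have h2 : RCert K fun _ (c : (List (Cd K X) × List (Cd K X)) × List (Cd K X × Cd K X)) _ =>
      (c.2.map fun p => p.1, c.2.map fun p => p.2) = c.1 :=
    RCert.of_eq (by fun_prop) (by fun_prop)
  have key : ∀ i (c : List (Cd K X) × List (Cd K X)),
      (∃ l : List (Cd K X × Cd K X), (∀ p ∈ l, ∃ x : X i, Rep.rep i p.1 x ∧ Rep.rep i p.2 x) ∧
        (l.map fun p => p.1, l.map fun p => p.2) = c) ↔
      ∃ x : List (X i), List.Forall₂ (Rep.rep i) c.1 x ∧ List.Forall₂ (Rep.rep i) c.2 x := by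
    rintro i ⟨c, d⟩
    constructor
    · rintro ⟨l, hl, he⟩
      cases he
      induction l with
      | nil => exact ⟨[], .nil, .nil⟩
      | cons p l ih =>
        rw [List.forall_mem_cons] at hl
        obtain ⟨x, hx, hx'⟩ := hl.1
        obtain ⟨y, hy, hy'⟩ := ih hl.2
        exact ⟨x :: y, .cons hx hy, .cons hx' hy'⟩
    · rintro ⟨x, hc, hd⟩
      dsimp only at hc hd
      induction hc generalizing d with
      | nil =>
        cases hd
        exact ⟨[], by simp, rfl⟩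
      | @cons a y c x ha _ ih =>
        cases hd with
        | @cons b _ d _ hb hd =>
          obtain ⟨l, hl, he⟩ := ih d hd
          cases he
          exact ⟨(a, b) :: l, List.forall_mem_cons.2 ⟨⟨y, ha, hb⟩, hl⟩, rfl⟩
  exact (h1.and h2).exists.mono (fun i c hc => (key i c).1 hc) fun i c _ hc => (key i c).2 hc

theorem RCert.sum_eq {X Y : K.I → Type} [Rep K X] [Rep K Y] :
    RCert K fun i (c : (Cd K X ⊕ Cd K Y) × (Cd K X ⊕ Cd K Y)) _ => ∃ x : X i ⊕ Y i,
      Sum.LiftRel (Rep.rep i) (Rep.rep i) c.1 x ∧ Sum.LiftRel (Rep.rep i) (Rep.rep i) c.2 x := by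
  have h1 := RCert.eqv X
    (f := fun x : ((Cd K X ⊕ Cd K Y) × (Cd K X ⊕ Cd K Y)) × Cd K X × Cd K X => x.2.1)
    (g := fun x => x.2.2) (by fun_prop) (by fun_prop)
  have h2 : RCert K fun _ (c : ((Cd K X ⊕ Cd K Y) × (Cd K X ⊕ Cd K Y)) × Cd K X × Cd K X) _ =>
      (Sum.inl c.2.1, Sum.inl c.2.2) = c.1 :=
    RCert.of_eq ((Primrec.sumInl.comp (by fun_prop)).pair (Primrec.sumInl.comp (by fun_prop)))
      (by fun_prop)
  have h3 := RCert.eqv Y
    (f := fun x : ((Cd K X ⊕ Cd K Y) × (Cd K X ⊕ Cd K Y)) × Cd K Y × Cd K Y => x.2.1)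
    (g := fun x => x.2.2) (by fun_prop) (by fun_prop)
  have h4 : RCert K fun _ (c : ((Cd K X ⊕ Cd K Y) × (Cd K X ⊕ Cd K Y)) × Cd K Y × Cd K Y) _ =>
      (Sum.inr c.2.1, Sum.inr c.2.2) = c.1 :=
    RCert.of_eq ((Primrec.sumInr.comp (by fun_prop)).pair (Primrec.sumInr.comp (by fun_prop)))
      (by fun_prop)
  refine ((h1.and h2).exists.or (h3.and h4).exists).mono ?_ ?_
  · rintro i c (⟨p, ⟨x, hx, hx'⟩, he⟩ | ⟨p, ⟨x, hx, hx'⟩, he⟩)
    · obtain rfl : (Sum.inl p.1, Sum.inl p.2) = c := he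
      exact ⟨.inl x, .inl hx, .inl hx'⟩
    · obtain rfl : (Sum.inr p.1, Sum.inr p.2) = c := he
      exact ⟨.inr x, .inr hx, .inr hx'⟩
  · rintro i ⟨c, d⟩ _ ⟨x, hc, hd⟩
    cases hc with
    | inl hc => cases hd with
      | inl hd => exact .inl ⟨(_, _), ⟨_, hc, hd⟩, rfl⟩
    | inr hc => cases hd with
      | inr hd => exact .inr ⟨(_, _), ⟨_, hc, hd⟩, rfl⟩

instance (priority := low) Rep.const (α : Type) [Primcodable α] : Rep K fun _ => α where
  C := α
  rep _ c x := c = x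
  uniq _ _ _ _ h h' := h.symm.trans h'
  tot _ x := ⟨x, rfl⟩
  eq := RCert.const_eq α

instance Rep.prod {X Y : K.I → Type} [Rep K X] [Rep K Y] : Rep K fun i => X i × Y i where
  C := Cd K X × Cd K Y
  rep i c x := Rep.rep i c.1 x.1 ∧ Rep.rep i c.2 x.2
  uniq i _ _ _ h h' := Prod.ext (Rep.uniq i _ _ _ h.1 h'.1) (Rep.uniq i _ _ _ h.2 h'.2)
  tot i x := let ⟨a, ha⟩ := Rep.tot i x.1; let ⟨b, hb⟩ := Rep.tot i x.2; ⟨(a, b), ha, hb⟩
  eq := RCert.prod_eq

instance Rep.list {X : K.I → Type} [Rep K X] : Rep K fun i => List (X i) where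
  C := List (Cd K X)
  rep i c x := List.Forall₂ (Rep.rep i) c x
  uniq i c x y h h' := by
    induction h generalizing y with
    | nil => cases h'; rfl
    | cons h1 _ ih => cases h' with
      | cons h2 h3 => rw [Rep.uniq i _ _ _ h1 h2, ih _ h3]
  tot i x := by
    induction x with
    | nil => exact ⟨[], .nil⟩
    | cons a x ih =>
      obtain ⟨c, hc⟩ := Rep.tot i a
      obtain ⟨l, hl⟩ := ih
      exact ⟨c :: l, .cons hc hl⟩
  eq := RCert.list_eq

instance Rep.sum {X Y : K.I → Type} [Rep K X] [Rep K Y] : Rep K fun i => X i ⊕ Y i where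
  C := Cd K X ⊕ Cd K Y
  rep i c x := Sum.LiftRel (Rep.rep i) (Rep.rep i) c x
  uniq i c x y h h' := by
    cases h with
    | inl h => cases h' with
      | inl h' => rw [Rep.uniq i _ _ _ h h']
    | inr h => cases h' with
      | inr h' => rw [Rep.uniq i _ _ _ h h']
  tot i x := by
    cases x with
    | inl a => obtain ⟨c, hc⟩ := Rep.tot i a; exact ⟨.inl c, .inl hc⟩
    | inr a => obtain ⟨c, hc⟩ := Rep.tot i a; exact ⟨.inr c, .inr hc⟩
  eq := RCert.sum_eq

def Trk {X Y : K.I → Type} [Rep K X] [Rep K Y] (f : ∀ i, X i → Y i) : Prop :=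
  URE fun i (p : X i × Y i) => f i p.1 = p.2

theorem ofSurj_eq {X Y : K.I → Type} [Rep K X] (f : ∀ i, X i → Y i)
    (h : URE fun i (p : X i × X i) => f i p.1 = f i p.2) :
    RCert K fun i (c : Cd K X × Cd K X) _ => ∃ y : Y i,
      (∃ x, Rep.rep i c.1 x ∧ f i x = y) ∧ (∃ x, Rep.rep i c.2 x ∧ f i x = y) :=
  RCert.mono h (fun _ _ ⟨x, ⟨h1, h2⟩, h3⟩ => ⟨_, ⟨x.1, h1, h3⟩, x.2, h2, rfl⟩)
    fun _ _ _ ⟨_, ⟨x, h1, h3⟩, y, h2, h4⟩ => ⟨(x, y), ⟨h1, h2⟩, h3.trans h4.symm⟩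

/-- Representation of a quotient. -/
@[reducible] def Rep.ofSurj {X Y : K.I → Type} [Rep K X] (f : ∀ i, X i → Y i)
    (hf : ∀ i, Function.Surjective (f i))
    (h : URE fun i (p : X i × X i) => f i p.1 = f i p.2) : Rep K Y where
  C := Cd K X
  rep i c y := ∃ x, Rep.rep i c x ∧ f i x = y
  uniq i _ _ _ := by
    rintro ⟨x, hx, rfl⟩ ⟨y, hy, rfl⟩
    rw [Rep.uniq i _ _ _ hx hy]
  tot i y := by
    obtain ⟨x, rfl⟩ := hf i y
    obtain ⟨c, hc⟩ := Rep.tot i x
    exact ⟨c, x, hc, rfl⟩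
  eq := ofSurj_eq f h

theorem ofInj_eq {X Y : K.I → Type} [Rep K X] (f : ∀ i, Y i → X i)
    (h : URE fun i (x : X i) => ∃ y, f i y = x) :
    RCert K fun i (c : Cd K X × Cd K X) _ => ∃ y : Y i,
      Rep.rep i c.1 (f i y) ∧ Rep.rep i c.2 (f i y) := by
  refine ((Rep.eq (K := K) (X := X)).and (RCert.comp' h Primrec.fst)).mono ?_ ?_
  · rintro i c ⟨⟨x, h1, h2⟩, x', h3, y, rfl⟩
    obtain rfl := Rep.uniq i _ _ _ h1 h3
    exact ⟨y, h1, h2⟩
  · rintro i c _ ⟨y, h1, h2⟩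
    exact ⟨⟨_, h1, h2⟩, _, h1, y, rfl⟩

/-- Representation of a subobject. -/
@[reducible] def Rep.ofInj {X Y : K.I → Type} [Rep K X] (f : ∀ i, Y i → X i)
    (hf : ∀ i, Function.Injective (f i)) (h : URE fun i (x : X i) => ∃ y, f i y = x) :
    Rep K Y where
  C := Cd K X
  rep i c y := Rep.rep i c (f i y)
  uniq i _ _ _ h h' := hf i (Rep.uniq i _ _ _ h h')
  tot i y := Rep.tot i (f i y)
  eq := ofInj_eq f h

theorem ure_true' {X : K.I → Type} [Rep K X] {P : ∀ i, X i → Prop} (h : ∀ i x, P i x) :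
    URE P :=
  (RCert.eqv X Primrec.id Primrec.id).mono (fun i _ ⟨x, hx, _⟩ => ⟨x, hx, h i x⟩)
    fun _ _ _ ⟨x, hx, _⟩ => ⟨x, hx, hx⟩

theorem ure_freeGroup_step {X : K.I → Type} [Rep K X] :
    RCert K fun i (c : List (Cd K X × Bool) × List (Cd K X × Bool)) _ =>
      ∃ x y : List (X i × Bool), Rep.rep (X := fun i => List (X i × Bool)) i c.1 x ∧
        Rep.rep (X := fun i => List (X i × Bool)) i c.2 y ∧ FreeGroup.Red.Step x y := by
  have h1 := RCert.eqv (K := K) (fun i => List (X i × Bool))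
    (f := fun x : (List (Cd K X × Bool) × List (Cd K X × Bool)) ×
      (List (Cd K X × Bool) × List (Cd K X × Bool)) × Cd K X × Bool => x.1.1)
    (g := fun x => x.2.1.1 ++ (x.2.2.1, x.2.2.2) :: (x.2.2.1, !x.2.2.2) :: x.2.1.2)
    (by fun_prop) (by fun_prop)
  have h2 := RCert.eqv (K := K) (fun i => List (X i × Bool))
    (f := fun x : (List (Cd K X × Bool) × List (Cd K X × Bool)) ×
      (List (Cd K X × Bool) × List (Cd K X × Bool)) × Cd K X × Bool => x.1.2)
    (g := fun x => x.2.1.1 ++ x.2.1.2) (by fun_prop) (by fun_prop)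
  refine (h1.and h2).exists.mono ?_ ?_
  · rintro i c ⟨⟨⟨l₁, l₂⟩, a, b⟩, ⟨x, hx, hx'⟩, y, hy, hy'⟩
    obtain ⟨x₁, x₂, rfl, k1, k2⟩ := forall₂_append_left hx'
    cases k2 with
    | @cons _ u _ _ hu k2 =>
      cases k2 with
      | @cons _ v _ x₂ hv k2 =>
        obtain ⟨u, _⟩ := u
        obtain ⟨v, _⟩ := v
        obtain ⟨hu, rfl⟩ := hu
        obtain ⟨hv, rfl⟩ := hv
        obtain rfl := Rep.uniq i _ _ _ hu hv
        obtain rfl := Rep.uniq (X := fun i => List (X i × Bool)) i _ _ _ hy' (List.rel_append k1 k2)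
        exact ⟨_, _, hx, hy, FreeGroup.Red.Step.not⟩
  · rintro i c _ ⟨x, y, hx, hy, hs⟩
    cases hs with
    | @not x₁ x₂ u b =>
      obtain ⟨l₁, k1⟩ := Rep.tot (K := K) (X := fun i => List (X i × Bool)) i x₁
      obtain ⟨l₂, k2⟩ := Rep.tot (K := K) (X := fun i => List (X i × Bool)) i x₂
      obtain ⟨a, ha⟩ := Rep.tot (K := K) i u
      exact ⟨((l₁, l₂), a, b), ⟨_, hx, List.rel_append k1 (.cons ⟨ha, rfl⟩ (.cons ⟨ha, rfl⟩ k2))⟩,
        _, hy, List.rel_append k1 k2⟩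

/-- the equivalence relation generated by an r.e. relation is r.e. -/
theorem ure_eqvGen {X : K.I → Type} [Rep K X] {s : ∀ i, X i → X i → Prop}
    (h : RCert K fun i (c : Cd K X × Cd K X) _ =>
      ∃ x y : X i, Rep.rep i c.1 x ∧ Rep.rep i c.2 y ∧ s i x y) :
    URE fun i (p : X i × X i) => Relation.EqvGen (s i) p.1 p.2 := by
  let r : ∀ i, Cd K X → Cd K X → Prop := fun i c d =>
    ∃ x y : X i, Rep.rep i c x ∧ Rep.rep i d y ∧ (s i x y ∨ s i y x ∨ x = y)
  have hr : RCert K fun i (c : Cd K X × Cd K X) _ => r i c.1 c.2 := by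
    refine (h.or ((h.comp' (f := fun c : Cd K X × Cd K X => (c.2, c.1)) (by fun_prop)).or
      (Rep.eq (K := K) (X := X)))).mono ?_ ?_
    · rintro i c (⟨x, y, hx, hy, h⟩ | ⟨y, x, hy, hx, h⟩ | ⟨x, hx, hy⟩)
      · exact ⟨x, y, hx, hy, .inl h⟩
      · exact ⟨x, y, hx, hy, .inr (.inl h)⟩
      · exact ⟨x, x, hx, hy, .inr (.inr rfl)⟩
    · rintro i c _ ⟨x, y, hx, hy, h | h | rfl⟩
      · exact .inl ⟨x, y, hx, hy, h⟩
      · exact .inr (.inl ⟨y, x, hy, hx, h⟩)
      · exact .inr (.inr ⟨x, hx, hy⟩)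
  refine ((RCert.eqv X Primrec.fst Primrec.fst).and hr.rtg).mono ?_ ?_
  · rintro i ⟨c, d⟩ ⟨⟨x, hx, -⟩, hc⟩
    dsimp only at hx hc
    suffices ∃ y, Rep.rep i d y ∧ Relation.EqvGen (s i) x y from
      let ⟨y, hy, h⟩ := this; ⟨(x, y), ⟨hx, hy⟩, h⟩
    induction hc with
    | refl => exact ⟨x, hx, .refl _⟩
    | tail _ h2 ih =>
      obtain ⟨y, hy, h⟩ := ih
      obtain ⟨y', z, hy', hz, h'⟩ := h2
      obtain rfl := Rep.uniq i _ _ _ hy hy'
      refine ⟨z, hz, .trans _ _ _ h ?_⟩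
      rcases h' with h' | h' | rfl
      · exact .rel _ _ h'
      · exact .symm _ _ (.rel _ _ h')
      · exact .refl _
  · rintro i ⟨c, d⟩ _ ⟨⟨x, y⟩, ⟨hx, hy⟩, h⟩
    refine ⟨⟨x, hx, hx⟩, ?_⟩
    dsimp only at hx hy h ⊢
    have key : ∀ c d : Cd K X, Rep.rep i c x → Rep.rep i d y →
        Relation.ReflTransGen (r i) c d ∧ Relation.ReflTransGen (r i) d c := by
      clear hx hy
      induction h with
      | rel x y h =>
        exact fun c d hx hy => ⟨.single ⟨x, y, hx, hy, .inl h⟩,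
          .single ⟨y, x, hy, hx, .inr (.inl h)⟩⟩
      | refl x =>
        exact fun c d hx hy => ⟨.single ⟨x, x, hx, hy, .inr (.inr rfl)⟩,
          .single ⟨x, x, hy, hx, .inr (.inr rfl)⟩⟩
      | symm x y _ ih => exact fun c d hx hy => (ih d c hy hx).symm
      | trans x y z _ _ ih ih' =>
        intro c d hx hz
        obtain ⟨e, he⟩ := Rep.tot (K := K) i y
        exact ⟨(ih c e hx he).1.trans (ih' e d he hz).1, (ih' e d he hz).2.trans (ih c e hx he).2⟩
    exact (key c d hx hy).1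

theorem ure_freeGroup_mk {X : K.I → Type} [Rep K X] :
    URE fun i (p : List (X i × Bool) × List (X i × Bool)) =>
      FreeGroup.mk p.1 = FreeGroup.mk p.2 :=
  RCert.mono (ure_eqvGen (X := fun i => List (X i × Bool)) ure_freeGroup_step)
    (fun _ _ ⟨x, hx, h⟩ => ⟨x, hx, Quot.eqvGen_sound h⟩)
    fun _ _ _ ⟨x, hx, h⟩ => ⟨x, hx, Quot.eqvGen_exact h⟩

instance Rep.freeGroup {X : K.I → Type} [Rep K X] : Rep K fun i => FreeGroup (X i) :=
  Rep.ofSurj (X := fun i => List (X i × Bool)) (fun _ => FreeGroup.mk)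
    (fun _ x => by induction x using Quot.ind with | mk w => exact ⟨w, rfl⟩) ure_freeGroup_mk

instance Rep.mult {X : K.I → Type} [h : Rep K X] : Rep K fun i => Multiplicative (X i) := h

theorem ure_pi_range {X : K.I → Type} [Rep K X] (ι : Type) [Fintype ι] :
    URE fun i (l : List (X i)) => ∃ f : ι → X i, List.ofFn (f ∘ (Fintype.equivFin ι).symm) = l := by
  have h2 : RCert K fun _ (c : List (Cd K X)) _ => c.length = Fintype.card ι :=
    RCert.of_eq (by fun_prop) (by fun_prop)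
  refine ((RCert.eqv (fun i => List (X i)) Primrec.id Primrec.id).and h2).mono ?_ ?_
  · rintro i c ⟨⟨x, hx, -⟩, hl⟩
    have hl' : Fintype.card ι = x.length := hl.symm.trans (List.Forall₂.length_eq hx)
    refine ⟨x, hx, fun a => x.get (Fin.cast hl' (Fintype.equivFin ι a)), ?_⟩
    refine List.ext_getElem (by simp [hl']) fun n _ _ => by simp
  · rintro i c _ ⟨x, hx, f, rfl⟩
    exact ⟨⟨_, hx, hx⟩, (List.Forall₂.length_eq hx).trans (by simp)⟩

noncomputable instance Rep.pi {X : K.I → Type} [Rep K X] (ι : Type) [Fintype ι] :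
    Rep K fun i => ι → X i :=
  Rep.ofInj (X := fun i => List (X i)) (fun _ f => List.ofFn (f ∘ (Fintype.equivFin ι).symm))
    (fun _ f g h => by
      have := List.ofFn_injective h
      funext a
      simpa using congrFun this (Fintype.equivFin ι a)) (ure_pi_range ι)

instance Rep.semidirect {N G : K.I → Type} [∀ i, Group (N i)] [∀ i, Group (G i)] [Rep K N] [Rep K G]
    (φ : ∀ i, G i →* MulAut (N i)) : Rep K fun i => N i ⋊[φ i] G i :=
  Rep.ofInj (X := fun i => N i × G i) (fun _ x => (x.left, x.right))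
    (fun _ _ _ h => SemidirectProduct.ext (congrArg Prod.fst h) (congrArg Prod.snd h))
    (ure_true' fun _ x => ⟨⟨x.1, x.2⟩, rfl⟩)

/-- Inequality is r.e. -/
class RNe (K : Ctx) (X : K.I → Type) [Rep K X] : Prop where
  ne : URE fun i (p : X i × X i) => p.1 ≠ p.2

/-- The representation of the constant family `α` is equivalent to the standard one. -/
class IsStd (K : Ctx) (α : Type) [Primcodable α] [h : Rep K fun _ => α] : Prop where
  toStd : @Trk K _ _ h (Rep.const α) fun _ x => x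
  ofStd : @Trk K _ _ (Rep.const α) h fun _ x => x

/-- Multiplication is tracked. -/
class RGrp (K : Ctx) (G : K.I → Type) [∀ i, Group (G i)] [Rep K G] : Prop where
  mul : Trk fun i (p : G i × G i) => p.1 * p.2

/-- `x` has size `n` with `c n + d ≤ m` (no condition for `m = ⊤`). -/
def Lev {G : Type} [Group G] (F : Filt G) (c d : ℕ) (x : G) (m : ℕ∞) : Prop :=
  m = ⊤ ∨ ∃ n, F.le x n ∧ ((c * n + d : ℕ) : ℕ∞) ≤ m

@[simp] theorem lev_top {G : Type} [Group G] (F : Filt G) (c d : ℕ) (x : G) : Lev F c d x ⊤ :=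
  Or.inl rfl

@[simp] theorem lev_coe {G : Type} [Group G] (F : Filt G) (c d : ℕ) (x : G) (m : ℕ) :
    Lev F c d x m ↔ ∃ n, F.le x n ∧ c * n + d ≤ m := by
  simp only [Lev, ENat.coe_ne_top, false_or, Nat.cast_le]

/-- Non-membership in `T` of an element of size `n` is certified by facts of size `c n + d`. -/
def NMem {G : K.I → Type} [∀ i, Group (G i)] [Rep K G] (F : ∀ i, Filt (G i))
    (T : ∀ i, Set (G i)) (c d : ℕ) : Prop :=
  Cert fun i x m => x ∉ T i ∧ Lev (F i) c d x m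

/-- The same for the edge groups of a family of splittings. -/
def NMemA {B Γ E : K.I → Type} [∀ i, Group (B i)] [∀ i, Group (Γ i)] [Rep K B] [Rep K E]
    (S : ∀ i, Split (B i) (Γ i) (E i)) (F : ∀ i, Filt (B i)) (c d : ℕ) : Prop :=
  Cert fun i (p : E i × B i) m => p.2 ∉ (S i).A p.1 ∧ Lev (F i) c d p.2 m

/-- The structure maps of a family of splittings are tracked. -/
structure RSplit {B Γ E : K.I → Type} [∀ i, Group (B i)] [∀ i, Group (Γ i)] [Rep K B] [Rep K Γ]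
    [Rep K E] (S : ∀ i, Split (B i) (Γ i) (E i)) : Prop where
  of : Trk fun i => (S i).of
  t : Trk fun i => (S i).t
  bar : Trk fun i => (S i).bar

end Crest.Agent.R185
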