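import Crest.Agent.R185.RE
import Crest.Agent.R185.MH
/-! Row 185: represented families of groups. -/
set_option autoImplicit false
open Set

namespace Crest.Agent.R185
variable {K : Ctx} {X Y L : K.I → Type} [Rep K X] [Rep K Y] [Rep K L]
  {G G' : K.I → Type} [∀ i, Group (G i)] [∀ i, Group (G' i)] [Rep K G] [Rep K G']

section basic
variable [RGrp K G]

theorem Trk.mul {f g : ∀ i, X i → G i} (hf : Trk f) (hg : Trk g) :
    Trk fun i x => f i x * g i x := by
  exact (RGrp.mul (K := K) (G := G)).comp (hf.pair hg)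

theorem Trk.one : Trk fun i (_ : X i) => (1 : G i) := by
  refine TrkC.trk (a := fun i => (1 : G i)) ?_
  exact URE.of_iff (Cert.eq (Trk.mul Trk.id Trk.id) Trk.id) fun i x => mul_eq_left

theorem Trk.inv {f : ∀ i, X i → G i} (hf : Trk f) : Trk fun i x => (f i x)⁻¹ := by
  have h : Trk fun i (x : G i) => x⁻¹ :=
    URE.of_iff (Cert.eq (Trk.mul (Trk.fst Trk.id) (Trk.snd Trk.id)) Trk.one)
      fun i p => mul_eq_one_iff_inv_eq
  exact h.comp hf

theorem Trk.listProd {f : ∀ i, X i → List (G i)} (hf : Trk f) : Trk fun i x => (f i x).prod := by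
  exact (Trk.foldr (g := fun i _ (a b : G i) => a * b) hf Trk.one
    (Trk.mul (Trk.fst (Trk.snd Trk.id)) (Trk.snd (Trk.snd Trk.id)))).of_eq
      fun i x => List.prod_eq_foldr.symm

theorem Trk.pow {f : ∀ i, X i → G i} {n : ∀ i, X i → ℕ} (hf : Trk f) (hn : Trk n) :
    Trk fun i x => f i x ^ n i x := by
  have h1 : Trk fun i x => List.range (n i x) := Trk.primrec Primrec.list_range hn
  exact (Trk.listProd (Trk.map (g := fun i x (_ : ℕ) => f i x) h1
    (hf.comp (Trk.fst Trk.id)))).of_eq fun i x => by simp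

theorem Trk.zpow {f : ∀ i, X i → G i} {n : ∀ i, X i → ℤ} (hf : Trk f) (hn : Trk n) :
    Trk fun i x => f i x ^ n i x := by
  have h1 : Trk fun i x => (n i x).toNat := Trk.primrec Lib.Computability.int_toNat hn
  have h2 : Trk fun i x => (-n i x).toNat :=
    Trk.primrec (g := fun z : ℤ => (-z).toNat) Lib.Computability.int_negToNat hn
  refine (Trk.mul (hf.pow h1) (hf.pow h2).inv).of_eq fun i x => ?_
  rw [← zpow_natCast, ← zpow_natCast, ← zpow_sub, Int.toNat_sub_toNat_neg]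

theorem URE.closure {S : ∀ i, Set (G i)} (h : URE fun i x => x ∈ S i) :
    URE fun i x => x ∈ Subgroup.closure (S i) := by
  have h1 : URE fun i (x : G i) => x ∈ S i ∨ x⁻¹ ∈ S i := Cert.or h (Cert.comp h (Trk.inv Trk.id))
  have h2 : URE fun i (p : G i × List (G i)) =>
      (∀ y ∈ p.2, y ∈ S i ∨ y⁻¹ ∈ S i) ∧ p.2.prod = p.1 :=
    Cert.and (Cert.forall_mem (P := fun i (_ : G i × List (G i)) (y : G i) _ => y ∈ S i ∨ y⁻¹ ∈ S i)
      (Trk.snd Trk.id) (Cert.comp h1 (Trk.snd Trk.id)))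
      (Cert.eq (Trk.listProd (Trk.snd Trk.id)) (Trk.fst Trk.id))
  refine URE.of_iff (Cert.exists (P := fun i (x : G i) (l : List (G i)) _ =>
    (∀ y ∈ l, y ∈ S i ∨ y⁻¹ ∈ S i) ∧ l.prod = x) h2) fun i x => ⟨?_, fun hx => ?_⟩
  · rintro ⟨l, hl, rfl⟩
    exact Subgroup.list_prod_mem _ fun y hy => (hl y hy).elim (fun h => Subgroup.subset_closure h)
      fun h => inv_mem_iff.1 (Subgroup.subset_closure h)
  · rw [← Subgroup.mem_toSubmonoid, Subgroup.closure_toSubmonoid] at hx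
    exact Submonoid.exists_list_of_mem_closure hx

theorem URE.normalClosure {S : ∀ i, Set (G i)} (h : URE fun i x => x ∈ S i) :
    URE fun i x => x ∈ Subgroup.normalClosure (S i) := by
  refine URE.closure (S := fun i => Group.conjugatesOfSet (S i)) ?_
  have h2 : URE fun i (p : G i × G i × G i) => p.2.1 ∈ S i ∧ p.2.2 * p.2.1 * p.2.2⁻¹ = p.1 :=
    Cert.and (Cert.comp h (Trk.fst (Trk.snd Trk.id)))
      (Cert.eq (Trk.mul (Trk.mul (Trk.snd (Trk.snd Trk.id)) (Trk.fst (Trk.snd Trk.id)))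
        (Trk.inv (Trk.snd (Trk.snd Trk.id)))) (Trk.fst Trk.id))
  refine URE.of_iff (Cert.exists (P := fun i (x : G i) (q : G i × G i) _ =>
    q.1 ∈ S i ∧ q.2 * q.1 * q.2⁻¹ = x) h2) fun i x => ?_
  simp only [Group.mem_conjugatesOfSet_iff, isConj_iff, Prod.exists, exists_and_left]

theorem regrp_prod [RGrp K G'] : RGrp K fun i => G i × G' i :=
  ⟨Trk.pair (Trk.mul (Trk.fst (Trk.fst Trk.id)) (Trk.fst (Trk.snd Trk.id)))
    (Trk.mul (Trk.snd (Trk.fst Trk.id)) (Trk.snd (Trk.snd Trk.id)))⟩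

theorem regrp_closure_graph {A B : Type} [Group A] [Group B] (S : Set A)
    (f : Subgroup.closure S →* B) (p : A × B) :
    p ∈ Subgroup.closure {p : A × B | ∃ h : p.1 ∈ S, f ⟨p.1, Subgroup.subset_closure h⟩ = p.2} ↔
      ∃ h : p.1 ∈ Subgroup.closure S, f ⟨p.1, h⟩ = p.2 := by
  constructor
  · intro hp
    induction hp using Subgroup.closure_induction with
    | mem x hx => obtain ⟨h, e⟩ := hx; exact ⟨_, e⟩
    | one => exact ⟨one_mem _, map_one f⟩
    | mul x y _ _ hx hy =>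
      obtain ⟨h, e⟩ := hx
      obtain ⟨h', e'⟩ := hy
      exact ⟨mul_mem h h', by rw [Prod.snd_mul, ← e, ← e', ← map_mul]; rfl⟩
    | inv x _ hx =>
      obtain ⟨h, e⟩ := hx
      exact ⟨inv_mem h, by rw [Prod.snd_inv, ← e, ← map_inv]; rfl⟩
  · obtain ⟨a, b⟩ := p
    dsimp only
    rintro ⟨h, rfl⟩
    induction h using Subgroup.closure_induction with
    | mem x hx => exact Subgroup.subset_closure ⟨hx, rfl⟩
    | one =>
      have : f ⟨1, one_mem _⟩ = 1 := map_one f
      rw [this]; exact one_mem _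
    | mul x y hx hy ihx ihy =>
      have : f ⟨x * y, mul_mem hx hy⟩ = f ⟨x, hx⟩ * f ⟨y, hy⟩ := map_mul f ⟨x, hx⟩ ⟨y, hy⟩
      rw [this]; exact mul_mem ihx ihy
    | inv x hx ih =>
      have : f ⟨x⁻¹, inv_mem hx⟩ = (f ⟨x, hx⟩)⁻¹ := map_inv f ⟨x, hx⟩
      rw [this]; exact inv_mem ih

/-- A homomorphism whose graph over a generating set is `URE` is tracked. -/
theorem Trk.hom_of_closure [RGrp K G'] (f : ∀ i, G i →* G' i) (S : ∀ i, Set (G i))
    (hS : URE fun i (p : G i × G' i) => p.1 ∈ S i ∧ f i p.1 = p.2)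
    (hgen : ∀ i, Subgroup.closure (S i) = ⊤) : Trk fun i x => f i x := by
  have := regrp_prod (K := K) (G := G) (G' := G')
  have h := URE.closure (G := fun i => G i × G' i) (S := fun i => {p | p.1 ∈ S i ∧ f i p.1 = p.2}) hS
  refine URE.of_iff h fun i p => ?_
  have := regrp_closure_graph (S i) ((f i).comp (Subgroup.subtype _)) p
  simp only [MonoidHom.comp_apply, Subgroup.subtype_apply, exists_prop, hgen i, Subgroup.mem_top,
    true_and] at this
  exact this

/-- The same for generators given by a tracked family. -/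
theorem Trk.hom_of_gen [RGrp K G'] (f : ∀ i, G i →* G' i) (s : ∀ i, L i → G i) (hs : Trk s)
    (hfs : Trk fun i a => f i (s i a)) (hgen : ∀ i, Subgroup.closure (Set.range (s i)) = ⊤) :
    Trk fun i x => f i x := by
  refine Trk.hom_of_closure f (fun i => Set.range (s i)) ?_ hgen
  have h2 : URE fun i (q : (G i × G' i) × L i) => s i q.2 = q.1.1 ∧ f i (s i q.2) = q.1.2 :=
    Cert.and (Cert.eq (hs.comp (Trk.snd Trk.id)) (Trk.fst (Trk.fst Trk.id)))
      (Cert.eq (hfs.comp (Trk.snd Trk.id)) (Trk.snd (Trk.fst Trk.id)))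
  refine URE.of_iff (Cert.exists (P := fun i (p : G i × G' i) (a : L i) _ =>
    s i a = p.1 ∧ f i (s i a) = p.2) h2) fun i p => ⟨?_, ?_⟩
  · rintro ⟨a, h1, h3⟩
    exact ⟨⟨a, h1⟩, h1 ▸ h3⟩
  · rintro ⟨⟨a, h1⟩, h3⟩
    exact ⟨a, h1, h1.symm ▸ h3⟩

/-- The graph of a homomorphism defined on a subgroup. -/
theorem URE.graph_of_closure [RGrp K G'] (S : ∀ i, Set (G i))
    (f : ∀ i, Subgroup.closure (S i) →* G' i)
    (hS : URE fun i (p : G i × G' i) =>
      ∃ h : p.1 ∈ S i, f i ⟨p.1, Subgroup.subset_closure h⟩ = p.2) :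
    URE fun i (p : G i × G' i) => ∃ h : p.1 ∈ Subgroup.closure (S i), f i ⟨p.1, h⟩ = p.2 := by
  have := regrp_prod (K := K) (G := G) (G' := G')
  exact URE.of_iff (URE.closure (G := fun i => G i × G' i)
    (S := fun i => {p | ∃ h : p.1 ∈ S i, f i ⟨p.1, Subgroup.subset_closure h⟩ = p.2}) hS)
      fun i p => regrp_closure_graph (S i) (f i) p

theorem URE.range {f : ∀ i, X i → Y i} (hf : Trk f) : URE fun i y => y ∈ range (f i) := by
  exact Cert.exists (P := fun i (y : Y i) (x : X i) _ => f i x = y)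
    (Cert.eq (hf.comp (Trk.snd Trk.id)) (Trk.fst Trk.id))

theorem URE.image {f : ∀ i, X i → Y i} (hf : Trk f) {S : ∀ i, Set (X i)}
    (h : URE fun i x => x ∈ S i) : URE fun i y => y ∈ f i '' S i := by
  exact Cert.exists (P := fun i (y : Y i) (x : X i) _ => x ∈ S i ∧ f i x = y)
    (Cert.and (Cert.comp h (Trk.snd Trk.id)) (Cert.eq (hf.comp (Trk.snd Trk.id)) (Trk.fst Trk.id)))

theorem RGrp.ofSurj {Q : K.I → Type} [∀ i, Group (Q i)] (f : ∀ i, G i →* Q i)
    (hf : ∀ i, Function.Surjective (f i)) (h : URE fun i x => f i x = 1) :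
    ∃ _ : Rep K Q, RGrp K Q ∧ Trk fun i x => f i x := by
  have h1 : URE fun i (p : G i × G i) => f i p.1 = f i p.2 :=
    URE.of_iff (Cert.comp h (Trk.mul (Trk.fst Trk.id) (Trk.inv (Trk.snd Trk.id)))) fun i p => by
      simp only [map_mul, map_inv, mul_inv_eq_one]
  let this : Rep K Q := Rep.ofSurj (fun i x => f i x) hf h1
  have h2 : Trk fun i x => f i x := Trk.ofSurj (fun i x => f i x) hf h1
  refine ⟨this, ⟨?_⟩, h2⟩
  refine Trk.of_comp_surj (f := fun i (p : G i × G i) => (f i p.1, f i p.2))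
    ((h2.comp (Trk.fst Trk.id)).pair (h2.comp (Trk.snd Trk.id)))
    (fun i => (hf i).prodMap (hf i)) ?_
  exact (h2.comp (Trk.mul (Trk.fst Trk.id) (Trk.snd Trk.id))).of_eq fun i p => map_mul _ _ _

theorem RGrp.ofInj {Q : K.I → Type} [∀ i, Group (Q i)] (f : ∀ i, Q i →* G i)
    (hf : ∀ i, Function.Injective (f i)) (h : URE fun i x => x ∈ (f i).range) :
    ∃ _ : Rep K Q, RGrp K Q ∧ Trk fun i x => f i x := by
  let this : Rep K Q := Rep.ofInj (fun i x => f i x) hf h
  have h2 : Trk fun i x => f i x := Trk.ofInj (fun i x => f i x) hf h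
  refine ⟨this, ⟨?_⟩, h2⟩
  refine Trk.of_inj_comp h2 hf ?_
  exact (Trk.mul (h2.comp (Trk.fst Trk.id)) (h2.comp (Trk.snd Trk.id))).of_eq
    fun i p => (map_mul _ _ _).symm

theorem RNe.of_ne_one (h : URE fun i (x : G i) => x ≠ 1) : RNe K G := by
  exact ⟨URE.of_iff (Cert.comp h (Trk.mul (Trk.fst Trk.id) (Trk.inv (Trk.snd Trk.id))))
    fun i p => not_congr mul_inv_eq_one⟩

end basic

instance RGrp.prod [RGrp K G] [RGrp K G'] : RGrp K fun i => G i × G' i := by
  exact regrp_prod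

instance RGrp.pi [RGrp K G] (ι : Type) [Fintype ι] : RGrp K fun i => ι → G i := by
  exact ⟨Trk.pi fun a => Trk.mul (Trk.apply (Trk.fst Trk.id) a) (Trk.apply (Trk.snd Trk.id) a)⟩

instance RGrp.int : RGrp K fun _ => Multiplicative ℤ := by
  refine ⟨?_⟩
  have h : Trk (K := K) fun _ (p : ℤ × ℤ) => p.1 + p.2 :=
    Trk.primrec (g := fun p : ℤ × ℤ => p.1 + p.2) Lib.Computability.int_add Trk.id
  exact h

theorem regrp_mk_surj (A : Type) : Function.Surjective (FreeGroup.mk : List (A × Bool) → _) :=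
  fun x => by induction x using Quot.ind with | mk w => exact ⟨w, rfl⟩

theorem regrp_mk : Trk fun i (w : List (L i × Bool)) => FreeGroup.mk w :=
  Trk.ofSurj (X := fun i => List (L i × Bool)) (fun _ => FreeGroup.mk) (fun _ => regrp_mk_surj _)
    ure_freeGroup_mk

instance RGrp.freeGroup : RGrp K fun i => FreeGroup (L i) := by
  refine ⟨Trk.of_comp_surj (f := fun i (p : List (L i × Bool) × List (L i × Bool)) =>
    (FreeGroup.mk p.1, FreeGroup.mk p.2))
    ((regrp_mk.comp (Trk.fst Trk.id)).pair (regrp_mk.comp (Trk.snd Trk.id)))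
    (fun i => (regrp_mk_surj _).prodMap (regrp_mk_surj _)) ?_⟩
  exact (regrp_mk.comp (Trk.append (Trk.fst Trk.id) (Trk.snd Trk.id))).of_eq
    fun i p => FreeGroup.mul_mk.symm

instance RNe.freeGroup [RNe K L] : RNe K fun i => FreeGroup (L i) := by
  classical
  refine RNe.of_ne_one ?_
  have h1 : URE fun i (p : FreeGroup (L i) × List (L i × Bool)) =>
      (0 < p.2.length ∧ p.2.IsChain fun a b => a.1 ≠ b.1 ∨ a.2 = b.2) ∧ FreeGroup.mk p.2 = p.1 :=
    Cert.and (Cert.and (Cert.nat_lt (Trk.const 0) (Trk.length (Trk.snd Trk.id)))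
      (Cert.isChain (P := fun i (_ : FreeGroup (L i) × List (L i × Bool)) (a b : L i × Bool) _ =>
        a.1 ≠ b.1 ∨ a.2 = b.2) (Trk.snd Trk.id)
        (Cert.or (Cert.ne (Trk.fst (Trk.fst (Trk.snd Trk.id))) (Trk.fst (Trk.snd (Trk.snd Trk.id))))
          (Cert.eq (Trk.snd (Trk.fst (Trk.snd Trk.id))) (Trk.snd (Trk.snd (Trk.snd Trk.id)))))))
      (Cert.eq (regrp_mk.comp (Trk.snd Trk.id)) (Trk.fst Trk.id))
  refine URE.of_iff (Cert.exists (P := fun i (x : FreeGroup (L i)) (r : List (L i × Bool)) _ =>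
    (0 < r.length ∧ r.IsChain fun a b => a.1 ≠ b.1 ∨ a.2 = b.2) ∧ FreeGroup.mk r = x) h1)
      fun i x => ⟨?_, fun hx => ?_⟩
  · rintro ⟨r, ⟨h2, h3⟩, rfl⟩ h4
    have h5 : FreeGroup.IsReduced r := h3.imp fun a b h e => h.resolve_left (not_not.2 e)
    have h6 := FreeGroup.toWord_eq_nil_iff.2 h4
    rw [FreeGroup.toWord_mk, h5.reduce_eq] at h6
    rw [h6] at h2
    exact lt_irrefl _ h2
  · refine ⟨x.toWord, ⟨List.length_pos_iff.2 fun h => hx (FreeGroup.toWord_eq_nil_iff.1 h), ?_⟩,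
      FreeGroup.mk_toWord⟩
    exact (FreeGroup.isReduced_toWord (x := x)).imp fun a b h => imp_iff_not_or.1 h

theorem Trk.mk {f : ∀ i, X i → List (L i × Bool)} (hf : Trk f) :
    Trk fun i x => FreeGroup.mk (f i x) := by
  exact regrp_mk.comp hf

theorem Trk.of {f : ∀ i, X i → L i} (hf : Trk f) : Trk fun i x => FreeGroup.of (f i x) := by
  exact Trk.mk (Trk.cons (hf.pair (Trk.const true)) Trk.nil)

theorem Trk.lift [RGrp K G] {s : ∀ i, L i → G i} (hs : Trk s) {f : ∀ i, X i → FreeGroup (L i)}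
    (hf : Trk f) : Trk fun i x => FreeGroup.lift (s i) (f i x) := by
  refine (Trk.hom_of_gen (G := fun i => FreeGroup (L i)) (fun i => FreeGroup.lift (s i))
    (fun i a => FreeGroup.of a) (Trk.of Trk.id)
    (hs.of_eq fun i a => (FreeGroup.lift_apply_of).symm)
    (fun i => FreeGroup.closure_range_of _)).comp hf

section semidirect
variable (φ : ∀ i, G' i →* MulAut (G i))

theorem regrp_sd : Trk fun i (x : G i ⋊[φ i] G' i) => (x.left, x.right) :=
  Trk.ofInj (X := fun i => G i × G' i) (Y := fun i => G i ⋊[φ i] G' i)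
    (fun _ x => (x.left, x.right))
    (fun _ _ _ h => SemidirectProduct.ext (congrArg Prod.fst h) (congrArg Prod.snd h))
    (ure_true' fun _ x => ⟨⟨x.1, x.2⟩, rfl⟩)

theorem Trk.left {f : ∀ i, X i → G i ⋊[φ i] G' i} (hf : Trk f) : Trk fun i x => (f i x).left := by
  exact Trk.fst ((regrp_sd φ).comp hf)

theorem Trk.right {f : ∀ i, X i → G i ⋊[φ i] G' i} (hf : Trk f) :
    Trk fun i x => (f i x).right := by
  exact Trk.snd ((regrp_sd φ).comp hf)

theorem Trk.sdMk {f : ∀ i, X i → G i} {g : ∀ i, X i → G' i} (hf : Trk f) (hg : Trk g) :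
    Trk fun i x => (⟨f i x, g i x⟩ : G i ⋊[φ i] G' i) := by
  exact Trk.of_inj_comp (regrp_sd φ)
    (fun _ _ _ h => SemidirectProduct.ext (congrArg Prod.fst h) (congrArg Prod.snd h)) (hf.pair hg)

theorem RGrp.semidirect [RGrp K G] [RGrp K G']
    (h : Trk fun i (p : G' i × G i) => φ i p.1 p.2) : RGrp K fun i => G i ⋊[φ i] G' i := by
  exact ⟨Trk.sdMk φ (Trk.mul (Trk.left φ (Trk.fst Trk.id))
    (h.comp ((Trk.right φ (Trk.fst Trk.id)).pair (Trk.left φ (Trk.snd Trk.id)))))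
    (Trk.mul (Trk.right φ (Trk.fst Trk.id)) (Trk.right φ (Trk.snd Trk.id)))⟩

end semidirect

/-- relators of a multiple HNN extension on the generators `B ⊕ J` -/
def regrpRels {B J : Type} [Group B] (H : HData B J) : Set (FreeGroup (B ⊕ J)) :=
  {x | (∃ p : B × B, FreeGroup.of (.inl p.1) * FreeGroup.of (.inl p.2) *
      (FreeGroup.of (.inl (p.1 * p.2)))⁻¹ = x) ∨
    ∃ p : J × B × B, (∃ d, H.i p.1 false d = p.2.1 ∧ H.i p.1 true d = p.2.2) ∧
      FreeGroup.of (.inl p.2.1) * FreeGroup.of (.inr p.1) *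
        (FreeGroup.of (.inr p.1) * FreeGroup.of (.inl p.2.2))⁻¹ = x}

theorem regrp_ker {B J : Type} [Group B] (H : HData B J) (x : FreeGroup (B ⊕ J)) :
    x ∈ Subgroup.normalClosure (regrpRels H) ↔
      FreeGroup.lift (Sum.elim (MH.of H) (MH.t H)) x = 1 := by
  constructor
  · intro hx
    refine (Subgroup.normalClosure_le_normal (N := MonoidHom.ker _) ?_ hx :
      x ∈ (FreeGroup.lift (Sum.elim (MH.of H) (MH.t H))).ker)
    rintro _ (⟨p, rfl⟩ | ⟨p, ⟨d, h1, h2⟩, rfl⟩)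
    · simp
    · rw [← h1, ← h2]
      simp [MH.rel]
  · intro hx
    let q := QuotientGroup.mk' (Subgroup.normalClosure (regrpRels H))
    have hq : ∀ y ∈ regrpRels H, q y = 1 := fun y hy =>
      (QuotientGroup.eq_one_iff _).2 (Subgroup.subset_normalClosure hy)
    let f : B →* FreeGroup (B ⊕ J) ⧸ Subgroup.normalClosure (regrpRels H) :=
      MonoidHom.mk' (fun b => q (FreeGroup.of (.inl b))) (fun a b => by
        have := hq _ (Or.inl ⟨(a, b), rfl⟩)
        rw [map_mul, map_mul, map_inv, mul_inv_eq_one] at this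
        exact this.symm)
    let g : MH H →* FreeGroup (B ⊕ J) ⧸ Subgroup.normalClosure (regrpRels H) :=
      MH.lift f (fun j => q (FreeGroup.of (.inr j))) (fun j d => by
        have := hq _ (Or.inr ⟨(j, H.i j false d, H.i j true d), ⟨d, rfl, rfl⟩, rfl⟩)
        rw [map_mul, map_mul, map_inv, mul_inv_eq_one, map_mul] at this
        exact this)
    have e : g.comp (FreeGroup.lift (Sum.elim (MH.of H) (MH.t H))) = q := by
      ext (b | j)
      · simp only [MonoidHom.comp_apply, FreeGroup.lift_apply_of, Sum.elim_inl, g, MH.lift_of]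
        rfl
      · simp only [MonoidHom.comp_apply, FreeGroup.lift_apply_of, Sum.elim_inr, g, MH.lift_t]
    have : q x = 1 := by rw [← e, MonoidHom.comp_apply, hx, map_one]
    exact (QuotientGroup.eq_one_iff _).1 this

theorem regrp_surj {B J : Type} [Group B] (H : HData B J) :
    Function.Surjective (FreeGroup.lift (Sum.elim (MH.of H) (MH.t H))) := by
  rw [← MonoidHom.range_eq_top, FreeGroup.range_lift_eq_closure, Sum.elim_range,
    MH.closure_eq_top]

/-- A multiple HNN extension with `URE` edge data is represented. -/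
theorem MH.exists_rep [RGrp K G] (H : ∀ i, HData (G i) (L i))
    (h : URE fun i (p : L i × G i × G i) =>
      ∃ d, (H i).i p.1 false d = p.2.1 ∧ (H i).i p.1 true d = p.2.2) :
    ∃ _ : Rep K fun i => MH (H i), RGrp K (fun i => MH (H i)) ∧
      RSplit fun i => MH.split (H i) := by
  have h1 : URE fun i (x : FreeGroup (G i ⊕ L i)) => x ∈ regrpRels (H i) := by
    refine Cert.or (Cert.exists (P := fun i (x : FreeGroup (G i ⊕ L i)) (p : G i × G i) _ =>
      FreeGroup.of (.inl p.1) * FreeGroup.of (.inl p.2) * (FreeGroup.of (.inl (p.1 * p.2)))⁻¹ = x)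
      (Cert.eq ?_ (Trk.fst Trk.id)))
      (Cert.exists (P := fun i (x : FreeGroup (G i ⊕ L i)) (p : L i × G i × G i) _ =>
        (∃ d, (H i).i p.1 false d = p.2.1 ∧ (H i).i p.1 true d = p.2.2) ∧
        FreeGroup.of (.inl p.2.1) * FreeGroup.of (.inr p.1) *
          (FreeGroup.of (.inr p.1) * FreeGroup.of (.inl p.2.2))⁻¹ = x)
        (Cert.and (Cert.comp h (Trk.snd Trk.id)) (Cert.eq ?_ (Trk.fst Trk.id))))
    · exact Trk.mul (Trk.mul (Trk.of (Trk.inl (Trk.fst (Trk.snd Trk.id))))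
        (Trk.of (Trk.inl (Trk.snd (Trk.snd Trk.id)))))
        (Trk.inv (Trk.of (Trk.inl (Trk.mul (Trk.fst (Trk.snd Trk.id)) (Trk.snd (Trk.snd Trk.id))))))
    · exact Trk.mul (Trk.mul (Trk.of (Trk.inl (Trk.fst (Trk.snd (Trk.snd Trk.id)))))
        (Trk.of (Trk.inr (Trk.fst (Trk.snd Trk.id)))))
        (Trk.inv (Trk.mul (Trk.of (Trk.inr (Trk.fst (Trk.snd Trk.id))))
          (Trk.of (Trk.inl (Trk.snd (Trk.snd (Trk.snd Trk.id)))))))
  obtain ⟨R, hR, hf⟩ := RGrp.ofSurj (K := K) (G := fun i => FreeGroup (G i ⊕ L i))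
    (Q := fun i => MH (H i)) (fun i => FreeGroup.lift (Sum.elim (MH.of (H i)) (MH.t (H i))))
    (fun i => regrp_surj (H i))
    (URE.of_iff (URE.normalClosure (G := fun i => FreeGroup (G i ⊕ L i)) h1)
      fun i x => regrp_ker (H i) x)
  have ht : Trk fun i (j : L i) => MH.t (H i) j :=
    (hf.comp (Trk.of (Trk.inr Trk.id))).of_eq fun i j => by simp
  refine ⟨R, hR, ?_, ?_, ?_⟩
  · exact (hf.comp (Trk.of (Trk.inl Trk.id))).of_eq fun i j => by simp
  · exact Trk.cond (Trk.snd Trk.id) (Trk.inv (ht.comp (Trk.fst Trk.id))) (ht.comp (Trk.fst Trk.id))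
  · exact (Trk.fst Trk.id).pair (Trk.primrec Primrec.not (Trk.snd Trk.id))

theorem MH.exists_rep_central [RGrp K G] (H : ∀ i, L i → Subgroup (G i))
    (h : URE fun i (p : L i × G i) => p.2 ∈ H i p.1) :
    ∃ _ : Rep K fun i => MH (HData.central (H i)), RGrp K (fun i => MH (HData.central (H i))) ∧
      RSplit fun i => MH.split (HData.central (H i)) := by
  refine MH.exists_rep (fun i => HData.central (H i)) ?_
  have h1 : URE fun i (p : L i × G i × G i) => p.2.1 ∈ H i p.1 ∧ p.2.1 = p.2.2 :=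
    Cert.and (Cert.comp h ((Trk.fst Trk.id).pair (Trk.fst (Trk.snd Trk.id))))
      (Cert.eq (Trk.fst (Trk.snd Trk.id)) (Trk.snd (Trk.snd Trk.id)))
  refine URE.of_iff h1 fun i p => ⟨fun h2 => ⟨⟨_, h2.1⟩, rfl, h2.2⟩, ?_⟩
  rintro ⟨d, h2, h3⟩
  exact ⟨h2 ▸ d.2, h2.symm.trans h3⟩

theorem MH.exists_rep_free [RGrp K G] :
    ∃ _ : Rep K fun i => MH (HData.free (G i) (L i)), RGrp K (fun i => MH (HData.free (G i) (L i))) ∧
      RSplit fun i => MH.split (HData.free (G i) (L i)) := by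
  exact MH.exists_rep_central (fun i (_ : L i) => (⊥ : Subgroup (G i)))
    (URE.of_iff (Cert.eq (Trk.snd Trk.id) Trk.one) fun i p => Subgroup.mem_bot.symm)

theorem RSplit.mh_of {H : ∀ i, HData (G i) (L i)} [Rep K fun i => MH (H i)]
    (h : RSplit fun i => MH.split (H i)) {f : ∀ i, X i → G i} (hf : Trk f) :
    Trk fun i x => MH.of (H i) (f i x) := h.of.comp hf

theorem RSplit.mh_t {H : ∀ i, HData (G i) (L i)} [Rep K fun i => MH (H i)]
    (h : RSplit fun i => MH.split (H i)) {f : ∀ i, X i → L i} (hf : Trk f) :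
    Trk fun i x => MH.t (H i) (f i x) := h.t.comp (hf.pair (Trk.const false))

/-- Homomorphisms out of a splitting are tracked if they are on the base and on the letters. -/
theorem RSplit.hom {B E : K.I → Type} [∀ i, Group (B i)] [Rep K B] [Rep K E] [RGrp K G] [RGrp K G']
    {S : ∀ i, Split (B i) (G i) (E i)} (h : RSplit S) (f : ∀ i, G i →* G' i)
    (h1 : Trk fun i b => f i ((S i).of b)) (h2 : Trk fun i e => f i ((S i).t e)) :
    Trk fun i x => f i x := by
  refine Trk.hom_of_gen (L := fun i => B i ⊕ E i) f (fun i => Sum.elim (S i).of (S i).t) ?_ ?_ ?_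
  · exact Trk.elim (g := fun i _ b => (S i).of b) (h := fun i _ e => (S i).t e) Trk.id
      (h.of.comp (Trk.snd Trk.id)) (h.t.comp (Trk.snd Trk.id))
  · exact (Trk.elim (g := fun i _ b => f i ((S i).of b)) (h := fun i _ e => f i ((S i).t e)) Trk.id
      (h1.comp (Trk.snd Trk.id)) (h2.comp (Trk.snd Trk.id))).of_eq fun i x => by cases x <;> rfl
  · intro i
    rw [Sum.elim_range]
    exact (S i).gen

macro_rules | `(tactic| trk_step) => `(tactic| with_reducible first
  | exact Trk.one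
  | apply Trk.mul
  | apply Trk.inv
  | apply Trk.pow
  | apply Trk.zpow
  | apply Trk.mk
  | apply Trk.of
  | apply Trk.listProd)

/-! ### `NMem` -/

theorem NMem.mono {F F' : ∀ i, Filt (G i)} {T : ∀ i, Set (G i)} {c d c' d' : ℕ}
    (h : NMem F T c d)
    (hF : ∀ i x n, x ∉ T i → (F' i).le x n → ∃ n', (F i).le x n' ∧ c * n' + d ≤ c' * n + d') :
    NMem F' T c' d' := by
  refine Cert.mono h (fun i x hx => ⟨hx.1, lev_top _ _ _ _⟩) fun i x m hx => ⟨hx.1, ?_⟩
  obtain ⟨n, h1, h2⟩ := (lev_coe _ _ _ _ _).1 hx.2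
  obtain ⟨n', h3, h4⟩ := hF i x n hx.1 h1
  exact (lev_coe _ _ _ _ _).2 ⟨n', h3, h4.trans h2⟩

theorem NMem.mono' {F F' : ∀ i, Filt (G i)} {T : ∀ i, Set (G i)} {c d c' d' : ℕ}
    (h : NMem F T c d) (hF : ∀ i x n, K.Nice i → x ∉ T i → (F' i).le x n →
      ∃ n', (F i).le x n' ∧ c * n' + d ≤ c' * n + d') : NMem F' T c' d' := by
  refine Cert.mono' h (fun i x hx => ⟨hx.1, lev_top _ _ _ _⟩) fun i x m hN hx => ⟨hx.1, ?_⟩
  obtain ⟨n, h1, h2⟩ := (lev_coe _ _ _ _ _).1 hx.2
  obtain ⟨n', h3, h4⟩ := hF i x n hN hx.1 h1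
  exact (lev_coe _ _ _ _ _).2 ⟨n', h3, h4.trans h2⟩

theorem NMem.of_ure {F : ∀ i, Filt (G i)} {T : ∀ i, Set (G i)} (h : URE fun i x => x ∉ T i)
    (c d : ℕ) : NMem F T c d := h.cert fun _ _ => lev_top _ _ _ _

/-- Pull back along a tracked map that does not increase sizes. -/
theorem NMem.comap {F : ∀ i, Filt (G i)} {T : ∀ i, Set (G i)} {c d : ℕ} (h : NMem F T c d)
    {F' : ∀ i, Filt (G' i)} {f : ∀ i, G' i → G i} (hf : Trk f) {c' d' : ℕ}
    (hF : ∀ i x n, (F' i).le x n → ∃ n', (F i).le (f i x) n' ∧ c * n' + d ≤ c' * n + d') :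
    NMem F' (fun i => f i ⁻¹' T i) c' d' := by
  refine Cert.mono (Cert.comp h hf) (fun i x hx => ⟨hx.1, lev_top _ _ _ _⟩) fun i x m hx => ⟨hx.1, ?_⟩
  obtain ⟨n, h1, h2⟩ := (lev_coe _ _ _ _ _).1 hx.2
  obtain ⟨n', h3, h4⟩ := hF i x n h1
  exact (lev_coe _ _ _ _ _).2 ⟨n', h3, h4.trans h2⟩

theorem NMem.inter {F : ∀ i, Filt (G i)} {T T' : ∀ i, Set (G i)} {c d : ℕ} (h : NMem F T c d)
    (h' : NMem F T' c d) : NMem F (fun i => T i ∩ T' i) c d :=
  (Cert.or h h').of_iff fun i x m => by simp only [mem_inter_iff, not_and_or, or_and_right]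

theorem NMem.congr {F : ∀ i, Filt (G i)} {T T' : ∀ i, Set (G i)} {c d : ℕ} (h : NMem F T c d)
    (e : ∀ i x, x ∈ T i ↔ x ∈ T' i) : NMem F T' c d :=
  Cert.of_iff h fun i x m => by rw [e]

/-- Non-membership in the image of a retraction-like map `r`: `x ∈ T ↔ r x = x`. -/
theorem NMem.of_retr [RGrp K G] {F : ∀ i, Filt (G i)} {c d : ℕ} (h : NMem F (fun _ => {1}) c d)
    {r : ∀ i, G i → G i} (hr : Trk r) {T : ∀ i, Set (G i)} (hT : ∀ i x, x ∈ T i ↔ r i x = x)
    {a b : ℕ} (hF : ∀ i x n, (F i).le x n → (F i).le (r i x) (a * n + b)) :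
    NMem F T (c * (a + 1)) (c * b + d) := by
  refine (h.comap (F' := F) (f := fun i x => r i x * x⁻¹) (Trk.mul hr (Trk.inv Trk.id))
    (c' := c * (a + 1)) (d' := c * b + d) fun i x n hx => ?_).congr fun i x => ?_
  · exact ⟨_, (F i).mul (hF i x n hx) ((F i).inv hx), le_of_eq (by ring)⟩
  · rw [hT, mem_preimage, mem_singleton_iff, mul_inv_eq_one]

theorem NMem.prod_one [RGrp K G] [RGrp K G'] {F : ∀ i, Filt (G i)} {F' : ∀ i, Filt (G' i)} {c d : ℕ}
    (h : NMem F (fun _ => {1}) c d) (h' : NMem F' (fun _ => {1}) c d) :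
    NMem (fun i => (F i).prod (F' i)) (fun _ => {1}) c d := by
  refine ((h.comap (F' := fun i => (F i).prod (F' i)) (f := fun i x => x.1) (Trk.fst Trk.id)
    (c' := c) (d' := d) fun i x n hx => ⟨n, hx.1, le_rfl⟩).inter
    (h'.comap (F' := fun i => (F i).prod (F' i)) (f := fun i x => x.2) (Trk.snd Trk.id)
    (c' := c) (d' := d) fun i x n hx => ⟨n, hx.2, le_rfl⟩)).congr fun i x => ?_
  simp only [mem_inter_iff, mem_preimage, mem_singleton_iff, Prod.ext_iff, Prod.fst_one,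
    Prod.snd_one]

theorem NMem.pi_one [RGrp K G] {ι : Type} [Fintype ι] {F : ∀ i, Filt (G i)} {c d : ℕ}
    (h : NMem F (fun _ => {1}) c d) :
    NMem (fun i => (F i).pi (ι := ι)) (fun _ => {1}) c d := by
  have h1 : ∀ a : ι, NMem (fun i => (F i).pi (ι := ι)) (fun i => (fun x => x a) ⁻¹' {1}) c d :=
    fun a => h.comap (F' := fun i => (F i).pi (ι := ι)) (f := fun i x => x a)
      (Trk.apply Trk.id a) fun i x n hx => ⟨n, hx a, le_rfl⟩
  refine Cert.of_iff (Cert.exists_fin h1) fun i x m => ?_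
  simp only [mem_preimage, mem_singleton_iff, exists_and_right, funext_iff, not_forall,
    Pi.one_apply]

end Crest.Agent.R185
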