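import Crest.Agent.R185.REGrp
/-!
Row 185: rule systems (partial affine bijections on configurations `St × Lam κ`).
A configuration is a state, an element of the free group `Fr` of rank two and integer registers.
-/
set_option autoImplicit false
open Set

noncomputable section
namespace Crest.Agent.R185

abbrev Fr := FreeGroup Bool
abbrev Lam (κ : Type) := Fr × (κ → Multiplicative ℤ)

/-- A rule maps `(q false, w * xb false, a false + μ false * n)` to
`(q true, w * xb true, a true + μ true * n)`; if `tst` only `w = 1` is allowed. -/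
structure Rule (St κ : Type) where
  q : Bool → St
  tst : Bool
  xb : Bool → Fr
  a : Bool → κ → ℤ
  μ : Bool → κ → ℤ
  tw : Bool
  μ_zero : ∀ c, μ false c = 0 ↔ μ true c = 0
  xb_norm : ∀ b, (xb b).norm ≤ 1

namespace Rule
variable {St κ : Type} (r : Rule St κ)

/-- The parameter group. -/
def L : Subgroup (Lam κ) where
  carrier := {ν | (r.tst = true → ν.1 = 1) ∧ ∀ c, r.μ false c = 0 → ν.2 c = 1}
  one_mem' := ⟨fun _ => rfl, fun _ _ => rfl⟩
  mul_mem' ha hb := ⟨fun h => by simp [ha.1 h, hb.1 h], fun c h => by simp [ha.2 c h, hb.2 c h]⟩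
  inv_mem' ha := ⟨fun h => by simp [ha.1 h], fun c h => by simp [ha.2 c h]⟩

def i (b : Bool) : Lam κ →* Lam κ where
  toFun ν := (ν.1, fun c => ν.2 c ^ r.μ b c)
  map_one' := by ext <;> simp
  map_mul' x y := by ext <;> simp [mul_zpow]

def base (b : Bool) : Lam κ := (r.xb b, fun c => Multiplicative.ofAdd (r.a b c))

/-- The configuration with parameter `ν` on the side `b`. -/
def o (b : Bool) (ν : Lam κ) : St × Lam κ := (r.q b, r.i b ν * r.base b)

theorem i_injOn (b : Bool) : InjOn (r.i b) r.L := by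
  intro ν hν ν' hν' e
  have e1 : ν.1 = ν'.1 := (congrArg Prod.fst e :)
  refine Prod.ext e1 (funext fun c => ?_)
  have e2 : ν.2 c ^ r.μ b c = ν'.2 c ^ r.μ b c := congrFun (congrArg Prod.snd e) c
  by_cases h0 : r.μ b c = 0
  · have h1 : r.μ false c = 0 := by
      cases b
      · exact h0
      · exact (r.μ_zero c).2 h0
    rw [hν.2 c h1, hν'.2 c h1]
  · have e3 := congrArg Multiplicative.toAdd e2
    simp only [toAdd_zpow, smul_eq_mul] at e3
    exact Multiplicative.toAdd.injective (mul_left_cancel₀ h0 e3)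

theorem o_injOn (b : Bool) : InjOn (r.o b) r.L := by
  intro ν hν ν' hν' e
  exact r.i_injOn b hν hν' (mul_right_cancel (congrArg Prod.snd e))

def Step (ω ω' : St × Lam κ) : Prop := ∃ ν ∈ r.L, ω = r.o false ν ∧ ω' = r.o true ν

/-- Standard generators of `Lam κ`. -/
def lgen [DecidableEq κ] : Bool ⊕ κ → Lam κ
  | .inl a => (FreeGroup.of a, 1)
  | .inr c => (1, Pi.mulSingle c (Multiplicative.ofAdd 1))

theorem rule_fst_mem [DecidableEq κ] (H : Subgroup (Lam κ)) (h : ∀ a, lgen (.inl a) ∈ H) (w : Fr) :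
    ((w, 1) : Lam κ) ∈ H := by
  have : w ∈ H.comap (MonoidHom.inl _ _) := by
    induction w using FreeGroup.induction_on with
    | C1 => exact Subgroup.one_mem _
    | of a => exact h a
    | inv_of a ih => exact Subgroup.inv_mem _ ih
    | mul x y hx hy => exact Subgroup.mul_mem _ hx hy
  exact this

theorem rule_single_mem [DecidableEq κ] (H : Subgroup (Lam κ)) (c : κ) (h : lgen (.inr c) ∈ H)
    (n : Multiplicative ℤ) : ((1, Pi.mulSingle c n) : Lam κ) ∈ H := by
  have h1 := H.zpow_mem h (Multiplicative.toAdd n)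
  have e : (lgen (.inr c) : Lam κ) ^ Multiplicative.toAdd n = (1, Pi.mulSingle c n) := by
    refine Prod.ext (by simp [lgen]) ?_
    simp only [lgen, Prod.pow_snd, ← Pi.mulSingle_zpow]
    congr 1
    apply Multiplicative.toAdd.injective
    simp
  rwa [e] at h1

theorem rule_mem_of_parts [Finite κ] [DecidableEq κ] (H : Subgroup (Lam κ)) (ν : Lam κ)
    (h1 : ((ν.1, 1) : Lam κ) ∈ H) (h2 : ∀ c, ((1, Pi.mulSingle c (ν.2 c)) : Lam κ) ∈ H) : ν ∈ H := by
  have := Fintype.ofFinite κ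
  have h3 : ν.2 ∈ H.comap (MonoidHom.inr _ _) := by
    rw [← Finset.univ_prod_mulSingle ν.2]
    exact Subgroup.prod_mem _ fun c _ => h2 c
  have h4 := H.mul_mem h1 h3
  simpa using h4

theorem rule_mem_i_iff (b : Bool) (x : Lam κ) : x ∈ r.i b '' r.L ↔
    (r.tst = true → x.1 = 1) ∧ ∀ c, r.μ b c ∣ Multiplicative.toAdd (x.2 c) := by
  constructor
  · rintro ⟨ν, hν, rfl⟩
    refine ⟨hν.1, fun c => ⟨Multiplicative.toAdd (ν.2 c), ?_⟩⟩
    change Multiplicative.toAdd (ν.2 c ^ r.μ b c) = _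
    simp
  · rintro ⟨h1, h2⟩
    refine ⟨(x.1, fun c => Multiplicative.ofAdd (Multiplicative.toAdd (x.2 c) / r.μ b c)),
      ⟨h1, fun c hc => ?_⟩, Prod.ext rfl (funext fun c => ?_)⟩
    · have h0 : r.μ b c = 0 := by
        cases b
        · exact hc
        · exact (r.μ_zero c).1 hc
      simp [h0]
    · apply Multiplicative.toAdd.injective
      change Multiplicative.toAdd (Multiplicative.ofAdd _ ^ r.μ b c) = _
      simp only [toAdd_zpow, toAdd_ofAdd, smul_eq_mul]
      exact Int.mul_ediv_cancel' (h2 c)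

theorem closure_lgen [Finite κ] [DecidableEq κ] :
    Subgroup.closure (range (lgen (κ := κ))) = ⊤ := by
  refine eq_top_iff.2 fun ν _ => rule_mem_of_parts _ ν ?_ fun c => ?_
  · exact rule_fst_mem _ (fun a => Subgroup.subset_closure (mem_range_self _)) _
  · exact rule_single_mem _ c (Subgroup.subset_closure (mem_range_self _)) _

theorem L_eq_closure [Finite κ] [DecidableEq κ] :
    r.L = Subgroup.closure {ν | ν ∈ range (lgen (κ := κ)) ∧ ν ∈ r.L} := by
  refine le_antisymm (fun ν hν => rule_mem_of_parts _ ν ?_ fun c => ?_)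
    ((Subgroup.closure_le _).2 fun ν hν => hν.2)
  · by_cases ht : r.tst = true
    · rw [hν.1 ht]
      exact Subgroup.one_mem _
    · refine rule_fst_mem _ (fun a => Subgroup.subset_closure ?_) _
      exact ⟨⟨_, rfl⟩, fun h => absurd h ht, fun _ _ => rfl⟩
  · by_cases hc : r.μ false c = 0
    · rw [hν.2 c hc, Pi.mulSingle_one]
      exact Subgroup.one_mem _
    · refine rule_single_mem _ c (Subgroup.subset_closure ?_) _
      refine ⟨⟨_, rfl⟩, fun _ => rfl, fun c' hc' => ?_⟩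
      have : c' ≠ c := fun e => hc (e ▸ hc')
      exact Pi.mulSingle_eq_of_ne this _

end Rule

/-- A rule system with a base configuration. -/
structure MIn (St κ J : Type) where
  R : J → Rule St κ
  ω0 : St × Lam κ

/-- The configurations connected to the base configuration. -/
def MIn.H0 {St κ J : Type} (m : MIn St κ J) : Set (St × Lam κ) :=
  {ω | Relation.EqvGen (fun x y => ∃ r, (m.R r).Step x y) m.ω0 ω}

theorem MIn.o_mem_H0_iff {St κ J : Type} (m : MIn St κ J) (r : J) {ν : Lam κ} (h : ν ∈ (m.R r).L)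
    (b : Bool) : (m.R r).o (!b) ν ∈ m.H0 ↔ (m.R r).o b ν ∈ m.H0 := by
  have hs : Relation.EqvGen (fun x y => ∃ r, (m.R r).Step x y) ((m.R r).o false ν) ((m.R r).o true ν) :=
    .rel _ _ ⟨r, ν, h, rfl, rfl⟩
  have h1 : (m.R r).o false ν ∈ m.H0 ↔ (m.R r).o true ν ∈ m.H0 :=
    ⟨fun h => .trans _ _ _ h hs, fun h => .trans _ _ _ h (.symm _ _ hs)⟩
  cases b
  · exact h1.symm
  · exact h1

section RE
variable {K : Ctx} {St κ J : Type} [Primcodable St] [Fintype κ]

/-- Effectivity of a family of rules. -/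
structure REff (r : K.I → Rule St κ) : Prop where
  q : ∀ b, TrkC fun i => (r i).q b
  tst : TrkC fun i => (r i).tst
  tw : TrkC fun i => (r i).tw
  base : ∀ b, TrkC fun i => (r i).base b
  μ : ∀ b c, TrkC fun i => (r i).μ b c

/-- Effectivity of a family of rule systems. -/
structure MEff (m : K.I → MIn St κ J) : Prop where
  R : ∀ r, REff fun i => (m i).R r
  ω0 : TrkC fun i => (m i).ω0

variable {r : K.I → Rule St κ} (h : REff r)
include h

theorem REff.mem_L : URE fun i (ν : Lam κ) => ν ∈ (r i).L := by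
  have h1 : URE fun i (ν : Lam κ) => (r i).tst = false ∨ ν.1 = 1 :=
    Cert.or (Cert.eq h.tst.trk (Trk.const false)) (Cert.eq (Trk.fst Trk.id) Trk.one)
  have h2 : URE fun i (ν : Lam κ) => ∀ c, (r i).μ false c ≠ 0 ∨ ν.2 c = 1 :=
    Cert.forall_fin fun c => Cert.or (Cert.ne (h.μ false c).trk (Trk.const 0))
      (Cert.eq (Trk.apply (Trk.snd Trk.id) c) Trk.one)
  refine (Cert.and h1 h2).of_iff fun i ν _ => and_congr ?_ (forall_congr' fun c => ?_)
  · rcases Bool.eq_false_or_eq_true (r i).tst with e | e <;> simp [e]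
  · tauto

theorem REff.notMem_L : URE fun i (ν : Lam κ) => ν ∉ (r i).L := by
  have h1 : URE fun i (ν : Lam κ) => (r i).tst = true ∧ ν.1 ≠ 1 :=
    Cert.and (Cert.eq h.tst.trk (Trk.const true)) (Cert.ne (Trk.fst Trk.id) Trk.one)
  have h2 : URE fun i (ν : Lam κ) => ∃ c, (r i).μ false c = 0 ∧ ν.2 c ≠ 1 :=
    Cert.exists_fin fun c => Cert.and (Cert.eq (h.μ false c).trk (Trk.const 0))
      (Cert.ne (Trk.apply (Trk.snd Trk.id) c) Trk.one)
  refine (Cert.or h1 h2).of_iff fun i ν _ => ?_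
  change _ ↔ ¬ (((r i).tst = true → ν.1 = 1) ∧ ∀ c, (r i).μ false c = 0 → ν.2 c = 1)
  simp only [not_and_or, Classical.not_imp, not_forall, ne_eq]

theorem REff.i (b : Bool) : Trk fun i (ν : Lam κ) => (r i).i b ν := by
  exact Trk.pair (Trk.fst Trk.id)
    (Trk.pi fun c => Trk.zpow (Trk.apply (Trk.snd Trk.id) c) (h.μ b c).trk)

theorem REff.o (b : Bool) : Trk fun i (ν : Lam κ) => (r i).o b ν := by
  exact Trk.pair (h.q b).trk (Trk.mul (h.i b) (h.base b).trk)

theorem REff.notMem_i (b : Bool) : URE fun i (x : Lam κ) => x ∉ (r i).i b '' (r i).L := by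
  have h1 : URE fun i (x : Lam κ) => (r i).tst = true ∧ x.1 ≠ 1 :=
    Cert.and (Cert.eq h.tst.trk (Trk.const true)) (Cert.ne (Trk.fst Trk.id) Trk.one)
  have hp : Primrec fun p : ℤ × ℤ => p.1.natAbs % p.2.natAbs :=
    Primrec.nat_mod.comp (Lib.Computability.int_natAbs.comp Primrec.fst)
      (Lib.Computability.int_natAbs.comp Primrec.snd)
  have h2 : URE fun i (x : Lam κ) =>
      ∃ c, (Multiplicative.toAdd (x.2 c)).natAbs % ((r i).μ b c).natAbs ≠ 0 :=
    Cert.exists_fin fun c => Cert.ne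
      (Trk.primrec hp (Trk.pair (Trk.toAdd (Trk.apply (Trk.snd Trk.id) c)) (h.μ b c).trk))
      (Trk.const 0)
  refine (Cert.or h1 h2).of_iff fun i x _ => ?_
  beta_reduce
  rw [Rule.rule_mem_i_iff]
  simp only [not_and_or, Classical.not_imp, not_forall, ne_eq, ← Nat.dvd_iff_mod_eq_zero,
    Int.natAbs_dvd_natAbs]

theorem REff.notMem_o (b : Bool) : URE fun i (ω : St × Lam κ) => ω ∉ (r i).o b '' (r i).L := by
  have h1 : URE fun i (ω : St × Lam κ) => ω.1 ≠ (r i).q b :=
    Cert.ne (Trk.fst Trk.id) (h.q b).trk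
  have h2 : URE fun i (ω : St × Lam κ) => ω.2 * ((r i).base b)⁻¹ ∉ (r i).i b '' (r i).L :=
    Cert.comp (h.notMem_i b) (Trk.mul (Trk.snd Trk.id) (Trk.inv (h.base b).trk))
  refine (Cert.or h1 h2).of_iff fun i ω _ => ?_
  beta_reduce
  rw [← not_and_or]
  refine not_congr ⟨fun ⟨e1, ν, hν, e2⟩ => ⟨ν, hν, Prod.ext e1.symm ?_⟩, ?_⟩
  · change (r i).i b ν * (r i).base b = ω.2
    rw [e2, inv_mul_cancel_right]
  · rintro ⟨ν, hν, rfl⟩
    exact ⟨rfl, ν, hν, (mul_inv_cancel_right _ _).symm⟩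

theorem REff.step : URE fun i (p : (St × Lam κ) × (St × Lam κ)) => (r i).Step p.1 p.2 := by
  exact Cert.exists (P := fun i (p : (St × Lam κ) × (St × Lam κ)) (ν : Lam κ) _ =>
      ν ∈ (r i).L ∧ p.1 = (r i).o false ν ∧ p.2 = (r i).o true ν)
    (Cert.and (Cert.comp h.mem_L (Trk.snd Trk.id))
      (Cert.and (Cert.eq (Trk.fst (Trk.fst Trk.id)) ((h.o false).comp (Trk.snd Trk.id)))
        (Cert.eq (Trk.snd (Trk.fst Trk.id)) ((h.o true).comp (Trk.snd Trk.id)))))

omit h in
theorem MEff.mem_H0 [Finite J] {m : K.I → MIn St κ J} (h : MEff m) :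
    URE fun i (ω : St × Lam κ) => ω ∈ (m i).H0 := by
  have h1 : URE fun i (p : (St × Lam κ) × (St × Lam κ)) => ∃ r, ((m i).R r).Step p.1 p.2 :=
    Cert.exists_fin fun r => (h.R r).step
  have h2 : URE fun i (p : (St × Lam κ) × (St × Lam κ)) =>
      Relation.EqvGen (fun x y => ∃ r, ((m i).R r).Step x y) p.1 p.2 :=
    ure_eqvGen (X := fun _ => St × Lam κ) (RCert.mono h1
      (fun _ _ ⟨x, ⟨h1, h2⟩, h3⟩ => ⟨x.1, x.2, h1, h2, h3⟩)
      fun _ _ _ ⟨x, y, h1, h2, h3⟩ => ⟨(x, y), ⟨h1, h2⟩, h3⟩)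
  exact Cert.comp h2 (Trk.pair h.ω0.trk Trk.id)

end RE

end Crest.Agent.R185
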