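import Mathlib
/-!
Row 185, coarse topology.  A function `f : X → G` into a (discrete) group is *`S`-semicontinuous*
on `K` when the values of `f` near each point `x ∈ K` lie in `f x • S`.  Such functions play the
role of continuous maps to the Rips complex of `G`.
-/
set_option autoImplicit false
open Set Filter Topology Metric
open scoped Pointwise

namespace Crest.Agent.R185

/-- `f` is `S`-semicontinuous on `K`. -/
def SCOn {G X : Type*} [Group G] [TopologicalSpace X] (S : Set G) (f : X → G) (K : Set X) : Prop :=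
  ∀ x ∈ K, ∀ᶠ y in 𝓝[K] x, (f x)⁻¹ * f y ∈ S

/-- `ρ` coarsely kills `n`-spheres: every `S`-semicontinuous function on the boundary of the
`(n+1)`-cube extends, after applying `ρ`, to a `T`-semicontinuous function on the cube
(sup norm ball), `T` depending only on `S`. -/
def SExt {G G' : Type*} [Group G] [Group G'] (n : ℕ) (ρ : G →* G') : Prop :=
  ∀ S : Set G, S.Finite → ∃ T : Set G', T.Finite ∧
    ∀ f : (Fin (n + 1) → ℝ) → G, SCOn S f (sphere 0 1) →
      ∃ F : (Fin (n + 1) → ℝ) → G', SCOn T F (closedBall 0 1) ∧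
        ∀ x ∈ sphere (0 : Fin (n + 1) → ℝ) 1, F x = ρ (f x)

/-- Extension from a compact set `K₀` to a compact set `K ⊇ K₀` of `ℝ^j`, after applying `ρ`. -/
def Ext {G G' : Type*} [Group G] [Group G'] (j : ℕ) (ρ : G →* G') : Prop :=
  ∀ S : Set G, S.Finite → ∃ T : Set G', T.Finite ∧
    ∀ K₀ K : Set (Fin j → ℝ), IsCompact K₀ → IsCompact K → K₀ ⊆ K →
      ∀ f : (Fin j → ℝ) → G, SCOn S f K₀ →
        ∃ F : (Fin j → ℝ) → G', SCOn T F K ∧ ∀ x ∈ K₀, F x = ρ (f x)

/-- Uniform extension property for a family of pairs `(O a, W a)`: data on `K₀` with values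
`S`-close to `O a` extend to `K` with values `T`-close to every set of the family `W a`. -/
def FExt {G : Type*} [Group G] (j : ℕ) {A : Type*} (O : A → Set G) (W : A → Set (Set G)) : Prop :=
  ∀ S : Set G, S.Finite → ∃ T : Set G, T.Finite ∧
    ∀ (a : A) (K₀ K : Set (Fin j → ℝ)), IsCompact K₀ → IsCompact K → K₀ ⊆ K →
      ∀ f : (Fin j → ℝ) → G, SCOn S f K₀ → (∀ x ∈ K₀, f x ∈ O a * S) →
        ∃ F : (Fin j → ℝ) → G, SCOn T F K ∧ (∀ x ∈ K₀, F x = f x) ∧
          ∀ x ∈ K, ∀ U ∈ W a, F x ∈ U * T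

/-- Coarse connectivity in all dimensions. -/
def Coarse (G : Type*) [Group G] : Prop := ∀ j, Ext j (MonoidHom.id G)

section basic
variable {G G' G'' X Y : Type*} [Group G] [Group G'] [Group G''] [TopologicalSpace X]
  [TopologicalSpace Y]

theorem SCOn.mono {S T : Set G} {f : X → G} {K : Set X} (h : SCOn S f K) (hST : S ⊆ T) :
    SCOn T f K := fun x hx => (h x hx).mono fun _ hy => hST hy

theorem SCOn.mono_set {S : Set G} {f : X → G} {K L : Set X} (h : SCOn S f K) (hL : L ⊆ K) :
    SCOn S f L := fun x hx => (h x (hL hx)).filter_mono (nhdsWithin_mono _ hL)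

theorem SCOn.congr {S : Set G} {f g : X → G} {K : Set X} (h : SCOn S f K) (hfg : EqOn g f K) :
    SCOn S g K := fun x hx => by
  filter_upwards [h x hx, self_mem_nhdsWithin] with y hy hyK
  rw [hfg hx, hfg hyK]; exact hy

theorem SCOn.comp {S : Set G} {f : X → G} {K : Set X} (h : SCOn S f K) {u : Y → X} {L : Set Y}
    (hu : ContinuousOn u L) (hm : MapsTo u L K) : SCOn S (f ∘ u) L := fun y hy =>
  ((hu y hy).tendsto_nhdsWithin hm).eventually (h (u y) (hm hy))

theorem SCOn.map {S : Set G} {f : X → G} {K : Set X} (h : SCOn S f K) (ρ : G →* G') :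
    SCOn (ρ '' S) (fun x => ρ (f x)) K := fun x hx =>
  (h x hx).mono fun y hy => ⟨_, hy, by simp⟩

theorem SCOn.const_mul {S : Set G} {f : X → G} {K : Set X} (h : SCOn S f K) (g : G) :
    SCOn S (fun x => g * f x) K := fun x hx =>
  (h x hx).mono fun y hy => by simpa [mul_assoc] using hy

theorem scOn_const {S : Set G} (h1 : (1 : G) ∈ S) (g : G) (K : Set X) :
    SCOn S (fun _ => g) K := fun x _ => Eventually.of_forall fun _ => by simpa using h1

theorem SCOn.one_mem {S : Set G} {f : X → G} {K : Set X} (h : SCOn S f K) {x : X} (hx : x ∈ K) :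
    (1 : G) ∈ S := by
  have := (h x hx).self_of_nhdsWithin hx
  simpa using this

theorem SCOn.union {S : Set G} {f : X → G} {K L : Set X} (hK : SCOn S f K) (hL : SCOn S f L)
    (cK : IsClosed K) (cL : IsClosed L) : SCOn S f (K ∪ L) := by
  intro x hx
  rw [nhdsWithin_union, eventually_sup]
  have key : ∀ {A : Set X}, SCOn S f A → IsClosed A → ∀ᶠ y in 𝓝[A] x, (f x)⁻¹ * f y ∈ S := by
    intro A hA cA
    by_cases hxA : x ∈ A
    · exact hA x hxA
    · have : 𝓝[A] x = ⊥ := by
        rw [← notMem_closure_iff_nhdsWithin_eq_bot, cA.closure_eq]; exact hxA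
      simp [this]
  exact ⟨key hK cK, key hL cL⟩

theorem SCOn.biUnion {ι : Type*} {S : Set G} {f : X → G} {s : Set ι} (hs : s.Finite)
    {K : ι → Set X} (h : ∀ i ∈ s, SCOn S f (K i)) (c : ∀ i ∈ s, IsClosed (K i)) :
    SCOn S f (⋃ i ∈ s, K i) := by
  induction s, hs using Set.Finite.induction_on with
  | empty => intro x hx; simp at hx
  | @insert a s _ hs ih =>
    rw [biUnion_insert]
    exact (h a (mem_insert _ _)).union
      (ih (fun i hi => h i (mem_insert_of_mem _ hi)) (fun i hi => c i (mem_insert_of_mem _ hi)))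
      (c a (mem_insert _ _)) (hs.isClosed_biUnion fun i hi => c i (mem_insert_of_mem _ hi))

/-- A semicontinuous function takes finitely many values on a compact set. -/
theorem SCOn.finite_image {S : Set G} (hS : S.Finite) {f : X → G} {K : Set X} (h : SCOn S f K)
    (hK : IsCompact K) : (f '' K).Finite := by
  have := hK.induction_on (p := fun s => (f '' s).Finite) (by simp)
    (fun s t hst ht => ht.subset (image_mono hst))
    (fun s t hs ht => by rw [image_union]; exact hs.union ht)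
    (fun x hx => ⟨_, h x hx, (hS.image fun s => f x * s).subset (by
      rintro _ ⟨y, hy, rfl⟩
      exact ⟨_, hy, by simp⟩)⟩)
  exact this

theorem SExt.postcomp {n : ℕ} {ρ : G →* G'} (h : SExt n ρ) (σ : G' →* G'') :
    SExt n (σ.comp ρ) := by
  intro S hS
  obtain ⟨T, hT, H⟩ := h S hS
  refine ⟨σ '' T, hT.image _, fun f hf => ?_⟩
  obtain ⟨F, hF, hFf⟩ := H f hf
  exact ⟨fun x => σ (F x), hF.map σ, fun x hx => by simp [hFf x hx]⟩

theorem SExt.precomp {n : ℕ} {σ : G' →* G''} (h : SExt n σ) (ρ : G →* G') :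
    SExt n (σ.comp ρ) := by
  intro S hS
  obtain ⟨T, hT, H⟩ := h (ρ '' S) (hS.image _)
  refine ⟨T, hT, fun f hf => ?_⟩
  obtain ⟨F, hF, hFf⟩ := H _ (hf.map ρ)
  exact ⟨F, hF, fun x hx => by simp [hFf x hx]⟩

theorem Ext.postcomp {j : ℕ} {ρ : G →* G'} (h : Ext j ρ) (σ : G' →* G'') :
    Ext j (σ.comp ρ) := by
  intro S hS
  obtain ⟨T, hT, H⟩ := h S hS
  refine ⟨σ '' T, hT.image _, fun K₀ K h0 h1 h2 f hf => ?_⟩
  obtain ⟨F, hF, hFf⟩ := H K₀ K h0 h1 h2 f hf
  exact ⟨fun x => σ (F x), hF.map σ, fun x hx => by simp [hFf x hx]⟩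

theorem Ext.precomp {j : ℕ} {σ : G' →* G''} (h : Ext j σ) (ρ : G →* G') :
    Ext j (σ.comp ρ) := by
  intro S hS
  obtain ⟨T, hT, H⟩ := h (ρ '' S) (hS.image _)
  refine ⟨T, hT, fun K₀ K h0 h1 h2 f hf => ?_⟩
  obtain ⟨F, hF, hFf⟩ := H K₀ K h0 h1 h2 _ (hf.map ρ)
  exact ⟨F, hF, fun x hx => by simp [hFf x hx]⟩

theorem Ext.sExt {n : ℕ} {ρ : G →* G'} (h : Ext (n + 1) ρ) : SExt n ρ := by
  intro S hS
  obtain ⟨T, hT, H⟩ := h S hS
  exact ⟨T, hT, fun f hf => H _ _ (isCompact_sphere _ _) (isCompact_closedBall _ _)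
    sphere_subset_closedBall f hf⟩

/-- A retract of a coarsely connected group is coarsely connected. -/
theorem Coarse.of_retract (h : Coarse G) (i : G' →* G) (r : G →* G') (hr : ∀ x, r (i x) = x) :
    Coarse G' := fun j => by
  have := ((h j).precomp i).postcomp r
  have e : r.comp ((MonoidHom.id G).comp i) = MonoidHom.id G' := by ext x; simp [hr]
  rwa [e] at this

theorem Coarse.of_equiv (h : Coarse G) (e : G ≃* G') : Coarse G' :=
  h.of_retract e.symm.toMonoidHom e.toMonoidHom (by simp)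

end basic

end Crest.Agent.R185
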