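import Crest.Agent.R185.SplitDef
/-! Row 185: general theory of `Split` (reduction, filtrations, good subgroups). -/
set_option autoImplicit false
open Set

namespace Crest.Agent.R185

namespace PreSplit
variable {B Γ E : Type} [Group B] [Group Γ] (S : PreSplit B Γ E)

theorem pinch {e : E} {a : B} (ha : a ∈ S.A (S.bar e)) :
    S.t e * S.of a * S.t (S.bar e) = S.of (S.φ (S.bar e) a) := by
  rw [mul_assoc, S.conj _ _ ha, S.t_bar, mul_inv_cancel_left]

theorem ev_append (g : B) (l : List (E × B)) (p : E × B) (l' : List (E × B)) :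
    S.ev g (l ++ p :: l') = S.ev g l * S.t p.1 * S.ev p.2 l' := by
  induction l generalizing g with
  | nil => rfl
  | cons q l ih => simp only [List.cons_append, ev_cons, ih, mul_assoc]

/-- Left multiplication of a reduced path by a letter: either reduced, or a pinch. -/
theorem red_cons_or {l : List (E × B)} (hl : S.Red l) (e : E) (g : B) :
    S.Red ((e, g) :: l) ∨ ∃ h r, l = (S.bar e, h) :: r ∧ g ∈ S.A (S.bar e) ∧
      S.t e * S.ev g l = S.ev (S.φ (S.bar e) g * h) r := by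
  rcases l with _ | ⟨⟨e', h⟩, r⟩
  · exact Or.inl (S.red_singleton _)
  · by_cases hp : e' = S.bar e ∧ g ∈ S.A e'
    · obtain ⟨rfl, hg⟩ := hp
      refine Or.inr ⟨h, r, rfl, hg, ?_⟩
      rw [ev_mul, ← S.pinch hg, ev_cons]
      simp only [mul_assoc]
    · exact Or.inl ((S.red_cons_cons _ _ _).2 ⟨hp, hl⟩)

theorem Red.of_append_left {S : PreSplit B Γ E} {l l' : List (E × B)} (h : S.Red (l ++ l')) :
    S.Red l := by
  exact List.IsChain.left_of_append h

theorem Red.of_append_right {S : PreSplit B Γ E} {l l' : List (E × B)} (h : S.Red (l ++ l')) :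
    S.Red l' := by
  exact List.IsChain.right_of_append h

/-- A path without adjacent inverse letters is reduced. -/
theorem red_of_letters {l : List (E × B)} (h : (l.map Prod.fst).IsChain fun e e' => e' ≠ S.bar e) :
    S.Red l := by
  rw [List.isChain_map] at h
  exact List.IsChain.imp (fun _ _ h1 h2 => h1 h2.1) h

theorem PC.mono {F : Filt B} {c : E → ℕ} {g : B} {l : List (E × B)} {m n : ℕ}
    (h : PC F c g l m) (hmn : m ≤ n) : PC F c g l n := by
  cases l with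
  | nil => exact F.mono h hmn
  | cons p l =>
    obtain ⟨a, b, h1, h2, h3⟩ := h
    exact ⟨a, b, h1, h2, h3.trans hmn⟩

theorem PC.ps {F : Filt B} {c : E → ℕ} {g : B} {l : List (E × B)} {n : ℕ} (h : PC F c g l n) :
    PS F c g l n := by
  induction l generalizing g n with
  | nil => exact ⟨h, by simp⟩
  | cons p l ih =>
    obtain ⟨a, b, h1, h2, h3⟩ := h
    obtain ⟨h4, h5⟩ := ih h2
    refine ⟨F.mono h1 (by omega), fun q hq => ?_⟩
    rcases List.mem_cons.1 hq with rfl | hq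
    · exact ⟨F.mono h4 (by omega), by omega⟩
    · exact ⟨F.mono (h5 q hq).1 (by omega), (h5 q hq).2.trans (by omega)⟩

theorem PC.prefix {F : Filt B} {c : E → ℕ} {g : B} {l l' : List (E × B)} {n : ℕ}
    (h : PC F c g (l ++ l') n) : PC F c g l n := by
  induction l generalizing g n with
  | nil => exact h.ps.1
  | cons p l ih =>
    obtain ⟨a, b, h1, h2, h3⟩ := h
    exact ⟨a, b, h1, ih h2, h3⟩

/-- A suffix of a path. -/
theorem PC.suffix {F : Filt B} {c : E → ℕ} {g : B} {l l' : List (E × B)} {p : E × B} {n : ℕ}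
    (h : PC F c g (l ++ p :: l') n) : PC F c p.2 l' n := by
  induction l generalizing g n with
  | nil =>
    obtain ⟨a, b, -, h2, h3⟩ := h
    exact h2.mono (by omega)
  | cons q l ih =>
    obtain ⟨a, b, -, h2, h3⟩ := h
    exact (ih h2).mono (by omega)

theorem of_φ {e : E} {a : B} (ha : a ∈ S.A e) : S.of (S.φ e a) = (S.t e)⁻¹ * S.of a * S.t e := by
  rw [mul_assoc, S.conj _ _ ha, inv_mul_cancel_left]

theorem PC.mul_left {F : Filt B} {c : E → ℕ} {a g : B} {l : List (E × B)} {m n : ℕ}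
    (ha : F.le a m) (h : PC F c g l n) : PC F c (a * g) l (m + n) := by
  cases l with
  | nil => exact F.mul ha h
  | cons p l =>
    obtain ⟨u, v, h1, h2, h3⟩ := h
    exact ⟨m + u, v, F.mul ha h1, h2, by omega⟩

theorem pc_mul {F : Filt B} {c : E → ℕ} {g g' : B} {l l' : List (E × B)} {m n : ℕ}
    (h : PC F c g l m) (h' : PC F c g' l' n) :
    ∃ u r, PC F c u r (m + n) ∧ S.ev u r = S.ev g l * S.ev g' l' := by
  induction l generalizing g m with
  | nil => exact ⟨g * g', l', PC.mul_left h h', S.ev_mul _ _ _⟩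
  | cons p l ih =>
    obtain ⟨a, b, h1, h2, h3⟩ := h
    obtain ⟨u, r, h4, h5⟩ := ih h2
    exact ⟨g, (p.1, u) :: r, ⟨a, b + n, h1, h4, by simp only; omega⟩, by
      rw [ev_cons, ev_cons, h5, mul_assoc _ (S.ev p.2 l)]⟩

theorem pc_inv {F : Filt B} {c : E → ℕ} (hS : S.SumOK F c) {g : B} {l : List (E × B)} {n : ℕ}
    (h : PC F c g l n) : ∃ u r, PC F c u r n ∧ S.ev u r = (S.ev g l)⁻¹ := by
  induction l generalizing g n with
  | nil => exact ⟨g⁻¹, [], F.inv h, map_inv _ _⟩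
  | cons p l ih =>
    obtain ⟨a, b, h1, h2, h3⟩ := h
    obtain ⟨u, r, h4, h5⟩ := ih h2
    have h6 : PC F c 1 [(S.bar p.1, g⁻¹)] (c p.1 + a) :=
      ⟨0, a, F.one, F.inv h1, by simp [hS.c_bar]⟩
    obtain ⟨u', r', h7, h8⟩ := S.pc_mul h4 h6
    refine ⟨u', r', h7.mono (by omega), ?_⟩
    rw [h8, h5]
    simp [S.t_bar, mul_assoc]

theorem ps_mul {F : Filt B} {c : E → ℕ} (hS : S.SupOK F c) {g' : B} {l' : List (E × B)} {m n : ℕ}
    (hl' : S.Red l') (h' : PS F c g' l' n) (g : B) (l : List (E × B)) (hl : S.Red l)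
    (h : PS F c g l m) :
    ∃ u r, S.Red r ∧ S.ev u r = S.ev g l * S.ev g' l' ∧ PS F c u r (m + n) ∧
      ((∃ u', u = g * u' ∧ PS F c u' r n) ∨
        (u = g ∧ ∃ p l₀ q r₀, l = p :: l₀ ∧ r = q :: r₀ ∧ q.1 = p.1)) := by
  have up : ∀ {g u' r}, F.le g m → PS F c u' r n → PS F c (g * u') r (m + n) := fun hg hu =>
    ⟨F.mul hg hu.1, fun p hp => ⟨F.mono (hu.2 p hp).1 (by omega), (hu.2 p hp).2.trans (by omega)⟩⟩
  induction l generalizing g with
  | nil => exact ⟨g * g', l', hl', S.ev_mul _ _ _, up h.1 h', Or.inl ⟨g', rfl, h'⟩⟩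
  | cons p l ih =>
    have hp := h.2 p List.mem_cons_self
    obtain ⟨u, r, h1, h2, h3, h4⟩ := ih p.2 hl.tail
      ⟨hp.1, fun q hq => h.2 q (List.mem_cons_of_mem _ hq)⟩
    rcases S.red_cons_or h1 p.1 u with h5 | ⟨k, r', rfl, h5, h6⟩
    · refine ⟨g, _, h5, by rw [ev_cons, ev_cons, h2, mul_assoc _ (S.ev p.2 l)],
        ⟨F.mono h.1 (by omega), fun q hq => ?_⟩, Or.inr ⟨rfl, p, l, _, r, rfl, rfl, rfl⟩⟩
      rcases List.mem_cons.1 hq with rfl | hq
      · exact ⟨h3.1, hp.2.trans (by omega)⟩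
      · exact h3.2 q hq
    · rcases h4 with ⟨u', -, h4⟩ | ⟨rfl, p', l₀, q, r₀, rfl, h7, h8⟩
      · have h7 : PS F c (S.φ (S.bar p.1) u * k) r' n :=
          ⟨Filt.mul' (hS.zero _ _ (S.φ_mem _ _ h5)) (h4.2 _ List.mem_cons_self).1 (by omega),
            fun q hq => h4.2 q (List.mem_cons_of_mem _ hq)⟩
        refine ⟨g * (S.φ (S.bar p.1) u * k), r', h1.tail, ?_, up h.1 h7, Or.inl ⟨_, rfl, h7⟩⟩
        rw [ev_mul, ← h6, h2, ev_cons]
        simp only [mul_assoc]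
      · obtain ⟨rfl, -⟩ := List.cons.inj h7
        exact absurd ⟨h8.symm, h8 ▸ h5⟩ ((S.red_cons_cons _ _ _).1 hl).1

theorem ps_inv {F : Filt B} {c : E → ℕ} (hS : S.SupOK F c) {n : ℕ} (g : B)
    (l acc : List (E × B)) (hl : S.Red l) (hacc : S.Red acc)
    (hlink : ∀ p ∈ l.head?, ∀ q ∈ acc.head?, ¬ (q.1 = p.1 ∧ g ∈ S.A q.1))
    (h : PS F c g l n) (h' : ∀ q ∈ acc, F.le q.2 n ∧ c q.1 ≤ n) :
    ∃ u r, S.Red r ∧ S.ev u r = (S.ev g l)⁻¹ * S.ev 1 acc ∧ PS F c u r n := by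
  induction l generalizing g acc with
  | nil => exact ⟨g⁻¹, acc, hacc, by rw [ev_nil, ← map_inv, ← ev_mul, mul_one], F.inv h.1, h'⟩
  | cons p l ih =>
    have hp := h.2 p List.mem_cons_self
    have h1 : S.Red ((S.bar p.1, g⁻¹) :: acc) := by
      rcases acc with _ | ⟨q, acc⟩
      · exact S.red_singleton _
      · refine (S.red_cons_cons _ _ _).2 ⟨?_, hacc⟩
        rw [S.bar_bar, inv_mem_iff]
        exact hlink p rfl q rfl
    obtain ⟨u, r, h2, h3, h4⟩ := ih p.2 ((S.bar p.1, g⁻¹) :: acc) hl.tail h1 (by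
        intro p' hp' q hq
        obtain rfl : (S.bar p.1, g⁻¹) = q := by simpa using hq
        rcases l with _ | ⟨p'', l⟩
        · simp at hp'
        obtain rfl : p'' = p' := by simpa using hp'
        rintro ⟨h5, h6⟩
        exact ((S.red_cons_cons _ _ _).1 hl).1 ⟨h5.symm, h5 ▸ h6⟩)
      ⟨hp.1, fun q hq => h.2 q (List.mem_cons_of_mem _ hq)⟩ (by
        intro q hq
        rcases List.mem_cons.1 hq with rfl | hq
        · exact ⟨F.inv h.1, by rw [hS.c_bar]; exact hp.2⟩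
        · exact h' q hq)
    refine ⟨u, r, h2, ?_, h4⟩
    rw [h3, ev_cons, ev_cons, ← mul_one g⁻¹, ev_mul, S.t_bar]
    simp [mul_assoc]

/-- The total-cost filtration on `Γ`. -/
def sumF {F : Filt B} {c : E → ℕ} (h : S.SumOK F c) : Filt Γ where
  le x n := ∃ g l, PC F c g l n ∧ S.ev g l = x
  one := ⟨1, [], F.one, map_one _⟩
  mul := by
    rintro _ _ m n ⟨g, l, h1, rfl⟩ ⟨g', l', h2, rfl⟩
    exact S.pc_mul h1 h2
  inv := by
    rintro _ n ⟨g, l, h1, rfl⟩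
    exact S.pc_inv h h1
  mono := by
    rintro x m n ⟨g, l, h1, h2⟩ hmn
    exact ⟨g, l, h1.mono hmn, h2⟩

theorem sumF_red {F : Filt B} {c : E → ℕ} (h : S.SumOK F c) {x : Γ} {n : ℕ}
    (hx : (S.sumF h).le x n) : ∃ g l, S.Red l ∧ PC F c g l n ∧ S.ev g l = x := by
  obtain ⟨g, l, h1, rfl⟩ := hx
  induction l generalizing g n with
  | nil => exact ⟨g, [], S.red_nil, h1, rfl⟩
  | cons p l ih =>
    obtain ⟨a, b, h1, h2, h3⟩ := h1
    obtain ⟨g', l', h4, h5, h6⟩ := ih _ h2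
    rcases S.red_cons_or h4 p.1 g' with h7 | ⟨k, r, rfl, h7, h8⟩
    · exact ⟨g, _, h7, ⟨a, b, h1, h5, h3⟩, by rw [ev_cons, ev_cons, ← h6]⟩
    · obtain ⟨a', b', h9, h10, h11⟩ := h5
      refine ⟨g * (S.φ (S.bar p.1) g' * k), r, h4.tail,
        (PC.mul_left h1 (PC.mul_left (h.pinch _ _ _ h7 h9) h10)).mono ?_, ?_⟩
      · have := h.c_bar p.1
        simp only at h11
        omega
      · rw [ev_mul, ← h8, h6, ev_cons, mul_assoc]

theorem sumF_redCtl {F : Filt B} {c : E → ℕ} (h : S.SumOK F c) : S.RedCtl F c (S.sumF h) := by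
  intro x n hx
  obtain ⟨g, l, h1, h2, h3⟩ := S.sumF_red h hx
  exact ⟨g, l, h1, h3, h2.ps⟩

theorem sumF_of {F : Filt B} {c : E → ℕ} (h : S.SumOK F c) {g : B} {n : ℕ} (hg : F.le g n) :
    (S.sumF h).le (S.of g) n := ⟨g, [], hg, rfl⟩

theorem sumF_t {F : Filt B} {c : E → ℕ} (h : S.SumOK F c) (e : E) :
    (S.sumF h).le (S.t e) (c e) :=
  ⟨1, [(e, 1)], ⟨0, 0, F.one, F.one, by simp⟩, by simp⟩

/-- A homomorphism that does not increase the cost of syllables and letters does not increase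
the total cost. -/
theorem sumF_map {F : Filt B} {c : E → ℕ} (h : S.SumOK F c) {T : Type} [Group T] (F' : Filt T)
    (ψ : Γ →* T) (h1 : ∀ g n, F.le g n → F'.le (ψ (S.of g)) n)
    (h2 : ∀ e, F'.le (ψ (S.t e)) (c e)) {x : Γ} {n : ℕ} (hx : (S.sumF h).le x n) :
    F'.le (ψ x) n := by
  obtain ⟨g, l, h3, rfl⟩ := hx
  induction l generalizing g n with
  | nil => exact h1 g n h3
  | cons p l ih =>
    obtain ⟨a, b, h4, h5, h6⟩ := h3
    rw [ev_cons, map_mul, map_mul]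
    exact Filt.mul' (F'.mul (h1 g a h4) (h2 p.1)) (ih _ h5) h6

theorem IsGood.exists_red {S : PreSplit B Γ E} {H : Subgroup B} {L : Set E} (h : S.IsGood H L)
    {x : Γ} (hx : x ∈ S.gsub H L) :
    ∃ g l, g ∈ H ∧ (∀ p ∈ l, p.1 ∈ L ∧ p.2 ∈ H) ∧ S.Red l ∧ S.ev g l = x := by
  have ho : ∀ a ∈ H, ∀ y, (∃ g l, g ∈ H ∧ (∀ p ∈ l, p.1 ∈ L ∧ p.2 ∈ H) ∧ S.Red l ∧ S.ev g l = y) →
      ∃ g l, g ∈ H ∧ (∀ p ∈ l, p.1 ∈ L ∧ p.2 ∈ H) ∧ S.Red l ∧ S.ev g l = S.of a * y := by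
    rintro a ha _ ⟨g, l, h1, h2, h3, rfl⟩
    exact ⟨a * g, l, H.mul_mem ha h1, h2, h3, S.ev_mul _ _ _⟩
  have ht : ∀ e ∈ L, ∀ y, (∃ g l, g ∈ H ∧ (∀ p ∈ l, p.1 ∈ L ∧ p.2 ∈ H) ∧ S.Red l ∧ S.ev g l = y) →
      ∃ g l, g ∈ H ∧ (∀ p ∈ l, p.1 ∈ L ∧ p.2 ∈ H) ∧ S.Red l ∧ S.ev g l = S.t e * y := by
    rintro e he _ ⟨g, l, h1, h2, h3, rfl⟩
    rcases S.red_cons_or h3 e g with h4 | ⟨k, r, rfl, h4, h5⟩
    · refine ⟨1, _, H.one_mem, fun p hp => ?_, h4, by simp⟩
      rcases List.mem_cons.1 hp with rfl | hp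
      · exact ⟨he, h1⟩
      · exact h2 p hp
    · exact ⟨_, r, H.mul_mem (h.φ_mem _ (h.bar_mem e he) g h1 h4) (h2 _ List.mem_cons_self).2,
        fun p hp => h2 p (List.mem_cons_of_mem _ hp), h3.tail, h5.symm⟩
  induction hx using Subgroup.closure_induction_left with
  | one => exact ⟨1, [], H.one_mem, by simp, S.red_nil, map_one _⟩
  | mul_left x hx y _ ih =>
    rcases hx with ⟨a, ha, rfl⟩ | ⟨e, he, rfl⟩
    · exact ho a ha y ih
    · exact ht e he y ih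
  | inv_mul_cancel x hx y _ ih =>
    rcases hx with ⟨a, ha, rfl⟩ | ⟨e, he, rfl⟩
    · rw [← map_inv]; exact ho _ (H.inv_mem ha) y ih
    · rw [← S.t_bar]; exact ht _ (h.bar_mem e he) y ih

theorem ev_mem_gsub {H : Subgroup B} {L : Set E} {g : B} {l : List (E × B)} (hg : g ∈ H)
    (hl : ∀ p ∈ l, p.1 ∈ L ∧ p.2 ∈ H) : S.ev g l ∈ S.gsub H L := by
  induction l generalizing g with
  | nil => exact Subgroup.subset_closure (Or.inl ⟨g, hg, rfl⟩)
  | cons p l ih =>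
    have hp := hl p List.mem_cons_self
    exact mul_mem (mul_mem (Subgroup.subset_closure (Or.inl ⟨g, hg, rfl⟩))
      (Subgroup.subset_closure (Or.inr ⟨p.1, hp.1, rfl⟩)))
      (ih hp.2 fun q hq => hl q (List.mem_cons_of_mem _ hq))

end PreSplit

namespace Split
open PreSplit
variable {B Γ E : Type} [Group B] [Group Γ] (S : Split B Γ E)

theorem φ_mul {e : E} {a b : B} (ha : a ∈ S.A e) (hb : b ∈ S.A e) :
    S.φ e (a * b) = S.φ e a * S.φ e b := by
  apply S.inj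
  rw [map_mul, S.of_φ ha, S.of_φ hb, S.of_φ ((S.A e).mul_mem ha hb), map_mul]
  group

theorem φ_one (e : E) : S.φ e 1 = 1 := by
  apply S.inj
  rw [S.of_φ (S.A e).one_mem]
  simp

theorem φ_inv {e : E} {a : B} (ha : a ∈ S.A e) : S.φ e a⁻¹ = (S.φ e a)⁻¹ := by
  apply S.inj
  rw [map_inv, S.of_φ ha, S.of_φ ((S.A e).inv_mem ha), map_inv]
  group

theorem φ_bar_φ {e : E} {a : B} (ha : a ∈ S.A e) : S.φ (S.bar e) (S.φ e a) = a := by
  apply S.inj
  rw [S.of_φ (S.φ_mem e a ha), S.of_φ ha, S.t_bar]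
  group

theorem exists_red (x : Γ) : ∃ g l, S.Red l ∧ S.ev g l = x := by
  have hg : S.IsGood ⊤ univ := ⟨fun _ _ => trivial, fun _ _ _ _ _ => trivial⟩
  have hx : x ∈ S.gsub ⊤ univ := by
    unfold gsub
    rw [Subgroup.coe_top, image_univ, image_univ, S.gen]
    trivial
  obtain ⟨g, l, -, -, h1, h2⟩ := hg.exists_red hx
  exact ⟨g, l, h1, h2⟩

/-- One step of the comparison of two reduced paths. -/
theorem cmp_cons {g g' : B} {p : E × B} {l l' : List (E × B)} (h : S.Red (p :: l)) (h' : S.Red l')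
    (e : S.ev g (p :: l) = S.ev g' l') : ∃ h' r', l' = (p.1, h') :: r' ∧ g'⁻¹ * g ∈ S.A p.1 ∧
      S.ev (S.φ p.1 (g'⁻¹ * g) * p.2) l = S.ev h' r' := by
  rcases S.cmp g _ g' _ h h' e with ⟨h1, -⟩ | ⟨e₀, k, r, k', r', h1, rfl, h3⟩
  · cases h1
  · obtain ⟨rfl, rfl⟩ := List.cons.inj h1
    refine ⟨k', r', rfl, h3, ?_⟩
    rw [ev_cons, ev_cons] at e
    rw [ev_mul, S.of_φ h3, map_mul, map_inv]
    have : S.ev k' r' = (S.of g' * S.t e₀)⁻¹ * (S.of g * S.t e₀ * S.ev k l) := by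
      rw [e]; group
    rw [this]
    group

theorem map_fst_eq {g g' : B} {l l' : List (E × B)} (h : S.Red l) (h' : S.Red l')
    (e : S.ev g l = S.ev g' l') : l.map Prod.fst = l'.map Prod.fst := by
  induction l generalizing g g' l' with
  | nil =>
    rcases S.cmp g _ g' _ h h' e with ⟨-, rfl⟩ | ⟨_, _, _, _, _, h1, -⟩
    · rfl
    · cases h1
  | cons p l ih =>
    obtain ⟨k, r, rfl, -, h2⟩ := S.cmp_cons h h' e
    rw [List.map_cons, List.map_cons, ih h.tail h'.tail h2]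

/-- Britton's lemma. -/
theorem eq_nil_of_ev_eq_of {g g' : B} {l : List (E × B)} (h : S.Red l) (e : S.ev g l = S.of g') :
    l = [] ∧ g = g' := by
  have h1 := S.map_fst_eq (g' := g') (l' := []) h S.red_nil e
  obtain rfl : l = [] := by simpa using h1
  exact ⟨rfl, S.inj e⟩

/-- Prefixes of two reduced paths with the same value agree up to the edge group. -/
theorem cmp_prefix {g g' : B} {l₁ l₂ l₁' l₂' : List (E × B)} {p p' : E × B}
    (h : S.Red (l₁ ++ p :: l₂)) (h' : S.Red (l₁' ++ p' :: l₂'))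
    (e : S.ev g (l₁ ++ p :: l₂) = S.ev g' (l₁' ++ p' :: l₂')) (hlen : l₁.length = l₁'.length) :
    p.1 = p'.1 ∧ ∃ a ∈ S.A p.1, S.ev g l₁ = S.ev g' l₁' * S.of a := by
  induction l₁ generalizing g g' l₁' with
  | nil =>
    obtain rfl : l₁' = [] := List.length_eq_zero_iff.1 hlen.symm
    obtain ⟨k, r, h1, h2, -⟩ := S.cmp_cons h h' e
    obtain ⟨rfl, -⟩ := List.cons.inj h1
    exact ⟨rfl, _, h2, by simp⟩
  | cons q l₁ ih =>
    rcases l₁' with _ | ⟨q', l₁'⟩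
    · simp at hlen
    obtain ⟨k, r, h1, h2, h3⟩ := S.cmp_cons h h' e
    obtain ⟨rfl, rfl⟩ := List.cons.inj h1
    obtain ⟨h4, a, ha, h5⟩ := ih h.tail h'.tail h3 (by simpa using hlen)
    refine ⟨h4, a, ha, ?_⟩
    rw [ev_mul, S.of_φ h2, map_mul, map_inv] at h5
    rw [ev_cons, ev_cons, mul_assoc _ (S.ev k l₁'), ← h5]
    group

/-- With trivial edge groups reduced paths are unique. -/
theorem red_unique (hA : ∀ e, S.A e = ⊥) {g g' : B} {l l' : List (E × B)} (h : S.Red l)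
    (h' : S.Red l') (e : S.ev g l = S.ev g' l') : g = g' ∧ l = l' := by
  induction l generalizing g g' l' with
  | nil =>
    obtain ⟨rfl, rfl⟩ := S.eq_nil_of_ev_eq_of h' e.symm
    exact ⟨rfl, rfl⟩
  | cons p l ih =>
    obtain ⟨k, r, rfl, h1, h2⟩ := S.cmp_cons h h' e
    rw [hA, Subgroup.mem_bot] at h1
    rw [h1, S.φ_one, one_mul] at h2
    obtain ⟨rfl, rfl⟩ := ih h.tail h'.tail h2
    exact ⟨(inv_mul_eq_one.1 h1).symm, rfl⟩

theorem sumF_of_iff {F : Filt B} {c : E → ℕ} (h : S.SumOK F c) {g : B} {n : ℕ} :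
    (S.sumF h).le (S.of g) n ↔ F.le g n := by
  refine ⟨fun hx => ?_, S.sumF_of h⟩
  obtain ⟨g', l, h1, h2, h3⟩ := S.sumF_red h hx
  obtain ⟨rfl, rfl⟩ := S.eq_nil_of_ev_eq_of h1 h3
  exact h2

/-- The size of a reduced path does not depend on the path. -/
theorem PS_of_red {F : Filt B} {c : E → ℕ} (h : S.SupOK F c) {g g' : B} {l l' : List (E × B)}
    (hl : S.Red l) (hl' : S.Red l') (e : S.ev g l = S.ev g' l') {n : ℕ} (hs : PS F c g l n) :
    PS F c g' l' n := by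
  induction l generalizing g g' l' with
  | nil =>
    obtain ⟨rfl, rfl⟩ := S.eq_nil_of_ev_eq_of hl' e.symm
    exact hs
  | cons p l ih =>
    obtain ⟨k, r, rfl, h1, h2⟩ := S.cmp_cons hl hl' e
    have hp := hs.2 p List.mem_cons_self
    obtain ⟨h3, h4⟩ := ih hl.tail hl'.tail h2
      ⟨Filt.mul' (h.zero _ _ (S.φ_mem _ _ h1)) hp.1 (by omega),
        fun q hq => hs.2 q (List.mem_cons_of_mem _ hq)⟩
    refine ⟨?_, fun q hq => ?_⟩
    · have := Filt.mul' hs.1 (F.inv (h.zero _ _ h1)) (Nat.add_zero n).le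
      simpa using this
    · rcases List.mem_cons.1 hq with rfl | hq
      · exact ⟨h3, hp.2⟩
      · exact h4 q hq

/-- The sup filtration on `Γ`. -/
def supF {F : Filt B} {c : E → ℕ} (h : S.SupOK F c) : Filt Γ where
  le x n := ∃ g l, S.Red l ∧ S.ev g l = x ∧ PS F c g l n
  one := ⟨1, [], S.red_nil, map_one _, F.one, by simp⟩
  mul := by
    rintro _ _ m n ⟨g, l, h1, rfl, h2⟩ ⟨g', l', h3, rfl, h4⟩
    obtain ⟨u, r, h5, h6, h7, -⟩ := S.ps_mul h h3 h4 g l h1 h2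
    exact ⟨u, r, h5, h6, h7⟩
  inv := by
    rintro _ n ⟨g, l, h1, rfl, h2⟩
    obtain ⟨u, r, h3, h4, h5⟩ := S.ps_inv h g l [] h1 S.red_nil (by simp) h2 (by simp)
    exact ⟨u, r, h3, by simpa using h4, h5⟩
  mono := by
    rintro x m n ⟨g, l, h1, h2, h3, h4⟩ hmn
    exact ⟨g, l, h1, h2, F.mono h3 hmn, fun p hp => ⟨F.mono (h4 p hp).1 hmn, (h4 p hp).2.trans hmn⟩⟩

theorem supF_redCtl {F : Filt B} {c : E → ℕ} (h : S.SupOK F c) : S.RedCtl F c (S.supF h) :=
  fun _ _ hx => hx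

theorem supF_of {F : Filt B} {c : E → ℕ} (h : S.SupOK F c) {g : B} {n : ℕ} (hg : F.le g n) :
    (S.supF h).le (S.of g) n := ⟨g, [], S.red_nil, rfl, hg, by simp⟩

theorem supF_t {F : Filt B} {c : E → ℕ} (h : S.SupOK F c) (e : E) :
    (S.supF h).le (S.t e) (c e) :=
  ⟨1, [(e, 1)], S.red_singleton _, by simp, F.one' _, by simpa using F.one' _⟩

variable {S} {H : Subgroup B} {L : Set E}

theorem good_first (h : S.IsGood H L) {g : B} {p : E × B} {l : List (E × B)}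
    (hl : S.Red (p :: l)) (hx : S.ev g (p :: l) ∈ S.gsub H L) :
    p.1 ∈ L ∧ ∃ a ∈ S.A p.1, g * a⁻¹ ∈ H := by
  obtain ⟨g', l', h1, h2, h3, h4⟩ := h.exists_red hx
  obtain ⟨k, r, rfl, h5, -⟩ := S.cmp_cons hl h3 h4.symm
  exact ⟨(h2 _ List.mem_cons_self).1, _, h5, by simpa using h1⟩

theorem good_of_mem (h : S.IsGood H L) {g : B} : S.of g ∈ S.gsub H L ↔ g ∈ H := by
  refine ⟨fun hx => ?_, fun hg => Subgroup.subset_closure (Or.inl ⟨g, hg, rfl⟩)⟩
  obtain ⟨g', l', h1, -, h3, h4⟩ := h.exists_red hx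
  obtain ⟨-, rfl⟩ := S.eq_nil_of_ev_eq_of h3 h4
  exact h1

/-- When the edge groups lie in `H`, membership is read off syllable by syllable. -/
theorem good_mem_iff (h : S.IsGood H L) (hle : ∀ e ∈ L, S.A e ≤ H) {g : B} {l : List (E × B)}
    (hl : S.Red l) : S.ev g l ∈ S.gsub H L ↔ g ∈ H ∧ ∀ p ∈ l, p.1 ∈ L ∧ p.2 ∈ H := by
  refine ⟨fun hx => ?_, fun hx => S.ev_mem_gsub hx.1 hx.2⟩
  induction l generalizing g with
  | nil => exact ⟨(good_of_mem h).1 hx, by simp⟩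
  | cons p l ih =>
    obtain ⟨h1, a, ha, h2⟩ := good_first h hl hx
    have hg : g ∈ H := by simpa using H.mul_mem h2 (hle _ h1 ha)
    have h3 : S.of g * S.t p.1 ∈ S.gsub H L :=
      mul_mem (Subgroup.subset_closure (Or.inl ⟨g, hg, rfl⟩))
        (Subgroup.subset_closure (Or.inr ⟨p.1, h1, rfl⟩))
    obtain ⟨h4, h5⟩ := ih hl.tail ((Subgroup.mul_mem_cancel_left _ h3).1 hx)
    refine ⟨hg, fun q hq => ?_⟩
    rcases List.mem_cons.1 hq with rfl | hq
    · exact ⟨h1, h4⟩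
    · exact h5 q hq

/-- Universal property of a good subgroup. -/
theorem good_lift (h : S.IsGood H L) {T : Type*} [Group T] (f : H →* T) (τ : E → T)
    (hτ : ∀ e ∈ L, τ (S.bar e) = (τ e)⁻¹)
    (hc : ∀ e (he : e ∈ L) (a : H) (ha : a.1 ∈ S.A e),
      f a * τ e = τ e * f ⟨S.φ e a, h.φ_mem e he a a.2 ha⟩) :
    ∃ ψ : S.gsub H L →* T,
      (∀ a : H, ψ ⟨S.of a, Subgroup.subset_closure (Or.inl ⟨a, a.2, rfl⟩)⟩ = f a) ∧
      ∀ e (he : e ∈ L), ψ ⟨S.t e, Subgroup.subset_closure (Or.inr ⟨e, he, rfl⟩)⟩ = τ e := by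
  classical
  let f' : B → T := fun b => if hb : b ∈ H then f ⟨b, hb⟩ else 1
  have f'_eq : ∀ b (hb : b ∈ H), f' b = f ⟨b, hb⟩ := fun b hb => dif_pos hb
  have f'_mul : ∀ a ∈ H, ∀ b ∈ H, f' (a * b) = f' a * f' b := fun a ha b hb => by
    rw [f'_eq a ha, f'_eq b hb, f'_eq _ (H.mul_mem ha hb), ← map_mul]; rfl
  have f'_one : f' 1 = 1 := by rw [f'_eq 1 H.one_mem]; exact map_one f
  let K : Subgroup (Γ × T) := Subgroup.closure
    ((fun a => (S.of a, f' a)) '' H ∪ (fun e => (S.t e, τ e)) '' L)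
  let Q : Γ × T → Prop := fun z => ∃ g l, g ∈ H ∧ (∀ p ∈ l, p.1 ∈ L ∧ p.2 ∈ H) ∧ S.Red l ∧
    S.ev g l = z.1 ∧ f' g * (l.map fun p : E × B => τ p.1 * f' p.2).prod = z.2
  have ho : ∀ a ∈ H, ∀ y, Q y → Q ((S.of a, f' a) * y) := by
    rintro a ha ⟨x, y⟩ ⟨g, l, h1, h2, h3, rfl, rfl⟩
    exact ⟨a * g, l, H.mul_mem ha h1, h2, h3, S.ev_mul _ _ _, by
      rw [f'_mul a ha g h1, mul_assoc]; rfl⟩
  have ht : ∀ e ∈ L, ∀ y, Q y → Q ((S.t e, τ e) * y) := by
    rintro e he ⟨x, y⟩ ⟨g, l, h1, h2, h3, rfl, rfl⟩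
    rcases S.red_cons_or h3 e g with h4 | ⟨k, r, rfl, h4, h5⟩
    · refine ⟨1, _, H.one_mem, fun p hp => ?_, h4, by simp, by simp [f'_one, mul_assoc]⟩
      rcases List.mem_cons.1 hp with rfl | hp
      · exact ⟨he, h1⟩
      · exact h2 p hp
    · have hb := h.bar_mem e he
      have h6 := h.φ_mem _ hb g h1 h4
      have hk : k ∈ H := (h2 _ List.mem_cons_self).2
      refine ⟨_, r, H.mul_mem h6 hk, fun p hp => h2 p (List.mem_cons_of_mem _ hp), h3.tail,
        h5.symm, ?_⟩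
      have h7 := hc _ hb ⟨g, h1⟩ h4
      rw [← f'_eq, ← f'_eq] at h7
      change _ = τ e * (f' g * (τ (S.bar e) * f' k *
        (r.map fun p : E × B => τ p.1 * f' p.2).prod))
      rw [f'_mul _ h6 k hk, mul_assoc (τ (S.bar e)), ← mul_assoc (f' g), h7, hτ e he]
      group
  have hQ : ∀ z ∈ K, Q z := by
    intro z hz
    induction hz using Subgroup.closure_induction_left with
    | one => exact ⟨1, [], H.one_mem, by simp, S.red_nil, map_one _, by simp [f'_one]⟩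
    | mul_left x hx y _ ih =>
      rcases hx with ⟨a, ha, rfl⟩ | ⟨e, he, rfl⟩
      · exact ho a ha y ih
      · exact ht e he y ih
    | inv_mul_cancel x hx y _ ih =>
      rcases hx with ⟨a, ha, rfl⟩ | ⟨e, he, rfl⟩
      · have : ((S.of a, f' a) : Γ × T)⁻¹ = (S.of a⁻¹, f' a⁻¹) := by
          refine Prod.ext (map_inv _ _).symm (eq_inv_of_mul_eq_one_left ?_).symm
          rw [← f'_mul _ (H.inv_mem ha) _ ha, inv_mul_cancel, f'_one]
        beta_reduce
        rw [this]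
        exact ho _ (H.inv_mem ha) y ih
      · have : ((S.t e, τ e) : Γ × T)⁻¹ = (S.t (S.bar e), τ (S.bar e)) :=
          Prod.ext (S.t_bar e).symm (hτ e he).symm
        beta_reduce
        rw [this]
        exact ht _ (h.bar_mem e he) y ih
  have hmap : K.map (MonoidHom.fst Γ T) = S.gsub H L := by
    rw [MonoidHom.map_closure, image_union, image_image, image_image]
    rfl
  let π₁ : K →* S.gsub H L := ((MonoidHom.fst Γ T).comp K.subtype).codRestrict _ fun z =>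
    hmap ▸ Subgroup.mem_map_of_mem _ z.2
  have hbij : Function.Bijective π₁ := by
    constructor
    · rw [injective_iff_map_eq_one]
      rintro ⟨⟨x, y⟩, hz⟩ h1
      obtain rfl : x = 1 := congrArg Subtype.val h1
      obtain ⟨g, l, -, -, h3, h4, h5⟩ := hQ _ hz
      obtain ⟨rfl, rfl⟩ := S.eq_nil_of_ev_eq_of (g' := 1) h3 (h4.trans (map_one _).symm)
      obtain rfl : y = 1 := by simpa [f'_one] using h5.symm
      rfl
    · rintro ⟨x, hx⟩
      rw [← hmap] at hx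
      obtain ⟨z, hz, rfl⟩ := hx
      exact ⟨⟨z, hz⟩, rfl⟩
  have key : ∀ z : K, ((MonoidHom.snd Γ T).comp K.subtype).comp
      (MulEquiv.ofBijective π₁ hbij).symm.toMonoidHom (π₁ z) = z.1.2 := by
    intro z
    have : (MulEquiv.ofBijective π₁ hbij).symm (π₁ z) = z :=
      (MulEquiv.ofBijective π₁ hbij).symm_apply_apply z
    change ((MulEquiv.ofBijective π₁ hbij).symm (π₁ z)).1.2 = _
    rw [this]
  refine ⟨((MonoidHom.snd Γ T).comp K.subtype).comp (MulEquiv.ofBijective π₁ hbij).symm.toMonoidHom,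
    fun a => ?_, fun e he => ?_⟩
  · exact (key ⟨(S.of a, f' a), Subgroup.subset_closure (Or.inl ⟨a, a.2, rfl⟩)⟩).trans
      (f'_eq a a.2)
  · exact key ⟨(S.t e, τ e), Subgroup.subset_closure (Or.inr ⟨e, he, rfl⟩)⟩

end Split

end Crest.Agent.R185
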