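import Mathlib
/-!
Row 185: groups with a multiple HNN structure (`Split`), filtrations, sub-structures.
Definitions only (plus trivial lemmas); the theory is in `Split.lean`, `MH.lean`, `Sub.lean`.
-/
set_option autoImplicit false
open Set

namespace Crest.Agent.R185

/-- HNN data: base group `B`, ambient group `Γ`, oriented edges `E`. -/
structure PreSplit (B Γ E : Type) [Group B] [Group Γ] where
  of : B →* Γ
  bar : E → E
  bar_bar : ∀ e, bar (bar e) = e
  t : E → Γ
  t_bar : ∀ e, t (bar e) = (t e)⁻¹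
  A : E → Subgroup B
  φ : E → B → B
  φ_mem : ∀ e a, a ∈ A e → φ e a ∈ A (bar e)
  conj : ∀ e a, a ∈ A e → of a * t e = t e * of (φ e a)

namespace PreSplit
variable {B Γ E : Type} [Group B] [Group Γ] (S : PreSplit B Γ E)

/-- Value of the path `g t(e₁) g₁ t(e₂) g₂ ⋯`. -/
def ev : B → List (E × B) → Γ
  | g, [] => S.of g
  | g, p :: l => S.of g * S.t p.1 * ev p.2 l

@[simp] theorem ev_nil (g : B) : S.ev g [] = S.of g := rfl
@[simp] theorem ev_cons (g : B) (p : E × B) (l : List (E × B)) :
    S.ev g (p :: l) = S.of g * S.t p.1 * S.ev p.2 l := rfl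

theorem ev_mul (a g : B) (l : List (E × B)) : S.ev (a * g) l = S.of a * S.ev g l := by
  cases l <;> simp [mul_assoc]

/-- No pinch. -/
def Red (l : List (E × B)) : Prop :=
  l.IsChain fun p q => ¬ (q.1 = S.bar p.1 ∧ p.2 ∈ S.A q.1)

@[simp] theorem red_nil : S.Red [] := List.isChain_nil
@[simp] theorem red_singleton (p : E × B) : S.Red [p] := List.isChain_singleton _
theorem red_cons_cons (p q : E × B) (l : List (E × B)) :
    S.Red (p :: q :: l) ↔ ¬ (q.1 = S.bar p.1 ∧ p.2 ∈ S.A q.1) ∧ S.Red (q :: l) :=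
  List.isChain_cons_cons

variable {S} in
theorem Red.tail {p : E × B} {l : List (E × B)} (h : S.Red (p :: l)) : S.Red l :=
  List.IsChain.tail h

/-- The subgroup generated by a subgroup of the base and a set of stable letters. -/
def gsub (H : Subgroup B) (L : Set E) : Subgroup Γ :=
  Subgroup.closure (S.of '' H ∪ S.t '' L)

/-- `gsub H L` is a good subgroup. -/
structure IsGood (H : Subgroup B) (L : Set E) : Prop where
  bar_mem : ∀ e ∈ L, S.bar e ∈ L
  φ_mem : ∀ e ∈ L, ∀ a ∈ H, a ∈ S.A e → S.φ e a ∈ H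

end PreSplit

/-- A multiple HNN extension: the base embeds, Britton's lemma holds (in comparison form) and
`Γ` is generated by the base and the stable letters. -/
structure Split (B Γ E : Type) [Group B] [Group Γ] extends PreSplit B Γ E where
  inj : Function.Injective of
  cmp : ∀ g l g' l', toPreSplit.Red l → toPreSplit.Red l' →
    toPreSplit.ev g l = toPreSplit.ev g' l' →
    (l = [] ∧ l' = []) ∨ ∃ e h r h' r', l = (e, h) :: r ∧ l' = (e, h') :: r' ∧ g'⁻¹ * g ∈ A e
  gen : Subgroup.closure (range of ∪ range t) = ⊤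

/-- A filtration of a group by size. -/
structure Filt (G : Type) [Group G] where
  le : G → ℕ → Prop
  one : le 1 0
  mul : ∀ {x y m n}, le x m → le y n → le (x * y) (m + n)
  inv : ∀ {x n}, le x n → le x⁻¹ n
  mono : ∀ {x m n}, le x m → m ≤ n → le x n

namespace Filt
variable {G G' : Type} [Group G] [Group G']

theorem one' (F : Filt G) (n : ℕ) : F.le 1 n := F.mono F.one (Nat.zero_le _)

theorem mul' {F : Filt G} {x y : G} {m n k : ℕ} (hx : F.le x m) (hy : F.le y n) (h : m + n ≤ k) :
    F.le (x * y) k := F.mono (F.mul hx hy) h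

/-- Word length with respect to a family `s`. -/
def wl {X : Type} (s : X → G) : Filt G where
  le x n := ∃ w : List (X × Bool), w.length ≤ n ∧ FreeGroup.lift s (FreeGroup.mk w) = x
  one := ⟨[], le_rfl, by rw [← FreeGroup.one_eq_mk, map_one]⟩
  mul := by
    rintro _ _ m n ⟨v, hv, rfl⟩ ⟨w, hw, rfl⟩
    exact ⟨v ++ w, by simp; omega, by rw [← FreeGroup.mul_mk, map_mul]⟩
  inv := by
    rintro _ n ⟨v, hv, rfl⟩
    exact ⟨FreeGroup.invRev v, by simpa using hv, by rw [← FreeGroup.inv_mk, map_inv]⟩
  mono := by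
    rintro _ m n ⟨v, hv, rfl⟩ h
    exact ⟨v, hv.trans h, rfl⟩

def comap (F : Filt G) (f : G' →* G) : Filt G' where
  le x n := F.le (f x) n
  one := by simpa using F.one
  mul hx hy := by simpa using F.mul hx hy
  inv hx := by simpa using F.inv hx
  mono := F.mono

def inf (F F' : Filt G) : Filt G where
  le x n := F.le x n ∧ F'.le x n
  one := ⟨F.one, F'.one⟩
  mul hx hy := ⟨F.mul hx.1 hy.1, F'.mul hx.2 hy.2⟩
  inv hx := ⟨F.inv hx.1, F'.inv hx.2⟩
  mono hx h := ⟨F.mono hx.1 h, F'.mono hx.2 h⟩

/-- Rescaling: level `n` is the old level `⌊c n / M⌋`. -/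
def scale (F : Filt G) (c M : ℕ) : Filt G where
  le x n := F.le x (c * n / M)
  one := F.one' _
  mul hx hy := F.mono (F.mul hx hy) (by rw [Nat.mul_add]; exact Nat.add_div_le_add_div _ _ _)
  inv := F.inv
  mono hx h := F.mono hx (Nat.div_le_div_right (Nat.mul_le_mul_left _ h))

def prod (F : Filt G) (F' : Filt G') : Filt (G × G') :=
  (F.comap (MonoidHom.fst _ _)).inf (F'.comap (MonoidHom.snd _ _))

def pi {ι : Type} (F : Filt G) : Filt (ι → G) where
  le x n := ∀ i, F.le (x i) n
  one _ := F.one
  mul hx hy i := F.mul (hx i) (hy i)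
  inv hx i := F.inv (hx i)
  mono hx h i := F.mono (hx i) h

/-- Level `n` is the subgroup generated by the elements `s x` of weight `≤ n`. -/
def rad {X : Type} (s : X → G) (wt : X → ℕ) : Filt G where
  le x n := x ∈ Subgroup.closure (s '' {a | wt a ≤ n})
  one := one_mem _
  mul {x y m n} hx hy := mul_mem
    (Subgroup.closure_mono (image_mono fun a (h : wt a ≤ m) => h.trans (Nat.le_add_right _ _)) hx)
    (Subgroup.closure_mono (image_mono fun a (h : wt a ≤ n) => h.trans (Nat.le_add_left _ _)) hy)
  inv := inv_mem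
  mono {x m n} hx h := Subgroup.closure_mono (image_mono fun a (h' : wt a ≤ m) => h'.trans h) hx

/-- The trivial filtration (everything has size `0`). -/
def top : Filt G where
  le _ _ := True
  one := trivial
  mul _ _ := trivial
  inv _ := trivial
  mono _ _ := trivial

end Filt

namespace PreSplit
variable {B Γ E : Type} [Group B] [Group Γ] (S : PreSplit B Γ E)

/-- Total cost of a path is at most `n` (syllables measured by `F`, letters by `c`). -/
def PC (F : Filt B) (c : E → ℕ) : B → List (E × B) → ℕ → Prop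
  | g, [], n => F.le g n
  | g, p :: l, n => ∃ a b, F.le g a ∧ PC F c p.2 l b ∧ a + c p.1 + b ≤ n

/-- All syllables and letters of a path have size at most `n`. -/
def PS (F : Filt B) (c : E → ℕ) (g : B) (l : List (E × B)) (n : ℕ) : Prop :=
  F.le g n ∧ ∀ p ∈ l, F.le p.2 n ∧ c p.1 ≤ n

/-- Pinches do not increase the total cost. -/
structure SumOK (F : Filt B) (c : E → ℕ) : Prop where
  c_bar : ∀ e, c (S.bar e) = c e
  pinch : ∀ e a n, a ∈ S.A e → F.le a n → F.le (S.φ e a) (n + 2 * c e)

/-- The edge groups have size zero. -/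
structure SupOK (F : Filt B) (c : E → ℕ) : Prop where
  c_bar : ∀ e, c (S.bar e) = c e
  zero : ∀ e, ∀ a ∈ S.A e, F.le a 0

/-- Elements of level `n` have a reduced path of size `n`. -/
def RedCtl (F : Filt B) (c : E → ℕ) (F' : Filt Γ) : Prop :=
  ∀ x n, F'.le x n → ∃ g l, S.Red l ∧ S.ev g l = x ∧ PS F c g l n

end PreSplit

/-- Data for a multiple HNN extension: pairs of homomorphisms with the same kernel. -/
structure HData (B J : Type) [Group B] where
  D : J → Type
  [grp : ∀ j, Group (D j)]
  i : ∀ j, Bool → (D j →* B)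
  ker_eq : ∀ j, (i j false).ker = (i j true).ker

attribute [instance] HData.grp

namespace HData
variable {B J : Type} [Group B]

/-- Stable letters centralising subgroups. -/
def central (H : J → Subgroup B) : HData B J where
  D j := H j
  i j _ := (H j).subtype
  ker_eq _ := rfl

/-- Free letters. -/
def free (B J : Type) [Group B] : HData B J := central fun _ => ⊥

variable (H : HData B J)

def rels : Set (Monoid.Coprod B (FreeGroup J)) :=
  {x | ∃ j d, x = Monoid.Coprod.inl (H.i j false d) * Monoid.Coprod.inr (FreeGroup.of j) *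
    (Monoid.Coprod.inr (FreeGroup.of j) * Monoid.Coprod.inl (H.i j true d))⁻¹}

end HData

/-- The multiple HNN extension `⟨B, t_j | i_j⁰(d) t_j = t_j i_j¹(d)⟩`. -/
def MH {B J : Type} [Group B] (H : HData B J) : Type :=
  Monoid.Coprod B (FreeGroup J) ⧸ Subgroup.normalClosure H.rels

namespace MH
variable {B J : Type} [Group B] (H : HData B J)

instance : Group (MH H) := QuotientGroup.Quotient.group _

def of : B →* MH H := (QuotientGroup.mk' _).comp Monoid.Coprod.inl

/-- The stable letter. -/
def t (j : J) : MH H := QuotientGroup.mk' _ (Monoid.Coprod.inr (FreeGroup.of j))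

theorem rel (j : J) (d : H.D j) : of H (H.i j false d) * t H j = t H j * of H (H.i j true d) := by
  rw [← mul_inv_eq_one]
  exact (QuotientGroup.eq_one_iff _).2 (Subgroup.subset_normalClosure ⟨j, d, rfl⟩)

variable {H} in
/-- Universal property. -/
def lift {T : Type*} [Group T] (f : B →* T) (τ : J → T)
    (h : ∀ j d, f (H.i j false d) * τ j = τ j * f (H.i j true d)) : MH H →* T :=
  QuotientGroup.lift _ (Monoid.Coprod.lift f (FreeGroup.lift τ))
    (Subgroup.normalClosure_le_normal (N := MonoidHom.ker _) (by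
      rintro _ ⟨j, d, rfl⟩
      simp [h j d]))

@[simp] theorem lift_of {T : Type*} [Group T] (f : B →* T) (τ : J → T) (h) (b : B) :
    lift (H := H) f τ h (of H b) = f b := by
  simp [lift, of]; rfl

@[simp] theorem lift_t {T : Type*} [Group T] (f : B →* T) (τ : J → T) (h) (j : J) :
    lift (H := H) f τ h (t H j) = τ j := by
  change Monoid.Coprod.lift f (FreeGroup.lift τ) (Monoid.Coprod.inr (FreeGroup.of j)) = _
  simp

variable {H} in
theorem hom_ext {T : Type*} [Group T] {f g : MH H →* T} (h1 : ∀ b, f (of H b) = g (of H b))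
    (h2 : ∀ j, f (t H j) = g (t H j)) : f = g := by
  refine QuotientGroup.monoidHom_ext _ (Monoid.Coprod.hom_ext ?_ ?_)
  · ext b; exact h1 b
  · ext j; exact h2 j

open Classical in
/-- The HNN structure: the oriented edge `(j, false)` is the letter `t j`, `(j, true)` its inverse. -/
noncomputable def pre : PreSplit B (MH H) (J × Bool) where
  of := of H
  bar e := (e.1, !e.2)
  bar_bar e := by simp
  t e := cond e.2 (t H e.1)⁻¹ (t H e.1)
  t_bar e := by rcases e with ⟨j, _ | _⟩ <;> simp
  A e := (H.i e.1 e.2).range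
  φ e a := if h : a ∈ (H.i e.1 e.2).range then H.i e.1 (!e.2) h.choose else 1
  φ_mem e a h := by rw [dif_pos h]; exact ⟨_, rfl⟩
  conj e a h := by
    rw [dif_pos h]
    have h1 := h.choose_spec
    have h2 := rel H e.1 h.choose
    rcases e with ⟨j, _ | _⟩
    · simpa [h1] using h2
    · simp only [Bool.not_true, cond_true] at h1 h2 ⊢
      rw [h1] at h2
      rw [mul_inv_eq_iff_eq_mul, mul_assoc, h2, inv_mul_cancel_left]

theorem pre_φ (j : J) (b : Bool) (d : H.D j) :
    (pre H).φ (j, b) (H.i j b d) = H.i j (!b) d := by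
  have h : H.i j b d ∈ (H.i j b).range := ⟨d, rfl⟩
  have e : (pre H).φ (j, b) (H.i j b d) = H.i j (!b) h.choose := dif_pos h
  rw [e]
  have h1 : h.choose * d⁻¹ ∈ (H.i j b).ker := by
    rw [MonoidHom.mem_ker, map_mul, h.choose_spec]; simp
  have h2 : h.choose * d⁻¹ ∈ (H.i j (!b)).ker := by
    cases b
    · simpa [← H.ker_eq] using h1
    · simpa [H.ker_eq] using h1
  rw [MonoidHom.mem_ker, map_mul, map_inv, mul_inv_eq_one] at h2
  exact h2

end MH

/-- A sub-graph of groups inside a `Split`: states `V`, vertex groups `H v ≤ B`, oriented edges `I`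
lying over edges `e i` of the splitting, with letters `of (l i) * t (e i) * (of (l (bar i)))⁻¹`. -/
structure Sub {B Γ E : Type} [Group B] [Group Γ] (S : PreSplit B Γ E) (V I : Type) where
  H : V → Subgroup B
  src : I → V
  bar : I → I
  bar_bar : ∀ i, bar (bar i) = i
  e : I → E
  e_bar : ∀ i, e (bar i) = S.bar (e i)
  l : I → B
  good : ∀ i a, a ∈ S.A (e i) → l i * a * (l i)⁻¹ ∈ H (src i) →
    l (bar i) * S.φ (e i) a * (l (bar i))⁻¹ ∈ H (src (bar i))
  sep : ∀ i i', src i = src i' → e i = e i' → ∀ h ∈ H (src i),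
    (l i)⁻¹ * h * l i' ∈ S.A (e i) → i = i'

namespace Sub
variable {B Γ E : Type} [Group B] [Group Γ] {S : PreSplit B Γ E} {V I : Type} (U : Sub S V I)

/-- The letter of the edge `i`. -/
def t (i : I) : Γ := S.of (U.l i) * S.t (U.e i) * (S.of (U.l (U.bar i)))⁻¹

/-- `h, L` is a path from `v` to `w`. -/
def Pth : V → B → List (I × B) → V → Prop
  | v, h, [], w => h ∈ U.H v ∧ v = w
  | v, h, p :: L, w => h ∈ U.H v ∧ U.src p.1 = v ∧ Pth (U.src (U.bar p.1)) p.2 L w

/-- Evaluation of a path in an arbitrary group. -/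
def gev {T : Type*} [Group T] (f : V → B → T) (τ : I → T) : V → B → List (I × B) → T
  | v, h, [] => f v h
  | v, h, p :: L => f v h * τ p.1 * gev f τ (U.src (U.bar p.1)) p.2 L

/-- Evaluation in `Γ`. -/
def ev : B → List (I × B) → Γ
  | h, [] => S.of h
  | h, p :: L => S.of h * U.t p.1 * ev p.2 L

def Red (L : List (I × B)) : Prop :=
  L.IsChain fun p q => ¬ (q.1 = U.bar p.1 ∧ (U.l q.1)⁻¹ * p.2 * U.l q.1 ∈ S.A (U.e q.1))

/-- The corresponding path of the ambient splitting. -/
def amb : B → List (I × B) → B × List (E × B)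
  | h, [] => (h, [])
  | h, p :: L => (h * U.l p.1,
      (U.e p.1, (U.l (U.bar p.1))⁻¹ * (amb p.2 L).1) :: (amb p.2 L).2)

/-- Values of paths from `v` to `w`. -/
def Mor (v w : V) : Set Γ := {x | ∃ h L, U.Pth v h L w ∧ U.ev h L = x}

end Sub

end Crest.Agent.R185
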