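import Crest.Agent.R185.SC
/-! Row 185: auxiliary material for the swindle (Rips posets as Alexandrov spaces). -/
set_option autoImplicit false
open Set Filter Topology Metric
open scoped Pointwise unitInterval Topology.Homotopy

namespace Crest.Agent.R185.Swindle

/-- nonempty subsets of `G` all of whose quotients lie in `T ∪ {1}` -/
def R {G : Type} [Group G] (T : Set G) : Type :=
  {A : Set G // A.Nonempty ∧ ∀ a ∈ A, ∀ b ∈ A, a⁻¹ * b ∈ insert 1 T}

variable {B G : Type} [Group B] [Group G]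

instance (T : Set G) : TopologicalSpace (R T) where
  IsOpen U := ∀ a ∈ U, ∀ b : R T, b.1 ⊆ a.1 → b ∈ U
  isOpen_univ := fun _ _ _ _ => trivial
  isOpen_inter := fun _ _ hU hV a ha b hb => ⟨hU a ha.1 b hb, hV a ha.2 b hb⟩
  isOpen_sUnion := fun _ hs a ⟨U, hU, ha⟩ b hb => ⟨U, hU, hs U hU a ha b hb⟩

theorem isOpen_R {T : Set G} {U : Set (R T)} :
    IsOpen U ↔ ∀ a ∈ U, ∀ b : R T, b.1 ⊆ a.1 → b ∈ U := Iff.rfl

theorem continuous_R {T : Set G} {X : Type*} [TopologicalSpace X] {φ : X → R T} :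
    Continuous φ ↔ ∀ x, ∀ᶠ y in 𝓝 x, (φ y).1 ⊆ (φ x).1 := by
  constructor
  · intro h x
    have hU : IsOpen {b : R T | b.1 ⊆ (φ x).1} := isOpen_R.2 fun a ha b hb => hb.trans ha
    exact (hU.preimage h).mem_nhds (show (φ x).1 ⊆ (φ x).1 from Subset.rfl)
  · intro h
    refine continuous_def.2 fun U hU => isOpen_iff_mem_nhds.2 fun x hx => ?_
    filter_upwards [h x] with y hy
    exact isOpen_R.1 hU _ hx _ hy

/-- the base point -/
def pt (T : Set G) : R T := ⟨{1}, singleton_nonempty _, by simp⟩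

section loops
variable {N : Type} {X Y Z : Type} [TopologicalSpace X] [TopologicalSpace Y] [TopologicalSpace Z]

theorem homotopic_of_subset {T : Set G} (p q : Ω^ N (R T) (pt T))
    (h : ∀ y, (p y).1 ⊆ (q y).1) : GenLoop.Homotopic p q := by
  classical
  refine ⟨⟨⟨⟨fun z => if z.1 = 1 then q z.2 else p z.2, ?_⟩, ?_, ?_⟩, ?_⟩⟩
  · refine continuous_R.2 fun z => ?_
    have hp := continuous_R.1 (p.1.continuous.comp (continuous_snd (X := I))) z
    have hq := continuous_R.1 (q.1.continuous.comp (continuous_snd (X := I))) z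
    by_cases hz : z.1 = 1
    · filter_upwards [hq] with y hy
      rw [if_pos hz]
      split_ifs
      · exact hy
      · exact (h _).trans hy
    · have hne : ∀ᶠ y in 𝓝 z, y.1 ≠ 1 :=
        (isOpen_ne_fun continuous_fst continuous_const).mem_nhds hz
      filter_upwards [hp, hne] with y hy hy'
      rw [if_neg hz, if_neg hy']
      exact hy
  · intro y
    simp
  · intro y
    simp
  · intro t y hy
    have h1 : p y = pt T := p.2 y hy
    have h2 : q y = pt T := q.2 y hy
    change (if t = 1 then q y else p y) = p y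
    rw [h1, h2, ite_self]

/-- apply a map of two variables to two loops -/
def loop2 {x : X} {y : Y} {z : Z} (m : C(X × Y, Z)) (hm : m (x, y) = z) (p : Ω^ N X x)
    (q : Ω^ N Y y) : Ω^ N Z z :=
  ⟨⟨fun t => m (p t, q t), m.continuous.comp (p.1.continuous.prodMk q.1.continuous)⟩,
    fun t ht => by
      have h1 : p t = x := p.2 t ht
      have h2 : q t = y := q.2 t ht
      change m (p t, q t) = z
      rw [h1, h2, hm]⟩

theorem loop2_apply {x : X} {y : Y} {z : Z} (m : C(X × Y, Z)) (hm : m (x, y) = z) (p : Ω^ N X x)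
    (q : Ω^ N Y y) (t : I^N) : loop2 m hm p q t = m (p t, q t) := rfl

theorem loop2_homotopic {x : X} {y : Y} {z : Z} (m : C(X × Y, Z)) (hm : m (x, y) = z)
    {p p' : Ω^ N X x} {q q' : Ω^ N Y y} (hp : GenLoop.Homotopic p p')
    (hq : GenLoop.Homotopic q q') : GenLoop.Homotopic (loop2 m hm p q) (loop2 m hm p' q') := by
  obtain ⟨F⟩ := hp
  obtain ⟨H⟩ := hq
  refine ⟨⟨⟨⟨fun w => m (F w, H w), m.continuous.comp (F.continuous.prodMk H.continuous)⟩,
    ?_, ?_⟩, ?_⟩⟩
  · intro t
    change m (F (0, t), H (0, t)) = m (p t, q t)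
    rw [F.apply_zero, H.apply_zero]
    rfl
  · intro t
    change m (F (1, t), H (1, t)) = m (p' t, q' t)
    rw [F.apply_one, H.apply_one]
    rfl
  · intro s t ht
    change m (F (s, t), H (s, t)) = m (p t, q t)
    rw [F.eq_fst s ht, H.eq_fst s ht]
    rfl

variable [DecidableEq N]

theorem loop2_transAt {x : X} {y : Y} {z : Z} (m : C(X × Y, Z)) (hm : m (x, y) = z) (i : N)
    (p p' : Ω^ N X x) (q q' : Ω^ N Y y) :
    loop2 m hm (GenLoop.transAt i p p') (GenLoop.transAt i q q') =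
      GenLoop.transAt i (loop2 m hm p q) (loop2 m hm p' q') := by
  ext t
  simp only [loop2_apply, GenLoop.transAt, GenLoop.coe_copy]
  split_ifs <;> rfl

theorem loop2_mul [Nonempty N] {x : X} {y : Y} {z : Z} (m : C(X × Y, Z)) (hm : m (x, y) = z)
    (p : Ω^ N X x) (q : Ω^ N Y y) :
    (⟦loop2 m hm p q⟧ : HomotopyGroup N Z z) = ((· * ·) : _ → _ → HomotopyGroup N Z z)
      ⟦loop2 m hm GenLoop.const q⟧ ⟦loop2 m hm p GenLoop.const⟧ := by
  obtain ⟨i⟩ := ‹Nonempty N›
  rw [HomotopyGroup.mul_spec (i := i), ← loop2_transAt]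
  refine Quotient.sound (loop2_homotopic m hm ?_ ?_)
  · have h := HomotopyGroup.mul_spec (i := i) (p := GenLoop.const) (q := p)
    rw [← HomotopyGroup.one_def] at h
    exact Quotient.exact ((one_mul (M := HomotopyGroup N X x) ⟦p⟧).symm.trans h)
  · have h := HomotopyGroup.mul_spec (i := i) (p := q) (q := GenLoop.const)
    rw [← HomotopyGroup.one_def] at h
    exact Quotient.exact ((mul_one (M := HomotopyGroup N Y y) ⟦q⟧).symm.trans h)

end loops

/-- image under a homomorphism -/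
def Rmap {S : Set B} {T : Set G} (u : B →* G) (hu : MapsTo u S T) (a : R S) : R T :=
  ⟨u '' a.1, a.2.1.image _, by
    rintro _ ⟨b, hb, rfl⟩ _ ⟨c, hc, rfl⟩
    rw [← map_inv, ← map_mul]
    rcases a.2.2 b hb c hc with h | h
    · rw [h, map_one]; exact mem_insert _ _
    · exact mem_insert_of_mem _ (hu h)⟩

theorem continuous_Rmap {S : Set B} {T : Set G} (u : B →* G) (hu : MapsTo u S T) :
    Continuous (Rmap u hu) :=
  continuous_R.2 fun a => (continuous_R.1 continuous_id a).mono fun _ h => image_mono h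

theorem Rmap_pt {S : Set B} {T : Set G} (u : B →* G) (hu : MapsTo u S T) :
    Rmap u hu (pt S) = pt T := Subtype.ext (by simp [Rmap, pt])

/-- image of a loop under a homomorphism -/
def lmap {N : Type} {S : Set B} {T : Set G} (u : B →* G) (hu : MapsTo u S T)
    (p : Ω^ N (R S) (pt S)) : Ω^ N (R T) (pt T) :=
  ⟨⟨fun t => Rmap u hu (p t), (continuous_Rmap u hu).comp p.1.continuous⟩, fun t ht => by
    have h1 : p t = pt S := p.2 t ht
    change Rmap u hu (p t) = pt T
    rw [h1, Rmap_pt]⟩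

theorem lmap_apply {N : Type} {S : Set B} {T : Set G} (u : B →* G) (hu : MapsTo u S T)
    (p : Ω^ N (R S) (pt S)) (t : I^N) : (lmap u hu p t).1 = u '' (p t).1 := rfl

/-- pointwise product of the images under two commuting homomorphisms -/
def Rmul {S : Set B} {T : Set G} (u v : B →* G) (hc : ∀ g h, Commute (u g) (v h))
    (h : u '' insert 1 S * v '' insert 1 S ⊆ T) : C(R S × R S, R T) where
  toFun a := ⟨u '' a.1.1 * v '' a.2.1, (a.1.2.1.image _).mul (a.2.2.1.image _), by
    rintro _ ⟨_, ⟨b, hb, rfl⟩, _, ⟨c, hc', rfl⟩, rfl⟩ _ ⟨_, ⟨b', hb', rfl⟩, _, ⟨c', hc'', rfl⟩, rfl⟩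
    refine mem_insert_of_mem _ (h ⟨_, ⟨_, a.1.2.2 b hb b' hb', rfl⟩, _,
      ⟨_, a.2.2.2 c hc' c' hc'', rfl⟩, ?_⟩)
    have h1 := (hc (b⁻¹ * b') c⁻¹).eq
    simp only [map_mul, map_inv] at h1 ⊢
    rw [← mul_assoc, h1]
    group⟩
  continuous_toFun := continuous_R.2 fun a => by
    filter_upwards [continuous_R.1 continuous_fst a, continuous_R.1 continuous_snd a] with b h1 h2
    exact mul_subset_mul (image_mono h1) (image_mono h2)

theorem Rmul_apply {S : Set B} {T : Set G} (u v : B →* G) (hc : ∀ g h, Commute (u g) (v h))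
    (h : u '' insert 1 S * v '' insert 1 S ⊆ T) (a b : R S) :
    (Rmul u v hc h (a, b)).1 = u '' a.1 * v '' b.1 := rfl

theorem lmap_mul {N : Type} [DecidableEq N] [Nonempty N] {S : Set B} {T : Set G}
    {u v w : B →* G} (hc : ∀ g h, Commute (u g) (v h)) (hw : ∀ g, w g = u g * v g)
    (h : u '' insert 1 S * v '' insert 1 S ⊆ T) (hu : MapsTo u S T) (hv : MapsTo v S T)
    (hw' : MapsTo w S T) (p : Ω^ N (R S) (pt S)) :
    (⟦lmap w hw' p⟧ : HomotopyGroup N (R T) (pt T)) =
      ((· * ·) : _ → _ → HomotopyGroup N (R T) (pt T)) ⟦lmap v hv p⟧ ⟦lmap u hu p⟧ := by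
  have hm : Rmul u v hc h (pt S, pt S) = pt T := Subtype.ext (by simp [Rmul_apply, pt])
  have h1 : loop2 (Rmul u v hc h) hm GenLoop.const p = lmap v hv p := by
    ext t
    refine Subtype.ext ?_
    rw [loop2_apply, Rmul_apply, lmap_apply, GenLoop.const_apply]
    simp [pt]
  have h2 : loop2 (Rmul u v hc h) hm p GenLoop.const = lmap u hu p := by
    ext t
    refine Subtype.ext ?_
    rw [loop2_apply, Rmul_apply, lmap_apply, GenLoop.const_apply]
    simp [pt]
  rw [← h1, ← h2, ← loop2_mul]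
  refine Quotient.sound (homotopic_of_subset _ _ fun t => ?_)
  rw [loop2_apply, Rmul_apply, lmap_apply]
  rintro _ ⟨b, hb, rfl⟩
  exact ⟨_, ⟨b, hb, rfl⟩, _, ⟨b, hb, rfl⟩, (hw b).symm⟩

/-- the set of values taken near `y` -/
def hat {X : Type} [TopologicalSpace X] {S : Set B} {h : X → B} (hh : SCOn S h univ) (y : X) :
    R (S⁻¹ * S) :=
  ⟨{g | ∃ᶠ y' in 𝓝 y, h y' = g}, ⟨h y, Frequently.filter_mono (by simp) (pure_le_nhds y)⟩, by
    have key : ∀ a, (∃ᶠ y' in 𝓝 y, h y' = a) → (h y)⁻¹ * a ∈ S := by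
      intro a ha
      have h1 := hh y (mem_univ y)
      rw [nhdsWithin_univ] at h1
      obtain ⟨y', h2, h3⟩ := (ha.and_eventually h1).exists
      rwa [h2] at h3
    intro a ha b hb
    refine mem_insert_of_mem _ ⟨((h y)⁻¹ * a)⁻¹, inv_mem_inv.2 (key a ha), _, key b hb, ?_⟩
    group⟩

theorem mem_hat {X : Type} [TopologicalSpace X] {S : Set B} {h : X → B} (hh : SCOn S h univ)
    (y : X) : h y ∈ (hat hh y).1 :=
  Frequently.filter_mono (show ∃ᶠ y' in pure y, h y' = h y by simp) (pure_le_nhds y)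

theorem continuous_hat {X : Type} [TopologicalSpace X] {S : Set B} (hS : S.Finite) {h : X → B}
    (hh : SCOn S h univ) : Continuous (hat hh) := by
  refine continuous_R.2 fun y => ?_
  have h1 := hh y (mem_univ y)
  rw [nhdsWithin_univ] at h1
  have h2 : ∀ᶠ y' in 𝓝 y, ∀ s ∈ S, h y' = h y * s → h y * s ∈ (hat hh y).1 := by
    rw [eventually_all_finite hS]
    intro s _
    by_cases hs : h y * s ∈ (hat hh y).1
    · exact Eventually.of_forall fun _ _ => hs
    · have : ∀ᶠ y' in 𝓝 y, ¬ h y' = h y * s := not_frequently.1 hs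
      exact this.mono fun y' h' h'' => absurd h'' h'
  have h3 : ∀ᶠ y' in 𝓝 y, h y' ∈ (hat hh y).1 := by
    filter_upwards [h1, h2] with y' h4 h5
    have := h5 _ h4 (by group)
    rwa [mul_inv_cancel_left] at this
  filter_upwards [h3.eventually_nhds] with y' hy' g hg
  obtain ⟨y'', h4, h5⟩ := (Frequently.and_eventually hg hy').exists
  rwa [h4] at h5

theorem hat_eq_pt {X : Type} [TopologicalSpace X] {S : Set B} {h : X → B} (hh : SCOn S h univ)
    {y : X} (hy : ∀ᶠ y' in 𝓝 y, h y' = 1) : hat hh y = pt _ := by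
  refine Subtype.ext (Set.eq_singleton_iff_unique_mem.2 ⟨?_, fun g hg => ?_⟩)
  · have := mem_hat hh y
    rwa [hy.self_of_nhds] at this
  · obtain ⟨y', h1, h2⟩ := (Frequently.and_eventually hg hy).exists
    rw [← h1, h2]

theorem scOn_of_mem {X : Type} [TopologicalSpace X] {T : Set G} {E : X → R T} (hE : Continuous E)
    {F : X → G} {K : Set X} (hF : ∀ z ∈ K, F z ∈ (E z).1) : SCOn (insert 1 T) F K := by
  intro z hz
  filter_upwards [mem_nhdsWithin_of_mem_nhds (continuous_R.1 hE z), self_mem_nhdsWithin]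
    with y h1 h2
  exact (E z).2.2 _ (hF z hz) _ (h1 (hF y h2))

end Crest.Agent.R185.Swindle
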