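import Crest.Agent.R185.SC
/-! Row 185: the abstract tree lemma.  Vertices of the tree are lists, the edge ending at a
nonempty list `ε` is identified with `ε`; `addr g` is the vertex `g • v₀`. -/
set_option autoImplicit false
open Set Filter Topology Metric
open scoped Pointwise

namespace Crest.Agent.R185

namespace TreeAux

/-- a finite partition of unity adapted to a semicontinuous function -/
theorem exists_pu {G X : Type*} [Group G] [TopologicalSpace X] [NormalSpace X]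
    [ParacompactSpace X] [T2Space X] {S : Set G} {f : X → G} {K₀ : Set X} (hK : IsCompact K₀)
    (hf : SCOn S f K₀) :
    ∃ (t : Finset X) (g : Option t → G) (ρ : Option t → X → ℝ), (∀ i, Continuous (ρ i)) ∧
      (∀ i x, 0 ≤ ρ i x) ∧ (∀ x, ∑ i, ρ i x = 1) ∧
      ∀ i, ∀ x ∈ K₀, ρ i x ≠ 0 → (g i)⁻¹ * f x ∈ S := by
  classical
  have h1 : ∀ x ∈ K₀, ∃ U : Set X, IsOpen U ∧ x ∈ U ∧ ∀ y ∈ U, y ∈ K₀ → (f x)⁻¹ * f y ∈ S := by
    intro x hx
    have := hf x hx
    rw [eventually_nhdsWithin_iff, _root_.eventually_nhds_iff] at this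
    obtain ⟨U, hU, hUo, hxU⟩ := this
    exact ⟨U, hUo, hxU, hU⟩
  choose! U hUo hxU hU using h1
  obtain ⟨t, htK, ht⟩ := hK.elim_nhds_subcover U (fun x hx => (hUo x hx).mem_nhds (hxU x hx))
  let V : Option t → Set X := fun i => i.elim K₀ᶜ (fun x => U x)
  have hVo : ∀ i, IsOpen (V i) := by
    rintro (_ | x)
    · exact hK.isClosed.isOpen_compl
    · exact hUo x (htK x x.2)
  have hVc : (univ : Set X) ⊆ ⋃ i, V i := by
    intro x _
    by_cases hx : x ∈ K₀
    · obtain ⟨y, hy, hxy⟩ := mem_iUnion₂.1 (ht hx)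
      exact mem_iUnion.2 ⟨some ⟨y, hy⟩, hxy⟩
    · exact mem_iUnion.2 ⟨none, hx⟩
  obtain ⟨ρ, hρ⟩ := PartitionOfUnity.exists_isSubordinate isClosed_univ V hVo hVc
  refine ⟨t, fun i => i.elim 1 (fun x => f x), fun i => ρ i, fun i => (ρ i).continuous,
    fun i x => ρ.nonneg i x, fun x => ?_, ?_⟩
  · rw [← finsum_eq_sum_of_fintype]; exact ρ.sum_eq_one (mem_univ x)
  · intro i x hx hne
    have hm : x ∈ V i := hρ i (subset_tsupport _ hne)
    rcases i with _ | y
    · exact absurd hx hm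
    · exact hU y (htK y y.2) x hm hx

/-- thresholds -/
noncomputable def th (n : ℕ) : ℝ := 1 - (1 / 2 : ℝ) ^ (n + 1)

theorem th_lt_one (n : ℕ) : th n < 1 := by
  have : (0 : ℝ) < (1 / 2 : ℝ) ^ (n + 1) := by positivity
  unfold th; linarith

theorem th_strictMono : StrictMono th := by
  intro a b hab
  have : (1 / 2 : ℝ) ^ (b + 1) < (1 / 2 : ℝ) ^ (a + 1) :=
    pow_lt_pow_right_of_lt_one₀ (by norm_num) (by norm_num) (by omega)
  unfold th; linarith

theorem half_lt_th {n : ℕ} (hn : n ≠ 0) : 1 / 2 < th n := by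
  have := th_strictMono (Nat.pos_of_ne_zero hn)
  have h0 : th 0 = 1 / 2 := by unfold th; norm_num
  linarith

theorem th_pos (n : ℕ) : 0 < th n := by
  have := th_strictMono.monotone (Nat.zero_le n)
  have h0 : th 0 = 1 / 2 := by unfold th; norm_num
  linarith

section weights
variable {ι X L : Type*} [Fintype ι] (a : ι → List L) (ρ : ι → X → ℝ)

open Classical in
/-- the weight beyond the edge `ε` -/
noncomputable def wt (ε : List L) (x : X) : ℝ := ∑ i, if ε <+: a i then ρ i x else 0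

variable {a ρ}

theorem wt_continuous [TopologicalSpace X] (hc : ∀ i, Continuous (ρ i)) (ε : List L) :
    Continuous (wt a ρ ε) := by
  classical
  unfold wt
  refine continuous_finsetSum _ fun i _ => ?_
  by_cases h : ε <+: a i
  · simpa [h] using hc i
  · simpa [h] using continuous_const

theorem wt_anti (h0 : ∀ i x, 0 ≤ ρ i x) {ε ε' : List L} (h : ε <+: ε') (x : X) :
    wt a ρ ε' x ≤ wt a ρ ε x := by
  classical
  unfold wt
  refine Finset.sum_le_sum fun i _ => ?_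
  by_cases h1 : ε' <+: a i
  · simp [h1, h.trans h1]
  · by_cases h2 : ε <+: a i <;> simp [h1, h2, h0]

theorem wt_add_le (h0 : ∀ i x, 0 ≤ ρ i x) (h1 : ∀ x, ∑ i, ρ i x = 1) {ε ε' : List L}
    (h : ¬ ε <+: ε') (h' : ¬ ε' <+: ε) (x : X) : wt a ρ ε x + wt a ρ ε' x ≤ 1 := by
  classical
  unfold wt
  rw [← Finset.sum_add_distrib, ← h1 x]
  refine Finset.sum_le_sum fun i _ => ?_
  by_cases h2 : ε <+: a i
  · by_cases h3 : ε' <+: a i
    · rcases List.prefix_or_prefix_of_prefix h2 h3 with h4 | h4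
      · exact absurd h4 h
      · exact absurd h4 h'
    · simp [h2, h3]
  · by_cases h3 : ε' <+: a i <;> simp [h2, h3, h0]

theorem exists_of_wt_pos {ε : List L} {x : X} (h : 0 < wt a ρ ε x) :
    ∃ i, ε <+: a i ∧ ρ i x ≠ 0 := by
  classical
  by_contra hc
  push Not at hc
  have : wt a ρ ε x = 0 := by
    unfold wt
    refine Finset.sum_eq_zero fun i _ => ?_
    by_cases h2 : ε <+: a i
    · simp [h2, hc i h2]
    · simp [h2]
  linarith

theorem exists_of_wt_lt_one (h1 : ∀ x, ∑ i, ρ i x = 1) {ε : List L} {x : X}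
    (h : wt a ρ ε x < 1) : ∃ i, ¬ ε <+: a i ∧ ρ i x ≠ 0 := by
  classical
  by_contra hc
  push Not at hc
  have : wt a ρ ε x = 1 := by
    unfold wt
    rw [← h1 x]
    refine Finset.sum_congr rfl fun i _ => ?_
    by_cases h2 : ε <+: a i
    · simp [h2]
    · simp [h2, hc i h2]
  linarith

variable (a ρ)

/-- relevant vertices -/
def Rel : Set (List L) := {v | ∃ i, v <+: a i}

theorem rel_finite : (Rel a).Finite := by
  have : Rel a ⊆ ⋃ i, {v | v ∈ (a i).inits} := by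
    rintro v ⟨i, hi⟩
    exact mem_iUnion.2 ⟨i, by simpa using hi⟩
  exact (finite_iUnion fun i => List.finite_toSet _).subset this

/-- walls -/
def wall (ε : List L) : Set X := {x | wt a ρ ε x = th ε.length}

/-- regions -/
def reg (v : List L) : Set X :=
  {x | (∀ ε, ε ≠ [] → ε <+: v → th ε.length ≤ wt a ρ ε x) ∧
    ∀ l, wt a ρ (v ++ [l]) x ≤ th (v ++ [l]).length}

variable {a ρ}

theorem wall_closed [TopologicalSpace X] (hc : ∀ i, Continuous (ρ i)) (ε : List L) :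
    IsClosed (wall a ρ ε) := isClosed_eq (wt_continuous hc ε) continuous_const

theorem reg_closed [TopologicalSpace X] (hc : ∀ i, Continuous (ρ i)) (v : List L) :
    IsClosed (reg a ρ v) := by
  have e : reg a ρ v = (⋂ ε, ⋂ (_ : ε ≠ []), ⋂ (_ : ε <+: v), {x | th ε.length ≤ wt a ρ ε x}) ∩
      ⋂ l, {x | wt a ρ (v ++ [l]) x ≤ th (v ++ [l]).length} := by
    ext x; simp [reg]
  rw [e]
  exact (isClosed_iInter fun ε => isClosed_iInter fun _ => isClosed_iInter fun _ =>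
    isClosed_le continuous_const (wt_continuous hc ε)).inter
    (isClosed_iInter fun l => isClosed_le (wt_continuous hc _) continuous_const)

theorem exists_concat_prefix {v w : List L} (h : v <+: w) (hne : v ≠ w) :
    ∃ l, v ++ [l] <+: w := by
  obtain ⟨r, rfl⟩ := h
  rcases r with _ | ⟨l, r⟩
  · simp at hne
  · exact ⟨l, r, by simp⟩

theorem wall_eq (h0 : ∀ i x, 0 ≤ ρ i x) (h1 : ∀ x, ∑ i, ρ i x = 1) {ε ε' : List L}
    (hε : ε ≠ []) (hε' : ε' ≠ []) {x : X} (hx : x ∈ wall a ρ ε) (hx' : x ∈ wall a ρ ε') :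
    ε = ε' := by
  have key : ∀ {ε ε' : List L}, x ∈ wall a ρ ε → x ∈ wall a ρ ε' → ε <+: ε' → ε = ε' := by
    intro ε ε' hx hx' h
    have h2 := wt_anti (a := a) h0 h x
    rw [show wt a ρ ε x = _ from hx, show wt a ρ ε' x = _ from hx'] at h2
    exact h.eq_of_length_le (th_strictMono.le_iff_le.1 h2)
  by_cases h : ε <+: ε'
  · exact key hx hx' h
  by_cases h' : ε' <+: ε
  · exact (key hx' hx h').symm
  have h2 := wt_add_le (a := a) h0 h1 h h' x
  rw [show wt a ρ ε x = _ from hx, show wt a ρ ε' x = _ from hx'] at h2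
  have := half_lt_th (n := ε.length) (by simpa using hε)
  have := half_lt_th (n := ε'.length) (by simpa using hε')
  linarith

theorem reg_wall (h0 : ∀ i x, 0 ≤ ρ i x) (h1 : ∀ x, ∑ i, ρ i x = 1) {v ε : List L}
    (hε : ε ≠ []) {x : X} (hx : x ∈ reg a ρ v) (hx' : x ∈ wall a ρ ε) :
    ε = v ∨ ε.dropLast = v := by
  have hw : wt a ρ ε x = th ε.length := hx'
  by_cases h : ε <+: v
  · left
    have hv : v ≠ [] := by rintro rfl; exact hε (List.prefix_nil.1 h)
    have h2 := wt_anti (a := a) h0 h x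
    have h3 := hx.1 v hv (List.prefix_refl v)
    exact h.eq_of_length_le (th_strictMono.le_iff_le.1 (by linarith))
  by_cases h' : v <+: ε
  · right
    obtain ⟨l, hl⟩ := exists_concat_prefix h' (by rintro rfl; exact h (List.prefix_refl _))
    have h2 := wt_anti (a := a) h0 hl x
    have h3 := hx.2 l
    have h4 : v ++ [l] = ε := hl.eq_of_length_le (th_strictMono.le_iff_le.1 (by linarith))
    rw [← h4]; simp
  have hv : v ≠ [] := by rintro rfl; exact h' List.nil_prefix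
  have h2 := wt_add_le (a := a) h0 h1 h h' x
  have h3 := hx.1 v hv (List.prefix_refl v)
  have := half_lt_th (n := ε.length) (by simpa using hε)
  have := half_lt_th (n := v.length) (by simpa using hv)
  linarith

theorem reg_reg (h0 : ∀ i x, 0 ≤ ρ i x) (h1 : ∀ x, ∑ i, ρ i x = 1) {v w : List L}
    (hv : v ∈ Rel a) (hw : w ∈ Rel a) (hne : v ≠ w) {x : X} (hx : x ∈ reg a ρ v)
    (hx' : x ∈ reg a ρ w) : ∃ ε ∈ Rel a, ε ≠ [] ∧ x ∈ wall a ρ ε := by
  have key : ∀ {v w : List L}, w ∈ Rel a → v ≠ w → x ∈ reg a ρ v → x ∈ reg a ρ w → v <+: w →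
      ∃ ε ∈ Rel a, ε ≠ [] ∧ x ∈ wall a ρ ε := by
    intro v w hw hne hx hx' h
    obtain ⟨l, hl⟩ := exists_concat_prefix h hne
    obtain ⟨i, hi⟩ := hw
    exact ⟨v ++ [l], ⟨i, hl.trans hi⟩, by simp, le_antisymm (hx.2 l) (hx'.1 _ (by simp) hl)⟩
  by_cases h : v <+: w
  · exact key hw hne hx hx' h
  by_cases h' : w <+: v
  · exact key hv hne.symm hx' hx h'
  have hv0 : v ≠ [] := by rintro rfl; exact h List.nil_prefix
  have hw0 : w ≠ [] := by rintro rfl; exact h' List.nil_prefix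
  have h2 := wt_add_le (a := a) h0 h1 h h' x
  have h3 := hx.1 v hv0 (List.prefix_refl v)
  have h4 := hx'.1 w hw0 (List.prefix_refl w)
  have := half_lt_th (n := v.length) (by simpa using hv0)
  have := half_lt_th (n := w.length) (by simpa using hw0)
  linarith

theorem exists_reg [Nonempty ι] (x : X) : ∃ v ∈ Rel a, x ∈ reg a ρ v := by
  classical
  let A : Set (List L) := {v | v ∈ Rel a ∧ ∀ ε, ε ≠ [] → ε <+: v → th ε.length ≤ wt a ρ ε x}
  have hA : A.Finite := (rel_finite a).subset fun v hv => hv.1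
  have hne : A.Nonempty := ⟨[], ⟨Classical.arbitrary ι, List.nil_prefix⟩, fun ε hε h =>
    absurd (List.prefix_nil.1 h) hε⟩
  obtain ⟨v, hv, hmax⟩ := Set.exists_max_image A List.length hA hne
  refine ⟨v, hv.1, hv.2, fun l => ?_⟩
  by_contra hc
  push Not at hc
  obtain ⟨i, hi, -⟩ := exists_of_wt_pos ((th_pos _).trans hc)
  have : v ++ [l] ∈ A := by
    refine ⟨⟨i, hi⟩, fun ε hε h => ?_⟩
    rcases List.prefix_concat_iff.1 h with h | h
    · rw [h]; exact hc.le
    · exact hv.2 ε hε h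
  have := hmax _ this
  simp at this

end weights

end TreeAux

open TreeAux in
theorem ext_of_tree {G L : Type*} [Group G] (j : ℕ) (addr : G → List L) (O W : List L → Set G)
    (sep : ∀ S : Set G, S.Finite → ∃ T : Set G, T.Finite ∧ ∀ (ε : List L) (g g' : G), ε ≠ [] →
      ε <+: addr g → ¬ ε <+: addr g' → g⁻¹ * g' ∈ S → g ∈ O ε * T)
    (at_ : ∃ T : Set G, T.Finite ∧ ∀ g, g ∈ W (addr g) * T)
    (hE : FExt j (fun ε : {ε : List L // ε ≠ [] ∧ ∃ g, ε <+: addr g} => O ε.1)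
      (fun ε => {W ε.1, W ε.1.dropLast}))
    (hV : FExt j (fun v : {v : List L // ∃ g, v <+: addr g} => W v.1) (fun _ => ∅)) :
    Ext j (MonoidHom.id G) := by
  classical
  intro S hS
  obtain ⟨T₀, hT₀, at_⟩ := at_
  obtain ⟨T₁, hT₁, sep⟩ := sep (S * S⁻¹) (hS.mul hS.inv)
  obtain ⟨T₂, hT₂, hE⟩ := hE (insert 1 (S ∪ T₁ * S)) ((hS.union (hT₁.mul hS)).insert 1)
  obtain ⟨T₄, hT₄, hV⟩ := hV (S ∪ T₂ ∪ T₀ * S) ((hS.union hT₂).union (hT₀.mul hS))
  refine ⟨T₄, hT₄, fun K₀ K hK₀ hK hsub f hf => ?_⟩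
  obtain ⟨t, g, ρ, hc, h0, h1, hρ⟩ := exists_pu hK₀ hf
  set a : Option t → List L := fun i => addr (g i) with ha
  -- separation at a point of `K₀`
  have hsep : ∀ ε : List L, ε ≠ [] → ∀ x ∈ K₀, 0 < wt a ρ ε x → wt a ρ ε x < 1 →
      f x ∈ O ε * insert 1 (S ∪ T₁ * S) := by
    intro ε hε x hx hp hl
    obtain ⟨i, hi, hi'⟩ := exists_of_wt_pos hp
    obtain ⟨k, hk, hk'⟩ := exists_of_wt_lt_one h1 hl
    have h2 := hρ i x hx hi'
    have h3 := hρ k x hx hk'
    obtain ⟨o, ho, s, hs, hos⟩ := sep ε (g i) (g k) hε hi hk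
      ⟨_, h2, ((g k)⁻¹ * f x)⁻¹, by simpa using h3, by simp [mul_assoc]⟩
    refine ⟨o, ho, s * ((g i)⁻¹ * f x), Or.inr (Or.inr ⟨s, hs, _, h2, rfl⟩), ?_⟩
    have hos' : o * s = g i := hos
    simp only [← mul_assoc, hos']; simp
  -- one-point extension
  have hone : ∀ ε : List L, ε ≠ [] → ε ∈ Rel a → ∀ y ∈ O ε * insert 1 (S ∪ T₁ * S),
      y ∈ W ε * T₂ ∧ y ∈ W ε.dropLast * T₂ := by
    rintro ε hε ⟨i, hi⟩ y hy
    obtain ⟨F, -, hF, hF'⟩ := hE ⟨ε, hε, g i, hi⟩ {0} {0} isCompact_singleton isCompact_singleton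
      Subset.rfl (fun _ => y) (scOn_const (mem_insert _ _) _ _) (fun _ _ => hy)
    have e : F 0 = y := hF 0 rfl
    exact ⟨e ▸ hF' 0 rfl _ (Or.inl rfl), e ▸ hF' 0 rfl _ (Or.inr rfl)⟩
  -- extension to the walls
  have hwall : ∀ ε : List L, ε ≠ [] → ε ∈ Rel a → ∃ F : (Fin j → ℝ) → G,
      SCOn T₂ F (K ∩ wall a ρ ε) ∧ (∀ x ∈ K₀ ∩ wall a ρ ε, F x = f x) ∧
      ∀ x ∈ K ∩ wall a ρ ε, F x ∈ W ε * T₂ ∧ F x ∈ W ε.dropLast * T₂ := by
    rintro ε hε ⟨i, hi⟩
    obtain ⟨F, hF, hF', hF''⟩ := hE ⟨ε, hε, g i, hi⟩ (K₀ ∩ wall a ρ ε) (K ∩ wall a ρ ε)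
      (hK₀.inter_right (wall_closed hc ε)) (hK.inter_right (wall_closed hc ε))
      (inter_subset_inter_left _ hsub) f
      ((hf.mono_set inter_subset_left).mono fun s hs => Or.inr (Or.inl hs))
      (fun x hx => hsep ε hε x hx.1 (by rw [show wt a ρ ε x = _ from hx.2]; exact th_pos _)
        (by rw [show wt a ρ ε x = _ from hx.2]; exact th_lt_one _))
    exact ⟨F, hF, hF', fun x hx => ⟨hF'' x hx _ (Or.inl rfl), hF'' x hx _ (Or.inr rfl)⟩⟩
  choose! FE hFE hFEf hFEW using hwall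
  let E : Set (List L) := {ε | ε ≠ [] ∧ ε ∈ Rel a}
  have hEf : E.Finite := (rel_finite a).subset fun ε hε => hε.2
  let D : (Fin j → ℝ) → G := fun x =>
    if h : ∃ ε ∈ E, x ∈ wall a ρ ε then FE h.choose x else f x
  have hDw : ∀ ε ∈ E, ∀ x ∈ wall a ρ ε, D x = FE ε x := by
    intro ε hε x hx
    have h : ∃ ε ∈ E, x ∈ wall a ρ ε := ⟨ε, hε, hx⟩
    simp only [D, dif_pos h]
    rw [wall_eq h0 h1 h.choose_spec.1.1 hε.1 h.choose_spec.2 hx]
  have hDf : ∀ x ∈ K₀, D x = f x := by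
    intro x hx
    by_cases h : ∃ ε ∈ E, x ∈ wall a ρ ε
    · obtain ⟨ε, hε, hxε⟩ := h
      rw [hDw ε hε x hxε, hFEf ε hε.1 hε.2 x ⟨hx, hxε⟩]
    · simp only [D, dif_neg h]
  let Z : Set (Fin j → ℝ) := K₀ ∪ ⋃ ε ∈ E, K ∩ wall a ρ ε
  have hZc' : IsClosed (⋃ ε ∈ E, K ∩ wall a ρ ε) :=
    hEf.isClosed_biUnion fun ε _ => hK.isClosed.inter (wall_closed hc ε)
  have hZc : IsClosed Z := hK₀.isClosed.union hZc'
  have hDZ : SCOn (S ∪ T₂ ∪ T₀ * S) D Z := by
    refine SCOn.union ?_ ?_ hK₀.isClosed hZc'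
    · exact (hf.congr hDf).mono fun s hs => Or.inl (Or.inl hs)
    · refine SCOn.biUnion hEf (fun ε hε => ?_) fun ε _ => hK.isClosed.inter (wall_closed hc ε)
      exact ((hFE ε hε.1 hε.2).congr fun x hx => hDw ε hε x hx.2).mono
        fun s hs => Or.inl (Or.inr hs)
  -- extension to the regions
  have hreg : ∀ v ∈ Rel a, ∃ F : (Fin j → ℝ) → G,
      SCOn T₄ F (K ∩ reg a ρ v) ∧ ∀ x ∈ K ∩ reg a ρ v ∩ Z, F x = D x := by
    rintro v ⟨i, hi⟩
    have hKv : IsCompact (K ∩ reg a ρ v) := hK.inter_right (reg_closed hc v)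
    have hsubT : W v * T₂ ⊆ W v * (S ∪ T₂ ∪ T₀ * S) :=
      mul_subset_mul_left fun s hs => Or.inl (Or.inr hs)
    obtain ⟨F, hF, hF', -⟩ := hV ⟨v, g i, hi⟩ (K ∩ reg a ρ v ∩ Z) (K ∩ reg a ρ v)
      (hKv.inter_right hZc) hKv inter_subset_left D (hDZ.mono_set inter_subset_right) (by
        rintro x ⟨⟨hxK, hxv⟩, hxZ⟩
        show D x ∈ W v * _
        rcases hxZ with hx | hx
        · rw [hDf x hx]
          have hk : ∃ k, ρ k x ≠ 0 := by
            by_contra hcon
            push Not at hcon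
            have := h1 x
            simp [hcon] at this
          obtain ⟨k, hk⟩ := hk
          by_cases hkv : v = a k
          · obtain ⟨o, ho, s, hs, hos⟩ := at_ (g k)
            refine ⟨o, hkv ▸ ho, s * ((g k)⁻¹ * f x), Or.inr ⟨s, hs, _, hρ k x hx hk, rfl⟩, ?_⟩
            have hos' : o * s = g k := hos
            simp only [← mul_assoc, hos']; simp
          have hpos : ∀ ε, ε <+: a k → 0 < wt a ρ ε x := by
            intro ε hε
            have h2 : ρ k x ≤ wt a ρ ε x := by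
              unfold wt
              have := Finset.single_le_sum (f := fun i => if ε <+: a i then ρ i x else 0)
                (fun i _ => by by_cases h : ε <+: a i <;> simp [h, h0]) (Finset.mem_univ k)
              simpa [hε] using this
            exact (lt_of_le_of_ne (h0 k x) (Ne.symm hk)).trans_le h2
          have hlt : ∀ ε, ¬ ε <+: a k → wt a ρ ε x < 1 := by
            intro ε hε
            rw [← h1 x]
            unfold wt
            refine Finset.sum_lt_sum (fun i _ => by by_cases h : ε <+: a i <;> simp [h, h0])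
              ⟨k, Finset.mem_univ k, ?_⟩
            simpa [hε] using lt_of_le_of_ne (h0 k x) (Ne.symm hk)
          by_cases hp : v <+: a k
          · obtain ⟨l, hl⟩ := exists_concat_prefix hp hkv
            have h2 := (hone (v ++ [l]) (by simp) ⟨k, hl⟩ _ (hsep (v ++ [l]) (by simp) x hx
              (hpos _ hl) ((hxv.2 l).trans_lt (th_lt_one _)))).2
            rw [List.dropLast_concat] at h2
            exact hsubT h2
          · have hv0 : v ≠ [] := by rintro rfl; exact hp List.nil_prefix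
            exact hsubT (hone v hv0 ⟨i, hi⟩ _ (hsep v hv0 x hx
              ((th_pos _).trans_le (hxv.1 v hv0 (List.prefix_refl v))) (hlt v hp))).1
        · obtain ⟨ε, hε, hxε⟩ := mem_iUnion₂.1 hx
          rw [hDw ε hε x hxε.2]
          have h2 := hFEW ε hε.1 hε.2 x hxε
          rcases reg_wall h0 h1 hε.1 hxv hxε.2 with h | h
          · exact hsubT (h ▸ h2.1)
          · exact hsubT (h ▸ h2.2))
    exact ⟨F, hF, hF'⟩
  choose! FV hFV hFVD using hreg
  choose r hr hxr using exists_reg (a := a) (ρ := ρ)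
  have hglue : ∀ v ∈ Rel a, ∀ x ∈ K ∩ reg a ρ v, FV (r x) x = FV v x := by
    intro v hv x hx
    by_cases h : r x = v
    · rw [h]
    obtain ⟨ε, hε, hε0, hxε⟩ := reg_reg h0 h1 (hr x) hv h (hxr x) hx.2
    have hxZ : x ∈ Z := Or.inr (mem_iUnion₂.2 ⟨ε, ⟨hε0, hε⟩, hx.1, hxε⟩)
    rw [hFVD _ (hr x) x ⟨⟨hx.1, hxr x⟩, hxZ⟩, hFVD v hv x ⟨hx, hxZ⟩]
  refine ⟨fun x => FV (r x) x, ?_, fun x hx => ?_⟩
  · have := SCOn.biUnion (S := T₄) (f := fun x => FV (r x) x) (rel_finite a)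
      (K := fun v => K ∩ reg a ρ v) (fun v hv => (hFV v hv).congr fun x hx => hglue v hv x hx)
      (fun v _ => hK.isClosed.inter (reg_closed hc v))
    exact this.mono_set fun x hx => mem_iUnion₂.2 ⟨r x, hr x, hx, hxr x⟩
  · show FV (r x) x = f x
    rw [hFVD _ (hr x) x ⟨⟨hsub hx, hxr x⟩, Or.inl hx⟩, hDf x hx]

end Crest.Agent.R185
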