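import Crest.Agent.R185.Sub
import Crest.Agent.R185.MH
import Crest.Agent.R185.Tree
import Crest.Agent.R185.ExtOf
/-! Row 185: the tree lemma for (sub-)graphs of groups; free groups, ascending HNN extensions. -/
set_option autoImplicit false
open Set
open scoped Pointwise

namespace Crest.Agent.R185

namespace Sub
variable {B Γ E : Type} [Group B] [Group Γ] {S : Split B Γ E} {V I : Type}
  (U : Sub S.toPreSplit V I) (v₀ : V) (c : V → Γ)

/-- The vertex group at `v`, transported to the base state along `c v`. -/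
def vgrp (v : V) : Set (U.K v₀) := {k | ∃ h ∈ U.H v, (k : Γ) = c v * S.of h * (c v)⁻¹}

/-- The subgroup of the base corresponding to the edge `i`. -/
def EH (i : I) : Subgroup B :=
  U.H (U.src i) ⊓ (S.A (U.e i)).map (MulAut.conj (U.l i)).toMonoidHom

/-- The edge group of `i`, transported to the base state. -/
def egrp (i : I) : Set (U.K v₀) :=
  {k | ∃ h ∈ U.EH i, (k : Γ) = c (U.src i) * S.of h * (c (U.src i))⁻¹}

/-- The closed path through the edge `i`. -/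
def kap (hc : ∀ v, c v ∈ U.Mor v₀ v) (i : I) : U.K v₀ :=
  ⟨c (U.src i) * U.t i * (c (U.src (U.bar i)))⁻¹,
    U.mul_mem_Mor (U.mul_mem_Mor (hc _) (U.t_mem_Mor i)) (U.inv_mem_Mor (hc _))⟩

theorem mem_EH {i : I} {a : B} :
    a ∈ U.EH i ↔ a ∈ U.H (U.src i) ∧ (U.l i)⁻¹ * a * U.l i ∈ S.A (U.e i) := by
  simp only [EH, Subgroup.mem_inf, Subgroup.mem_map]
  refine and_congr_right fun _ => ⟨?_, fun h => ⟨_, h, ?_⟩⟩
  · rintro ⟨b, hb, rfl⟩
    simpa [mul_assoc] using hb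
  · simp [mul_assoc]

theorem exists_conj_t {i : I} {a : B} (ha : a ∈ U.EH i) :
    ∃ b ∈ U.EH (U.bar i), S.of a * U.t i = U.t i * S.of b := by
  obtain ⟨h1, h2⟩ := U.mem_EH.1 ha
  have e1 : U.l i * ((U.l i)⁻¹ * a * U.l i) * (U.l i)⁻¹ = a := by group
  have hc1 := U.good _ _ h2 (by rw [e1]; exact h1)
  have hc2 := U.conj_t _ h2
  rw [e1] at hc2
  refine ⟨_, U.mem_EH.2 ⟨hc1, ?_⟩, hc2⟩
  rw [U.e_bar]
  simpa [mul_assoc] using S.φ_mem _ _ h2

/-- The coset of the edge group. -/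
def ecos (x : Γ) (i : I) : Set Γ := {y | ∃ a ∈ U.EH i, y = x * S.of a}

theorem self_mem_ecos (x : Γ) (i : I) : x ∈ U.ecos x i := ⟨1, one_mem _, by simp⟩

theorem ecos_mul (x : Γ) {i : I} {a : B} (ha : a ∈ U.EH i) :
    U.ecos (x * S.of a) i = U.ecos x i := by
  ext y
  constructor
  · rintro ⟨b, hb, rfl⟩
    exact ⟨a * b, mul_mem ha hb, by simp [mul_assoc]⟩
  · rintro ⟨b, hb, rfl⟩
    exact ⟨a⁻¹ * b, mul_mem (inv_mem ha) hb, by simp [mul_assoc]⟩

/-- The labels of the edges of the tree crossed by a path. -/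
def lab : Γ → B → List (I × B) → List (I × Set Γ)
  | _, _, [] => []
  | x, h, p :: L => (p.1, U.ecos (x * S.of h) p.1) :: lab (x * S.of h * U.t p.1) p.2 L

theorem lab_mul (x : Γ) (a h : B) (L : List (I × B)) :
    U.lab x (a * h) L = U.lab (x * S.of a) h L := by
  cases L <;> simp [lab, mul_assoc]

theorem lab_eq {v w w' : V} {h h' : B} {L L' : List (I × B)} (x : Γ) (hp : U.Pth v h L w)
    (hp' : U.Pth v h' L' w') (hr : U.Red L) (hr' : U.Red L') (e : U.ev h L = U.ev h' L') :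
    U.lab x h L = U.lab x h' L' := by
  induction L generalizing v h h' L' x with
  | nil =>
    obtain ⟨h4, -⟩ := S.eq_nil_of_ev_eq_of (U.red_amb hp' hr') ((U.ev_amb h' L').trans e.symm)
    obtain rfl := U.amb_eq_nil h4
    rfl
  | cons p L ih =>
    have e' : S.ev (U.amb h (p :: L)).1 (U.amb h (p :: L)).2 =
        S.ev (U.amb h' L').1 (U.amb h' L').2 := by rw [U.ev_amb, U.ev_amb, e]
    obtain ⟨h'', r', h4, h5, -⟩ := S.cmp_cons (U.red_amb hp hr) (U.red_amb hp' hr') e'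
    cases L' with
    | nil => simp [Sub.amb] at h4
    | cons q L' =>
      obtain ⟨i, k⟩ := p
      obtain ⟨j, k'⟩ := q
      simp only [Sub.amb, List.cons.injEq, Prod.mk.injEq] at h4 h5
      obtain ⟨hh, rfl, hp1⟩ := hp
      obtain ⟨hh', hs, hp1'⟩ := hp'
      simp only at hs hh hh' hp1 hp1'
      have hm : h'⁻¹ * h ∈ U.H (U.src i) := mul_mem (inv_mem hh') hh
      have ha : (U.l j)⁻¹ * (h'⁻¹ * h) * U.l i ∈ S.A (U.e i) := by
        simpa only [mul_inv_rev, mul_assoc] using h5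
      obtain rfl : j = i := U.sep j i hs h4.1.1 _ (by rw [hs]; exact hm) (by rw [h4.1.1]; exact ha)
      have hE : h'⁻¹ * h ∈ U.EH j := U.mem_EH.2 ⟨hm, ha⟩
      obtain ⟨b, hb, hc2⟩ := U.exists_conj_t hE
      have e2 : U.ev (b * k) L = U.ev k' L' := by
        simp only [Sub.ev] at e
        rw [U.ev_mul]
        apply mul_left_cancel (a := S.of h' * U.t j)
        rw [← e, ← mul_assoc, mul_assoc (S.of h'), ← hc2]
        simp only [map_mul, map_inv, mul_assoc, mul_inv_cancel_left]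
      have e3 := ih (x * S.of h' * U.t j) (hp1.mul (U.mem_EH.1 hb).1) hp1' hr.tail hr'.tail e2
      have e4 : x * S.of h = x * S.of h' * S.of (h'⁻¹ * h) := by simp [mul_assoc]
      simp only [lab]
      rw [← e3, U.lab_mul, mul_assoc (x * S.of h') (U.t j), ← hc2, ← mul_assoc, ← e4, e4,
        U.ecos_mul _ hE]

theorem pth_nil {v : V} {h : B} (hh : h ∈ U.H v) : U.Pth v h [] v := ⟨hh, rfl⟩

theorem pth_append {v w : V} {h : B} {L M : List (I × B)} {p : I × B} :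
    U.Pth v h (L ++ p :: M) w ↔ U.Pth v h L (U.src p.1) ∧ U.Pth (U.src (U.bar p.1)) p.2 M w := by
  induction L generalizing v h with
  | nil => simp only [List.nil_append, Pth]; tauto
  | cons q L ih => simp only [List.cons_append, Pth, ih, and_assoc]

theorem ev_append (h : B) (L M : List (I × B)) (p : I × B) :
    U.ev h (L ++ p :: M) = U.ev h L * U.t p.1 * U.ev p.2 M := by
  induction L generalizing h with
  | nil => rfl
  | cons q L ih => simp only [List.cons_append, Sub.ev, ih, mul_assoc]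

theorem lab_concat (x : Γ) (h : B) (L : List (I × B)) (p : I × B) :
    U.lab x h (L ++ [p]) = U.lab x h L ++ [(p.1, U.ecos (x * U.ev h L) p.1)] := by
  induction L generalizing x h with
  | nil => rfl
  | cons q L ih => simp only [List.cons_append, lab, ih, Sub.ev, mul_assoc]

theorem Red.of_concat {U : Sub S.toPreSplit V I} {L : List (I × B)} {p : I × B}
    (h : U.Red (L ++ [p])) : U.Red L := List.IsChain.left_of_append h

theorem Red.concat_congr {U : Sub S.toPreSplit V I} {L : List (I × B)} {i : I} {k : B} (k' : B)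
    (h : U.Red (L ++ [(i, k)])) : U.Red (L ++ [(i, k')]) := by
  unfold Red at h ⊢
  rw [List.isChain_append] at h ⊢
  refine ⟨h.1, List.isChain_singleton _, fun x hx y hy => ?_⟩
  obtain rfl : (i, k') = y := by simpa using hy
  exact h.2.2 x hx (i, k) (by simp)

open Classical in
/-- The vertex of the tree determined by the value of a path starting at `v₀`. -/
noncomputable def addr (x : Γ) : List (I × Set Γ) :=
  if hx : ∃ q : B × List (I × B), (∃ w, U.Pth v₀ q.1 q.2 w) ∧ U.Red q.2 ∧ U.ev q.1 q.2 = x then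
    U.lab 1 hx.choose.1 hx.choose.2 else []

variable {v₀}

theorem addr_ev {w : V} {h : B} {L : List (I × B)} (hp : U.Pth v₀ h L w) (hr : U.Red L) :
    U.addr v₀ (U.ev h L) = U.lab 1 h L := by
  have hx : ∃ q : B × List (I × B), (∃ w, U.Pth v₀ q.1 q.2 w) ∧ U.Red q.2 ∧
      U.ev q.1 q.2 = U.ev h L := ⟨(h, L), ⟨w, hp⟩, hr, rfl⟩
  rw [addr, dif_pos hx]
  obtain ⟨⟨w', h1⟩, h2, h3⟩ := hx.choose_spec
  exact U.lab_eq 1 h1 hp h2 hr h3

theorem addr_mul_of {w : V} {x : Γ} (hx : x ∈ U.Mor v₀ w) {a : B} (ha : a ∈ U.H w) :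
    U.addr v₀ (x * S.of a) = U.addr v₀ x := by
  obtain ⟨h, L, hp, hr, rfl⟩ := U.exists_red hx
  rw [U.addr_ev hp hr]
  rcases L.eq_nil_or_concat' with rfl | ⟨M, ⟨i, k⟩, rfl⟩
  · obtain ⟨h1, rfl⟩ := hp
    have : U.ev h [] * S.of a = U.ev (h * a) [] := by simp [Sub.ev]
    rw [this, U.addr_ev (U.pth_nil (mul_mem h1 ha)) hr]
    rfl
  · obtain ⟨h1, h2, rfl⟩ := U.pth_append.1 hp
    have : U.ev h (M ++ [(i, k)]) * S.of a = U.ev h (M ++ [(i, k * a)]) := by
      simp [U.ev_append, Sub.ev, mul_assoc]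
    rw [this, U.addr_ev ((U.pth_append (p := (i, k * a))).2 ⟨h1, U.pth_nil (mul_mem h2 ha)⟩)
      (hr.concat_congr _),
      U.lab_concat, U.lab_concat]

theorem addr_concat {h : B} {L : List (I × B)} {i : I} (hp : U.Pth v₀ h L (U.src i))
    (hr : U.Red (L ++ [(i, 1)])) :
    U.addr v₀ (U.ev h L * U.t i) = U.addr v₀ (U.ev h L) ++ [(i, U.ecos (U.ev h L) i)] := by
  have : U.ev h L * U.t i = U.ev h (L ++ [(i, 1)]) := by simp [U.ev_append, Sub.ev]
  rw [this, U.addr_ev (U.pth_append.2 ⟨hp, U.pth_nil (one_mem _)⟩) hr,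
    U.lab_concat, U.addr_ev hp hr.of_concat, one_mul]

theorem addr_mul_t {x : Γ} {i : I} (hx : x ∈ U.Mor v₀ (U.src i)) :
    U.addr v₀ (x * U.t i) = U.addr v₀ x ++ [(i, U.ecos x i)] ∨
      U.addr v₀ x = U.addr v₀ (x * U.t i) ++ [(U.bar i, U.ecos (x * U.t i) (U.bar i))] := by
  obtain ⟨h, L, hp, hr, rfl⟩ := U.exists_red hx
  by_cases hr' : U.Red (L ++ [(i, 1)])
  · exact Or.inl (U.addr_concat hp hr')
  right
  rcases L.eq_nil_or_concat' with rfl | ⟨M, ⟨j, k⟩, rfl⟩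
  · exact absurd (List.isChain_singleton _) hr'
  obtain ⟨h1, h2, h3⟩ := U.pth_append.1 hp
  have h4 : i = U.bar j ∧ (U.l i)⁻¹ * k * U.l i ∈ S.A (U.e i) := by
    by_contra hcon
    apply hr'
    unfold Red at hr ⊢
    rw [List.isChain_append]
    refine ⟨hr, List.isChain_singleton _, fun x hx y hy => ?_⟩
    obtain rfl : (i, (1 : B)) = y := by simpa using hy
    obtain rfl : (j, k) = x := by simpa using hx
    exact hcon
  obtain ⟨rfl, h5⟩ := h4
  obtain ⟨b, hb, hc⟩ := U.exists_conj_t (U.mem_EH.2 ⟨h2, h5⟩)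
  rw [U.bar_bar] at hb ⊢
  have e : U.ev h (M ++ [(j, k)]) * U.t (U.bar j) = U.ev h M * S.of b := by
    rw [U.ev_append, Sub.ev, mul_assoc, hc, U.t_bar]
    simp [mul_assoc]
  rw [e, U.ecos_mul _ hb, U.addr_mul_of ⟨h, M, h1, rfl⟩ (U.mem_EH.1 hb).1, U.addr_ev hp hr,
    U.lab_concat, U.addr_ev h1 hr.of_concat, one_mul]

theorem addr_inj {w w' : V} {x x' : Γ} (hx : x ∈ U.Mor v₀ w) (hx' : x' ∈ U.Mor v₀ w')
    (e : U.addr v₀ x = U.addr v₀ x') : w = w' ∧ ∃ a ∈ U.H w, x' = x * S.of a := by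
  obtain ⟨h, L, hp, hr, rfl⟩ := U.exists_red hx
  obtain ⟨h', L', hp', hr', rfl⟩ := U.exists_red hx'
  rw [U.addr_ev hp hr, U.addr_ev hp' hr'] at e
  rcases L.eq_nil_or_concat' with rfl | ⟨M, ⟨i, k⟩, rfl⟩ <;>
    rcases L'.eq_nil_or_concat' with rfl | ⟨M', ⟨i', k'⟩, rfl⟩
  · obtain ⟨h1, rfl⟩ := hp
    obtain ⟨h1', rfl⟩ := hp'
    exact ⟨rfl, h⁻¹ * h', mul_mem (inv_mem h1) h1', by simp [Sub.ev]⟩
  · simp [U.lab_concat, lab] at e
  · simp [U.lab_concat, lab] at e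
  · rw [U.lab_concat, U.lab_concat] at e
    obtain ⟨-, e'⟩ := List.append_inj' e rfl
    simp only [List.cons.injEq, Prod.mk.injEq, and_true, one_mul] at e'
    obtain ⟨rfl, e'⟩ := e'
    obtain ⟨-, h2, rfl⟩ := U.pth_append.1 hp
    obtain ⟨-, h2', rfl⟩ := U.pth_append.1 hp'
    obtain ⟨a, ha, e2⟩ : U.ev h' M' ∈ U.ecos (U.ev h M) i := e' ▸ U.self_mem_ecos _ _
    obtain ⟨b, hb, hc⟩ := U.exists_conj_t ha
    refine ⟨rfl, k⁻¹ * b * k', mul_mem (mul_mem (inv_mem h2) (U.mem_EH.1 hb).1) h2', ?_⟩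
    rw [U.ev_append, U.ev_append, e2, mul_assoc _ (S.of a), hc]
    simp [Sub.ev, mul_assoc]

theorem prefix_addr {w : V} {g : Γ} (hg : g ∈ U.Mor v₀ w) {ε : List (I × Set Γ)} (hε : ε ≠ [])
    (hpre : ε <+: U.addr v₀ g) : ∃ i, ∃ x ∈ U.Mor v₀ (U.src i),
      ε = U.addr v₀ x ++ [(i, U.ecos x i)] ∧ U.addr v₀ (x * U.t i) = ε := by
  obtain ⟨h, L, hp, hr, rfl⟩ := U.exists_red hg
  rw [U.addr_ev hp hr] at hpre
  clear hg
  induction L using List.reverseRecOn generalizing w with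
  | nil => exact absurd (List.prefix_nil.1 hpre) hε
  | append_singleton M p ih =>
    obtain ⟨i, k⟩ := p
    obtain ⟨h1, -⟩ := U.pth_append.1 hp
    rw [U.lab_concat] at hpre
    rcases List.prefix_concat_iff.1 hpre with h2 | h2
    · rw [one_mul, ← U.addr_ev h1 hr.of_concat] at h2
      exact ⟨i, _, ⟨h, M, h1, rfl⟩, h2, h2 ▸ U.addr_concat h1 (hr.concat_congr 1)⟩
    · exact ih h1 hr.of_concat h2

theorem exists_sep {v w : V} {h : B} {L : List (I × B)} (hp : U.Pth v h L w) :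
    ∃ Z : Set Γ, Z.Finite ∧ ∀ x ∈ U.Mor v₀ v, ∀ ε, ε <+: U.addr v₀ x →
      ¬ ε <+: U.addr v₀ (x * U.ev h L) →
      ∃ i, ∃ z ∈ Z, z ∈ U.Mor v (U.src i) ∧ ε.getLast? = some (i, U.ecos (x * z) i) := by
  induction L generalizing v h with
  | nil =>
    refine ⟨∅, finite_empty, fun x hx ε h1 h2 => absurd ?_ h2⟩
    rwa [Sub.ev, U.addr_mul_of hx hp.1]
  | cons p L ih =>
    obtain ⟨h1, rfl, h3⟩ := hp
    obtain ⟨Z, hZ, H⟩ := ih h3
    have hy : S.of h * U.t p.1 ∈ U.Mor (U.src p.1) (U.src (U.bar p.1)) :=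
      U.mul_mem_Mor (U.of_mem_Mor h1) (U.t_mem_Mor _)
    refine ⟨insert (S.of h * U.t p.1) ((fun z => S.of h * U.t p.1 * z) '' Z),
      (hZ.image _).insert _, fun x hx ε e1 e2 => ?_⟩
    by_cases e3 : ε <+: U.addr v₀ (x * (S.of h * U.t p.1))
    · obtain ⟨i, z, hz, hz', e4⟩ := H _ (U.mul_mem_Mor hx hy) ε e3
        (by simpa only [Sub.ev, mul_assoc] using e2)
      exact ⟨i, _, Or.inr ⟨z, hz, rfl⟩, U.mul_mem_Mor hy hz', by simpa only [mul_assoc] using e4⟩
    · rw [← U.addr_mul_of hx h1] at e1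
      rw [← mul_assoc] at e3
      rcases U.addr_mul_t (U.mul_mem_Mor hx (U.of_mem_Mor h1)) with e4 | e4
      · exact absurd (e4 ▸ e1.trans (List.prefix_append _ _)) e3
      · rw [e4] at e1
        rcases List.prefix_concat_iff.1 e1 with e5 | e5
        · exact ⟨U.bar p.1, _, Or.inl rfl, hy, by rw [e5, ← mul_assoc]; simp⟩
        · exact absurd e5 e3

variable (v₀)

theorem ext [Finite V] [Finite I] (hc : ∀ v, c v ∈ U.Mor v₀ v) (j : ℕ) (W : V → Set (U.K v₀))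
    (hWinv : ∀ v, ∀ k ∈ U.vgrp v₀ c v, k • W v = W v) (hWne : ∀ v, (W v).Nonempty)
    (hE : ∀ i, FExt j (fun a : U.K v₀ => a • U.egrp v₀ c i)
      (fun a => {a • W (U.src i), (a * U.kap v₀ c hc i) • W (U.src (U.bar i))}))
    (hV : ∀ v, FExt j (fun a : U.K v₀ => a • W v) (fun _ => ∅)) :
    Ext j (MonoidHom.id (U.K v₀)) := by
  let kk : ∀ {w : V} {x : Γ}, x ∈ U.Mor v₀ w → U.K v₀ := fun {w x} hx =>
    ⟨x * (c w)⁻¹, U.mul_mem_Mor hx (U.inv_mem_Mor (hc w))⟩
  let O : List (I × Set Γ) → Set (U.K v₀) := fun ε =>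
    {k | ∃ i C, ε.getLast? = some (i, C) ∧ (k : Γ) * c (U.src i) ∈ C}
  let W' : List (I × Set Γ) → Set (U.K v₀) := fun ε =>
    {k | ∃ w x, ∃ hx : x ∈ U.Mor v₀ w, U.addr v₀ x = ε ∧ k ∈ kk hx • W w}
  have hW' : ∀ {w x} (hx : x ∈ U.Mor v₀ w), W' (U.addr v₀ x) = kk hx • W w := by
    intro w x hx
    refine Subset.antisymm ?_ fun k hk => ⟨w, x, hx, rfl, hk⟩
    rintro k ⟨w', x', hx', e, hk⟩
    obtain ⟨rfl, a, ha, rfl⟩ := U.addr_inj hx hx' e.symm
    have hm : c w * S.of a * (c w)⁻¹ ∈ U.K v₀ :=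
      U.mul_mem_Mor (U.mul_mem_Mor (hc w) (U.of_mem_Mor ha)) (U.inv_mem_Mor (hc w))
    have e1 : kk hx' = kk hx * ⟨_, hm⟩ := Subtype.ext (by simp [kk, mul_assoc])
    rwa [e1, mul_smul, hWinv w _ ⟨a, ha, rfl⟩] at hk
  refine ext_of_tree j (fun g : U.K v₀ => U.addr v₀ g) O W' (fun T hT => ?_) ?_ ?_ ?_
  · have h1 : ∀ s : U.K v₀, ∃ Z : Set Γ, Z.Finite ∧ ∀ x ∈ U.Mor v₀ v₀, ∀ ε, ε <+: U.addr v₀ x →
        ¬ ε <+: U.addr v₀ (x * s) →
        ∃ i, ∃ z ∈ Z, z ∈ U.Mor v₀ (U.src i) ∧ ε.getLast? = some (i, U.ecos (x * z) i) := by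
      rintro ⟨_, h, L, hp, rfl⟩
      exact U.exists_sep hp
    choose Z hZ H using h1
    refine ⟨Subtype.val ⁻¹' (range c * (⋃ s ∈ T, Z s)⁻¹),
      ((finite_range c).mul (hT.biUnion fun s _ => hZ s).inv).preimage
        Subtype.val_injective.injOn, fun ε g g' _ e1 e2 hs => ?_⟩
    obtain ⟨i, z, hz, hz', e3⟩ := H (g⁻¹ * g') g g.2 ε e1 (by simpa using e2)
    refine ⟨kk (U.mul_mem_Mor g.2 hz'), ⟨i, _, e3, ?_⟩, (kk hz')⁻¹,
      ⟨c (U.src i), ⟨_, rfl⟩, z⁻¹, ?_, by simp [kk]⟩, Subtype.ext (by simp [kk, mul_assoc])⟩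
    · simpa [kk] using U.self_mem_ecos _ _
    · simpa using ⟨_, _, hs, hz⟩
  · obtain ⟨w₀, hw₀⟩ := hWne v₀
    refine ⟨{w₀⁻¹ * ⟨c v₀, hc v₀⟩}, finite_singleton _, fun g => ?_⟩
    rw [hW' g.2]
    exact ⟨kk g.2 * w₀, ⟨w₀, hw₀, rfl⟩, _, rfl, Subtype.ext (by simp [kk, mul_assoc])⟩
  · have h1 := FExt.sigma (I := I) (A := fun _ => U.K v₀)
      (O := fun p => p.2 • U.egrp v₀ c p.1)
      (W := fun p => {p.2 • W (U.src p.1), (p.2 * U.kap v₀ c hc p.1) • W (U.src (U.bar p.1))}) hE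
    have h2 : ∀ ε : {ε : List (I × Set Γ) // ε ≠ [] ∧ ∃ g : U.K v₀, ε <+: U.addr v₀ g},
        ∃ i, ∃ x ∈ U.Mor v₀ (U.src i),
          ε.1 = U.addr v₀ x ++ [(i, U.ecos x i)] ∧ U.addr v₀ (x * U.t i) = ε.1 := by
      rintro ⟨ε, hε, g, hg⟩
      exact U.prefix_addr g.2 hε hg
    choose i x hx e1 e2 using h2
    refine h1.mono (finite_singleton 1) (fun ε => ⟨i ε, kk (hx ε)⟩) (fun ε => ?_) fun ε U' hU' => ?_
    · rintro k ⟨i', C, e3, hk⟩
      rw [e1 ε] at e3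
      simp only [List.getLast?_append, List.getLast?_singleton, Option.some_or, Option.some.injEq,
        Prod.mk.injEq] at e3
      obtain ⟨rfl, rfl⟩ := e3
      obtain ⟨a, ha, e4⟩ := hk
      rw [mul_singleton]
      refine ⟨k, ⟨(kk (hx ε))⁻¹ * k, ⟨a, ha, ?_⟩, by simp⟩, mul_one _⟩
      rw [eq_mul_inv_iff_mul_eq, Subgroup.coe_mul, mul_assoc, e4]
      simp [kk, mul_assoc]
    · rcases hU' with rfl | rfl
      · refine ⟨_, Or.inr rfl, ?_⟩
        have e3 : kk (hx ε) * U.kap v₀ c hc (i ε) =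
            kk (U.mul_mem_Mor (hx ε) (U.t_mem_Mor (i ε))) :=
          Subtype.ext (by simp [kk, kap, mul_assoc])
        simp only [e3, singleton_one, mul_one]
        rw [← hW' (U.mul_mem_Mor (hx ε) (U.t_mem_Mor (i ε))), e2]
      · refine ⟨_, Or.inl rfl, ?_⟩
        simp only [singleton_one, mul_one]
        rw [← hW' (hx ε), e1 ε, List.dropLast_concat]
  · have h1 := FExt.sigma (I := V) (A := fun _ => U.K v₀)
      (O := fun p => p.2 • W p.1) (W := fun _ => ∅) hV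
    have h2 : ∀ ε : {ε : List (I × Set Γ) // ∃ g : U.K v₀, ε <+: U.addr v₀ g},
        ∃ w, ∃ x ∈ U.Mor v₀ w, U.addr v₀ x = ε.1 := by
      rintro ⟨ε, g, hg⟩
      by_cases hε : ε = []
      · refine ⟨v₀, U.ev 1 [], ⟨1, [], ⟨one_mem _, rfl⟩, rfl⟩, ?_⟩
        rw [U.addr_ev (U.pth_nil (one_mem _)) List.isChain_nil]
        exact hε.symm
      · obtain ⟨i, x, hx, -, e⟩ := U.prefix_addr g.2 hε hg
        exact ⟨_, _, U.mul_mem_Mor hx (U.t_mem_Mor i), e⟩
    choose w x hx e using h2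
    refine h1.mono (finite_singleton 1) (fun ε => ⟨w ε, kk (hx ε)⟩) (fun ε => ?_)
      fun ε U' hU' => hU'.elim
    simp only [singleton_one, mul_one]
    rw [← hW' (hx ε), e]

/-- Transport of a subgroup of a vertex group to the base state. -/
def trans (hc : ∀ v, c v ∈ U.Mor v₀ v) (v : V) (H : Subgroup B) (hH : H ≤ U.H v) :
    H →* U.K v₀ :=
  MonoidHom.codRestrict ((MulAut.conj (c v)).toMonoidHom.comp (S.of.comp H.subtype)) _ fun h =>
    U.mul_mem_Mor (U.mul_mem_Mor (hc v) (U.of_mem_Mor (hH h.2))) (U.inv_mem_Mor (hc v))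

theorem fext_trans (hc : ∀ v, c v ∈ U.Mor v₀ v) (v : V) (H : Subgroup B) (hH : H ≤ U.H v)
    (h : Coarse H) (j : ℕ) {X : Set (U.K v₀)}
    (hX : X = {k : U.K v₀ | ∃ h ∈ H, (k : Γ) = c v * S.of h * (c v)⁻¹}) :
    FExt j (fun a : U.K v₀ => a • X) (fun a => {a • X}) := by
  have h1 := FExt.of_conj (U.trans v₀ c hc v H hH) (fun a b e => by
    have e' : c v * S.of a * (c v)⁻¹ = c v * S.of b * (c v)⁻¹ := congrArg Subtype.val e
    exact Subtype.ext (S.inj (by simpa using e'))) (MonoidHom.id H) 1 (by simp) (h j)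
  have h2 : ((U.trans v₀ c hc v H hH).range : Set (U.K v₀)) = X := by
    rw [hX]
    ext k
    constructor
    · rintro ⟨a, rfl⟩
      exact ⟨a, a.2, rfl⟩
    · rintro ⟨a, ha, e⟩
      exact ⟨⟨a, ha⟩, Subtype.ext e.symm⟩
  simpa only [h2, inv_one, mul_one] using h1

/-- A finite graph of coarsely connected groups is coarsely connected. -/
theorem coarse [Finite V] [Finite I] (hc : ∀ v, c v ∈ U.Mor v₀ v) (hV : ∀ v, Coarse (U.H v))
    (hE : ∀ i, Coarse (U.EH i)) : Coarse (U.K v₀) := by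
  intro j
  refine U.ext v₀ c hc j (U.vgrp v₀ c) (fun v k hk => ?_) (fun v => ⟨1, 1, one_mem _, by simp⟩)
    (fun i => ?_) fun v => ?_
  · obtain ⟨a, ha, e⟩ := hk
    ext y
    rw [mem_smul_set_iff_inv_smul_mem]
    constructor
    · rintro ⟨b, hb, e'⟩
      refine ⟨a * b, mul_mem ha hb, ?_⟩
      have : (y : Γ) = k * ((k⁻¹ • y : U.K v₀) : Γ) := by simp
      rw [this, e', e]; simp [mul_assoc]
    · rintro ⟨b, hb, e'⟩
      refine ⟨a⁻¹ * b, mul_mem (inv_mem ha) hb, ?_⟩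
      simp [e, e', mul_assoc]
  · refine (U.fext_trans v₀ c hc (U.src i) (U.EH i) inf_le_left (hE i) j
      (X := U.egrp v₀ c i) rfl).mono (T := {1, (U.kap v₀ c hc i)⁻¹}) (toFinite _) id
      (fun a k hk => ⟨k, hk, 1, Or.inl rfl, mul_one _⟩) fun a U' hU' => ⟨_, rfl, ?_⟩
    rintro _ ⟨k, ⟨b, hb, e⟩, rfl⟩
    rcases hU' with rfl | rfl
    · exact ⟨_, ⟨k, ⟨b, (U.mem_EH.1 hb).1, e⟩, rfl⟩, 1, Or.inl rfl, mul_one _⟩
    · obtain ⟨b', hb', e'⟩ := U.exists_conj_t hb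
      refine ⟨_, ⟨(U.kap v₀ c hc i)⁻¹ * k * U.kap v₀ c hc i, ⟨b', (U.mem_EH.1 hb').1, ?_⟩, rfl⟩, _,
        Or.inr rfl, by simp [mul_assoc]⟩
      have e'' : S.of b' = (U.t i)⁻¹ * S.of b * U.t i := by rw [mul_assoc, e']; simp
      simp [kap, e, e'', mul_assoc]
  · exact (U.fext_trans v₀ c hc v (U.H v) le_rfl (hV v) j (X := U.vgrp v₀ c v) rfl).mono
      (finite_singleton 1) id (fun a => by simp) fun a U' hU' => hU'.elim

end Sub

/-- The whole splitting as a sub-graph of groups. -/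
def Sub.full {B Γ E : Type} [Group B] [Group Γ] (S : PreSplit B Γ E) : Sub S Unit E where
  H _ := ⊤
  src _ := ()
  bar := S.bar
  bar_bar := S.bar_bar
  e := id
  e_bar _ := rfl
  l _ := 1
  good _ _ _ _ := trivial
  sep _ _ _ h _ _ _ := h

theorem Sub.full_t {B Γ E : Type} [Group B] [Group Γ] (S : PreSplit B Γ E) (e : E) :
    (Sub.full S).t e = S.t e := by
  simp [Sub.t, Sub.full]

theorem Sub.full_K {B Γ E : Type} [Group B] [Group Γ] (S : Split B Γ E) :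
    (Sub.full S.toPreSplit).K () = ⊤ := by
  rw [Sub.K_eq_closure, ← S.gen, funext (Sub.full_t S.toPreSplit)]
  simp [Sub.full]

theorem coarse_of_subsingleton {G : Type*} [Group G] [Subsingleton G] : Coarse G :=
  fun _ _ _ => ⟨univ, subsingleton_univ.finite, fun _ _ _ _ _ f _ =>
    ⟨f, fun _ _ => Filter.Eventually.of_forall fun _ => trivial, fun _ _ => rfl⟩⟩

theorem Sub.coarse_of_full {B Γ E : Type} [Group B] [Group Γ] (S : Split B Γ E)
    (h : Coarse ((Sub.full S.toPreSplit).K ())) : Coarse Γ :=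
  h.of_equiv ((MulEquiv.subgroupCongr (Sub.full_K S)).trans Subgroup.topEquiv)

/-- Free groups of finite rank. -/
theorem coarse_free {J : Type} [Finite J] : Coarse (MH (HData.free PUnit J)) :=
  Sub.coarse_of_full (MH.split _) (Sub.coarse _ () (fun _ => 1)
    (fun _ => one_mem ((Sub.full (MH.split (HData.free PUnit J)).toPreSplit).K ()))
    (fun _ => coarse_of_subsingleton) fun _ => coarse_of_subsingleton)

/-- The ascending HNN extension `⟨A, τ | a τ = τ α(a)⟩`. -/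
def asc {A : Type} [Group A] (α : A →* A) (hα : Function.Injective α) : HData A Unit where
  D _ := A
  i _ b := cond b α (MonoidHom.id A)
  ker_eq _ := by
    simp only [cond_false, cond_true]
    rw [(MonoidHom.ker_eq_bot_iff α).2 hα, MonoidHom.ker_id]

theorem coarse_asc {A : Type} [Group A] (α : A →* A) (hα : Function.Injective α)
    (h : ∀ n, SExt n α) : Coarse (MH (asc α hα)) := by
  set S := MH.split (asc α hα) with hS
  refine Sub.coarse_of_full S fun j => ?_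
  set U := Sub.full S.toPreSplit with hU
  have hall : ∀ x, x ∈ U.K () := fun x => by rw [hU, Sub.full_K]; trivial
  let ι : A →* U.K () := MonoidHom.codRestrict S.of _ fun _ => hall _
  have hι : Function.Injective ι := fun a b e => S.inj (congrArg Subtype.val e)
  let τ : U.K () := ⟨MH.t (asc α hα) (), hall _⟩
  have hrel : ∀ a, ι a * τ = τ * ι (α a) := fun a => Subtype.ext (MH.rel (asc α hα) () a)
  have hrelj : ∀ (n : ℕ) a, ι a * τ ^ n = τ ^ n * ι (α^[n] a) := by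
    intro n
    induction n with
    | zero => simp
    | succ n ih =>
      intro a
      rw [pow_succ, ← mul_assoc, ih, mul_assoc, hrel, Function.iterate_succ_apply', mul_assoc]
  obtain ⟨σ, hσ⟩ : ∃ σ : A →* A, ∀ g, σ g = α^[j] g := by
    clear hrelj
    induction j with
    | zero => exact ⟨MonoidHom.id A, fun _ => rfl⟩
    | succ n ih =>
      obtain ⟨σ, hσ⟩ := ih
      exact ⟨α.comp σ, fun g => by rw [Function.iterate_succ_apply', ← hσ]; rfl⟩
  have h1 := FExt.of_conj ι hι σ (τ ^ j)⁻¹ (fun x => by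
    rw [inv_inv, mul_assoc, hrelj, hσ, inv_mul_cancel_left]) (ext_iter α j (fun n _ => h n) σ hσ)
  simp only [inv_inv] at h1
  set R : Set (U.K ()) := (ι.range : Set (U.K ())) with hR
  have hc : ∀ v : Unit, (1 : MH (asc α hα)) ∈ U.Mor () v := fun _ => hall 1
  have hdown : ∀ a : U.K (), (a * τ⁻¹) • R ⊆ a • R * {1, τ, τ⁻¹} := by
    rintro a _ ⟨_, ⟨d, rfl⟩, rfl⟩
    refine ⟨_, ⟨_, ⟨α d, rfl⟩, rfl⟩, τ⁻¹, by simp, ?_⟩
    have : ι (α d) = τ⁻¹ * ι d * τ := by rw [mul_assoc, hrel]; simp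
    simp [this, mul_assoc]
  have hself : ∀ X : Set (U.K ()), X ⊆ X * {1, τ, τ⁻¹} := fun X k hk =>
    ⟨k, hk, 1, by simp, mul_one _⟩
  refine U.ext () (fun _ => 1) hc j (fun _ => τ ^ j • R) (fun v k hk => ?_)
    (fun v => ⟨_, 1, one_mem _, rfl⟩) (fun i => ?_) fun v => ?_
  · have key : ∀ a, ι a • τ ^ j • R ⊆ τ ^ j • R := by
      rintro a _ ⟨_, ⟨_, ⟨d, rfl⟩, rfl⟩, rfl⟩
      exact ⟨_, ⟨α^[j] a * d, rfl⟩, by simp only [smul_eq_mul, map_mul, ← mul_assoc, hrelj]⟩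
    obtain ⟨a, -, e⟩ := hk
    obtain rfl : k = ι a := Subtype.ext (show (k : MH (asc α hα)) = S.of a by simpa using e)
    refine Subset.antisymm (key a) ?_
    rw [subset_smul_set_iff, ← map_inv]
    exact key _
  · obtain ⟨⟨⟩, _ | _⟩ := i
    · have hk : U.kap () (fun _ => 1) hc ((), false) = τ :=
        Subtype.ext (by simp [Sub.kap, hU, Sub.full_t, hS, τ])
      refine h1.mono (T := {1, τ, τ⁻¹}) (toFinite _) id (fun a => ?_) fun a U' hU' => ⟨_, rfl, ?_⟩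
      · refine Subset.trans (smul_set_mono ?_) (hself _)
        rintro k ⟨b, -, e⟩
        exact ⟨b, Subtype.ext (show S.of b = (k : MH (asc α hα)) by simpa using e.symm)⟩
      · rcases hU' with rfl | rfl
        · rw [smul_smul]; exact hself _
        · rw [hk, smul_smul]
          have := hdown (a * τ * τ ^ j)
          rwa [show a * τ * τ ^ j * τ⁻¹ = a * τ ^ j by group] at this
    · have hk : U.kap () (fun _ => 1) hc ((), true) = τ⁻¹ :=
        Subtype.ext (by simp [Sub.kap, hU, Sub.full_t, hS, τ])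
      refine h1.mono (T := {1, τ, τ⁻¹}) (toFinite _) (fun a => a * τ⁻¹) (fun a => ?_)
        fun a U' hU' => ⟨_, rfl, ?_⟩
      · rintro _ ⟨k, ⟨b, hb, e⟩, rfl⟩
        obtain ⟨d, hd⟩ : ∃ d, α d = b := by simpa [hU, Sub.full, hS, asc] using (U.mem_EH.1 hb).2
        obtain rfl : k = ι (α d) :=
          Subtype.ext (show (k : MH (asc α hα)) = S.of (α d) by rw [hd]; simpa using e)
        refine ⟨_, ⟨_, ⟨d, rfl⟩, rfl⟩, τ, by simp, ?_⟩
        simp only [smul_eq_mul, mul_assoc, hrel, inv_mul_cancel_left]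
      · rcases hU' with rfl | rfl
        · rw [smul_smul]
          have := hdown (a * τ ^ j)
          rwa [show a * τ ^ j * τ⁻¹ = a * τ⁻¹ * τ ^ j by group] at this
        · rw [hk, smul_smul]; exact hself _
  · exact h1.mono (finite_singleton 1) (fun a => a * τ ^ j) (fun a => by simp [smul_smul])
      fun a U' hU' => hU'.elim

end Crest.Agent.R185
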